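import Mathlib

/-!
# ROW 252 (S0492), unit S7a (post BP-252-S7a, architect helper26), file 1: THE VOCABULARY OF THE SCALAR MESH PROJECTION THEOREM  (07-finite-narrowness.tex l.48-295, Thm 7.1).      Definitions only, Mathlib only.

ONE scale, explicit slack `K` (think `K ≥ 1`), masses in `ℝ≥0∞`, floors written multiplicatively.
* `K7aData Λ`   : prior `nu` on an ABSTRACT measurable trajectory space `Λ` ("additional trajectory coordinates are permitted"), active incidence measure `mu` on `Λ × ℝ`,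
                  coefficient maps: `y(t) = y0 + y1 t` (scalar affine), `x(t) = x0 + x1 t + x2 t²` (scalar quadratic).
* `D.Adm K`     : `nu` probability, coefficients measurable and `≤ K`, `mu ≤ K nu × dt|[0,1]`, mass `≥ 1/K`.
* MESH hypotheses of Thm 7.1 (mesh `σ` in `(t,y)`, terminal width `a`) : `D.Cap K σ c d a`, `D.Supp K σ c d a`, optional `D.Ang K σ c d a N S₁ u₁`.
* conclusion of Thm 7.1 : `D.Out K β c d a` (labels with disjoint trajectory assignments `lab : Λ → Option (Fin n)`, FULL unit time).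
* EXACT-BASE hypotheses (for laws with a density in `(t,y)`, several worlds `wd : Λ → ℕ`, world weight `D.om wd γ = nu {wd = γ}`; everything is relative to the world weight):
  `D.ECap`, `D.ESl` (slope noise factor), `D.EAng`, `D.ESup`, `D.Evt`, `D.Tmp`.
* `D.Block wd K c d a` : ONE time block of a true terminal chart system (02 Def 2.8) in real coordinates.
* `D.jit σ Mk`  : the jittered marked law (07 l.97-121);  `K7aMarks D σ K₁ Mk` : the properties of the marks.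
* the four finite-scale statements `k7a_T71`, `k7a_T71a` (Thm 7.1 without / with the angular hypothesis), `k7a_Front`, `k7a_FrontAng` (= Cor 6.x `a05:scalar-zero-horizon` at finite scale).
-/

set_option autoImplicit false

namespace Claimed.Agent.R252

open MeasureTheory
open scoped ENNReal BigOperators

noncomputable section

/-- uniform time on `[0,1]` -/
def k7aTm : Measure ℝ := volume.restrict (Set.Icc 0 1)

/-- **data of the scalar mesh projection theorem** (no proofs) -/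
structure K7aData (Λ : Type) [MeasurableSpace Λ] where
  nu : Measure Λ
  mu : Measure (Λ × ℝ)
  y0 : Λ → ℝ
  y1 : Λ → ℝ
  x0 : Λ → ℝ
  x1 : Λ → ℝ
  x2 : Λ → ℝ

/-- polynomials of total degree `≤ 2` in `(t, y)`, as functions -/
def K7aQuad (F : ℝ → ℝ → ℝ) : Prop :=
  ∃ e0 e1 e2 e3 e4 e5 : ℝ, ∀ t y, F t y = e0 + e1 * t + e2 * y + e3 * t ^ 2 + e4 * t * y + e5 * y ^ 2

/-- geometric data of a label: moving centre `c0 + c1 t` and predictor `F` -/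
structure K7aLab where
  c0 : ℝ
  c1 : ℝ
  F : ℝ → ℝ → ℝ

/-- the moving centre -/
def K7aLab.cen (L : K7aLab) (t : ℝ) : ℝ := L.c0 + L.c1 * t

/-- the noise space: one coordinate for each of the five coefficients `(y0, y1, x0, x1, x2)` -/
abbrev K7aU := ℝ × ℝ × ℝ × ℝ × ℝ

/-- uniform law on `[0, σ]` -/
def k7aUn (σ : ℝ) : Measure ℝ := ENNReal.ofReal σ⁻¹ • volume.restrict (Set.Icc 0 σ)

/-- clamping to `[0, σ]` (the identity on the support of the noise): it makes the bounds of the jittered coefficients hold POINTWISE -/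
def k7aCl (σ u : ℝ) : ℝ := max 0 (min σ u)

/-- the product `ρ_σ` of five independent uniform noise laws of width `σ` -/
def k7aNoise (σ : ℝ) : Measure K7aU := (k7aUn σ).prod ((k7aUn σ).prod ((k7aUn σ).prod ((k7aUn σ).prod (k7aUn σ))))

namespace K7aData

variable {Λ : Type} [MeasurableSpace Λ] (D : K7aData Λ)

/-- `y(t)` -/
def y (l : Λ) (t : ℝ) : ℝ := D.y0 l + D.y1 l * t

/-- `x(t)` -/
def x (l : Λ) (t : ℝ) : ℝ := D.x0 l + D.x1 l * t + D.x2 l * t ^ 2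

/-- the five coefficients -/
def co (l : Λ) : K7aU := (D.y0 l, D.y1 l, D.x0 l, D.x1 l, D.x2 l)

/-- exact base `(t, y(t))` of an incidence -/
def bs (z : Λ × ℝ) : ℝ × ℝ := (z.2, D.y z.1 z.2)

/-- admissible data with slack `K` -/
structure Adm (K : ℝ) : Prop where
  prob : IsProbabilityMeasure D.nu
  meas : Measurable D.co
  bd : ∀ l, |D.y0 l| ≤ K ∧ |D.y1 l| ≤ K ∧ |D.x0 l| ≤ K ∧ |D.x1 l| ≤ K ∧ |D.x2 l| ≤ K
  dom : D.mu ≤ ENNReal.ofReal K • D.nu.prod k7aTm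
  mass : 1 ≤ ENNReal.ofReal K * D.mu Set.univ

/-! ### mesh hypotheses -/

/-- the incidences in the `(t,y)`-mesh cell `(i, j)` of width `σ` -/
def cell (σ : ℝ) (i j : ℤ) : Set (Λ × ℝ) := {z | ⌊z.2 / σ⌋ = i ∧ ⌊D.y z.1 z.2 / σ⌋ = j}

/-- first hypothesis of Thm 7.1: each mesh cell and `x`-bin of width `p ∈ [a, 1]` have active mass `≤ K σ² c p^d` -/
def Cap (K σ c d a : ℝ) : Prop :=
  ∀ (i j : ℤ) (p xs : ℝ), a ≤ p → p ≤ 1 →
    D.mu (D.cell σ i j ∩ {z | D.x z.1 z.2 ∈ Set.Ico xs (xs + p)}) ≤ ENNReal.ofReal (K * σ ^ 2 * c * p ^ d)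

/-- second hypothesis of Thm 7.1: (number of occupied `(σ, σ, a)`-cells) `· σ² ≤ K c⁻¹ a^{-d}` -/
def Supp (K σ c d a : ℝ) : Prop :=
  ∃ S : Finset (ℤ × ℤ × ℤ), (∀ᵐ z ∂D.mu, (⌊z.2 / σ⌋, ⌊D.y z.1 z.2 / σ⌋, ⌊D.x z.1 z.2 / a⌋) ∈ S) ∧
    (S.card : ℝ) * σ ^ 2 * (c * a ^ d) ≤ K

/-- optional angular hypothesis: at terminal width, a `y'`-bin of width `N^{-u}`, `0 < u ≤ u₁`, gives the further factor `K N^{-S₁ u}` -/
def Ang (K σ c d a N S1 u1 : ℝ) : Prop :=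
  ∀ (i j : ℤ) (xs vs u : ℝ), 0 < u → u ≤ u1 →
    D.mu (D.cell σ i j ∩ {z | D.x z.1 z.2 ∈ Set.Ico xs (xs + a) ∧ D.y1 z.1 ∈ Set.Ico vs (vs + N ^ (-u))})
      ≤ ENNReal.ofReal (K * σ ^ 2 * c * a ^ d * N ^ (-(S1 * u)))

/-! ### the conclusion -/

/-- **conclusion of Thm 7.1** with slack `K` and common interval scale `β` -/
def Out (K β c d a : ℝ) : Prop :=
  ∃ (n : ℕ) (lab : Λ → Option (Fin n)) (L : Fin n → K7aLab), (∀ o, MeasurableSet (lab ⁻¹' {o})) ∧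
    1 ≤ ENNReal.ofReal K * D.mu {z | lab z.1 ≠ none} ∧
    ∀ i, K7aQuad (L i).F ∧ |(L i).c0| ≤ K ∧ |(L i).c1| ≤ K ∧
      (∀ t ∈ Set.Icc (0 : ℝ) 1, ∀ u ∈ Set.Icc (-1 : ℝ) 1, |(L i).F t ((L i).cen t + β * u)| ≤ K) ∧
      (∀ l, lab l = some i → ∀ t ∈ Set.Icc (0 : ℝ) 1,
        |D.y l t - (L i).cen t| ≤ K * β ∧ |D.x l t - (L i).F t (D.y l t)| ≤ K * a) ∧
      ENNReal.ofReal (c * a ^ d * β) ≤ ENNReal.ofReal K * D.mu {z | lab z.1 = some i}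

/-! ### exact-base hypotheses, with worlds -/

/-- weight of a world -/
def om (wd : Λ → ℕ) (γ : ℕ) : ℝ≥0∞ := D.nu (wd ⁻¹' {γ})

/-- the active measure is the restriction of `nu × dt` to an event -/
def Evt : Prop := ∃ E : Set (Λ × ℝ), MeasurableSet E ∧ D.mu = (D.nu.prod k7aTm).restrict E

/-- polynomial bounds: `≤ Q` worlds; within each world the law of the five coefficients has density `≤ Q` -/
structure Tmp (wd : Λ → ℕ) (Q : ℝ) : Prop where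
  meas : Measurable wd
  card : ∃ S : Finset ℕ, (∀ l, wd l ∈ S) ∧ (S.card : ℝ) ≤ Q
  dens : ∀ γ, (D.nu.restrict (wd ⁻¹' {γ})).map D.co ≤ (ENNReal.ofReal Q * D.om wd γ) • volume

/-- exact-base ceiling: within-world density of `(t, y, [x]_p)` at most `K c p^d`, `a ≤ p ≤ 1` -/
def ECap (wd : Λ → ℕ) (K c d a : ℝ) : Prop :=
  ∀ (γ : ℕ) (B : Set (ℝ × ℝ)) (p xs : ℝ), MeasurableSet B → a ≤ p → p ≤ 1 →
    D.mu {z | wd z.1 = γ ∧ D.bs z ∈ B ∧ D.x z.1 z.2 ∈ Set.Ico xs (xs + p)}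
      ≤ ENNReal.ofReal (K * c * p ^ d) * D.om wd γ * volume B

/-- the further factor `ρ / σ` when `y'` is confined to an interval of width `ρ ≤ σ` -/
def ESl (wd : Λ → ℕ) (K c d a σ : ℝ) : Prop :=
  ∀ (γ : ℕ) (B : Set (ℝ × ℝ)) (p xs ρ vs : ℝ), MeasurableSet B → a ≤ p → p ≤ 1 → 0 < ρ → ρ ≤ σ →
    D.mu {z | wd z.1 = γ ∧ D.bs z ∈ B ∧ D.x z.1 z.2 ∈ Set.Ico xs (xs + p) ∧ D.y1 z.1 ∈ Set.Ico vs (vs + ρ)}
      ≤ ENNReal.ofReal (K * c * p ^ d * (ρ / σ)) * D.om wd γ * volume B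

/-- exact-base angular ceiling at terminal width -/
def EAng (wd : Λ → ℕ) (K c d a N S1 u1 : ℝ) : Prop :=
  ∀ (γ : ℕ) (B : Set (ℝ × ℝ)) (xs vs u : ℝ), MeasurableSet B → 0 < u → u ≤ u1 →
    D.mu {z | wd z.1 = γ ∧ D.bs z ∈ B ∧ D.x z.1 z.2 ∈ Set.Ico xs (xs + a) ∧ D.y1 z.1 ∈ Set.Ico vs (vs + N ^ (-u))}
      ≤ ENNReal.ofReal (K * c * a ^ d * N ^ (-(S1 * u))) * D.om wd γ * volume B

/-- terminal support (base Lebesgue measure `×` counting of `x_a`-bins, averaged with the world weights) at most `K c⁻¹ a^{-d}` -/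
def ESup (wd : Λ → ℕ) (K c d a : ℝ) : Prop :=
  ∃ U : ℕ → ℤ → Set (ℝ × ℝ), (∀ γ k, MeasurableSet (U γ k)) ∧
    (∀ᵐ z ∂D.mu, D.bs z ∈ U (wd z.1) ⌊D.x z.1 z.2 / a⌋) ∧
    ENNReal.ofReal (c * a ^ d) * ∑' γ, D.om wd γ * ∑' k, volume (U γ k) ≤ ENNReal.ofReal K

/-- **one block of a true terminal chart system**: block `[t0, t0 + q)`, `q ≥ 1/K`; labels with disjoint trajectory assignments, each inside one world; widths `β i ≤ K`;
position and fit THROUGHOUT THE BLOCK on assigned trajectories; true floor `m_i ≥ ω q c a^d β_i / K`; selected mass `≥ 1/K` -/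
def Block (wd : Λ → ℕ) (K c d a : ℝ) : Prop :=
  ∃ (t0 q : ℝ) (n : ℕ) (lab : Λ → Option (Fin n)) (L : Fin n → K7aLab) (β : Fin n → ℝ) (w : Fin n → ℕ),
    0 ≤ t0 ∧ t0 + q ≤ 1 ∧ 1 ≤ K * q ∧ (∀ o, MeasurableSet (lab ⁻¹' {o})) ∧
    1 ≤ ENNReal.ofReal K * D.mu {z | lab z.1 ≠ none ∧ z.2 ∈ Set.Ico t0 (t0 + q)} ∧
    ∀ i, K7aQuad (L i).F ∧ 0 < β i ∧ β i ≤ K ∧
      (∀ l, lab l = some i → wd l = w i ∧ ∀ t ∈ Set.Ico t0 (t0 + q),
        |D.y l t - (L i).cen t| ≤ K * β i ∧ |D.x l t - (L i).F t (D.y l t)| ≤ K * a) ∧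
      ENNReal.ofReal (q * c * a ^ d * β i) * D.om wd (w i)
        ≤ ENNReal.ofReal K * D.mu {z | lab z.1 = some i ∧ z.2 ∈ Set.Ico t0 (t0 + q)}

/-! ### the jittered marked law -/

/-- the jittered marked law: trajectory index `(l, u)`, coefficients `co l + u` (`u` clamped to `[0,σ]⁵`, which changes nothing a.e.), prior `nu × ρ_σ`, incidences = the marked times of `l` -/
def jit (σ : ℝ) (Mk : Set (Λ × ℝ)) : K7aData (Λ × K7aU) where
  nu := D.nu.prod (k7aNoise σ)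
  mu := ((D.nu.prod (k7aNoise σ)).prod k7aTm).restrict {z | (z.1.1, z.2) ∈ Mk}
  y0 := fun l => D.y0 l.1 + k7aCl σ l.2.1
  y1 := fun l => D.y1 l.1 + k7aCl σ l.2.2.1
  x0 := fun l => D.x0 l.1 + k7aCl σ l.2.2.2.1
  x1 := fun l => D.x1 l.1 + k7aCl σ l.2.2.2.2.1
  x2 := fun l => D.x2 l.1 + k7aCl σ l.2.2.2.2.2

end K7aData

/-- **the marks** (07 l.89-96): `Mk` is a measurable union of (trajectory, time `σ`-bin) pairs; the unmarked active mass is `≤ 1/K₁`;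
on marked pairs the active mass is at least `(prior) · σ / K₁` -/
structure K7aMarks {Λ : Type} [MeasurableSpace Λ] (D : K7aData Λ) (σ K1 : ℝ) (Mk : Set (Λ × ℝ)) : Prop where
  meas : MeasurableSet Mk
  bins : ∀ l t t', ⌊t / σ⌋ = ⌊t' / σ⌋ → ((l, t) ∈ Mk ↔ (l, t') ∈ Mk)
  loss : ENNReal.ofReal K1 * D.mu Mkᶜ ≤ 1
  floor : ∀ (A : Set Λ) (i : ℤ), MeasurableSet A → (∀ l ∈ A, (l, (i : ℝ) * σ) ∈ Mk) →
    ENNReal.ofReal σ * D.nu A ≤ ENNReal.ofReal K1 * D.mu (A ×ˢ Set.Ico ((i : ℝ) * σ) (((i : ℝ) + 1) * σ))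

/-! ## The four finite-scale statements -/

/-- **Theorem 7.1 (scalar mesh projection), finite-scale form.** -/
def k7a_T71 : Prop :=
  ∀ s M d A τ' : ℝ, 0 < s → s < M → d < 1 → 0 < τ' → ∃ τ : ℝ, 0 < τ ∧ ∃ N1 : ℝ, ∀ N : ℝ, N1 ≤ N →
    ∀ (Λ : Type) [MeasurableSpace Λ] (D : K7aData Λ) (σ c : ℝ) (m : ℕ), σ = (1 / 2 : ℝ) ^ m →
      N ^ (-M - τ) ≤ σ → σ ≤ N ^ (-M + τ) → N ^ (-A) ≤ c → c ≤ N ^ A →
      D.Adm (N ^ τ) → D.Cap (N ^ τ) σ c d (N ^ (-s)) → D.Supp (N ^ τ) σ c d (N ^ (-s)) →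
      ∃ β : ℝ, σ ≤ N ^ τ' * β ∧ β ≤ N ^ τ' ∧ D.Out (N ^ τ') β c d (N ^ (-s))

/-- **Theorem 7.1 with the angular hypothesis**: `β ∼ 1`. -/
def k7a_T71a : Prop :=
  ∀ s M d A S1 u1 τ' : ℝ, 0 < s → s < M → d < 1 → 0 < S1 → 0 < u1 → 0 < τ' → ∃ τ : ℝ, 0 < τ ∧ ∃ N1 : ℝ, ∀ N : ℝ, N1 ≤ N →
    ∀ (Λ : Type) [MeasurableSpace Λ] (D : K7aData Λ) (σ c : ℝ) (m : ℕ), σ = (1 / 2 : ℝ) ^ m →
      N ^ (-M - τ) ≤ σ → σ ≤ N ^ (-M + τ) → N ^ (-A) ≤ c → c ≤ N ^ A →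
      D.Adm (N ^ τ) → D.Cap (N ^ τ) σ c d (N ^ (-s)) → D.Supp (N ^ τ) σ c d (N ^ (-s)) →
      D.Ang (N ^ τ) σ c d (N ^ (-s)) N S1 u1 →
      ∃ β : ℝ, 1 ≤ N ^ τ' * β ∧ β ≤ N ^ τ' ∧ D.Out (N ^ τ') β c d (N ^ (-s))

/-- **Cor 6.x (`a05:scalar-zero-horizon`) at finite scale**: a version-1 law with several worlds, exact-base ceilings `c p^d`, terminal support `≤ c⁻¹ a^{-d}` and an angular ceiling
has one block of a true terminal system with time length `≥ N^{-τ'}`. -/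
def k7a_FrontAng : Prop :=
  ∀ s d A S1 u1 τ' : ℝ, 0 < s → d < 1 → 0 < S1 → 0 < u1 → 0 < τ' → ∃ τ : ℝ, 0 < τ ∧ ∃ N1 : ℝ, ∀ N : ℝ, N1 ≤ N →
    ∀ (Λ : Type) [MeasurableSpace Λ] (D : K7aData Λ) (wd : Λ → ℕ) (c : ℝ), N ^ (-A) ≤ c → c ≤ N ^ A →
      D.Adm (N ^ τ) → D.Evt → D.Tmp wd (N ^ A) →
      D.ECap wd (N ^ τ) c d (N ^ (-s)) → D.ESup wd (N ^ τ) c d (N ^ (-s)) → D.EAng wd (N ^ τ) c d (N ^ (-s)) N S1 u1 →
      D.Block wd (N ^ τ') c d (N ^ (-s))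

/-- the same for ONE world WITHOUT angular ceiling, but with the slope-noise factor at the scale `σ ∼ N^{-M}` (07 l.173-226 "Obtaining an angular gain") -/
def k7a_Front : Prop :=
  ∀ s M d A τ' : ℝ, 0 < s → s < M → d < 1 → 0 < τ' → ∃ τ : ℝ, 0 < τ ∧ ∃ N1 : ℝ, ∀ N : ℝ, N1 ≤ N →
    ∀ (Λ : Type) [MeasurableSpace Λ] (D : K7aData Λ) (σ c : ℝ), N ^ (-M - τ) ≤ σ → σ ≤ N ^ (-M + τ) → N ^ (-A) ≤ c → c ≤ N ^ A →
      D.Adm (N ^ τ) → D.Evt → D.Tmp (fun _ => 0) (N ^ A) →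
      D.ECap (fun _ => 0) (N ^ τ) c d (N ^ (-s)) → D.ESl (fun _ => 0) (N ^ τ) c d (N ^ (-s)) σ → D.ESup (fun _ => 0) (N ^ τ) c d (N ^ (-s)) →
      D.Block (fun _ => 0) (N ^ τ') c d (N ^ (-s))

end

end Claimed.Agent.R252
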