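import Claimed.Agent.R252.Base.Hub2
import Claimed.Agent.R252.Base.Transfer
import Claimed.Agent.R252.S2a.SeqContract
import Claimed.Agent.R252.S7a.Defs

/-!
# ROW 252 (S0492), unit S7a, post BP-252-S7a-BRIDGE (sub-architect helper64; prefix `k7a_g_`), file 1: DEFINITIONS AND ALL ONE-SCALE LEMMAS OF THE BRIDGE.      No `sorry`.

`k7a_bridge` : "no bad problem in version 1" ⟹ `k7a_FrontAng`.   Plan G0-G7 of helper26: header of `S7a/BridgeContract.lean`.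
* `K7aObj`                 one-scale object `(N, Λ, D, wd, c)`;     `K7aObj.Hyp s d A S1 u1 τ o` = all hypotheses of `k7a_FrontAng` with slack `N^τ` (and `2 ≤ N`).
* `k7aCo D : Λ → KbTj .one`  the coefficient map;     `k7aPb D wd Sf E : KbPb .one`  THE ADAPTOR (worlds = the finset `Sf`, event `E`).
* `K7aFrame D wd Sf E K Q`  standing hypotheses of all one-scale leaves.
* `k7aBe : ℝ × ℝ ≃ᵐ ℝ × KbB .one`  the (volume preserving) identification of the bases.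
* `D.wS wd`, `D.ev`  the canonical choices of `Sf`, `E`;   `k7aP D wd`;   `k7aEx o hN s : KbEx .one` the exact problem of a sequence of objects.
MERGED 21:50Z (file budget): the 17 one-scale leaves (helper64, helper113, helper124, helper219) are the sections `Br<Name>` below; the 8 leaves along `uf` and the assembly are in `S7a/BrMain.lean`.
-/

set_option autoImplicit false

namespace Claimed.Agent.R252

open MeasureTheory Filter Topology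
open Claimed.Agent.R255 (uf)
open scoped ENNReal BigOperators

noncomputable section

/-- a one-scale object of `k7a_FrontAng` -/
structure K7aObj : Type 1 where
  N : ℝ
  Lam : Type
  mLam : MeasurableSpace Lam
  D : K7aData Lam
  wd : Lam → ℕ
  c : ℝ

attribute [instance] K7aObj.mLam

/-- all hypotheses of `k7a_FrontAng` with slack `N^τ` -/
structure K7aObj.Hyp (s d A S1 u1 τ : ℝ) (o : K7aObj) : Prop where
  two_le : 2 ≤ o.N
  c_lo : o.N ^ (-A) ≤ o.c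
  c_hi : o.c ≤ o.N ^ A
  adm : o.D.Adm (o.N ^ τ)
  evt : o.D.Evt
  tmp : o.D.Tmp o.wd (o.N ^ A)
  ecap : o.D.ECap o.wd (o.N ^ τ) o.c d (o.N ^ (-s))
  esup : o.D.ESup o.wd (o.N ^ τ) o.c d (o.N ^ (-s))
  eang : o.D.EAng o.wd (o.N ^ τ) o.c d (o.N ^ (-s)) o.N S1 u1

section one

variable {Λ : Type} [MeasurableSpace Λ]

/-- the coefficients of a trajectory in the language of BASE -/
def k7aCo (D : K7aData Λ) (l : Λ) : KbTj KbVer.one := (fun _ => D.y0 l, fun _ => D.y1 l, ![D.x0 l, D.x1 l, D.x2 l])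

/-- **the adaptor**: worlds = the members of `Sf`, event `E` -/
def k7aPb (D : K7aData Λ) (wd : Λ → ℕ) (Sf : Finset ℕ) (E : Set (Λ × ℝ)) : KbPb KbVer.one where
  W := {γ : ℕ // γ ∈ Sf}
  fW := inferInstance
  Lam := Λ
  mLam := inferInstance
  om := fun γ => D.om wd γ.1
  nu := fun γ => (D.om wd γ.1)⁻¹ • D.nu.restrict (wd ⁻¹' {γ.1})
  co := fun _ => k7aCo D
  Sp := fun γ => wd ⁻¹' {γ.1}
  Ev := fun γ => E ∩ (wd ⁻¹' {γ.1}) ×ˢ Set.Icc (0 : ℝ) 1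
  B := fun _ => 1
  Pst := fun _ _ _ w => w

/-- standing hypotheses of the one-scale leaves -/
structure K7aFrame (D : K7aData Λ) (wd : Λ → ℕ) (Sf : Finset ℕ) (E : Set (Λ × ℝ)) (K Q : ℝ) : Prop where
  K_one : 1 ≤ K
  adm : D.Adm K
  tmp : D.Tmp wd Q
  Sf_iff : ∀ γ, γ ∈ Sf ↔ D.om wd γ ≠ 0
  E_meas : MeasurableSet E
  mu_eq : D.mu = (D.nu.prod k7aTm).restrict E

/-- identification of the two base spaces -/
def k7aBe : ℝ × ℝ ≃ᵐ ℝ × KbB KbVer.one := (MeasurableEquiv.refl ℝ).prodCongr (MeasurableEquiv.funUnique (Fin 1) ℝ).symm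

theorem k7a_g_be_apply (p : ℝ × ℝ) : k7aBe p = (p.1, fun _ => p.2) := rfl

theorem k7a_g_kbY (D : K7aData Λ) (l : Λ) (t : ℝ) : kbY (k7aCo D l) t = fun _ => D.y l t := by
  funext i
  simp [kbY, k7aCo, K7aData.y, mul_comm]

theorem k7a_g_kbV (D : K7aData Λ) (l : Λ) : kbV (k7aCo D l) = fun _ => D.y1 l := rfl

theorem k7a_g_kbW (D : K7aData Λ) (l : Λ) (t : ℝ) : kbW (k7aCo D l) t = D.x l t := by
  have : kbW (k7aCo D l) t = ∑ i : Fin 3, (![D.x0 l, D.x1 l, D.x2 l] : Fin 3 → ℝ) i * t ^ (i : ℕ) := rfl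
  rw [this, Fin.sum_univ_three]
  simp [K7aData.x]

variable (D : K7aData Λ) (wd : Λ → ℕ) (Sf : Finset ℕ) (E : Set (Λ × ℝ))

theorem k7a_g_bs (γ : (k7aPb D wd Sf E).W) (z : Λ × ℝ) : (k7aPb D wd Sf E).bs γ z = k7aBe (D.bs z) := by
  show (z.2, kbY (k7aCo D z.1) z.2) = _
  rw [k7a_g_kbY]
  rfl

theorem k7a_g_hw (γ : (k7aPb D wd Sf E).W) (z : Λ × ℝ) : (k7aPb D wd Sf E).hw γ z = D.x z.1 z.2 := k7a_g_kbW D z.1 z.2

theorem k7a_g_hid (a : ℝ) (γ : (k7aPb D wd Sf E).W) (z : Λ × ℝ) : (k7aPb D wd Sf E).hid a γ z = ⌊D.x z.1 z.2 / kbDy a⌋ := by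
  show kbBin (a / 1) (kbW (k7aCo D z.1) z.2) = _
  rw [div_one, k7a_g_kbW]
  rfl

theorem k7a_g_vel (b : ℝ) (γ : (k7aPb D wd Sf E).W) (z : Λ × ℝ) : (k7aPb D wd Sf E).vel b γ z = fun _ => ⌊D.y1 z.1 / kbDy b⌋ := rfl

/-- the canonical finite set of worlds -/
def K7aData.wS : Finset ℕ := by
  classical
  exact if h : ∃ S : Finset ℕ, ∀ l, wd l ∈ S then h.choose.filter (fun γ => D.om wd γ ≠ 0) else ∅

/-- the canonical event -/
def K7aData.ev : Set (Λ × ℝ) := by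
  classical
  exact if h : D.Evt then h.choose else ∅

/-- the adaptor with the canonical choices -/
def k7aP : KbPb KbVer.one := k7aPb D wd (D.wS wd) D.ev

/-- the label (moving centre, predictor) of a chart of version 1:  `cen = y_c`,  `F t y = - T t y 0`  (`T t y w = w - F t y`) -/
def k7aLabOf (ch : KbChart KbVer.one) : K7aLab where
  c0 := ch.y0 (0 : Fin 1)
  c1 := ch.y1 (0 : Fin 1)
  F := fun t y => - ch.T t (fun _ => y) 0

/-- the number of a world of the adaptor -/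
def k7aWn {Sf : Finset ℕ} (γ : {γ : ℕ // γ ∈ Sf}) : ℕ := γ.1

end one

/-- the exact problem of a sequence of objects -/
def k7aEx (o : ℕ → K7aObj) (hN : Tendsto (fun k => (o k).N) uf atTop) (s : ℝ) : KbEx KbVer.one where
  R := kbResOf (fun k => (o k).N) hN
  L := s
  P := fun k => k7aP (o k).D (o k).wd

/-- the exponent of `c` -/
def k7aEc (o : ℕ → K7aObj) (hN : Tendsto (fun k => (o k).N) uf atTop) : ℝ := kbExpo (kbResOf (fun k => (o k).N) hN) fun k => (o k).c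

/-! ## leaf BR-MONO -/

section BrMono

/-- **G0** the hypotheses are monotone in the slack.
PLAN.  `1 ≤ N`, so `N^a ≤ N^b` (`Real.rpow_le_rpow_of_exponent_le`).  Four one-line monotonicity lemmas in `K` : `Adm` (`ENNReal.ofReal_le_ofReal`, `Measure.le_iff`/`smul` monotone), `ECap`, `ESup`, `EAng`
(`0 < c` from `c_lo`; `p ^ d ≥ 0`, `N ^ _ ≥ 0` by `Real.rpow_nonneg`; then `ENNReal.ofReal_le_ofReal` + `gcongr`). -/
theorem k7a_g_hyp_mono (s d A S1 u1 a b : ℝ) (o : K7aObj) (hab : a ≤ b) (h : o.Hyp s d A S1 u1 a) : o.Hyp s d A S1 u1 b := by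
  have hN1 : 1 ≤ o.N := by linarith [h.two_le]
  have hN0 : 0 < o.N := by linarith
  have hK : o.N ^ a ≤ o.N ^ b := Real.rpow_le_rpow_of_exponent_le hN1 hab
  have hc0 : 0 < o.c := lt_of_lt_of_le (Real.rpow_pos_of_pos hN0 _) h.c_lo
  have ha0 : 0 < o.N ^ (-s) := Real.rpow_pos_of_pos hN0 _
  refine ⟨h.two_le, h.c_lo, h.c_hi, ?_, h.evt, h.tmp, ?_, ?_, ?_⟩
  · refine ⟨h.adm.prob, h.adm.meas, fun l => ?_, ?_, ?_⟩
    · obtain ⟨b1, b2, b3, b4, b5⟩ := h.adm.bd l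
      exact ⟨b1.trans hK, b2.trans hK, b3.trans hK, b4.trans hK, b5.trans hK⟩
    · refine h.adm.dom.trans (Measure.le_iff.2 fun T _ => ?_)
      simp only [Measure.smul_apply, smul_eq_mul]
      exact mul_le_mul' (ENNReal.ofReal_le_ofReal hK) le_rfl
    · exact h.adm.mass.trans (mul_le_mul' (ENNReal.ofReal_le_ofReal hK) le_rfl)
  · intro γ B p xs hB hp hp1
    refine (h.ecap γ B p xs hB hp hp1).trans ?_
    have hp0 : 0 ≤ p ^ d := Real.rpow_nonneg (ha0.le.trans hp) _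
    refine mul_le_mul' (mul_le_mul' (ENNReal.ofReal_le_ofReal ?_) le_rfl) le_rfl
    exact mul_le_mul_of_nonneg_right (mul_le_mul_of_nonneg_right hK hc0.le) hp0
  · obtain ⟨U, h1, h2, h3⟩ := h.esup
    exact ⟨U, h1, h2, h3.trans (ENNReal.ofReal_le_ofReal hK)⟩
  · intro γ B xs vs u hB hu hu1
    refine (h.eang γ B xs vs u hB hu hu1).trans ?_
    have hp0 : 0 ≤ (o.N ^ (-s)) ^ d := Real.rpow_nonneg ha0.le _
    have hp1 : 0 ≤ o.N ^ (-(S1 * u)) := Real.rpow_nonneg hN0.le _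
    refine mul_le_mul' (mul_le_mul' (ENNReal.ofReal_le_ofReal ?_) le_rfl) le_rfl
    exact mul_le_mul_of_nonneg_right (mul_le_mul_of_nonneg_right (mul_le_mul_of_nonneg_right hK hc0.le) hp0) hp1

end BrMono

/-! ## leaf BR-FRAME -/

section BrFrame

/-- the canonical choices `D.wS wd`, `D.ev` satisfy the standing hypotheses.
PLAN.  `K_one` : `Real.one_le_rpow`.   `ev` : `dif_pos h.evt`, `Exists.choose_spec`.   `wS` : `dif_pos` with the finset of `h.tmp.card`; `Finset.mem_filter`; if `γ` is not in the chosen finset then `wd ⁻¹' {γ} = ∅`, so `om = 0`. -/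
theorem k7a_g_frame {s d A S1 u1 τ : ℝ} (hτ : 0 ≤ τ) {o : K7aObj} (h : o.Hyp s d A S1 u1 τ) :
    K7aFrame o.D o.wd (o.D.wS o.wd) o.D.ev (o.N ^ τ) (o.N ^ A) := by
  classical
  have hN1 : 1 ≤ o.N := by linarith [h.two_le]
  have hex : ∃ S : Finset ℕ, ∀ l, o.wd l ∈ S := by
    obtain ⟨S, hS, -⟩ := h.tmp.card
    exact ⟨S, hS⟩
  have hev : o.D.ev = h.evt.choose := by
    unfold K7aData.ev
    exact dif_pos h.evt
  refine ⟨Real.one_le_rpow hN1 hτ, h.adm, h.tmp, ?_, ?_, ?_⟩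
  · intro γ
    unfold K7aData.wS
    rw [dif_pos hex, Finset.mem_filter]
    constructor
    · exact fun hh => hh.2
    · intro hne
      refine ⟨?_, hne⟩
      by_contra hnot
      apply hne
      have : o.wd ⁻¹' {γ} = ∅ := by
        ext l
        simp only [Set.mem_preimage, Set.mem_singleton_iff, Set.mem_empty_iff_false, iff_false]
        intro hl
        exact hnot (hl ▸ hex.choose_spec l)
      unfold K7aData.om
      rw [this, measure_empty]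
  · rw [hev]
    exact h.evt.choose_spec.1
  · rw [hev]
    exact h.evt.choose_spec.2

end BrFrame

/-! ## leaf BR-DICT -/

section BrDict

variable {Λ : Type} [MeasurableSpace Λ] {D : K7aData Λ} {wd : Λ → ℕ} {Sf : Finset ℕ} {E : Set (Λ × ℝ)} {K Q : ℝ}

/-- **G1d, the dictionary** (for ARBITRARY sets `T`).
PLAN.  `A = wd ⁻¹' {γ}` is measurable (`h.tmp.meas`), `0 < om < ∞` (`h.Sf_iff`, `γ.2`; `h.adm.prob`).  `KbPb.tm = k7aTm` by `rfl`.   LHS: `Measure.restrict_apply'` (the event is measurable), `Measure.prod_smul_left`,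
`Measure.prod_restrict` (`(ν.restrict A).prod (tm.restrict univ)`), again `restrict_apply'`; `ENNReal.mul_inv_cancel`.   RHS: `h.mu_eq`, `restrict_apply'`.
The two sets differ only by the condition `z.2 ∈ Icc 0 1`: write `ν.prod tm = (ν.prod volume).restrict (univ ×ˢ Icc 0 1)` (`Measure.prod_restrict`) and use `restrict_apply'` once more. -/
theorem k7a_g_mu (h : K7aFrame D wd Sf E K Q) (γ : (k7aPb D wd Sf E).W) (T : Set (Λ × ℝ)) :
    D.om wd (k7aWn γ) * (k7aPb D wd Sf E).mu γ T = D.mu (T ∩ {z | wd z.1 = k7aWn γ}) := by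
  have := h.adm.prob
  have : SFinite k7aTm := by
    unfold k7aTm
    infer_instance
  have hA : MeasurableSet (wd ⁻¹' {γ.1}) := h.tmp.meas (measurableSet_singleton _)
  have hI : MeasurableSet (Set.Icc (0 : ℝ) 1) := measurableSet_Icc
  have hom0 : D.om wd γ.1 ≠ 0 := (h.Sf_iff γ.1).1 γ.2
  have homT : D.om wd γ.1 ≠ ⊤ := measure_ne_top _ _
  have htm : D.nu.prod k7aTm = (D.nu.prod volume).restrict (Set.univ ×ˢ Set.Icc (0 : ℝ) 1) := by
    rw [← Measure.prod_restrict, Measure.restrict_univ]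
    rfl
  have h1 : (D.nu.restrict (wd ⁻¹' {γ.1})).prod k7aTm = (D.nu.prod volume).restrict ((wd ⁻¹' {γ.1}) ×ˢ Set.Icc (0 : ℝ) 1) := by
    rw [← Measure.prod_restrict]
    rfl
  have hL : (k7aPb D wd Sf E).mu γ T
      = (D.om wd γ.1)⁻¹ * (D.nu.prod volume) (T ∩ (E ∩ (wd ⁻¹' {γ.1}) ×ˢ Set.Icc (0 : ℝ) 1) ∩ (wd ⁻¹' {γ.1}) ×ˢ Set.Icc (0 : ℝ) 1) := by
    show ((((D.om wd γ.1)⁻¹ • D.nu.restrict (wd ⁻¹' {γ.1})).prod k7aTm).restrict (E ∩ (wd ⁻¹' {γ.1}) ×ˢ Set.Icc (0 : ℝ) 1)) T = _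
    rw [Measure.restrict_apply' (h.E_meas.inter (hA.prod hI)), Measure.prod_smul_left, h1, Measure.smul_apply,
      Measure.restrict_apply' (hA.prod hI), smul_eq_mul]
  have hR : D.mu (T ∩ {z | wd z.1 = k7aWn γ}) = (D.nu.prod volume) (T ∩ {z | wd z.1 = γ.1} ∩ E ∩ Set.univ ×ˢ Set.Icc (0 : ℝ) 1) := by
    rw [h.mu_eq, Measure.restrict_apply' h.E_meas, htm, Measure.restrict_apply' (MeasurableSet.univ.prod hI)]
    rfl
  have hS : T ∩ (E ∩ (wd ⁻¹' {γ.1}) ×ˢ Set.Icc (0 : ℝ) 1) ∩ (wd ⁻¹' {γ.1}) ×ˢ Set.Icc (0 : ℝ) 1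
      = T ∩ {z | wd z.1 = γ.1} ∩ E ∩ Set.univ ×ˢ Set.Icc (0 : ℝ) 1 := by
    ext z
    simp only [Set.mem_inter_iff, Set.mem_prod, Set.mem_preimage, Set.mem_singleton_iff, Set.mem_ofPred_eq, Set.mem_univ,
      true_and]
    tauto
  rw [hL, hR, hS, ← mul_assoc]
  show D.om wd γ.1 * (D.om wd γ.1)⁻¹ * _ = _
  rw [ENNReal.mul_inv_cancel hom0 homT, one_mul]

end BrDict

/-! ## leaf BR-TOT -/

section BrTot

variable {Λ : Type} [MeasurableSpace Λ] {D : K7aData Λ} {wd : Λ → ℕ} {Sf : Finset ℕ} {E : Set (Λ × ℝ)} {K Q : ℝ}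

/-- a finite measurable partition by the values of `w`; the values outside `Sf` are null -/
theorem k7a_g_tot_part {X : Type} [MeasurableSpace X] (m : Measure X) (w : X → ℕ) (hw : Measurable w) (S₀ Sf : Finset ℕ)
    (hS : ∀ x, w x ∈ S₀) (h0 : ∀ γ, γ ∉ Sf → m (w ⁻¹' {γ}) = 0) :
    ∑ γ : {γ : ℕ // γ ∈ Sf}, m (w ⁻¹' {γ.1}) = m Set.univ := by
  classical
  have h1 : m Set.univ = ∑ γ ∈ S₀ ∪ Sf, m (w ⁻¹' {γ}) := by
    rw [← measure_biUnion_finset]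
    · congr 1
      ext x
      simp only [Set.mem_univ, Set.mem_iUnion, Set.mem_preimage, Set.mem_singleton_iff, exists_prop, true_iff]
      exact ⟨w x, Finset.mem_union_left _ (hS x), rfl⟩
    · intro a _ b _ hab
      refine Set.disjoint_left.2 fun x hxa hxb => hab ?_
      rw [← (hxa : w x = a), ← (hxb : w x = b)]
    · exact fun γ _ => hw (measurableSet_singleton γ)
  rw [h1, Finset.sum_coe_sort Sf (fun γ => m (w ⁻¹' {γ}))]
  exact Finset.sum_subset Finset.subset_union_right fun γ _ hγ => h0 γ hγ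

/-- **G1d** total mass.
PLAN.  `tot = ∑ γ, om γ * mu γ univ = ∑ γ : Sf, D.mu {wd = γ}` (`k7a_g_mu`).   Let `S₀ ⊇ range wd` be the finset of `h.tmp.card`.  `D.mu univ = ∑ γ ∈ S₀, D.mu {wd = γ}` (`measure_biUnion_finset`, disjoint measurable sets).
For `γ ∉ Sf` : `om = 0`, and `D.mu {wd = γ} ≤ ofReal K * (ν.prod tm) (A ×ˢ univ) = 0` (`h.adm.dom`, `Measure.prod_prod`).   `Finset.sum_subset`, `Finset.sum_coe_sort`/`Finset.sum_attach`. -/
theorem k7a_g_tot (h : K7aFrame D wd Sf E K Q) : (k7aPb D wd Sf E).tot = D.mu Set.univ := by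
  obtain ⟨S₀, hS₀, -⟩ := h.tmp.card
  have : SFinite k7aTm := by
    unfold k7aTm
    infer_instance
  have hw : Measurable fun z : Λ × ℝ => wd z.1 := h.tmp.meas.comp measurable_fst
  have h0 : ∀ γ, γ ∉ Sf → D.mu ((fun z : Λ × ℝ => wd z.1) ⁻¹' {γ}) = 0 := by
    intro γ hγ
    have hom : D.nu (wd ⁻¹' {γ}) = 0 := by
      by_contra hne
      exact hγ ((h.Sf_iff γ).2 hne)
    have h1 : (fun z : Λ × ℝ => wd z.1) ⁻¹' {γ} = (wd ⁻¹' {γ}) ×ˢ (Set.univ : Set ℝ) := by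
      ext z
      simp
    have h2 := h.adm.dom ((fun z : Λ × ℝ => wd z.1) ⁻¹' {γ})
    rw [Measure.smul_apply, h1, Measure.prod_prod, hom, zero_mul, smul_zero] at h2
    rw [h1]
    exact le_antisymm h2 zero_le
  rw [← k7a_g_tot_part D.mu (fun z => wd z.1) hw S₀ Sf (fun z => hS₀ z.1) h0]
  show ∑ γ : (k7aPb D wd Sf E).W, D.om wd (k7aWn γ) * (k7aPb D wd Sf E).mu γ Set.univ = _
  refine Finset.sum_congr rfl fun γ _ => ?_
  refine (k7a_g_mu h γ Set.univ).trans ?_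
  rw [Set.univ_inter]
  rfl

end BrTot

/-! ## leaf BR-DENS -/

section BrDens

variable {Λ : Type} [MeasurableSpace Λ] {D : K7aData Λ} {wd : Λ → ℕ} {Sf : Finset ℕ} {E : Set (Λ × ℝ)} {K Q : ℝ}

/-- `(Fin 3 → ℝ) ≃ᵐ ℝ × ℝ × ℝ` -/
def k7a_g_dens_e3 : (Fin 3 → ℝ) ≃ᵐ ℝ × ℝ × ℝ :=
  (MeasurableEquiv.piFinSuccAbove (fun _ : Fin 3 => ℝ) 0).trans
    ((MeasurableEquiv.refl ℝ).prodCongr (MeasurableEquiv.finTwoArrow (α := ℝ)))

theorem k7a_g_dens_e3_mp : MeasurePreserving k7a_g_dens_e3 (volume : Measure (Fin 3 → ℝ)) (volume : Measure (ℝ × ℝ × ℝ)) :=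
  ((MeasurePreserving.id (volume : Measure ℝ)).prod (volume_preserving_finTwoArrow ℝ)).comp
    (volume_preserving_piFinSuccAbove (fun _ : Fin 3 => ℝ) 0)

/-- the identification of the two coefficient spaces -/
def k7a_g_dens_e : KbTj KbVer.one ≃ᵐ K7aU :=
  (MeasurableEquiv.funUnique (Fin 1) ℝ).prodCongr ((MeasurableEquiv.funUnique (Fin 1) ℝ).prodCongr k7a_g_dens_e3)

theorem k7a_g_dens_e_mp : MeasurePreserving k7a_g_dens_e (volume : Measure (KbTj KbVer.one)) (volume : Measure K7aU) :=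
  (volume_preserving_funUnique (Fin 1) ℝ).prod ((volume_preserving_funUnique (Fin 1) ℝ).prod k7a_g_dens_e3_mp)

theorem k7a_g_dens_eqns_cite : True := by
  have := @k7a_g_dens_e3.eq_1
  have := @k7a_g_dens_e.eq_1
  trivial

theorem k7a_g_dens_eq (D : K7aData Λ) : k7aCo D = k7a_g_dens_e.symm ∘ D.co := by
  funext l
  have h : k7a_g_dens_e (k7aCo D l) = D.co l := rfl
  rw [Function.comp_apply, ← h, MeasurableEquiv.symm_apply_apply]

/-- **G1a** transport of a density bound from `K7aU = ℝ⁵` to `KbTj .one = (Fin 1 → ℝ) × (Fin 1 → ℝ) × (Fin 3 → ℝ)`.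
PLAN.  `k7aCo D = e ∘ D.co` with the measurable equivalence `e = funUnique.symm × funUnique.symm × e₃`, `e₃ : ℝ × ℝ × ℝ ≃ᵐ (Fin 3 → ℝ)` built from `MeasurableEquiv.piFinSuccAbove (fun _ => ℝ) 0` and `MeasurableEquiv.finTwoArrow`;
volume preserving: `volume_preserving_funUnique`, `volume_preserving_piFinSuccAbove`, `volume_preserving_finTwoArrow`, `MeasurePreserving.prod`, `.symm`.
Then `μ.map (e ∘ co) = (μ.map co).map e ≤ (C • volume).map e = C • volume` (`Measure.map_map`, `Measure.map_mono`, `Measure.map_smul`, `MeasurePreserving.map_eq`). -/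
theorem k7a_g_dens (D : K7aData Λ) (hm : Measurable D.co) (μ : Measure Λ) (C : ℝ≥0∞) (h : μ.map D.co ≤ C • volume) :
    μ.map (k7aCo D) ≤ C • volume := by
  rw [k7a_g_dens_eq, ← Measure.map_map k7a_g_dens_e.symm.measurable hm]
  refine (Measure.map_mono h k7a_g_dens_e.symm.measurable).trans ?_
  rw [Measure.map_smul, k7a_g_dens_e_mp.symm.map_eq]

/-- measurability of the coefficient map (same `e`, or `measurable_pi_iff` + `Fin.forall_fin_succ`) -/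
theorem k7a_g_co_meas (D : K7aData Λ) (hm : Measurable D.co) : Measurable (k7aCo D) := by
  rw [k7a_g_dens_eq]
  exact k7a_g_dens_e.symm.measurable.comp hm

end BrDens

/-! ## leaf BR-WF -/

section BrWf

variable {Λ : Type} [MeasurableSpace Λ] {D : K7aData Λ} {wd : Λ → ℕ} {Sf : Finset ℕ} {E : Set (Λ × ℝ)} {K Q : ℝ}

/-- **G1a** the adaptor is well formed.
PLAN.  `om_sum` : `∑ γ : Sf, ν (wd ⁻¹' {γ}) = ν univ = 1` (finset `S₀` of `h.tmp.card`, `measure_biUnion_finset`, worlds outside `Sf` have weight `0`; `Finset.sum_coe_sort`).   `prob` : `om⁻¹ * om = 1`.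
`co_meas` : `k7a_g_co_meas`.   `Sp_full` : `Measure.restrict_apply` + `A ∩ Aᶜ = ∅`.   `Pst_adm` : as `kbs_T_adm` in `Base/Sanity.lean`.   `ac` : `Measure.map_smul`, `k7a_g_dens` with `h.tmp.dens`,
`Measure.absolutelyContinuous_of_le`, `Measure.AbsolutelyContinuous.smul`/`smul_left`. -/
theorem k7a_g_wf (h : K7aFrame D wd Sf E K Q) : (k7aPb D wd Sf E).WF := by
  have := h.adm.prob
  obtain ⟨S₀, hS₀, -⟩ := h.tmp.card
  have hA : ∀ γ : ℕ, MeasurableSet (wd ⁻¹' {γ}) := fun γ => h.tmp.meas (measurableSet_singleton _)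
  have hom0 : ∀ γ : {γ : ℕ // γ ∈ Sf}, D.om wd γ.1 ≠ 0 := fun γ => (h.Sf_iff γ.1).1 γ.2
  have homT : ∀ γ : ℕ, D.om wd γ ≠ ⊤ := fun γ => measure_ne_top _ _
  refine
    { om_sum := ?_
      prob := fun γ => ⟨?_⟩
      co_meas := fun _ => k7a_g_co_meas D h.adm.meas
      Sp_meas := fun γ => hA γ.1
      Sp_full := fun γ => ?_
      Ev_meas := fun γ => h.E_meas.inter ((hA γ.1).prod measurableSet_Icc)
      Ev_sub := fun γ => Set.inter_subset_right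
      B_pos := fun _ => one_pos
      Pst_adm := fun _ => ⟨⟨⟨0, 0, 0, 1, 0, 0, 0, 0, 0, 0⟩, fun t y w => ?_⟩, fun _ t y w => ?_⟩
      v1 := fun _ _ => ⟨rfl, fun _ _ _ => rfl⟩
      ac := fun γ => ?_ }
  · show ∑ γ : {γ : ℕ // γ ∈ Sf}, D.nu (wd ⁻¹' {γ.1}) = 1
    rw [k7a_g_tot_part D.nu wd h.tmp.meas S₀ Sf hS₀ fun γ hγ => by
      by_contra hne
      exact hγ ((h.Sf_iff γ).2 hne)]
    exact measure_univ
  · show ((D.om wd γ.1)⁻¹ • D.nu.restrict (wd ⁻¹' {γ.1})) Set.univ = 1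
    rw [Measure.smul_apply, Measure.restrict_apply_univ, smul_eq_mul]
    exact ENNReal.inv_mul_cancel (hom0 γ) (homT γ.1)
  · show ((D.om wd γ.1)⁻¹ • D.nu.restrict (wd ⁻¹' {γ.1})) (wd ⁻¹' {γ.1})ᶜ = 0
    rw [Measure.smul_apply, Measure.restrict_apply (hA γ.1).compl, Set.compl_inter_self, measure_empty, smul_zero]
  · show w = _
    simp [KbQuad.ev]
  · show w = w + 0
    rw [add_zero]
  · show (((D.om wd γ.1)⁻¹ • D.nu.restrict (wd ⁻¹' {γ.1})).map (k7aCo D)) ≪ volume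
    rw [Measure.map_smul]
    exact (Measure.absolutelyContinuous_of_le_smul (k7a_g_dens D h.adm.meas _ _ (h.tmp.dens γ.1))).smul_left _

end BrWf

/-! ## leaf BR-TMP -/

section BrTmp

variable {Λ : Type} [MeasurableSpace Λ] {D : K7aData Λ} {wd : Λ → ℕ} {Sf : Finset ℕ} {E : Set (Λ × ℝ)} {K Q : ℝ}

/-- **G1b** polynomial bounds.
PLAN.  `card` : `Fintype.card_coe`, `Sf ⊆ S₀` (a world outside `S₀` has empty preimage, weight `0`), `Finset.card_le_card`.   `B_le` : `B = 1`, `1 ≤ K ≤ Q'`.   `co_le` : `Prod.norm_def`, `pi_norm_le_iff_of_nonneg`, `h.adm.bd`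
(`Fin.forall_fin_succ` for the three hidden coefficients).   `dens` : `Measure.map_smul`; `k7a_g_dens` with `C = ofReal Q * om`; `om⁻¹ * (ofReal Q * om) = ofReal Q` (`om ≠ 0, ⊤`). -/
theorem k7a_g_tmp (h : K7aFrame D wd Sf E K Q) {Q' : ℝ} (hK : K ≤ Q') (hQ : Q ≤ Q') : (k7aPb D wd Sf E).Tmp Q' := by
  have := h.adm.prob
  obtain ⟨S₀, hS₀, hcard⟩ := h.tmp.card
  have hK1 := h.K_one
  have hom0 : ∀ γ : {γ : ℕ // γ ∈ Sf}, D.om wd γ.1 ≠ 0 := fun γ => (h.Sf_iff γ.1).1 γ.2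
  have homT : ∀ γ : ℕ, D.om wd γ ≠ ⊤ := fun γ => measure_ne_top _ _
  refine
    { card := ?_
      B_le := fun _ => ?_
      co_le := fun γ l _ => ?_
      dens := fun γ => ?_ }
  · show ((Fintype.card {γ : ℕ // γ ∈ Sf} : ℕ) : ℝ) ≤ Q'
    rw [Fintype.card_coe]
    have hsub : Sf ⊆ S₀ := by
      intro γ hγ
      by_contra hn
      refine (h.Sf_iff γ).1 hγ ?_
      have : wd ⁻¹' {γ} = ∅ := by
        ext l
        simp only [Set.mem_preimage, Set.mem_singleton_iff, Set.mem_empty_iff_false, iff_false]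
        rintro rfl
        exact hn (hS₀ l)
      show D.nu (wd ⁻¹' {γ}) = 0
      rw [this, measure_empty]
    have h1 : (Sf.card : ℝ) ≤ S₀.card := by exact_mod_cast Finset.card_le_card hsub
    linarith
  · show (1 : ℝ) ≤ Q' ∧ (1 : ℝ) ≤ Q' * 1
    constructor <;> linarith
  · show ‖k7aCo D l‖ ≤ Q'
    obtain ⟨b1, b2, b3, b4, b5⟩ := h.adm.bd l
    have hK0 : 0 ≤ K := by linarith
    refine le_trans ?_ hK
    rw [Prod.norm_def, Prod.norm_def]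
    refine max_le ?_ (max_le ?_ ?_)
    · exact (pi_norm_le_iff_of_nonneg hK0).2 fun _ => b1
    · exact (pi_norm_le_iff_of_nonneg hK0).2 fun _ => b2
    · refine (pi_norm_le_iff_of_nonneg hK0).2 fun i => ?_
      have h3 : ∀ i : Fin 3, ‖(![D.x0 l, D.x1 l, D.x2 l] : Fin 3 → ℝ) i‖ ≤ K := by
        intro i
        fin_cases i
        · exact b3
        · exact b4
        · exact b5
      exact h3 i
  · show (((D.om wd γ.1)⁻¹ • D.nu.restrict (wd ⁻¹' {γ.1})).map (k7aCo D)) ≤ ENNReal.ofReal Q' • volume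
    rw [Measure.map_smul]
    have h1 := k7a_g_dens D h.adm.meas _ _ (h.tmp.dens γ.1)
    calc (D.om wd γ.1)⁻¹ • (D.nu.restrict (wd ⁻¹' {γ.1})).map (k7aCo D)
        ≤ (D.om wd γ.1)⁻¹ • ((ENNReal.ofReal Q * D.om wd γ.1) • (volume : Measure (KbTj KbVer.one))) := by
          intro s
          simp only [Measure.smul_apply, smul_eq_mul]
          exact mul_le_mul_right (by simpa only [Measure.smul_apply, smul_eq_mul] using h1 s) _
      _ = ENNReal.ofReal Q • (volume : Measure (KbTj KbVer.one)) := by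
          rw [smul_smul, mul_comm (ENNReal.ofReal Q), ← mul_assoc, ENNReal.inv_mul_cancel (hom0 γ) (homT γ.1), one_mul]
      _ ≤ ENNReal.ofReal Q' • volume := by
          intro s
          simp only [Measure.smul_apply, smul_eq_mul]
          exact mul_le_mul_left (ENNReal.ofReal_le_ofReal hQ) _

end BrTmp

/-! ## leaf BR-NTV -/

section BrNtv

variable {Λ : Type} [MeasurableSpace Λ] {D : K7aData Λ} {wd : Λ → ℕ} {Sf : Finset ℕ} {E : Set (Λ × ℝ)} {K Q : ℝ}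

/-- **G1c** the native bounds.
PLAN.  `k7a_g_kbY`, `k7a_g_kbV`, `k7a_g_kbW`; `‖fun _ : Fin 1 => x‖ = |x|` (`pi_norm_const`/`pi_norm_le_iff_of_nonneg`); `|t| ≤ 1`; `h.adm.bd`.   `kbX Pst = kbW`;  `kbDw (fun _ _ w => w) = 1`, `kbDww = 0` (as `kbs_T_dw`, `kbs_T_dww` in `Base/Sanity.lean`).
`mass` : `k7a_g_tot`, `h.adm.mass`, `K ≤ 4 K`. -/
theorem k7a_g_ntv (h : K7aFrame D wd Sf E K Q) : (k7aPb D wd Sf E).Ntv (4 * K) := by
  have hK1 := h.K_one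
  have hK0 : 0 ≤ K := by linarith
  have hdw : ∀ (t : ℝ) (y : KbB KbVer.one) (w : ℝ), kbDw (fun _ _ w => w : KbTest KbVer.one) t y w = 1 := by
    intro t y w
    unfold kbDw
    ring
  have hdww : ∀ (t : ℝ) (y : KbB KbVer.one) (w : ℝ), kbDww (fun _ _ w => w : KbTest KbVer.one) t y w = 0 := by
    intro t y w
    unfold kbDww
    ring
  have hbase : ∀ (l : Λ) (t : ℝ), t ∈ Set.Icc (0 : ℝ) 1 → ‖kbY (k7aCo D l) t‖ + ‖kbV (k7aCo D l)‖ ≤ 4 * K := by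
    intro l t ht
    obtain ⟨b1, b2, -⟩ := h.adm.bd l
    rw [k7a_g_kbY, k7a_g_kbV]
    have ht' : |t| ≤ 1 := by rw [abs_of_nonneg ht.1]; exact ht.2
    have h1 : ‖(fun _ : Fin KbVer.one.j => D.y l t)‖ ≤ 2 * K := by
      refine (pi_norm_le_iff_of_nonneg (by linarith)).2 fun _ => ?_
      rw [Real.norm_eq_abs]
      unfold K7aData.y
      calc |D.y0 l + D.y1 l * t| ≤ |D.y0 l| + |D.y1 l * t| := abs_add_le _ _
        _ = |D.y0 l| + |D.y1 l| * |t| := by rw [abs_mul]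
        _ ≤ K + K * 1 := by gcongr
        _ = 2 * K := by ring
    have h2 : ‖(fun _ : Fin KbVer.one.j => D.y1 l)‖ ≤ K := (pi_norm_le_iff_of_nonneg hK0).2 fun _ => b2
    linarith
  have hsig : ∀ (l : Λ) (t : ℝ), t ∈ Set.Icc (0 : ℝ) 1 → |kbW (k7aCo D l) t| ≤ 4 * K := by
    intro l t ht
    obtain ⟨-, -, b3, b4, b5⟩ := h.adm.bd l
    rw [k7a_g_kbW]
    have ht' : |t| ≤ 1 := by rw [abs_of_nonneg ht.1]; exact ht.2
    have ht2 : |t| ^ 2 ≤ 1 := pow_le_one₀ (abs_nonneg _) ht'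
    unfold K7aData.x
    calc |D.x0 l + D.x1 l * t + D.x2 l * t ^ 2| ≤ |D.x0 l + D.x1 l * t| + |D.x2 l * t ^ 2| := abs_add_le _ _
      _ ≤ |D.x0 l| + |D.x1 l * t| + |D.x2 l * t ^ 2| := by gcongr; exact abs_add_le _ _
      _ = |D.x0 l| + |D.x1 l| * |t| + |D.x2 l| * |t| ^ 2 := by rw [abs_mul, abs_mul, abs_pow]
      _ ≤ K + K * 1 + K * 1 := by gcongr
      _ ≤ 4 * K := by linarith
  refine
    { base := fun γ l _ t ht => hbase l t ht
      sig := fun γ l _ t ht => hsig l t ht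
      dw := fun γ l _ t _ => ?_
      dw_low := fun γ x _ => ?_
      dww := fun γ t y w => ?_
      mass := ?_ }
  · show |kbDw (fun _ _ w => w : KbTest KbVer.one) t (kbY (k7aCo D l) t) (kbW (k7aCo D l) t)| ≤ 4 * K * 1
    rw [hdw, abs_one]
    linarith
  · show (1 : ℝ) ≤ 4 * K * |kbDw (fun _ _ w => w : KbTest KbVer.one) x.2 (kbY (k7aCo D x.1) x.2) (kbW (k7aCo D x.1) x.2)|
    rw [hdw, abs_one]
    linarith
  · show |kbDww (fun _ _ w => w : KbTest KbVer.one) t y w| ≤ 4 * K * 1 ^ 2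
    rw [hdww, abs_zero]
    linarith
  · rw [k7a_g_tot h]
    refine h.adm.mass.trans ?_
    gcongr
    linarith

end BrNtv

/-! ## leaf BR-PART -/

section BrPart

variable {Λ : Type} [MeasurableSpace Λ] {D : K7aData Λ} {wd : Λ → ℕ} {Sf : Finset ℕ} {E : Set (Λ × ℝ)} {K Q : ℝ}

/-- `k7aBe` preserves the volume.     PLAN: `(MeasurePreserving.id volume).prod (volume_preserving_funUnique (Fin 1) ℝ).symm`, `Measure.volume_eq_prod`. -/
theorem k7a_g_be_vol : MeasurePreserving k7aBe (volume : Measure (ℝ × ℝ)) (volume : Measure (ℝ × KbB KbVer.one)) := by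
  have h1 : MeasurePreserving (MeasurableEquiv.funUnique (Fin 1) ℝ).symm (volume : Measure ℝ) (volume : Measure (Fin 1 → ℝ)) :=
    (volume_preserving_funUnique (Fin 1) ℝ).symm
  exact (MeasurePreserving.id volume).prod h1

/-- **G4-0** a ceiling for `D.mu` in real coordinates is a ceiling for the observation of the (selected) adaptor.
PLAN.  `Measure.le_iff`; for measurable `B` : `Measure.map_apply (k2a_bs_meas (k7a_g_wf h) γ)`, `Measure.restrict_apply`; `(P.sel S).mu γ ≤ P.mu γ` (`k2a_sel_mu_le hS γ`); multiply by `om` : `k7a_g_mu`;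
`bs γ z = k7aBe (D.bs z)` (`k7a_g_bs`), `B' = k7aBe ⁻¹' B`, `volume B' = volume B` (`k7a_g_be_vol.measure_preimage_equiv`); cancel `om ≠ 0, ⊤` (`ENNReal.mul_le_mul_left`-type lemma). -/
theorem k7a_g_part_le (h : K7aFrame D wd Sf E K Q) (S : (k7aPb D wd Sf E).W → Set (Λ × ℝ)) (hS : ∀ γ, MeasurableSet (S γ)) {Dl : Type}
    (ℓ : (k7aPb D wd Sf E).Lab Dl) (γ : (k7aPb D wd Sf E).W) (δ : Dl) (C : ℝ≥0∞)
    (hC : ∀ B : Set (ℝ × ℝ), MeasurableSet B → D.mu {z | wd z.1 = k7aWn γ ∧ D.bs z ∈ B ∧ ℓ γ z = δ} ≤ C * D.om wd (k7aWn γ) * volume B) :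
    ((k7aPb D wd Sf E).sel S).part ℓ γ δ ≤ C • volume := by
  have hwf := k7a_g_wf h
  have hbm : Measurable ((k7aPb D wd Sf E).bs γ) := k2a_bs_meas hwf γ
  have hom0 : D.om wd (k7aWn γ) ≠ 0 := (h.Sf_iff γ.1).1 γ.2
  have homt : D.om wd (k7aWn γ) ≠ ⊤ := by
    have := h.adm.prob
    exact measure_ne_top _ _
  rw [Measure.le_iff]
  intro B hB
  have e1 : ((k7aPb D wd Sf E).sel S).part ℓ γ δ B
      = ((k7aPb D wd Sf E).sel S).mu γ ((k7aPb D wd Sf E).bs γ ⁻¹' B ∩ ℓ γ ⁻¹' {δ}) :=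
    (Measure.map_apply hbm hB).trans (Measure.restrict_apply (hbm hB))
  rw [e1, Measure.smul_apply, smul_eq_mul]
  refine (k2a_sel_mu_le hS γ _).trans ?_
  refine (ENNReal.mul_le_mul_iff_right hom0 homt).1 ?_
  refine (k7a_g_mu h γ _).le.trans ?_
  have hvol : volume (k7aBe ⁻¹' B) = volume B := k7a_g_be_vol.measure_preimage_equiv B
  calc D.mu (((k7aPb D wd Sf E).bs γ ⁻¹' B ∩ ℓ γ ⁻¹' {δ}) ∩ {z | wd z.1 = k7aWn γ})
      ≤ D.mu {z | wd z.1 = k7aWn γ ∧ D.bs z ∈ k7aBe ⁻¹' B ∧ ℓ γ z = δ} := by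
        refine measure_mono ?_
        rintro z ⟨⟨hz1, hz2⟩, hz3⟩
        refine ⟨hz3, ?_, hz2⟩
        show k7aBe (D.bs z) ∈ B
        rw [← k7a_g_bs D wd Sf E γ z]
        exact hz1
    _ ≤ C * D.om wd (k7aWn γ) * volume (k7aBe ⁻¹' B) := hC _ (k7aBe.measurable hB)
    _ = D.om wd (k7aWn γ) * (C * volume B) := by rw [hvol]; ring

end BrPart

/-! ## leaf BR-CAP -/

section BrCap

variable {Λ : Type} [MeasurableSpace Λ] {D : K7aData Λ} {wd : Λ → ℕ} {Sf : Finset ℕ} {E : Set (Λ × ℝ)} {K Q : ℝ}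

theorem k7a_g_cap_dy_le_one {x : ℝ} (hx : 0 < x) (hx1 : x ≤ 1) : kbDy x ≤ 1 := by
  unfold kbDy
  refine zpow_le_one_of_nonpos₀ (by norm_num) ?_
  rw [Int.ceil_le]
  simpa using Real.logb_nonpos (by norm_num : (1 : ℝ) < 2) hx.le hx1

theorem k7a_g_cap_rpow {x d : ℝ} (hx : 0 < x) (hd : d < 1) : kbDy x ^ d ≤ 2 * x ^ d := by
  obtain ⟨h1, h2⟩ := k2a_dy_bounds hx
  have hxd : 0 < x ^ d := Real.rpow_pos_of_pos hx d
  by_cases h0 : 0 ≤ d
  · calc kbDy x ^ d ≤ (2 * x) ^ d := Real.rpow_le_rpow (hx.le.trans h1) h2.le h0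
      _ = 2 ^ d * x ^ d := Real.mul_rpow (by norm_num) hx.le
      _ ≤ 2 * x ^ d := by
          refine mul_le_mul_of_nonneg_right ?_ hxd.le
          calc (2 : ℝ) ^ d ≤ 2 ^ (1 : ℝ) := Real.rpow_le_rpow_of_exponent_le (by norm_num) hd.le
            _ = 2 := Real.rpow_one 2
  · push Not at h0
    calc kbDy x ^ d ≤ x ^ d := Real.rpow_le_rpow_of_nonpos hx h1 h0.le
      _ ≤ 2 * x ^ d := by linarith

theorem k7a_g_cap_floor {x p : ℝ} {δ : ℤ} (hp : 0 < p) (h : ⌊x / p⌋ = δ) : x ∈ Set.Ico ((δ : ℝ) * p) ((δ : ℝ) * p + p) := by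
  rw [Int.floor_eq_iff, le_div_iff₀ hp, div_lt_iff₀ hp] at h
  exact ⟨h.1, by nlinarith [h.2]⟩

/-- **G4a** `ECap` ⟹ ceiling of the observation `p_r` (`a' = N^{-r} ∈ [a, 1]`).
PLAN.  `k7a_g_part_le`.   `p = kbDy a'` : `a' ≤ p < 2 a'` (`k2a_dy_bounds`), `p ≤ 1` (`kbDy` is `2 ^ ⌈logb 2 a'⌉` with `logb 2 a' ≤ 0`; `zpow_le_one...`).   `hid a' γ z = ⌊x / p⌋` (`k7a_g_hid`); `⌊x/p⌋ = δ ↔ x ∈ Ico (δ p) (δ p + p)` (`Int.floor_eq_iff`, `div_lt_iff₀`).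
`hcap γ B p (δ p)`.   `p ^ d ≤ 2 a' ^ d` : for `0 ≤ d` `Real.rpow_le_rpow` + `Real.mul_rpow` + `2 ^ d ≤ 2`; for `d < 0` `Real.rpow_le_rpow_of_nonpos`. -/
theorem k7a_g_cap (h : K7aFrame D wd Sf E K Q) (S : (k7aPb D wd Sf E).W → Set (Λ × ℝ)) (hS : ∀ γ, MeasurableSet (S γ)) {c d a a' : ℝ} (hc : 0 ≤ c) (hd : d < 1)
    (ha : 0 < a) (haa : a ≤ a') (ha1 : a' ≤ 1) (hcap : D.ECap wd K c d a) (γ : (k7aPb D wd Sf E).W) (δ : ℤ) :
    ((k7aPb D wd Sf E).sel S).part ((k7aPb D wd Sf E).hid a') γ δ ≤ ENNReal.ofReal (2 * K * c * a' ^ d) • volume := by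
  have ha' : 0 < a' := lt_of_lt_of_le ha haa
  have hK0 : 0 ≤ K := zero_le_one.trans h.K_one
  obtain ⟨hp1, hp2⟩ := k2a_dy_bounds ha'
  have hp0 : 0 < kbDy a' := lt_of_lt_of_le ha' hp1
  refine k7a_g_part_le h S hS _ γ δ _ fun B hB => ?_
  refine le_trans (measure_mono ?_) ((hcap (k7aWn γ) B (kbDy a') ((δ : ℝ) * kbDy a') hB (haa.trans hp1)
    (k7a_g_cap_dy_le_one ha' ha1)).trans ?_)
  · rintro z ⟨hz1, hz2, hz3⟩
    refine ⟨hz1, hz2, ?_⟩
    rw [k7a_g_hid] at hz3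
    exact k7a_g_cap_floor hp0 hz3
  · refine mul_le_mul_left (mul_le_mul_left (ENNReal.ofReal_le_ofReal ?_) _) _
    calc K * c * kbDy a' ^ d ≤ K * c * (2 * a' ^ d) := mul_le_mul_of_nonneg_left (k7a_g_cap_rpow ha' hd) (mul_nonneg hK0 hc)
      _ = 2 * K * c * a' ^ d := by ring

end BrCap

/-! ## leaf BR-ANG -/

section BrAng

variable {Λ : Type} [MeasurableSpace Λ] {D : K7aData Λ} {wd : Λ → ℕ} {Sf : Finset ℕ} {E : Set (Λ × ℝ)} {K Q : ℝ}

/-- a dyadic bin of requested width `a` lies in two half-open intervals of length `a` -/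
theorem k7a_g_ang_bin {a x : ℝ} (ha : 0 < a) {m : ℤ} (hm : ⌊x / kbDy a⌋ = m) :
    x ∈ Set.Ico ((m : ℝ) * kbDy a) ((m : ℝ) * kbDy a + a) ∨ x ∈ Set.Ico ((m : ℝ) * kbDy a + a) ((m : ℝ) * kbDy a + a + a) := by
  have hp := k2a_dy_pos a
  obtain ⟨-, b2⟩ := k2a_dy_bounds ha
  rw [Int.floor_eq_iff] at hm
  obtain ⟨m1, m2⟩ := hm
  rw [le_div_iff₀ hp] at m1
  rw [div_lt_iff₀ hp] at m2
  by_cases hx : x < (m : ℝ) * kbDy a + a
  · exact Or.inl ⟨m1, hx⟩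
  · exact Or.inr ⟨not_lt.1 hx, by nlinarith⟩

/-- **G4c** `EAng` ⟹ ceiling of the observation `(p_s, [V]_{N^{-u}})`.
PLAN.  `k7a_g_part_le`.   `hv a b γ z = (⌊x / kbDy a⌋, fun _ => ⌊y1 / kbDy b⌋)` (`k7a_g_hid`, `k7a_g_vel`), `b = N^{-u}`.   A dyadic bin of width `p = kbDy a ∈ [a, 2a)` is contained in `Ico (δp) (δp + a) ∪ Ico (δp + a) (δp + a + a)`, the same for `y1`:
the event is covered by 4 events of `hang`; `measure_union_le`; `4 * ofReal X = ofReal (4 X)`. -/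
theorem k7a_g_ang (h : K7aFrame D wd Sf E K Q) (S : (k7aPb D wd Sf E).W → Set (Λ × ℝ)) (hS : ∀ γ, MeasurableSet (S γ)) {c d a N S1 u1 u : ℝ} (hc : 0 ≤ c)
    (ha : 0 < a) (hN : 0 < N) (hu : 0 < u) (hu1 : u ≤ u1) (hang : D.EAng wd K c d a N S1 u1) (γ : (k7aPb D wd Sf E).W)
    (δ : ℤ × (Fin KbVer.one.j → ℤ)) :
    ((k7aPb D wd Sf E).sel S).part ((k7aPb D wd Sf E).hv a (N ^ (-u))) γ δ
      ≤ ENNReal.ofReal (4 * K * c * a ^ d * N ^ (-(S1 * u))) • volume := by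
  refine k7a_g_part_le h S hS _ γ δ _ fun B hB => ?_
  have hb : 0 < N ^ (-u) := Real.rpow_pos_of_pos hN _
  obtain ⟨i0, hi0⟩ : ∃ i0 : Fin KbVer.one.j, i0 = ⟨0, by decide⟩ := ⟨_, rfl⟩
  obtain ⟨xs, hxs⟩ : ∃ xs : ℝ, xs = (δ.1 : ℝ) * kbDy a := ⟨_, rfl⟩
  obtain ⟨vs, hvs⟩ : ∃ vs : ℝ, vs = (δ.2 i0 : ℝ) * kbDy (N ^ (-u)) := ⟨_, rfl⟩
  obtain ⟨X, hX⟩ : ∃ X : ℝ≥0∞, X = ENNReal.ofReal (K * c * a ^ d * N ^ (-(S1 * u))) * D.om wd (k7aWn γ) * volume B := ⟨_, rfl⟩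
  obtain ⟨Ev, hEv⟩ : ∃ Ev : ℝ → ℝ → Set (Λ × ℝ), Ev = fun xs vs => {z | wd z.1 = k7aWn γ ∧ D.bs z ∈ B ∧
      D.x z.1 z.2 ∈ Set.Ico xs (xs + a) ∧ D.y1 z.1 ∈ Set.Ico vs (vs + N ^ (-u))} := ⟨_, rfl⟩
  have hE : ∀ xs vs, D.mu (Ev xs vs) ≤ X := by
    intro xs vs
    rw [hEv, hX]
    exact hang (k7aWn γ) B xs vs u hB hu hu1
  have hsub : {z | wd z.1 = k7aWn γ ∧ D.bs z ∈ B ∧ (k7aPb D wd Sf E).hv a (N ^ (-u)) γ z = δ}
      ⊆ (Ev xs vs ∪ Ev xs (vs + N ^ (-u))) ∪ (Ev (xs + a) vs ∪ Ev (xs + a) (vs + N ^ (-u))) := by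
    rintro z ⟨z1, z2, z3⟩
    have z4 : (k7aPb D wd Sf E).hid a γ z = δ.1 := congrArg Prod.fst z3
    have z5 : (k7aPb D wd Sf E).vel (N ^ (-u)) γ z i0 = δ.2 i0 := congrFun (congrArg Prod.snd z3) i0
    rw [k7a_g_hid] at z4
    rw [k7a_g_vel] at z5
    have c1 := k7a_g_ang_bin ha z4
    have c2 := k7a_g_ang_bin hb z5
    rw [← hxs] at c1
    rw [← hvs] at c2
    rw [hEv]
    simp only [Set.mem_union, Set.mem_ofPred_eq]
    rcases c1 with c1 | c1 <;> rcases c2 with c2 | c2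
    · exact Or.inl (Or.inl ⟨z1, z2, c1, c2⟩)
    · exact Or.inl (Or.inr ⟨z1, z2, c1, c2⟩)
    · exact Or.inr (Or.inl ⟨z1, z2, c1, c2⟩)
    · exact Or.inr (Or.inr ⟨z1, z2, c1, c2⟩)
  have e4 : ENNReal.ofReal (4 * K * c * a ^ d * N ^ (-(S1 * u))) * D.om wd (k7aWn γ) * volume B = X + X + (X + X) := by
    have : 4 * K * c * a ^ d * N ^ (-(S1 * u)) = 4 * (K * c * a ^ d * N ^ (-(S1 * u))) := by ring
    rw [this, ENNReal.ofReal_mul (by norm_num), hX]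
    have h4 : ENNReal.ofReal 4 = 4 := by norm_num
    rw [h4]
    ring
  rw [e4]
  calc D.mu _ ≤ D.mu ((Ev xs vs ∪ Ev xs (vs + N ^ (-u))) ∪ (Ev (xs + a) vs ∪ Ev (xs + a) (vs + N ^ (-u)))) := measure_mono hsub
    _ ≤ D.mu (Ev xs vs ∪ Ev xs (vs + N ^ (-u))) + D.mu (Ev (xs + a) vs ∪ Ev (xs + a) (vs + N ^ (-u))) := measure_union_le _ _
    _ ≤ (D.mu (Ev xs vs) + D.mu (Ev xs (vs + N ^ (-u)))) + (D.mu (Ev (xs + a) vs) + D.mu (Ev (xs + a) (vs + N ^ (-u)))) :=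
        add_le_add (measure_union_le _ _) (measure_union_le _ _)
    _ ≤ X + X + (X + X) := add_le_add (add_le_add (hE _ _) (hE _ _)) (add_le_add (hE _ _) (hE _ _))

end BrAng

/-! ## leaf BR-SUP -/

section BrSup

variable {Λ : Type} [MeasurableSpace Λ] {D : K7aData Λ} {wd : Λ → ℕ} {Sf : Finset ℕ} {E : Set (Λ × ℝ)} {K Q : ℝ}

theorem k7a_g_sup_int {x a p : ℝ} (ha : 0 < a) (h1 : a ≤ p) (h2 : p < 2 * a) :
    ⌊x / a⌋ = ⌊(⌊x / p⌋ : ℝ) * p / a⌋ ∨ ⌊x / a⌋ = ⌊(⌊x / p⌋ : ℝ) * p / a⌋ + 1 ∨ ⌊x / a⌋ = ⌊(⌊x / p⌋ : ℝ) * p / a⌋ + 2 := by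
  have hp : 0 < p := lt_of_lt_of_le ha h1
  have b1 : ((⌊x / p⌋ : ℤ) : ℝ) ≤ x / p := Int.floor_le _
  have b2 : x / p < (⌊x / p⌋ : ℝ) + 1 := Int.lt_floor_add_one _
  rw [le_div_iff₀ hp] at b1
  rw [div_lt_iff₀ hp] at b2
  set δ : ℝ := (⌊x / p⌋ : ℝ) with hδ
  have c1 : ((⌊δ * p / a⌋ : ℤ) : ℝ) ≤ δ * p / a := Int.floor_le _
  have c2 : δ * p / a < (⌊δ * p / a⌋ : ℝ) + 1 := Int.lt_floor_add_one _
  rw [le_div_iff₀ ha] at c1
  rw [div_lt_iff₀ ha] at c2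
  have d1 : ⌊δ * p / a⌋ ≤ ⌊x / a⌋ := by
    rw [Int.le_floor, le_div_iff₀ ha]
    linarith
  have d2 : ⌊x / a⌋ < ⌊δ * p / a⌋ + 3 := by
    rw [Int.floor_lt, div_lt_iff₀ ha]
    push_cast
    nlinarith
  omega

theorem k7a_g_sup_mono {a p : ℝ} (ha : 0 < a) (h1 : a ≤ p) : StrictMono fun δ : ℤ => ⌊(δ : ℝ) * p / a⌋ := by
  refine strictMono_int_of_lt_succ fun δ => ?_
  have c2 : (δ : ℝ) * p / a < (⌊(δ : ℝ) * p / a⌋ : ℝ) + 1 := Int.lt_floor_add_one _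
  have c1 : ((⌊(δ : ℝ) * p / a⌋ : ℤ) : ℝ) ≤ (δ : ℝ) * p / a := Int.floor_le _
  have h3 : ⌊(δ : ℝ) * p / a⌋ + 1 ≤ ⌊((δ + 1 : ℤ) : ℝ) * p / a⌋ := by
    rw [Int.le_floor, le_div_iff₀ ha]
    rw [le_div_iff₀ ha] at c1
    push_cast
    nlinarith
  omega

/-- **G4b** `ESup` ⟹ support sets for the observation `p_s`.
PLAN.  `U₀` from `hsup`, `p = kbDy a ∈ [a, 2a)`, `m δ = ⌊δ p / a⌋`;   `U γ δ = k7aBe.symm ⁻¹' (U₀ γ (m δ) ∪ U₀ γ (m δ + 1) ∪ U₀ γ (m δ + 2))`.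
a.e.: `(P.sel S).mu γ ≤ P.mu γ` (`k2a_sel_mu_le`); a `D.mu`-null set is `P.mu γ`-null (`k7a_g_mu`, `om ≠ 0`); `P.mu γ`-a.e. `z ∈ Ev γ` (`ae_restrict_mem`), so `wd z.1 = γ`; `⌊x/p⌋ = δ` ⟹ `⌊x/a⌋ ∈ {m δ, m δ + 1, m δ + 2}` (`p / a < 2`).
volume: `k7a_g_be_vol`; `δ ↦ m δ + i` is injective (`p / a ≥ 1`), `ENNReal.tsum_comp_le_tsum_of_injective`; `∑ γ : Sf ≤ ∑' γ` (`ENNReal.sum_le_tsum`, `Finset.sum_coe_sort`). -/
theorem k7a_g_sup (h : K7aFrame D wd Sf E K Q) (S : (k7aPb D wd Sf E).W → Set (Λ × ℝ)) (hS : ∀ γ, MeasurableSet (S γ)) {c d a : ℝ} (ha : 0 < a) (hsup : D.ESup wd K c d a) :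
    ∃ U : (k7aPb D wd Sf E).W → ℤ → Set (ℝ × KbB KbVer.one), (∀ γ δ, MeasurableSet (U γ δ)) ∧
      (∀ γ, ∀ᵐ x ∂((k7aPb D wd Sf E).sel S).mu γ, (k7aPb D wd Sf E).bs γ x ∈ U γ ((k7aPb D wd Sf E).hid a γ x)) ∧
      ENNReal.ofReal (c * a ^ d) * ∑ γ, (k7aPb D wd Sf E).om γ * ∑' δ, volume (U γ δ) ≤ ENNReal.ofReal (3 * K) := by
  obtain ⟨U0, hU0m, hU0ae, hU0v⟩ := hsup
  obtain ⟨hp1, hp2⟩ := k2a_dy_bounds ha
  have hK0 : 0 ≤ K := by linarith [h.K_one]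
  set m : ℤ → ℤ := fun δ => ⌊(δ : ℝ) * kbDy a / a⌋ with hm
  have hminj : StrictMono m := k7a_g_sup_mono ha hp1
  set V : ℕ → ℤ → Set (ℝ × ℝ) := fun γ δ => U0 γ (m δ) ∪ U0 γ (m δ + 1) ∪ U0 γ (m δ + 2) with hV
  have hVm : ∀ γ δ, MeasurableSet (V γ δ) := fun γ δ => ((hU0m _ _).union (hU0m _ _)).union (hU0m _ _)
  refine ⟨fun γ δ => k7aBe.symm ⁻¹' (V (k7aWn γ) δ), fun γ δ => k7aBe.symm.measurable (hVm _ _), fun γ => ?_, ?_⟩
  · have hom : D.om wd (k7aWn γ) ≠ 0 := (h.Sf_iff _).1 γ.2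
    have hEv : MeasurableSet ((k7aPb D wd Sf E).Ev γ) :=
      h.E_meas.inter ((h.tmp.meas (measurableSet_singleton _)).prod measurableSet_Icc)
    have hbad : (k7aPb D wd Sf E).mu γ {z : Λ × ℝ | ¬ D.bs z ∈ U0 (wd z.1) ⌊D.x z.1 z.2 / a⌋} = 0 := by
      have h2 := k7a_g_mu h γ {z | ¬ D.bs z ∈ U0 (wd z.1) ⌊D.x z.1 z.2 / a⌋}
      have h3 : D.mu ({z | ¬ D.bs z ∈ U0 (wd z.1) ⌊D.x z.1 z.2 / a⌋} ∩ {z | wd z.1 = k7aWn γ}) = 0 :=
        measure_mono_null Set.inter_subset_left (ae_iff.1 hU0ae)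
      rw [h3, mul_eq_zero] at h2
      exact h2.resolve_left hom
    have hEvc : (k7aPb D wd Sf E).mu γ ((k7aPb D wd Sf E).Ev γ)ᶜ = 0 := by
      show (((k7aPb D wd Sf E).nu γ).prod KbPb.tm).restrict ((k7aPb D wd Sf E).Ev γ) ((k7aPb D wd Sf E).Ev γ)ᶜ = 0
      rw [Measure.restrict_apply hEv.compl, Set.compl_inter_self, measure_empty]
    have hpt : ∀ z : Λ × ℝ, D.bs z ∈ U0 (wd z.1) ⌊D.x z.1 z.2 / a⌋ → z ∈ (k7aPb D wd Sf E).Ev γ →
        (k7aPb D wd Sf E).bs γ z ∈ k7aBe.symm ⁻¹' V (k7aWn γ) ((k7aPb D wd Sf E).hid a γ z) := by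
      intro z hz1 hz2
      have hw : wd z.1 = k7aWn γ := hz2.2.1
      rw [k7a_g_bs, k7a_g_hid]
      show k7aBe.symm (k7aBe (D.bs z)) ∈ V (k7aWn γ) ⌊D.x z.1 z.2 / kbDy a⌋
      rw [MeasurableEquiv.symm_apply_apply]
      rw [hw] at hz1
      rcases k7a_g_sup_int (x := D.x z.1 z.2) ha hp1 hp2 with e | e | e
      · rw [e] at hz1
        exact Or.inl (Or.inl hz1)
      · rw [e] at hz1
        exact Or.inl (Or.inr hz1)
      · rw [e] at hz1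
        exact Or.inr hz1
    refine ae_iff.2 (le_antisymm ?_ zero_le)
    calc ((k7aPb D wd Sf E).sel S).mu γ {z | ¬ (k7aPb D wd Sf E).bs γ z ∈ k7aBe.symm ⁻¹' V (k7aWn γ) ((k7aPb D wd Sf E).hid a γ z)}
        ≤ (k7aPb D wd Sf E).mu γ {z | ¬ (k7aPb D wd Sf E).bs γ z ∈ k7aBe.symm ⁻¹' V (k7aWn γ) ((k7aPb D wd Sf E).hid a γ z)} :=
          k2a_sel_mu_le hS γ _
      _ ≤ (k7aPb D wd Sf E).mu γ ({z : Λ × ℝ | ¬ D.bs z ∈ U0 (wd z.1) ⌊D.x z.1 z.2 / a⌋} ∪ ((k7aPb D wd Sf E).Ev γ)ᶜ) := by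
          refine measure_mono fun z hz => ?_
          by_contra hcon
          rw [Set.mem_union, not_or] at hcon
          exact hz (hpt z (not_not.1 hcon.1) (not_not.1 hcon.2))
      _ ≤ (k7aPb D wd Sf E).mu γ {z : Λ × ℝ | ¬ D.bs z ∈ U0 (wd z.1) ⌊D.x z.1 z.2 / a⌋} + (k7aPb D wd Sf E).mu γ ((k7aPb D wd Sf E).Ev γ)ᶜ :=
          measure_union_le _ _
      _ = 0 := by rw [hbad, hEvc, add_zero]
  · have hvol : ∀ (γ : ℕ) (δ : ℤ), volume (k7aBe.symm ⁻¹' (V γ δ)) ≤ volume (U0 γ (m δ)) + volume (U0 γ (m δ + 1)) + volume (U0 γ (m δ + 2)) := by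
      intro γ δ
      rw [(k7a_g_be_vol.symm k7aBe).measure_preimage_equiv]
      exact (measure_union_le _ _).trans (add_le_add (measure_union_le _ _) le_rfl)
    have hts : ∀ γ : ℕ, ∑' δ, volume (k7aBe.symm ⁻¹' (V γ δ)) ≤ 3 * ∑' k, volume (U0 γ k) := by
      intro γ
      have i0 : ∑' δ, volume (U0 γ (m δ)) ≤ ∑' k, volume (U0 γ k) :=
        ENNReal.tsum_comp_le_tsum_of_injective hminj.injective (fun k => volume (U0 γ k))
      have i1 : ∑' δ, volume (U0 γ (m δ + 1)) ≤ ∑' k, volume (U0 γ k) :=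
        ENNReal.tsum_comp_le_tsum_of_injective (f := fun δ => m δ + 1) (fun x y hxy => hminj.injective (by simpa using hxy))
          (fun k => volume (U0 γ k))
      have i2 : ∑' δ, volume (U0 γ (m δ + 2)) ≤ ∑' k, volume (U0 γ k) :=
        ENNReal.tsum_comp_le_tsum_of_injective (f := fun δ => m δ + 2) (fun x y hxy => hminj.injective (by simpa using hxy))
          (fun k => volume (U0 γ k))
      calc ∑' δ, volume (k7aBe.symm ⁻¹' (V γ δ))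
          ≤ ∑' δ, (volume (U0 γ (m δ)) + volume (U0 γ (m δ + 1)) + volume (U0 γ (m δ + 2))) := ENNReal.tsum_le_tsum (hvol γ)
        _ = ∑' δ, volume (U0 γ (m δ)) + ∑' δ, volume (U0 γ (m δ + 1)) + ∑' δ, volume (U0 γ (m δ + 2)) := by
            rw [ENNReal.tsum_add, ENNReal.tsum_add]
        _ ≤ ∑' k, volume (U0 γ k) + ∑' k, volume (U0 γ k) + ∑' k, volume (U0 γ k) := add_le_add (add_le_add i0 i1) i2
        _ = 3 * ∑' k, volume (U0 γ k) := by ring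
    have hsum : ∑ γ : (k7aPb D wd Sf E).W, (k7aPb D wd Sf E).om γ * ∑' δ, volume (k7aBe.symm ⁻¹' (V (k7aWn γ) δ))
        ≤ 3 * ∑' γ, D.om wd γ * ∑' k, volume (U0 γ k) := by
      calc ∑ γ : (k7aPb D wd Sf E).W, (k7aPb D wd Sf E).om γ * ∑' δ, volume (k7aBe.symm ⁻¹' (V (k7aWn γ) δ))
          ≤ ∑ γ : {γ : ℕ // γ ∈ Sf}, 3 * (D.om wd γ.1 * ∑' k, volume (U0 γ.1 k)) := by
            refine Finset.sum_le_sum fun γ _ => ?_
            calc (k7aPb D wd Sf E).om γ * ∑' δ, volume (k7aBe.symm ⁻¹' (V (k7aWn γ) δ))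
                ≤ D.om wd γ.1 * (3 * ∑' k, volume (U0 γ.1 k)) := mul_le_mul' le_rfl (hts γ.1)
              _ = 3 * (D.om wd γ.1 * ∑' k, volume (U0 γ.1 k)) := by ring
        _ = 3 * ∑ γ ∈ Sf, D.om wd γ * ∑' k, volume (U0 γ k) := by
            rw [← Finset.mul_sum, Finset.sum_coe_sort Sf (fun γ => D.om wd γ * ∑' k, volume (U0 γ k))]
        _ ≤ 3 * ∑' γ, D.om wd γ * ∑' k, volume (U0 γ k) := mul_le_mul' le_rfl (ENNReal.sum_le_tsum _)
    calc ENNReal.ofReal (c * a ^ d) * ∑ γ : (k7aPb D wd Sf E).W, (k7aPb D wd Sf E).om γ * ∑' δ, volume (k7aBe.symm ⁻¹' (V (k7aWn γ) δ))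
        ≤ ENNReal.ofReal (c * a ^ d) * (3 * ∑' γ, D.om wd γ * ∑' k, volume (U0 γ k)) := mul_le_mul' le_rfl hsum
      _ = 3 * (ENNReal.ofReal (c * a ^ d) * ∑' γ, D.om wd γ * ∑' k, volume (U0 γ k)) := by ring
      _ ≤ 3 * ENNReal.ofReal K := mul_le_mul' le_rfl hU0v
      _ = ENNReal.ofReal (3 * K) := by
          rw [ENNReal.ofReal_mul (by norm_num), ENNReal.ofReal_ofNat]

end BrSup

/-! ## leaf BR-LAB -/

section BrLab

/-- **G6** labels from a finite disjoint measurable family.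
PLAN.  `n = Fintype.card C`, `e = Fintype.equivFin C`; (classical) `lab l = if h : ∃ c, l ∈ A c then some (e h.choose) else none`.   `lab l = some (e c) ↔ l ∈ A c` by disjointness.   `lab ⁻¹' {some i} = A (e.symm i)`, `lab ⁻¹' {none} = (⋃ c, A c)ᶜ`. -/
theorem k7a_g_lab {Λ : Type} [MeasurableSpace Λ] {C : Type} [Fintype C] (A : C → Set Λ) (hA : ∀ c, MeasurableSet (A c))
    (hd : ∀ c c', c ≠ c' → Disjoint (A c) (A c')) :
    ∃ (n : ℕ) (e : C ≃ Fin n) (lab : Λ → Option (Fin n)), (∀ o, MeasurableSet (lab ⁻¹' {o})) ∧ ∀ l c, lab l = some (e c) ↔ l ∈ A c := by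
  classical
  have huniq : ∀ l c c', l ∈ A c → l ∈ A c' → c = c' := by
    intro l c c' h1 h2
    by_contra hne
    exact Set.disjoint_left.1 (hd c c' hne) h1 h2
  set e := Fintype.equivFin C with he
  set lab : Λ → Option (Fin (Fintype.card C)) := fun l => if h : ∃ c, l ∈ A c then some (e h.choose) else none with hlab
  have key : ∀ l c, lab l = some (e c) ↔ l ∈ A c := by
    intro l c
    constructor
    · intro h
      by_cases hx : ∃ c, l ∈ A c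
      · simp only [hlab, dif_pos hx, Option.some.injEq, EmbeddingLike.apply_eq_iff_eq] at h
        exact h ▸ hx.choose_spec
      · simp only [hlab, dif_neg hx] at h
        exact absurd h (by simp)
    · intro h
      have hx : ∃ c, l ∈ A c := ⟨c, h⟩
      simp only [hlab, dif_pos hx, Option.some.injEq, EmbeddingLike.apply_eq_iff_eq]
      exact huniq l _ _ hx.choose_spec h
  refine ⟨Fintype.card C, e, lab, ?_, key⟩
  intro o
  cases o with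
  | none =>
    have : lab ⁻¹' {none} = (⋃ c, A c)ᶜ := by
      ext l
      simp only [Set.mem_preimage, Set.mem_singleton_iff, Set.mem_compl_iff, Set.mem_iUnion]
      constructor
      · rintro h ⟨c, hc⟩
        rw [(key l c).2 hc] at h
        exact absurd h (by simp)
      · intro h
        simp only [hlab, dif_neg h]
    rw [this]
    exact (MeasurableSet.iUnion hA).compl
  | some i =>
    have : lab ⁻¹' {some i} = A (e.symm i) := by
      ext l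
      rw [Set.mem_preimage, Set.mem_singleton_iff, ← key l (e.symm i), e.apply_symm_apply]
    rw [this]
    exact hA _

end BrLab

/-! ## leaf BR-BEST -/

section BrBest

/-- **G6** the best interval.
PLAN.  `mass = ∑_{i < 2^n} ∑_{c, iv c = i} om * mC` (`Finset.sum_fiberwise_of_maps_to`, `Finset.sum_subtype`/`Finset.sum_coe_sort`), so some `i0` carries `≥ mass / 2^n` (`Finset.exists_le_of_sum_le` or `Finset.exists_max_image`);
`2^n * q = 1` (`kbQ`), so `2^n ≤ K'`. -/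
theorem k7a_g_best {v : KbVer} {P : KbPb v} (Y : KbSys P) {K K' : ℝ} (hK : 0 ≤ K) (hiv : ∀ c, Y.iv c < 2 ^ Y.n) (hBig : Y.Big K)
    (hq : 1 ≤ K' * Y.q) :
    ∃ i0 : ℕ, i0 < 2 ^ Y.n ∧ 1 ≤ ENNReal.ofReal (K * K') * ∑ c : {c : Y.C // Y.iv c = i0}, P.om (Y.wd c.1) * Y.mC c.1 := by
  classical
  set g : Y.C → ℝ≥0∞ := fun c => P.om (Y.wd c) * Y.mC c with hg
  set M : ℕ → ℝ≥0∞ := fun i => ∑ c ∈ Finset.univ.filter (fun c => Y.iv c = i), g c with hM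
  have hmass : Y.mass = ∑ i ∈ Finset.range (2 ^ Y.n), M i :=
    (Finset.sum_fiberwise_of_maps_to (s := Finset.univ) (t := Finset.range (2 ^ Y.n)) (g := Y.iv)
      (fun c _ => Finset.mem_range.2 (hiv c)) g).symm
  obtain ⟨i0, hi0, hmax⟩ := Finset.exists_max_image (Finset.range (2 ^ Y.n)) M ⟨0, Finset.mem_range.2 (by positivity)⟩
  refine ⟨i0, Finset.mem_range.1 hi0, ?_⟩
  have h1 : Y.mass ≤ (2 : ℝ≥0∞) ^ Y.n * M i0 := by
    rw [hmass]
    refine (Finset.sum_le_card_nsmul _ _ _ hmax).trans (le_of_eq ?_)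
    rw [Finset.card_range, nsmul_eq_mul]
    push_cast
    rfl
  have hq0 : 0 < Y.q := by
    unfold KbSys.q kbQ
    positivity
  have h2q : (2 : ℝ) ^ Y.n * Y.q = 1 := by
    unfold KbSys.q kbQ
    rw [← mul_pow]
    norm_num
  have h2 : (2 : ℝ) ^ Y.n ≤ K' := by
    have : (2 : ℝ) ^ Y.n * Y.q ≤ K' * Y.q := by rw [h2q]; exact hq
    exact le_of_mul_le_mul_right this hq0
  have h3 : (2 : ℝ≥0∞) ^ Y.n ≤ ENNReal.ofReal K' := by
    refine le_trans (le_of_eq ?_) (ENNReal.ofReal_le_ofReal h2)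
    rw [ENNReal.ofReal_pow (by norm_num), ENNReal.ofReal_ofNat]
  have h4 : M i0 = ∑ c : {c : Y.C // Y.iv c = i0}, P.om (Y.wd c.1) * Y.mC c.1 :=
    Finset.sum_subtype (Finset.univ.filter (fun c => Y.iv c = i0)) (fun c => by simp) g
  rw [← h4, ENNReal.ofReal_mul hK]
  calc (1 : ℝ≥0∞) ≤ ENNReal.ofReal K * Y.mass := hBig
    _ ≤ ENNReal.ofReal K * ((2 : ℝ≥0∞) ^ Y.n * M i0) := mul_le_mul' le_rfl h1
    _ ≤ ENNReal.ofReal K * (ENNReal.ofReal K' * M i0) := mul_le_mul' le_rfl (mul_le_mul' h3 le_rfl)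
    _ = ENNReal.ofReal K * ENNReal.ofReal K' * M i0 := by ring

end BrBest

/-! ## leaf BR-CHART -/

section BrChart

variable {Λ : Type} [MeasurableSpace Λ] {D : K7aData Λ} {wd : Λ → ℕ} {Sf : Finset ℕ} {E : Set (Λ × ℝ)} {K Q : ℝ}

theorem k7a_g_chart_J (ch : KbChart KbVer.one) : ch.J = |ch.D (0 : Fin 1) (0 : Fin 1)| := by
  exact congrArg abs (Matrix.det_fin_one (ch.D : Matrix (Fin 1) (Fin 1) ℝ))

theorem k7a_g_chart_Mn (ch : KbChart KbVer.one) : kbMn ch.D = |ch.D (0 : Fin 1) (0 : Fin 1)| := by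
  show ∑ i : Fin 1, ∑ k : Fin 1, |ch.D i k| = _
  simp

theorem k7a_g_chart_inv (ch : KbChart KbVer.one) (h : ch.D * ch.Di = 1) : ch.D (0 : Fin 1) (0 : Fin 1) * ch.Di (0 : Fin 1) (0 : Fin 1) = 1 := by
  have h1 : (ch.D * ch.Di) (0 : Fin 1) (0 : Fin 1) = (1 : Matrix (Fin 1) (Fin 1) ℝ) 0 0 := by
    rw [h]
    rfl
  have h2 : (ch.D * ch.Di) (0 : Fin 1) (0 : Fin 1) = ∑ j : Fin 1, ch.D (0 : Fin 1) j * ch.Di j (0 : Fin 1) := rfl
  rw [h2] at h1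
  simpa using h1

theorem k7a_g_chart_mulVec (M : Matrix (Fin KbVer.one.j) (Fin KbVer.one.j) ℝ) (u : KbB KbVer.one) :
    M.mulVec u (0 : Fin 1) = M (0 : Fin 1) (0 : Fin 1) * u (0 : Fin 1) := by
  show ∑ j : Fin 1, M (0 : Fin 1) j * u j = _
  simp

theorem k7a_g_chart_ev (Q : KbQuad KbVer.one) (t y w : ℝ) : Q.ev t (fun _ => y) w =
    Q.c0 + Q.ct * t + Q.cy (0 : Fin 1) * y + Q.cw * w + Q.ctt * t ^ 2 + t * (Q.cty (0 : Fin 1) * y) + Q.ctw * t * w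
      + y * (Q.cyy (0 : Fin 1) (0 : Fin 1) * y) + w * (Q.cyw (0 : Fin 1) * y) + Q.cww * w ^ 2 := by
  show Q.c0 + Q.ct * t + (∑ i : Fin 1, Q.cy i * y) + Q.cw * w + Q.ctt * t ^ 2 + t * (∑ i : Fin 1, Q.cty i * y) + Q.ctw * t * w
      + (∑ i : Fin 1, y * ∑ j : Fin 1, Q.cyy i j * y) + w * (∑ i : Fin 1, Q.cyw i * y) + Q.cww * w ^ 2 = _
  simp

/-- **G6** geometry of one chart in real coordinates.
PLAN.  `KbB .one = Fin 1 → ℝ`; `D`, `Di` are `1 × 1` : `J = |D 0 0|` (`Matrix.det_fin_one` after `change`/`show` to `Fin 1`), `kbMn D = |D 0 0|` (`Fin.sum_univ_one`/`Finset.univ_unique`), `D 0 0 * Di 0 0 = 1` from `hWF.inv` (`Matrix.mul_apply`).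
`K7aQuad` : `hWF.adm c` gives `Q : KbQuad .one`; coefficients `-(c0, ct, cy 0, ctt, cty 0, cyy 0 0)` (`dotProduct`, `Matrix.mulVec`, `Fin.sum_univ_one`).   `J ≤ q K ≤ K` (`hGeo.size`, `q ≤ 1`).   `wd l = γ` : `hWF.A_sub` (`Sp γ = wd ⁻¹' {γ}`).
`|y - cen| = |D 0 0| * |Di 0 0 * (y - cen)| ≤ J K` (`hGeo.box`, `norm_le_pi_norm`, `k7a_g_kbY`).   `x - F t y = x + T t y 0 = T t y x = kbX T co t` (`(hWF.adm c).2 rfl`, `k7a_g_kbW`), `hGeo.val`. -/
theorem k7a_g_chart (S : (k7aPb D wd Sf E).W → Set (Λ × ℝ)) (Y : KbSys ((k7aPb D wd Sf E).sel S)) {a : ℝ} (hK : 1 ≤ K) (hWF : Y.WF) (hGeo : Y.Geo K a) (c : Y.C) :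
    K7aQuad (k7aLabOf (Y.ch c)).F ∧ 0 < (Y.ch c).J ∧ (Y.ch c).J ≤ K ∧
      ∀ l ∈ Y.A c, wd l = k7aWn (Y.wd c) ∧ ∀ t ∈ Y.I c,
        |D.y l t - (k7aLabOf (Y.ch c)).cen t| ≤ K * (Y.ch c).J ∧ |D.x l t - (k7aLabOf (Y.ch c)).F t (D.y l t)| ≤ K * a := by
  have hq0 : 0 < Y.q := by
    unfold KbSys.q kbQ
    positivity
  have hq1 : Y.q ≤ 1 := by
    unfold KbSys.q kbQ
    exact pow_le_one₀ (by norm_num) (by norm_num)
  have hJ := k7a_g_chart_J (Y.ch c)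
  have hinv := k7a_g_chart_inv (Y.ch c) (hWF.inv c)
  have hD0 : (Y.ch c).D (0 : Fin 1) (0 : Fin 1) ≠ 0 := by
    intro h0
    rw [h0, zero_mul] at hinv
    exact zero_ne_one hinv
  refine ⟨?_, ?_, ?_, ?_⟩
  · obtain ⟨Q, hQ⟩ := (hWF.adm c).1
    refine ⟨-Q.c0, -Q.ct, -Q.cy (0 : Fin 1), -Q.ctt, -Q.cty (0 : Fin 1), -Q.cyy (0 : Fin 1) (0 : Fin 1), fun t y => ?_⟩
    show -((Y.ch c).T t (fun _ => y) 0) = _
    rw [hQ, k7a_g_chart_ev]
    ring
  · rw [hJ]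
    exact abs_pos.2 hD0
  · rw [hJ, ← k7a_g_chart_Mn]
    calc kbMn (Y.ch c).D ≤ Y.q * K := hGeo.size c
      _ ≤ 1 * K := mul_le_mul_of_nonneg_right hq1 (by linarith)
      _ = K := one_mul _
  · intro (l : Λ) hl
    refine ⟨hWF.A_sub c hl, fun t ht => ⟨?_, ?_⟩⟩
    · have h1 : ‖(Y.ch c).Di.mulVec (kbY (k7aCo D l) t - (Y.ch c).yc t)‖ ≤ K := hGeo.box c l hl t ht
      have h2 := (norm_le_pi_norm ((Y.ch c).Di.mulVec (kbY (k7aCo D l) t - (Y.ch c).yc t)) (0 : Fin 1)).trans h1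
      have h3 : (kbY (k7aCo D l) t - (Y.ch c).yc t : KbB KbVer.one) (0 : Fin 1) = D.y l t - (k7aLabOf (Y.ch c)).cen t := by
        have e1 : kbY (k7aCo D l) t (0 : Fin 1) = D.y l t := congrFun (k7a_g_kbY D l t) _
        show kbY (k7aCo D l) t (0 : Fin 1) - ((Y.ch c).y0 (0 : Fin 1) + t * (Y.ch c).y1 (0 : Fin 1)) = D.y l t - ((Y.ch c).y0 (0 : Fin 1) + (Y.ch c).y1 (0 : Fin 1) * t)
        rw [e1]
        ring
      rw [k7a_g_chart_mulVec, Real.norm_eq_abs, h3] at h2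
      have h4 : D.y l t - (k7aLabOf (Y.ch c)).cen t
          = (Y.ch c).D (0 : Fin 1) (0 : Fin 1) * ((Y.ch c).Di (0 : Fin 1) (0 : Fin 1) * (D.y l t - (k7aLabOf (Y.ch c)).cen t)) := by
        rw [← mul_assoc, hinv, one_mul]
      rw [h4, abs_mul, hJ, mul_comm K]
      exact mul_le_mul_of_nonneg_left h2 (abs_nonneg _)
    · have h1 : |kbX (Y.ch c).T (k7aCo D l) t| ≤ K * a := hGeo.val c l hl t ht
      have h2 : kbX (Y.ch c).T (k7aCo D l) t = D.x l t - (k7aLabOf (Y.ch c)).F t (D.y l t) := by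
        show (Y.ch c).T t (kbY (k7aCo D l) t) (kbW (k7aCo D l) t) = D.x l t - -((Y.ch c).T t (fun _ => D.y l t) 0)
        rw [k7a_g_kbY, k7a_g_kbW, (hWF.adm c).2 rfl t _ (D.x l t)]
        ring
      rw [← h2]
      exact h1

end BrChart

/-! ## leaf BR-MC -/

section BrMc

variable {Λ : Type} [MeasurableSpace Λ] {D : K7aData Λ} {wd : Λ → ℕ} {Sf : Finset ℕ} {E : Set (Λ × ℝ)} {K Q : ℝ}

/-- **G6** the mass of a chart in real coordinates.
PLAN.  `mC c = (P.sel S).mu γ (Y.S c) ≤ P.mu γ (Y.S c)` (`k2a_sel_mu_le hS γ`), `k7a_g_mu`, `hWF.S_sub`, `measure_mono`. -/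
theorem k7a_g_mc (h : K7aFrame D wd Sf E K Q) (S : (k7aPb D wd Sf E).W → Set (Λ × ℝ)) (Y : KbSys ((k7aPb D wd Sf E).sel S)) (hS : ∀ γ, MeasurableSet (S γ)) (hWF : Y.WF) (c : Y.C) :
    D.om wd (k7aWn (Y.wd c)) * Y.mC c ≤ D.mu (Y.A c ×ˢ Y.I c) := by
  have h1 : Y.mC c ≤ (k7aPb D wd Sf E).mu (Y.wd c) (Y.S c) := k2a_sel_mu_le hS (Y.wd c) (Y.S c)
  calc D.om wd (k7aWn (Y.wd c)) * Y.mC c ≤ D.om wd (k7aWn (Y.wd c)) * (k7aPb D wd Sf E).mu (Y.wd c) (Y.S c) := mul_le_mul' le_rfl h1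
    _ = D.mu (Y.S c ∩ {z | wd z.1 = k7aWn (Y.wd c)}) := k7a_g_mu h (Y.wd c) (Y.S c)
    _ ≤ D.mu (Y.A c ×ˢ Y.I c) := measure_mono fun z hz => (hWF.S_sub c hz.1).2

/-- **G6** the true floor in real coordinates.
PLAN.  `q c a^d J ≤ K (n J q)` (`hn`, `0 ≤ q`, `0 ≤ J`); `ENNReal.ofReal_mul`; `hTru c`; `k7a_g_mc`. -/
theorem k7a_g_floor (h : K7aFrame D wd Sf E K Q) (S : (k7aPb D wd Sf E).W → Set (Λ × ℝ)) (Y : KbSys ((k7aPb D wd Sf E).sel S)) (hS : ∀ γ, MeasurableSet (S γ)) (hWF : Y.WF) {c d a n : ℝ}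
    (hTru : Y.Tru K n) (hn : c * a ^ d ≤ K * n) (ch : Y.C) :
    ENNReal.ofReal (Y.q * c * a ^ d * (Y.ch ch).J) * D.om wd (k7aWn (Y.wd ch)) ≤ ENNReal.ofReal (K ^ 2) * D.mu (Y.A ch ×ˢ Y.I ch) := by
  have hK := h.K_one
  have hK0 : 0 ≤ K := by linarith
  have hq0 : 0 ≤ Y.q := by
    unfold KbSys.q kbQ
    positivity
  have hJ0 : 0 ≤ (Y.ch ch).J := abs_nonneg _
  have h1 : Y.q * c * a ^ d * (Y.ch ch).J ≤ K * (n * (Y.ch ch).J * Y.q) := by
    calc Y.q * c * a ^ d * (Y.ch ch).J = (c * a ^ d) * (Y.q * (Y.ch ch).J) := by ring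
      _ ≤ (K * n) * (Y.q * (Y.ch ch).J) := mul_le_mul_of_nonneg_right hn (mul_nonneg hq0 hJ0)
      _ = K * (n * (Y.ch ch).J * Y.q) := by ring
  calc ENNReal.ofReal (Y.q * c * a ^ d * (Y.ch ch).J) * D.om wd (k7aWn (Y.wd ch))
      ≤ ENNReal.ofReal (K * (n * (Y.ch ch).J * Y.q)) * D.om wd (k7aWn (Y.wd ch)) := mul_le_mul' (ENNReal.ofReal_le_ofReal h1) le_rfl
    _ = ENNReal.ofReal K * ENNReal.ofReal (n * (Y.ch ch).J * Y.q) * D.om wd (k7aWn (Y.wd ch)) := by rw [ENNReal.ofReal_mul hK0]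
    _ ≤ ENNReal.ofReal K * (ENNReal.ofReal K * Y.mC ch) * D.om wd (k7aWn (Y.wd ch)) := mul_le_mul' (mul_le_mul' le_rfl (hTru ch)) le_rfl
    _ = ENNReal.ofReal (K ^ 2) * (D.om wd (k7aWn (Y.wd ch)) * Y.mC ch) := by
        rw [pow_two, ENNReal.ofReal_mul hK0]
        ring
    _ ≤ ENNReal.ofReal (K ^ 2) * D.mu (Y.A ch ×ˢ Y.I ch) := mul_le_mul' le_rfl (k7a_g_mc h S Y hS hWF ch)

end BrMc

/-! ## leaf BR-EXIT -/

section BrExit

variable {Λ : Type} [MeasurableSpace Λ] {D : K7aData Λ} {wd : Λ → ℕ} {Sf : Finset ℕ} {E : Set (Λ × ℝ)} {K Q : ℝ}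

/-- **G6, EXIT at one scale**: a true terminal system of the (selected) adaptor gives one block in real coordinates.
PLAN.  `i0` from `k7a_g_best`; `C₀ = {c // Y.iv c = i0}`; `k7a_g_lab` for `A c` (`c : C₀`): disjoint inside a world by `hWF.A_disj`, across worlds because `A c ⊆ wd ⁻¹' {γ}` (`hWF.A_sub`).   `t0 = i0 q`, `q = Y.q`; `Y.I c = Ico t0 (t0 + q)` (`kbI`, `add_mul`);
`t0 + q ≤ 1` from `i0 + 1 ≤ 2^n`, `2^n q = 1`.   `L i = k7aLabOf (Y.ch (e.symm i))`, `β i = J`, `w i = k7aWn (Y.wd ..)`.   `{z | lab z.1 = some (e c) ∧ z.2 ∈ I} = A c ×ˢ I`.   Mass: `{lab ≠ none, t ∈ I} ⊇ ⋃ c, A c ×ˢ I` (disjoint, measurable: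
`measure_iUnion`/`measure_biUnion_finset`), `k7a_g_mc`, `k7a_g_best`.   Geometry: `k7a_g_chart`; floor: `k7a_g_floor`.   All slacks `K, K^2, K K', K'` are `≤ Kb` (`1 ≤ K`, `1 ≤ K'` because `q ≤ 1`). -/
theorem k7a_g_exit (h : K7aFrame D wd Sf E K Q) (S : (k7aPb D wd Sf E).W → Set (Λ × ℝ)) (Y : KbSys ((k7aPb D wd Sf E).sel S)) (hS : ∀ γ, MeasurableSet (S γ)) {c d a n K' Kb : ℝ} (ha : 0 ≤ a)
    (hWF : Y.WF) (hGeo : Y.Geo K a) (hBig : Y.Big K) (hTru : Y.Tru K n) (hn : c * a ^ d ≤ K * n) (hq : 1 ≤ K' * Y.q)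
    (hKb : K ^ 2 * K' ≤ Kb) : D.Block wd Kb c d a := by
  have hK := h.K_one
  have hq0 : 0 < Y.q := by
    unfold KbSys.q kbQ
    positivity
  have hq1 : Y.q ≤ 1 := by
    unfold KbSys.q kbQ
    exact pow_le_one₀ (by norm_num) (by norm_num)
  have hK' : 1 ≤ K' := by
    by_contra hcon
    push Not at hcon
    nlinarith
  have hK2 : K ≤ K ^ 2 := by nlinarith
  have hKK : K ^ 2 ≤ Kb := le_trans (by nlinarith [sq_nonneg K]) hKb
  have hKKb : K ≤ Kb := hK2.trans hKK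
  have hK'b : K' ≤ Kb := le_trans (by nlinarith [sq_nonneg K]) hKb
  have hKK'b : K * K' ≤ Kb := le_trans (by nlinarith [sq_nonneg K]) hKb
  obtain ⟨i0, hi0, hbest⟩ := k7a_g_best Y (by linarith) hWF.iv_lt hBig hq
  have hch := fun c => k7a_g_chart S Y hK hWF hGeo c
  have hdisj : ∀ c c' : {c : Y.C // Y.iv c = i0}, c ≠ c' → Disjoint (Y.A c.1) (Y.A c'.1) := by
    intro c c' hne
    have hne' : c.1 ≠ c'.1 := fun hh => hne (Subtype.ext hh)
    by_cases hw : Y.wd c.1 = Y.wd c'.1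
    · exact hWF.A_disj c.1 c'.1 hne' hw (c.2.trans c'.2.symm)
    · refine Set.disjoint_left.2 fun l hl hl' => hw ?_
      have e1 := ((hch c.1).2.2.2 l hl).1
      have e2 := ((hch c'.1).2.2.2 l hl').1
      have e3 : k7aWn (Y.wd c.1) = k7aWn (Y.wd c'.1) := e1.symm.trans e2
      exact Subtype.ext e3
  obtain ⟨m, e, lab, hlabm, hlab⟩ := k7a_g_lab (Λ := Λ) (C := {c : Y.C // Y.iv c = i0}) (fun c => (Y.A c.1 : Set Λ)) (fun c => hWF.A_meas c.1) hdisj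
  have h2q : (2 : ℝ) ^ Y.n * Y.q = 1 := by
    unfold KbSys.q kbQ
    rw [← mul_pow]
    norm_num
  have hI : ∀ c : {c : Y.C // Y.iv c = i0}, Y.I c.1 = Set.Ico ((i0 : ℝ) * Y.q) ((i0 : ℝ) * Y.q + Y.q) := by
    intro c
    unfold KbSys.I kbI
    rw [c.2]
    have : ((i0 : ℝ) + 1) * kbQ Y.n = (i0 : ℝ) * Y.q + Y.q := by
      unfold KbSys.q
      ring
    rw [this]
    rfl
  have hsub : ∀ c : {c : Y.C // Y.iv c = i0}, Y.A c.1 ×ˢ Y.I c.1 ⊆
      {z : Λ × ℝ | lab z.1 = some (e c) ∧ z.2 ∈ Set.Ico ((i0 : ℝ) * Y.q) ((i0 : ℝ) * Y.q + Y.q)} := by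
    intro c z hz
    exact ⟨(hlab z.1 c).2 hz.1, hI c ▸ hz.2⟩
  refine ⟨(i0 : ℝ) * Y.q, Y.q, m, lab, fun i => k7aLabOf (Y.ch (e.symm i).1), fun i => (Y.ch (e.symm i).1).J,
    fun i => k7aWn (Y.wd (e.symm i).1), by positivity, ?_, ?_, hlabm, ?_, ?_⟩
  · have h1 : (i0 : ℝ) + 1 ≤ (2 : ℝ) ^ Y.n := by exact_mod_cast hi0
    calc (i0 : ℝ) * Y.q + Y.q = ((i0 : ℝ) + 1) * Y.q := by ring
      _ ≤ (2 : ℝ) ^ Y.n * Y.q := mul_le_mul_of_nonneg_right h1 hq0.le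
      _ = 1 := h2q
  · exact hq.trans (mul_le_mul_of_nonneg_right hK'b hq0.le)
  · have h1 : ∑ c : {c : Y.C // Y.iv c = i0}, ((k7aPb D wd Sf E).sel S).om (Y.wd c.1) * Y.mC c.1
        ≤ D.mu {z | lab z.1 ≠ none ∧ z.2 ∈ Set.Ico ((i0 : ℝ) * Y.q) ((i0 : ℝ) * Y.q + Y.q)} := by
      calc ∑ c : {c : Y.C // Y.iv c = i0}, ((k7aPb D wd Sf E).sel S).om (Y.wd c.1) * Y.mC c.1
          ≤ ∑ c : {c : Y.C // Y.iv c = i0}, D.mu (Y.A c.1 ×ˢ Y.I c.1) :=
            Finset.sum_le_sum fun c _ => k7a_g_mc h S Y hS hWF c.1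
        _ = D.mu (⋃ c : {c : Y.C // Y.iv c = i0}, Y.A c.1 ×ˢ Y.I c.1) := by
            have hu := measure_iUnion (μ := D.mu) (f := fun c : {c : Y.C // Y.iv c = i0} => ((Y.A c.1 : Set Λ) ×ˢ Y.I c.1 : Set (Λ × ℝ)))
              (fun c c' hne => Set.disjoint_left.2 fun z hz hz' => Set.disjoint_left.1 (hdisj c c' hne) hz.1 hz'.1)
              (fun c => MeasurableSet.prod (hWF.A_meas c.1) (by rw [hI c]; exact measurableSet_Ico))
            rw [tsum_fintype] at hu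
            exact hu.symm
        _ ≤ _ := by
            refine measure_mono (Set.iUnion_subset fun c z hz => ?_)
            have := hsub c hz
            exact ⟨by rw [this.1]; exact Option.some_ne_none _, this.2⟩
    calc (1 : ℝ≥0∞) ≤ ENNReal.ofReal (K * K') * ∑ c : {c : Y.C // Y.iv c = i0}, ((k7aPb D wd Sf E).sel S).om (Y.wd c.1) * Y.mC c.1 := hbest
      _ ≤ ENNReal.ofReal Kb * D.mu {z | lab z.1 ≠ none ∧ z.2 ∈ Set.Ico ((i0 : ℝ) * Y.q) ((i0 : ℝ) * Y.q + Y.q)} :=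
          mul_le_mul' (ENNReal.ofReal_le_ofReal hKK'b) h1
  · intro i
    obtain ⟨hquad, hJ0, hJK, hgeo⟩ := hch (e.symm i).1
    have hei : e (e.symm i) = i := e.apply_symm_apply i
    refine ⟨hquad, hJ0, hJK.trans hKKb, ?_, ?_⟩
    · intro l hl
      have hlA : l ∈ Y.A (e.symm i).1 := (hlab l (e.symm i)).1 (by rw [hei]; exact hl)
      obtain ⟨hw, hb⟩ := hgeo l hlA
      refine ⟨hw, fun t ht => ?_⟩
      obtain ⟨b1, b2⟩ := hb t (by rw [hI (e.symm i)]; exact ht)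
      exact ⟨b1.trans (mul_le_mul_of_nonneg_right hKKb hJ0.le), b2.trans (mul_le_mul_of_nonneg_right hKKb ha)⟩
    · have h1 := k7a_g_floor h S Y hS hWF hTru hn (e.symm i).1
      have h2 := hsub (e.symm i)
      rw [hei] at h2
      exact h1.trans (mul_le_mul' (ENNReal.ofReal_le_ofReal hKK) (measure_mono h2))

end BrExit

end

end Claimed.Agent.R252

/-!
# ROW 252 (S0492), unit S7a, post BP-252-S7a-BRIDGE (sub-architect helper64): THE LEAVES ALONG `uf` (sections `Br<Name>`, merged 21:50Z) AND THE ASSEMBLY.      No `sorry` in this file.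
`k7a_g_seq` (the statement along `uf`), `k7a_g_bridge` (= `k7a_bridge`).
-/

set_option autoImplicit false

namespace Claimed.Agent.R252

open MeasureTheory Filter Topology
open Claimed.Agent.R255 (uf)
open scoped ENNReal BigOperators

noncomputable section

/-! ## leaf BR-EC -/

section BrEc

/-- `c = N^{-e_c + o(1)}`.     PLAN.  `kb_exp_exists` with `M = A`; `kbResOf_eq` (eventually `R.N k = (o k).N`), `(hH 1 one_pos)` gives `c_lo`, `c_hi`. -/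
theorem k7a_g_ec {s d A S1 u1 : ℝ} (o : ℕ → K7aObj) (hN : Tendsto (fun k => (o k).N) uf atTop)
    (hH : ∀ τ : ℝ, 0 < τ → ∀ᶠ k in uf, (o k).Hyp s d A S1 u1 τ) :
    KbExp (kbResOf (fun k => (o k).N) hN) (fun k => (o k).c) (k7aEc o hN) := by
  refine (kb_exp_exists (kbResOf (fun k => (o k).N) hN) (x := fun k => (o k).c) (M := A) ?_).1
  filter_upwards [hH 1 one_pos, kbResOf_eq (fun k => (o k).N) hN] with k hk he
  rw [he]
  exact ⟨hk.c_lo, hk.c_hi⟩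

end BrEc

/-! ## leaf BR-CMPLO -/

section BrCmpLo

theorem k7a_g_cmplo_rn {O : Type} [MeasurableSpace O] {vol ν : Measure O} [SigmaFinite vol] (C : ℝ≥0∞) (h : ν ≤ C • vol) :
    ∀ᵐ o ∂vol, ν.rnDeriv vol o ≤ C := by
  refine ae_le_of_forall_setLIntegral_le_of_sigmaFinite (Measure.measurable_rnDeriv _ _) fun s _ _ => ?_
  calc ∫⁻ x in s, ν.rnDeriv vol x ∂vol ≤ ν s := Measure.setLIntegral_rnDeriv_le s
    _ ≤ (C • vol) s := h s
    _ = ∫⁻ _ in s, C ∂vol := by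
        rw [setLIntegral_const, Measure.smul_apply, smul_eq_mul]

/-- **G3a** a uniform ceiling `N^{-g}` of the density forces the typical exponent to be `≥ g`.
PLAN.  Suppose `φ < g`, `τ = (g - φ)/3`.   One scale: `part ≤ C • volume` ⟹ `den ≤ C` a.e. (`k2a_rnDeriv_mono` against `C • volume`, `Measure.rnDeriv_smul_same`/`rnDeriv_self`; or `ae_le_of_forall_setLIntegral_le_of_sigmaFinite` with
`Measure.setLIntegral_rnDeriv_le`), hence `dn ≤ C` a.e. on incidences (`k2a_ae_of_ae`, frame `k2a_fr`, WF from `k2a_ok_wf`).   `k2a_point hE` with `A = below (N^{-φ-τ})` (power small: `k2a_lo_iff`) and `p = (dn ≤ N^{-g+τ})` gives an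
incidence with `N^{-φ-τ} ≤ dn ≤ N^{-g+τ}`; `k2a_sq_ofReal_le_iff`; contradiction.   (Model: `k2a_rel_exp_le` in `S2a/SeqContract.lean`.) -/
theorem k7a_g_cmp_lo {v : KbVer} (E : KbEx v) (hE : E.Ok) {Dl : Type} [Countable Dl] (ℓ : E.Lab Dl) (φ g : ℝ) (h : E.TypLo ℓ φ)
    (hc : ∀ τ : ℝ, 0 < τ → ∀ᶠ k in uf, ∀ γ δ, (E.P k).part (ℓ k) γ δ ≤ ENNReal.ofReal (E.R.N k ^ (-g + τ)) • volume) : g ≤ φ := by
  by_contra hcon
  have hlt : φ < g := not_le.mp hcon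
  obtain ⟨τ, hτd⟩ : ∃ τ : ℝ, τ = (g - φ) / 3 := ⟨_, rfl⟩
  have hτ : 0 < τ := by rw [hτd]; linarith
  have a2 := (k2a_lo_iff hE ℓ φ).1 h τ hτ
  have a3 : ∀ᶠ k in uf, ∀ γ, ∀ᵐ x ∂(E.P k).mu γ, (E.P k).dn (ℓ k) γ x ≤ ENNReal.ofReal (E.R.N k ^ (-g + τ)) := by
    filter_upwards [k2a_ok_wf hE, hc τ hτ] with k hwf hk
    intro γ
    have := (k2a_fr hwf γ).sf
    exact k2a_ae_of_ae (ℓ := ℓ k γ) (p := fun d o => (E.P k).den (ℓ k) γ d o ≤ ENNReal.ofReal (E.R.N k ^ (-g + τ))) (k2a_fr hwf γ)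
      (fun d => k7a_g_cmplo_rn _ (hk γ d))
  have a5 := k2a_point hE (A := fun k => (E.P k).below (ℓ k) (E.R.N k ^ (-φ - τ))) a2
    (p := fun k γ x => (E.P k).dn (ℓ k) γ x ≤ ENNReal.ofReal (E.R.N k ^ (-g + τ))) a3
  have := Claimed.Agent.R255.uf_neBot
  obtain ⟨k, γ, x, hx, hx2⟩ := a5.exists
  have c2 : ENNReal.ofReal (E.R.N k ^ (-φ - τ)) ≤ (E.P k).dn (ℓ k) γ x := not_lt.mp hx
  have c4 := c2.trans hx2
  rw [k2a_sq_ofReal_le_iff] at c4
  rw [hτd] at c4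
  linarith

end BrCmpLo

/-! ## leaf BR-CMPHI -/

section BrCmpHi

/-- one-scale core of G3b:  `tot ≤ mass (above hi) + hi * (weighted volume of the support)`.
PLAN.  World by world: `univ ⊆ above ∪ {x | bs x ∈ U γ (ℓ x) ∩ {den ≤ hi}}` up to a null set; `k2a_measure (k2a_fr hP γ) (hℓ γ)` : the second set has measure `∑' δ, ∫⁻ o in U γ δ ∩ {den δ ≤ hi}, den δ ≤ ∑' δ, hi * vol (U γ δ)`
(`setLIntegral_mono'`, `setLIntegral_const`, `measure_mono`).   `P.den = k2aDen`, `P.dn = k2aDn` by `rfl` (`k2a_den_eq`, `k2a_dn_eq`). -/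
theorem k7a_g_cmphi_core {v : KbVer} {P : KbPb v} (hP : P.WF) {Dl : Type} [Countable Dl] (ℓ : P.Lab Dl) (hℓ : P.LabMeas ℓ) (hi : ℝ)
    (U : P.W → Dl → Set (ℝ × KbB v)) (hU : ∀ γ δ, MeasurableSet (U γ δ)) (hae : ∀ γ, ∀ᵐ x ∂P.mu γ, P.bs γ x ∈ U γ (ℓ γ x)) :
    P.tot ≤ P.mass (P.above ℓ hi) + ENNReal.ofReal hi * ∑ γ, P.om γ * ∑' δ, volume (U γ δ) := by
  have key : ∀ γ, P.mu γ Set.univ ≤ P.mu γ (P.above ℓ hi γ) + ENNReal.ofReal hi * ∑' δ, volume (U γ δ) := by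
    intro γ
    have hT : ∀ δ, MeasurableSet (U γ δ ∩ {o | P.den ℓ γ δ o ≤ ENNReal.ofReal hi}) := fun δ =>
      (hU γ δ).inter (measurableSet_le (Measure.measurable_rnDeriv _ _) measurable_const)
    have h1 : P.mu γ Set.univ ≤ P.mu γ (P.above ℓ hi γ ∪ {x | P.bs γ x ∈ U γ (ℓ γ x) ∩ {o | P.den ℓ γ (ℓ γ x) o ≤ ENNReal.ofReal hi}}) := by
      refine measure_mono_ae ?_
      filter_upwards [hae γ] with x hx _
      by_cases hd : ENNReal.ofReal hi < P.dn ℓ γ x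
      · exact Or.inl hd
      · exact Or.inr ⟨hx, not_lt.mp hd⟩
    have h2 : P.mu γ {x | P.bs γ x ∈ U γ (ℓ γ x) ∩ {o | P.den ℓ γ (ℓ γ x) o ≤ ENNReal.ofReal hi}}
        ≤ ENNReal.ofReal hi * ∑' δ, volume (U γ δ) := by
      rw [k2a_measure (k2a_fr hP γ) (hℓ γ) (T := fun δ => U γ δ ∩ {o | P.den ℓ γ δ o ≤ ENNReal.ofReal hi}) hT, ← ENNReal.tsum_mul_left]
      refine ENNReal.tsum_le_tsum fun δ => ?_
      calc ∫⁻ o in U γ δ ∩ {o | P.den ℓ γ δ o ≤ ENNReal.ofReal hi}, k2aDen volume (P.mu γ) (P.bs γ) (ℓ γ) δ o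
          ≤ ∫⁻ _ in U γ δ ∩ {o | P.den ℓ γ δ o ≤ ENNReal.ofReal hi}, ENNReal.ofReal hi := setLIntegral_mono' (hT δ) fun o ho => ho.2
        _ = ENNReal.ofReal hi * volume (U γ δ ∩ {o | P.den ℓ γ δ o ≤ ENNReal.ofReal hi}) := setLIntegral_const _ _
        _ ≤ ENNReal.ofReal hi * volume (U γ δ) := mul_le_mul_right (measure_mono Set.inter_subset_left) _
    exact h1.trans ((measure_union_le _ _).trans (add_le_add_right h2 _))
  calc P.tot = ∑ γ, P.om γ * P.mu γ Set.univ := rfl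
    _ ≤ ∑ γ, (P.om γ * P.mu γ (P.above ℓ hi γ) + ENNReal.ofReal hi * (P.om γ * ∑' δ, volume (U γ δ))) := by
        refine Finset.sum_le_sum fun γ _ => ?_
        calc P.om γ * P.mu γ Set.univ ≤ P.om γ * (P.mu γ (P.above ℓ hi γ) + ENNReal.ofReal hi * ∑' δ, volume (U γ δ)) :=
              mul_le_mul_right (key γ) _
          _ = _ := by rw [mul_add, mul_left_comm]
    _ = _ := by
        rw [Finset.sum_add_distrib, ← Finset.mul_sum]
        rfl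

/-- **G3b** a support of weighted volume `N^{g}` forces the typical exponent to be `≤ g`.
PLAN.  Suppose `g < φ`, `τ = (φ - g)/4`.   Core with `hi = N^{-φ+τ}` : `tot ≤ N^{-c} + N^{-φ+τ} N^{g+τ}` (`k2a_up_iff`), but `1 ≤ N^{τ'} tot` for every `τ'` (`hE.2.2`): contradiction for large `N` (`kb_L3_rpow_neg_le`). -/
theorem k7a_g_cmp_hi {v : KbVer} (E : KbEx v) (hE : E.Ok) {Dl : Type} [Countable Dl] (ℓ : E.Lab Dl) (hℓ : ∀ᶠ k in uf, (E.P k).LabMeas (ℓ k))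
    (φ g : ℝ) (h : E.TypUp ℓ φ)
    (hc : ∀ τ : ℝ, 0 < τ → ∀ᶠ k in uf, ∃ U : (E.P k).W → Dl → Set (ℝ × KbB v), (∀ γ δ, MeasurableSet (U γ δ)) ∧
      (∀ γ, ∀ᵐ x ∂(E.P k).mu γ, (E.P k).bs γ x ∈ U γ (ℓ k γ x)) ∧
      ∑ γ, (E.P k).om γ * ∑' δ, volume (U γ δ) ≤ ENNReal.ofReal (E.R.N k ^ (g + τ))) : φ ≤ g := by
  by_contra hcon
  have hlt : g < φ := not_le.mp hcon
  obtain ⟨τ, hτd⟩ : ∃ τ : ℝ, τ = (φ - g) / 4 := ⟨_, rfl⟩
  have hτ : 0 < τ := by rw [hτd]; linarith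
  have a3 := (k2a_up_iff hE ℓ φ).1 h τ hτ
  have hB : K2aPow E.R fun k => ENNReal.ofReal (E.R.N k ^ (-(2 * τ))) := ⟨2 * τ, by linarith, Eventually.of_forall fun _ => le_rfl⟩
  have a4 : K2aPow E.R (k2aM E fun _ _ => Set.univ) := by
    refine k2a_pow_mono ?_ (k2a_pow_add a3 hB)
    filter_upwards [k2a_ok_wf hE, hℓ, hc τ hτ] with k hwf hl hk
    obtain ⟨U, hU, hae, hvol⟩ := hk
    refine (k7a_g_cmphi_core hwf (ℓ k) hl (E.R.N k ^ (-φ + τ)) U hU hae).trans (add_le_add_right ?_ _)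
    calc ENNReal.ofReal (E.R.N k ^ (-φ + τ)) * ∑ γ, (E.P k).om γ * ∑' δ, volume (U γ δ)
        ≤ ENNReal.ofReal (E.R.N k ^ (-φ + τ)) * ENNReal.ofReal (E.R.N k ^ (g + τ)) := mul_le_mul_right hvol _
      _ = ENNReal.ofReal (E.R.N k ^ (-(2 * τ))) := by
          rw [k2a_sq_ofReal_mul]
          congr 2
          rw [hτd]
          ring
  have a5 := k2a_point hE a4 (p := fun _ _ _ => True) (Eventually.of_forall fun _ _ => Eventually.of_forall fun _ => trivial)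
  have := Claimed.Agent.R255.uf_neBot
  obtain ⟨k, γ, x, hx, -⟩ := a5.exists
  exact hx (Set.mem_univ _)

end BrCmpHi

/-! ## leaf BR-OK -/

section BrOk

/-- monotonicity of the native bounds in the slack -/
theorem k7a_g_ok_ntv_mono {v : KbVer} {P : KbPb v} (hP : P.WF) {K K' : ℝ} (hK : P.Ntv K) (hKK : K ≤ K') : P.Ntv K' where
  base := fun γ l hl t ht => (hK.base γ l hl t ht).trans hKK
  sig := fun γ l hl t ht => (hK.sig γ l hl t ht).trans hKK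
  dw := fun γ l hl t ht => (hK.dw γ l hl t ht).trans (mul_le_mul_of_nonneg_right hKK (hP.B_pos γ).le)
  dw_low := fun γ x hx => (hK.dw_low γ x hx).trans (mul_le_mul_of_nonneg_right hKK (abs_nonneg _))
  dww := fun γ t y w => (hK.dww γ t y w).trans (mul_le_mul_of_nonneg_right hKK (sq_nonneg _))
  mass := hK.mass.trans (mul_le_mul' (ENNReal.ofReal_le_ofReal hKK) le_rfl)

/-- **G2** the exact problem of the sequence is `Ok`.
PLAN.  `M = |A| + 1`: from `hH 1`, `k7a_g_frame`, `k7a_g_wf`, `k7a_g_tmp` (`K = N^1`, `Q = N^A`), `kbResOf_eq`.   `Ntv` : `hH (τ/2)`, `k7a_g_ntv` gives `Ntv (4 N^{τ/2})`; `4 ≤ N^{τ/2}` eventually (`kb_rpow_tendsto`);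
monotonicity of `Ntv` in the slack: copy the proof of `k2a_sel_ntv` (`S2a/PbContract.lean`). -/
theorem k7a_g_ok {s d A S1 u1 : ℝ} (o : ℕ → K7aObj) (hN : Tendsto (fun k => (o k).N) uf atTop)
    (hH : ∀ τ : ℝ, 0 < τ → ∀ᶠ k in uf, (o k).Hyp s d A S1 u1 τ) (hs : 0 < s) : (k7aEx o hN s).Ok := by
  refine ⟨hs, ⟨|A| + 1, ?_⟩, fun τ hτ => ?_⟩
  · filter_upwards [hH 1 one_pos, kbResOf_eq (fun k => (o k).N) hN] with k H hR
    have hR' : (k7aEx o hN s).R.N k = (o k).N := hR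
    have hN1 : 1 ≤ (o k).N := by linarith [H.two_le]
    have hfr := k7a_g_frame zero_le_one H
    rw [hR']
    exact ⟨k7a_g_wf hfr, k7a_g_tmp hfr (Real.rpow_le_rpow_of_exponent_le hN1 (by linarith [abs_nonneg A]))
      (Real.rpow_le_rpow_of_exponent_le hN1 (by linarith [le_abs_self A]))⟩
  · have hτ2 : 0 < τ / 2 := by linarith
    filter_upwards [hH (τ / 2) hτ2, kbResOf_eq (fun k => (o k).N) hN,
      (kb_rpow_tendsto (kbResOf (fun k => (o k).N) hN) hτ2).eventually_ge_atTop 4] with k H hR h4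
    have hR' : (k7aEx o hN s).R.N k = (o k).N := hR
    have hN0 : 0 < (o k).N := by linarith [H.two_le]
    rw [hR] at h4
    have hfr := k7a_g_frame hτ2.le H
    rw [hR']
    refine k7a_g_ok_ntv_mono (k7a_g_wf hfr) (k7a_g_ntv hfr) ?_
    have e : (o k).N ^ τ = (o k).N ^ (τ / 2) * (o k).N ^ (τ / 2) := by
      rw [← Real.rpow_add hN0]
      congr 1
      ring
    rw [e]
    exact mul_le_mul_of_nonneg_right h4 (Real.rpow_pos_of_pos hN0 _).le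

end BrOk

/-! ## leaf BR-PROFA -/

section BrProfA

/-- exponent arithmetic of the ceiling -/
theorem k7a_g_profa_num {N τ ec c d r : ℝ} (hN : 2 ≤ N) (h2 : 2 ≤ N ^ (τ / 4)) (hc : c ≤ N ^ (-ec + τ / 4)) :
    2 * N ^ (τ / 4) * c * (N ^ (-r)) ^ d ≤ N ^ (-(ec + d * r) + τ) := by
  have hN0 : 0 < N := by linarith
  have e1 : (N ^ (-r)) ^ d = N ^ (-r * d) := by rw [← Real.rpow_mul hN0.le]
  have e2 : N ^ (-(ec + d * r) + τ) = N ^ (τ / 4) * N ^ (τ / 4) * N ^ (-ec + τ / 4) * N ^ (-r * d) * N ^ (τ / 4) := by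
    rw [← Real.rpow_add hN0, ← Real.rpow_add hN0, ← Real.rpow_add hN0, ← Real.rpow_add hN0]
    congr 1
    ring
  rw [e1, e2]
  have hx : 0 < N ^ (τ / 4) := Real.rpow_pos_of_pos hN0 _
  have hy : 0 < N ^ (-ec + τ / 4) := Real.rpow_pos_of_pos hN0 _
  have hw : 0 < N ^ (-r * d) := Real.rpow_pos_of_pos hN0 _
  generalize N ^ (τ / 4) = x at *
  generalize N ^ (-ec + τ / 4) = y at *
  generalize N ^ (-r * d) = w at *
  have s1 : 2 * x * c * w ≤ 2 * x * y * w :=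
    mul_le_mul_of_nonneg_right (mul_le_mul_of_nonneg_left hc (by positivity)) hw.le
  have s2 : 2 * x * y * w ≤ x * x * y * w :=
    mul_le_mul_of_nonneg_right (mul_le_mul_of_nonneg_right (mul_le_mul_of_nonneg_right h2 hx.le) hy.le) hw.le
  have s3 : x * x * y * w ≤ x * x * y * w * x := le_mul_of_one_le_right (by positivity) (by linarith)
  linarith

/-- **G4** `e_c + d r ≤ f r 0`.
PLAN.  `k7a_g_cmp_lo` for `E = (k7aEx o hN s).sel S`, `ℓ = E.hid r`, `φ = f r 0` (`(hf.pure r hr).2`), `g = e_c + d r`.   For `τ > 0` use `hH (τ/4)`, `k7a_g_frame`, `k7a_g_cap` with `a = N^{-s}`, `a' = N^{-r}`, `kbResOf_eq`,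
`k7a_g_ec` (`c ≤ N^{-e_c + τ/4}`), `(N^{-r})^d = N^{-(d r)}` (`Real.rpow_mul`), `2 ≤ N^{τ/4}` eventually.   `(E.P k) = (k7aPb ..).sel (S k)` and `E.hid r k = (k7aPb ..).hid (R.N k ^ (-r))` by `rfl`. -/
theorem k7a_g_prof_cap {s d A S1 u1 : ℝ} (o : ℕ → K7aObj) (hN : Tendsto (fun k => (o k).N) uf atTop)
    (hH : ∀ τ : ℝ, 0 < τ → ∀ᶠ k in uf, (o k).Hyp s d A S1 u1 τ) (hs : 0 < s) (hd : d < 1) (S : (k7aEx o hN s).Sel)
    (hS : ∀ᶠ k in uf, ∀ γ, MeasurableSet (S k γ)) (hOk : ((k7aEx o hN s).sel S).Ok) (f : ℝ → ℝ → ℝ) (hf : ((k7aEx o hN s).sel S).Hom f)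
    (r : ℝ) (hr : r ∈ Set.Icc 0 s) : k7aEc o hN + d * r ≤ f r 0 := by
  refine k7a_g_cmp_lo ((k7aEx o hN s).sel S) hOk (((k7aEx o hN s).sel S).hid r) (f r 0) (k7aEc o hN + d * r)
    (hf.pure r hr).2 fun τ hτ => ?_
  have hτ4 : 0 < τ / 4 := by linarith
  filter_upwards [hH (τ / 4) hτ4, kbResOf_eq (fun k => (o k).N) hN, k7a_g_ec o hN hH (τ / 4) hτ4, hS,
    (kb_rpow_tendsto (kbResOf (fun k => (o k).N) hN) hτ4).eventually_ge_atTop 2] with k H hR hec hSk h2 γ δ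
  have hR' : ((k7aEx o hN s).sel S).R.N k = (o k).N := hR
  have hN2 := H.two_le
  have hN0 : 0 < (o k).N := by linarith
  have hN1 : 1 ≤ (o k).N := by linarith
  rw [hR] at hec h2
  have hc0 : 0 ≤ (o k).c := (Real.rpow_pos_of_pos hN0 _).le.trans H.c_lo
  have hcap := k7a_g_cap (k7a_g_frame hτ4.le H) (S k) hSk (a' := (o k).N ^ (-r)) hc0 hd (Real.rpow_pos_of_pos hN0 _)
    (Real.rpow_le_rpow_of_exponent_le hN1 (by linarith [hr.2]))
    (Real.rpow_le_one_of_one_le_of_nonpos hN1 (by linarith [hr.1])) H.ecap γ δ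
  have e : ((k7aEx o hN s).sel S).hid r k = (k7aPb (o k).D (o k).wd ((o k).D.wS (o k).wd) (o k).D.ev).hid ((o k).N ^ (-r)) := by
    show (((k7aEx o hN s).sel S).P k).hid (((k7aEx o hN s).sel S).R.N k ^ (-r)) = _
    rw [hR']
    rfl
  rw [e, hR']
  refine le_trans hcap ?_
  refine Measure.le_iff.2 fun B _ => ?_
  simp only [Measure.smul_apply, smul_eq_mul]
  exact mul_le_mul' (ENNReal.ofReal_le_ofReal (k7a_g_profa_num hN2 h2 hec.2)) le_rfl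

end BrProfA

/-! ## leaf BR-PROFB -/

section BrProfB

/-- **G4** `f s 0 ≤ e_c + d s`.
PLAN.  `k7a_g_cmp_hi` for `E = (k7aEx o hN s).sel S`, `ℓ = E.hid s`, `φ = f s 0` (`(hf.pure s _).1`), `g = e_c + d s`; label measurability: `k2a_hid_meas` (WF from `k2a_ok_wf hOk`).   For `τ > 0` : `hH (τ/4)`, `k7a_g_frame`, `k7a_g_sup`;
divide by `c a^d ≥ N^{-e_c - τ/4} N^{-d s}` (`k7a_g_ec`; `ENNReal.ofReal_mul`, `ENNReal.le_div_iff_mul_le` or multiply by the inverse power); `3 ≤ N^{τ/4}` eventually. -/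
theorem k7a_g_prof_sup {s d A S1 u1 : ℝ} (o : ℕ → K7aObj) (hN : Tendsto (fun k => (o k).N) uf atTop)
    (hH : ∀ τ : ℝ, 0 < τ → ∀ᶠ k in uf, (o k).Hyp s d A S1 u1 τ) (hs : 0 < s) (S : (k7aEx o hN s).Sel)
    (hS : ∀ᶠ k in uf, ∀ γ, MeasurableSet (S k γ)) (hOk : ((k7aEx o hN s).sel S).Ok) (f : ℝ → ℝ → ℝ) (hf : ((k7aEx o hN s).sel S).Hom f) :
    f s 0 ≤ k7aEc o hN + d * s := by
  refine k7a_g_cmp_hi ((k7aEx o hN s).sel S) hOk (((k7aEx o hN s).sel S).hid s) ?_ (f s 0) (k7aEc o hN + d * s)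
    (hf.pure s ⟨hs.le, le_rfl⟩).1 ?_
  · filter_upwards [k2a_ok_wf hOk] with k hk
    exact k2a_hid_meas hk _
  · intro τ hτ
    have hτ4 : 0 < τ / 4 := by positivity
    filter_upwards [hH (τ / 4) hτ4, hS, k7a_g_ec o hN hH (τ / 4) hτ4, kbResOf_eq (fun k => (o k).N) hN,
      (kb_rpow_tendsto (kbResOf (fun k => (o k).N) hN) hτ4).eventually_ge_atTop 3] with k a1 a2 a3 a4 a5
    have hfr := k7a_g_frame hτ4.le a1
    have hN0 : 0 < (o k).N := by linarith [a1.two_le]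
    have hN1 : 1 ≤ (o k).N := by linarith [a1.two_le]
    have e : ((k7aEx o hN s).sel S).R.N k = (o k).N := a4
    have ea : ((k7aEx o hN s).sel S).a s k = (o k).N ^ (-s) := by
      unfold KbEx.a
      rw [e]
    have hsup : (o k).D.ESup (o k).wd ((o k).N ^ (τ / 4)) (o k).c d (((k7aEx o hN s).sel S).a s k) := by
      rw [ea]
      exact a1.esup
    have b3 : (o k).N ^ (-(k7aEc o hN) - τ / 4) ≤ (o k).c := by
      have := a3.1
      rw [a4] at this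
      exact this
    have b5 : 3 ≤ (o k).N ^ (τ / 4) := by
      have := a5
      rw [a4] at this
      exact this
    obtain ⟨U, hU1, hU2, hU3⟩ := k7a_g_sup hfr (S k) a2 (c := (o k).c) (d := d) (a := ((k7aEx o hN s).sel S).a s k)
      (by rw [ea]; exact Real.rpow_pos_of_pos hN0 _) hsup
    refine ⟨U, hU1, hU2, ?_⟩
    rw [e]
    obtain ⟨X, hX⟩ : ∃ X : ℝ≥0∞, X = ∑ γ, (k7aPb (o k).D (o k).wd ((o k).D.wS (o k).wd) (o k).D.ev).om γ * ∑' δ, volume (U γ δ) := ⟨_, rfl⟩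
    rw [← hX] at hU3
    show ∑ γ, (k7aPb (o k).D (o k).wd ((o k).D.wS (o k).wd) (o k).D.ev).om γ * ∑' δ, volume (U γ δ) ≤ _
    rw [← hX]
    rw [ea] at hU3
    have h1 : ((o k).N ^ (-s)) ^ d = (o k).N ^ (-s * d) := (Real.rpow_mul hN0.le _ _).symm
    have hw : (o k).N ^ (-(k7aEc o hN) - τ / 4 + -s * d) ≤ (o k).c * ((o k).N ^ (-s)) ^ d := by
      rw [Real.rpow_add hN0, h1]
      exact mul_le_mul_of_nonneg_right b3 (Real.rpow_nonneg hN0.le _)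
    calc X = ENNReal.ofReal ((o k).N ^ (k7aEc o hN + τ / 4 + s * d)) * (ENNReal.ofReal ((o k).N ^ (-(k7aEc o hN) - τ / 4 + -s * d)) * X) := by
          rw [← mul_assoc, ← ENNReal.ofReal_mul (Real.rpow_nonneg hN0.le _), ← Real.rpow_add hN0]
          have : k7aEc o hN + τ / 4 + s * d + (-(k7aEc o hN) - τ / 4 + -s * d) = 0 := by ring
          rw [this, Real.rpow_zero, ENNReal.ofReal_one, one_mul]
      _ ≤ ENNReal.ofReal ((o k).N ^ (k7aEc o hN + τ / 4 + s * d)) * (ENNReal.ofReal ((o k).c * ((o k).N ^ (-s)) ^ d) * X) :=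
          mul_le_mul' le_rfl (mul_le_mul' (ENNReal.ofReal_le_ofReal hw) le_rfl)
      _ ≤ ENNReal.ofReal ((o k).N ^ (k7aEc o hN + τ / 4 + s * d)) * ENNReal.ofReal (3 * (o k).N ^ (τ / 4)) := mul_le_mul' le_rfl hU3
      _ = ENNReal.ofReal ((o k).N ^ (k7aEc o hN + τ / 4 + s * d) * (3 * (o k).N ^ (τ / 4))) :=
          (ENNReal.ofReal_mul (Real.rpow_nonneg hN0.le _)).symm
      _ ≤ ENNReal.ofReal ((o k).N ^ (k7aEc o hN + d * s + τ)) := by
          refine ENNReal.ofReal_le_ofReal ?_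
          calc (o k).N ^ (k7aEc o hN + τ / 4 + s * d) * (3 * (o k).N ^ (τ / 4))
              ≤ (o k).N ^ (k7aEc o hN + τ / 4 + s * d) * ((o k).N ^ (τ / 4) * (o k).N ^ (τ / 4)) :=
                mul_le_mul_of_nonneg_left (mul_le_mul_of_nonneg_right b5 (Real.rpow_nonneg hN0.le _)) (Real.rpow_nonneg hN0.le _)
            _ = (o k).N ^ (k7aEc o hN + τ / 4 + s * d + (τ / 4 + τ / 4)) := by
                rw [← Real.rpow_add hN0, ← Real.rpow_add hN0]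
            _ ≤ (o k).N ^ (k7aEc o hN + d * s + τ) := Real.rpow_le_rpow_of_exponent_le hN1 (by linarith)

end BrProfB

/-! ## leaf BR-PROFC -/

section BrProfC

/-- exponent arithmetic of the angular ceiling -/
theorem k7a_g_profc_num {N τ ec c d s S1 u : ℝ} (hN : 2 ≤ N) (h4 : 4 ≤ N ^ (τ / 4)) (hc : c ≤ N ^ (-ec + τ / 4)) :
    4 * N ^ (τ / 4) * c * (N ^ (-s)) ^ d * N ^ (-(S1 * u)) ≤ N ^ (-(ec + d * s + S1 * u) + τ) := by
  have hN0 : 0 < N := by linarith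
  have e1 : (N ^ (-s)) ^ d = N ^ (-s * d) := by rw [← Real.rpow_mul hN0.le]
  have e2 : N ^ (-(ec + d * s + S1 * u) + τ)
      = N ^ (τ / 4) * N ^ (τ / 4) * N ^ (-ec + τ / 4) * N ^ (-s * d) * N ^ (-(S1 * u)) * N ^ (τ / 4) := by
    rw [← Real.rpow_add hN0, ← Real.rpow_add hN0, ← Real.rpow_add hN0, ← Real.rpow_add hN0, ← Real.rpow_add hN0]
    congr 1
    ring
  rw [e1, e2]
  have hx : 0 < N ^ (τ / 4) := Real.rpow_pos_of_pos hN0 _
  have hy : 0 < N ^ (-ec + τ / 4) := Real.rpow_pos_of_pos hN0 _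
  have hw : 0 < N ^ (-s * d) := Real.rpow_pos_of_pos hN0 _
  have hz : 0 < N ^ (-(S1 * u)) := Real.rpow_pos_of_pos hN0 _
  generalize N ^ (τ / 4) = x at *
  generalize N ^ (-ec + τ / 4) = y at *
  generalize N ^ (-s * d) = w at *
  generalize N ^ (-(S1 * u)) = z at *
  have s1 : 4 * x * c * w * z ≤ 4 * x * y * w * z :=
    mul_le_mul_of_nonneg_right (mul_le_mul_of_nonneg_right (mul_le_mul_of_nonneg_left hc (by positivity)) hw.le) hz.le
  have s2 : 4 * x * y * w * z ≤ x * x * y * w * z :=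
    mul_le_mul_of_nonneg_right (mul_le_mul_of_nonneg_right (mul_le_mul_of_nonneg_right
      (mul_le_mul_of_nonneg_right h4 hx.le) hy.le) hw.le) hz.le
  have s3 : x * x * y * w * z ≤ x * x * y * w * z * x := le_mul_of_one_le_right (by positivity) (by linarith)
  linarith

/-- **G4** `e_c + d s + S1 u ≤ f s u`.
PLAN.  As `k7a_g_prof_cap` with `ℓ = E.hv s u`, `φ = f s u` (`(hf.joint s _ u hu.le).2`), `k7a_g_ang`;  `E.hv s u k = (k7aPb ..).hv (R.N k ^ (-s)) (R.N k ^ (-u))` by `rfl`. -/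
theorem k7a_g_prof_ang {s d A S1 u1 : ℝ} (o : ℕ → K7aObj) (hN : Tendsto (fun k => (o k).N) uf atTop)
    (hH : ∀ τ : ℝ, 0 < τ → ∀ᶠ k in uf, (o k).Hyp s d A S1 u1 τ) (hs : 0 < s) (S : (k7aEx o hN s).Sel)
    (hS : ∀ᶠ k in uf, ∀ γ, MeasurableSet (S k γ)) (hOk : ((k7aEx o hN s).sel S).Ok) (f : ℝ → ℝ → ℝ) (hf : ((k7aEx o hN s).sel S).Hom f)
    (u : ℝ) (hu : 0 < u) (hu1 : u ≤ u1) : k7aEc o hN + d * s + S1 * u ≤ f s u := by
  refine k7a_g_cmp_lo ((k7aEx o hN s).sel S) hOk (((k7aEx o hN s).sel S).hv s u) (f s u) (k7aEc o hN + d * s + S1 * u)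
    (hf.joint s ⟨hs.le, le_rfl⟩ u hu.le).2 fun τ hτ => ?_
  have hτ4 : 0 < τ / 4 := by linarith
  filter_upwards [hH (τ / 4) hτ4, kbResOf_eq (fun k => (o k).N) hN, k7a_g_ec o hN hH (τ / 4) hτ4, hS,
    (kb_rpow_tendsto (kbResOf (fun k => (o k).N) hN) hτ4).eventually_ge_atTop 4] with k H hR hec hSk h4 γ δ
  have hR' : ((k7aEx o hN s).sel S).R.N k = (o k).N := hR
  have hN2 := H.two_le
  have hN0 : 0 < (o k).N := by linarith
  rw [hR] at hec h4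
  have hc0 : 0 ≤ (o k).c := (Real.rpow_pos_of_pos hN0 _).le.trans H.c_lo
  have hang := k7a_g_ang (k7a_g_frame hτ4.le H) (S k) hSk hc0 (Real.rpow_pos_of_pos hN0 _) hN0 hu hu1 H.eang γ δ
  have e : ((k7aEx o hN s).sel S).hv s u k
      = (k7aPb (o k).D (o k).wd ((o k).D.wS (o k).wd) (o k).D.ev).hv ((o k).N ^ (-s)) ((o k).N ^ (-u)) := by
    show (((k7aEx o hN s).sel S).P k).hv (((k7aEx o hN s).sel S).R.N k ^ (-s)) (((k7aEx o hN s).sel S).R.N k ^ (-u)) = _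
    rw [hR']
    rfl
  rw [e, hR']
  refine le_trans hang ?_
  refine Measure.le_iff.2 fun B _ => ?_
  simp only [Measure.smul_apply, smul_eq_mul]
  exact mul_le_mul' (ENNReal.ofReal_le_ofReal (k7a_g_profc_num hN2 h4 hec.2)) le_rfl

end BrProfC

/-! ## leaf BR-EXITSEQ -/

section BrExitSeq

/-- **G6 along `uf`.**
PLAN.  `τ = τ'/4`.   Eventually: `hH τ` + `k7a_g_frame`; `hS`; `hY.1.1` (WF), `hY.1.2.1 τ` (Geo, Big), `hY.1.2.2 τ` (`N^{-h-τ} ≤ q`, so `1 ≤ N^{h+τ} q`), `hY.2 τ` (Tru against `n = N^{-f s 0}`), `k7a_g_ec` (`c ≤ N^{-e_c+τ}`), `kbResOf_eq`.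
`c a^d ≤ N^{-e_c + τ - d s} ≤ N^τ N^{-f s 0}` (`hf`).   `k7a_g_exit` with `K = N^τ`, `K' = N^{h+τ}`, `Kb = N^{τ'}` : `2τ + h + τ ≤ τ'`.   `(E.P k) = (k7aPb ..).sel (S k)`, `E.a s k = R.N k ^ (-s)` by `rfl`. -/
theorem k7a_g_exit_seq {s d A S1 u1 : ℝ} (o : ℕ → K7aObj) (hN : Tendsto (fun k => (o k).N) uf atTop)
    (hH : ∀ τ : ℝ, 0 < τ → ∀ᶠ k in uf, (o k).Hyp s d A S1 u1 τ) (S : (k7aEx o hN s).Sel)
    (hS : ∀ᶠ k in uf, ∀ γ, MeasurableSet (S k γ)) (f : ℝ → ℝ → ℝ) (Y : ((k7aEx o hN s).sel S).Sys) {τ' h : ℝ} (hτ' : 0 < τ') (hh : h < τ' / 4)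
    (hY : ((k7aEx o hN s).sel S).IsTrueSys f Y s h) (hf : f s 0 ≤ k7aEc o hN + d * s) :
    ∀ᶠ k in uf, (o k).D.Block (o k).wd ((o k).N ^ τ') (o k).c d ((o k).N ^ (-s)) := by
  obtain ⟨τ, hτdef⟩ : ∃ τ : ℝ, τ = τ' / 4 := ⟨_, rfl⟩
  have hτ : 0 < τ := by rw [hτdef]; positivity
  obtain ⟨M, hM⟩ := hY.1.1
  filter_upwards [hH τ hτ, hS, hM, hY.1.2.1 τ hτ, hY.1.2.2 τ hτ, hY.2 τ hτ, k7a_g_ec o hN hH τ hτ,
    kbResOf_eq (fun k => (o k).N) hN] with k a1 a2 a3 a4 a5 a6 a7 a8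
  have hfr := k7a_g_frame hτ.le a1
  have hN0 : 0 < (o k).N := by linarith [a1.two_le]
  have hN1 : 1 ≤ (o k).N := by linarith [a1.two_le]
  have e : ((k7aEx o hN s).sel S).R.N k = (o k).N := a8
  have b4 : (Y k).Geo ((o k).N ^ τ) ((o k).N ^ (-s)) := by
    have := a4.1
    unfold KbEx.a at this
    rw [e] at this
    exact this
  have b4' : (Y k).Big ((o k).N ^ τ) := by
    have := a4.2
    rw [e] at this
    exact this
  have b5 : (o k).N ^ (-h - τ) ≤ (Y k).q := by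
    have := a5.1
    rw [e] at this
    exact this
  have b6 : (Y k).Tru ((o k).N ^ τ) ((o k).N ^ (-(f s 0))) := by
    have := a6
    rw [e] at this
    exact this
  have b7 : (o k).c ≤ (o k).N ^ (-(k7aEc o hN) + τ) := by
    have := a7.2
    rw [a8] at this
    exact this
  refine k7a_g_exit hfr (S k) (Y k) a2 (n := (o k).N ^ (-(f s 0))) (K' := (o k).N ^ (h + τ)) (Real.rpow_nonneg hN0.le _) a3.1 b4 b4' b6
    ?_ ?_ ?_
  · have h1 : ((o k).N ^ (-s)) ^ d = (o k).N ^ (-s * d) := (Real.rpow_mul hN0.le _ _).symm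
    rw [h1]
    calc (o k).c * (o k).N ^ (-s * d) ≤ (o k).N ^ (-(k7aEc o hN) + τ) * (o k).N ^ (-s * d) :=
          mul_le_mul_of_nonneg_right b7 (Real.rpow_nonneg hN0.le _)
      _ = (o k).N ^ (-(k7aEc o hN) + τ + -s * d) := (Real.rpow_add hN0 _ _).symm
      _ ≤ (o k).N ^ (τ + -(f s 0)) := Real.rpow_le_rpow_of_exponent_le hN1 (by nlinarith)
      _ = (o k).N ^ τ * (o k).N ^ (-(f s 0)) := Real.rpow_add hN0 _ _
  · calc (1 : ℝ) = (o k).N ^ (h + τ) * (o k).N ^ (-h - τ) := by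
          rw [← Real.rpow_add hN0]
          have : h + τ + (-h - τ) = 0 := by ring
          rw [this, Real.rpow_zero]
      _ ≤ (o k).N ^ (h + τ) * (Y k).q := mul_le_mul_of_nonneg_left b5 (Real.rpow_nonneg hN0.le _)
  · have h1 : ((o k).N ^ τ) ^ 2 = (o k).N ^ (τ * 2) := by
      rw [Real.rpow_mul hN0.le]
      norm_cast
    rw [h1, ← Real.rpow_add hN0]
    exact Real.rpow_le_rpow_of_exponent_le hN1 (by rw [hτdef] at *; linarith)

end BrExitSeq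

/-! ## the assembly -/

/-- **the bridge along `uf`** -/
theorem k7a_g_seq (h : ∀ S η d : ℝ, 0 < S → 0 < η → ¬ KbBad KbVer.one S η d) {s d A S1 u1 : ℝ} (hs : 0 < s) (hd : d < 1) (hS1 : 0 < S1)
    (hu1 : 0 < u1) (o : ℕ → K7aObj) (hN : Tendsto (fun k => (o k).N) uf atTop)
    (hH : ∀ τ : ℝ, 0 < τ → ∀ᶠ k in uf, (o k).Hyp s d A S1 u1 τ) (τ' : ℝ) (hτ' : 0 < τ') :
    ∀ᶠ k in uf, (o k).D.Block (o k).wd ((o k).N ^ τ') (o k).c d ((o k).N ^ (-s)) := by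
  have hOk0 : (k7aEx o hN s).Ok := k7a_g_ok o hN hH hs
  obtain ⟨S, f, hSd, hf⟩ := kb_homog (k7aEx o hN s) hOk0
  have hOk : ((k7aEx o hN s).sel S).Ok := kb_sel_ok _ hOk0 S hSd
  have hSm := hSd.1
  have hA := fun r hr => k7a_g_prof_cap o hN hH hs hd S hSm hOk f hf r hr
  have hB := k7a_g_prof_sup o hN hH hs S hSm hOk f hf
  have hC := fun u hu hu1 => k7a_g_prof_ang o hN hH hs S hSm hOk f hf u hu hu1
  have hL : ((k7aEx o hN s).sel S).L = s := rfl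
  have hcap : ((k7aEx o hN s).sel S).Cap d S1 (u1 / s) f := by
    refine ⟨hOk, hf, hd, ?_, ?_⟩
    · intro r hr
      rw [hL] at hr ⊢
      have := hA r hr
      linarith
    · intro u hu huL
      rw [hL] at huL ⊢
      have e : u1 / s * s = u1 := by field_simp
      rw [e] at huL
      have := hC u hu huL
      linarith
  have hHor : ¬ 0 < ((k7aEx o hN s).sel S).Hor f := fun hpos => h S1 (u1 / s) d hS1 (div_pos hu1 hs) ⟨_, f, hcap, hpos⟩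
  obtain ⟨Y0, hY0⟩ := kb_horizon_le _ hOk f hf
  have hne : (((k7aEx o hN s).sel S).costs f).Nonempty := ⟨s, hs.le, Y0, hY0⟩
  have hlt : sInf (((k7aEx o hN s).sel S).costs f) < τ' / 4 := lt_of_le_of_lt (not_lt.1 hHor) (by positivity)
  obtain ⟨h0, ⟨-, Y, hY⟩, hh⟩ := exists_lt_of_csInf_lt hne hlt
  exact k7a_g_exit_seq o hN hH S hSm f Y hτ' hh hY hB

/-- **the bridge** -/
theorem k7a_g_bridge (h : ∀ S η d : ℝ, 0 < S → 0 < η → ¬ KbBad KbVer.one S η d) : k7a_FrontAng := by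
  intro s d A S1 u1 τ' hs hd hS1 hu1 hτ'
  obtain ⟨τ, hτ, N₁, hN₁⟩ := kb_transfer K7aObj.N (K7aObj.Hyp s d A S1 u1)
    (fun t o => o.D.Block o.wd (o.N ^ t) o.c d (o.N ^ (-s))) (fun a b o hab hh => k7a_g_hyp_mono s d A S1 u1 a b o hab hh)
    (fun o hN hH t ht => k7a_g_seq h hs hd hS1 hu1 o hN hH t ht) τ' hτ'
  refine ⟨τ, hτ, max N₁ 2, fun N hN Λ _ D wd c h1 h2 h3 h4 h5 h6 h7 h8 => ?_⟩
  exact hN₁ ⟨N, Λ, inferInstance, D, wd, c⟩ (le_of_max_le_left hN) ⟨le_of_max_le_right hN, h1, h2, h3, h4, h5, h6, h7, h8⟩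

end

end Claimed.Agent.R252

/-!
# ROW 252 (S0492), unit S7a, file BRIDGE (post BP-252-S7a-BRIDGE; prefix `k7a_g_`):  "no bad problem in version 1"  ⟹  `k7a_FrontAng`  (= Cor 6.x `a05:scalar-zero-horizon` at finite scale).      CONTRACT.

The hypothesis is `KtNoBad KbVer.one` of `Top/Chain.lean`, written out (defeq), so that this file only imports BASE.

PLAN (helper26, 20:30Z).  Fix `(s, d, A, S1, u1, τ')`, suppose the statement fails.
G0  `kb_bad_seq` (Obj = `Σ N Λ inst D wd c`, a `Type 1`; `Hyp τ o` = all hypotheses with slack `N^τ`, monotone in `τ` for `N ≥ 1`; put `2 ≤ N` into `Hyp`)  gives ONE sequence `o k` with `N k → ∞` along `uf`,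
    every hypothesis with every fixed slack eventually, and `¬ Block (N^τ')` for ALL `k`.     `R := kbResOf N`;   `e_c` := exponent of `c k` (`kb_exp_exists`, `N^{-A} ≤ c ≤ N^A`).
G1  ADAPTOR (one scale) `k7aPb D wd E : KbPb .one` :   `W` := the worlds `γ` of the finite set of `Tmp.card` with `D.om wd γ ≠ 0` (a subtype of a `Finset ℕ`);  `Lam := Λ`;  `om γ := D.om wd γ`;
    `nu γ := (D.om wd γ)⁻¹ • D.nu.restrict (wd ⁻¹' {γ})`;   `co γ l := (![y0 l], ![y1 l], ![x0 l, x1 l, x2 l])`;   `Sp γ := wd ⁻¹' {γ}`;   `Ev γ := E ∩ (wd ⁻¹' {γ}) ×ˢ Icc 0 1` (`E` from `D.Evt`);   `B := 1`;  `Pst := fun _ _ w => w`.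
    G1a `WF` (`ac`, and `Tmp.dens`: transport `K7aU = ℝ⁵ → KbTj .one` by a volume preserving measurable equivalence),   G1b `Tmp (N^{A+1})`,   G1c `Ntv (4 K)` from `Adm K`  (`tot = D.mu univ`),
    G1d dictionary:  `om γ * (k7aPb ..).mu γ S = D.mu (S ∩ {z | wd z.1 = γ})`,  `kbY`, `kbW`, `kbV`, `bs`, `hw` in terms of `D.y`, `D.x`, `D.y1`, `D.bs`.
G2  `E₀ : KbEx .one := ⟨R, s, fun k => k7aPb ..⟩` is `Ok`;   `kb_homog` : dense selection `S`, joint profile `f`;   `E := E₀.sel S` is `Ok` (`kb_sel_ok`) and `Hom f`.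
G3  TWO GENERAL COMPARISON LEMMAS for an `Ok` problem (one-scale cores + 10 lines along `uf`; ask helper129 (S2aA) whether he has them):
    G3a  if `E.Typ ℓ φ` and eventually `part ℓ γ δ ≤ N^{-g+τ} • volume` for all `γ δ` (every `τ`), then `g ≤ φ`          (otherwise all the mass lies in `below`, which is power small, but the mass is `≥ N^{-τ}`);
    G3b  if `E.Typ ℓ φ` and eventually the observation is a.e. in sets `U γ δ` with `∑_γ om γ ∑_δ vol (U γ δ) ≤ N^{g+τ}`, then `φ ≤ g`          (mass of `{dn ≤ hi}` is `≤ hi ·` support; `above` is power small).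
G4  THE CAP CLASS.  `ECap` (`p := kbDy (N^{-r}) ∈ [a, 1]`, a dyadic bin is an `Ico xs (xs+p)`) + G3a :  `e_c + d r ≤ f r 0` for `0 ≤ r ≤ s`  (for `d < 0` use `p ≥ N^{-r}`, for `d ≥ 0` `p ≤ 2 N^{-r}`);
    `ESup` (a dyadic bin of width `kbDy a < 2a` meets `≤ 3` bins `⌊x/a⌋`) + G3b :  `f s 0 ≤ e_c + d s`;      `EAng` (cover both dyadic bins by two `Ico`'s) + G3a :  `e_c + d s + S1 u ≤ f s u`, `0 < u ≤ u1`.
    All three hypotheses pass to the selection `S` (upper bounds / smaller support).      Hence `E.Cap d S1 (u1 / s) f`.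
G5  hypothesis ⟹ `¬ 0 < E.Hor f`;  `costs` is nonempty (`kb_horizon_le`) ⟹ there is a true terminal system `Y` of cost `h < τ' / 4`.
G6  EXIT (one scale): `Y : KbSys ((k7aPb ..).sel S)` with `WF`, `Geo K a`, `Big K`, `Tru K n`, `n ≥ c a^d / K`, `q ≥ 1/K'`  ⟹  `D.Block wd (C K^C K') c d a` :
    best interval `i₀` (pigeonhole over `2^n` intervals: mass `≥ q / K`);  labels = charts with `iv c = i₀` (re-index by `Fintype.equivFin`), `lab l` = THE chart with `l ∈ A c` (disjoint: inside a world by `A_disj`, across worlds by `A_sub`);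
    `cen := yc`, `F t y := - T t ![y] 0` (`KbAdm`: `T t y w = w + T t y 0`, quadratic), `β := |D 0 0| = J`  (`D * Di = 1` ⟹ `|y - yc| ≤ K β`), `β ≤ q K` (`size`);   floor: `om * mC c ≤ D.mu {lab = c, t ∈ I}` by G1d and `S_sub`.
G7  contradiction with `¬ Block (N^τ')` for one `k` of the (nonempty) eventual set.

DONE (helper64 + helper113, helper124, helper219; 21:20Z): `S7a/BrDefs.lean` (definitions + one-scale lemmas), `S7a/BrMain.lean` (lemmas along `uf`, `k7a_g_seq`, `k7a_g_bridge`); no `sorry` in either; open debts = the hubs `kb_homog`, `kb_sel_ok`, `kb_horizon_le` of `Base/Hub2.lean`.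
-/

set_option autoImplicit false

namespace Claimed.Agent.R252

/-- **the bridge**: Cor 6.x at finite scale -/
theorem k7a_bridge (h : ∀ S η d : ℝ, 0 < S → 0 < η → ¬ KbBad KbVer.one S η d) : k7a_FrontAng :=
  k7a_g_bridge h

end Claimed.Agent.R252
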