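import Claimed.Agent.R252.S7a.T71Contract

/-!
# ROW 252 (S0492), unit S7a, post BP-252-S7a-CROP (sub-architect helper85; chief helper26), file 1: **PROFILES AND CROPPED LAWS** (07 l.173-226).   PAPER-FREE, Mathlib + `S7a/Defs` + `S7a/T71Contract`.

Every `sorry` is a LEAF `L-252-S7aC-*` (name in the docstring).  Statements frozen (tell helper85 if one looks false); prove IN PLACE, helper lemmas directly above, prefix `k7a_c`.   ALL constants explicit, NO powers of `N` in ss2-4.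

* s0 basics: measurability, a.e. time in `[0,1]`, bounds.          * s1 the profile `K7aProf` (output of `k7a_homog` for the labels `D.lbl N r u = (⌊x/N^{-r}⌋, ⌊y1/N^{-u}⌋)`), its upper and lower bounds, rounding of intervals to bins.
* s2 crops: `D.crw G l = (⌊y0/G⌋, ⌊y1/G⌋)`, worlds `D.cwd G`, prior mass `D.cpr G l` of the crop of `l`, used trajectories `D.cW G lo hi = {lo < cpr ≤ hi}`, pigeonhole `k7a_c_level`.
* s3 the cropped law `D.crop G W E0` : prior `ν(· | W)`, active measure `μ|_{E0 ∩ W × ℝ} / ν W`, coefficients `fract (y0/G)`, `fract (y1/G)`, `x` unchanged.   In the crop `(i,j)`:  `y'(t) = (y(t) - G (i + j t)) / G`,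
  i.e. `bs' z = Φ (bs z)`, `Φ (t,y) = (t, (y - G (i + j t))/G)`, `vol (Φ⁻¹ B) = G vol B` (`k7a_c_vol_pre`).     The six hypotheses of `k7a_FrontAng` for the cropped law: `k7a_c_crop_adm/evt/tmp/ecap/eangW/esup`.
* s4 lifting a block of the cropped law: `k7a_c_lift` (labels whose world is not a used crop are dropped: `k7a_c_block_filter`).
File 2 (`S7a/CropMain.lean`): exponents and the theorem `k7a_c_front : k7a_FrontAng → k7a_Front`.
-/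

set_option autoImplicit false

namespace Claimed.Agent.R252

open MeasureTheory
open scoped ENNReal BigOperators

noncomputable section

variable {Λ : Type} [MeasurableSpace Λ]

/-! ## 0. Basics -/

/-- **L-252-S7aC-B1** (the next seven statements, ~120 l.) -/
theorem k7a_c_meas (D : K7aData Λ) {K : ℝ} (hD : D.Adm K) :
    Measurable D.y0 ∧ Measurable D.y1 ∧ Measurable D.x0 ∧ Measurable D.x1 ∧ Measurable D.x2 := by
  have h := hD.meas
  exact ⟨h.fst, h.snd.fst, h.snd.snd.fst, h.snd.snd.snd.fst, h.snd.snd.snd.snd⟩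

theorem k7a_c_meas_bs (D : K7aData Λ) {K : ℝ} (hD : D.Adm K) : Measurable D.bs := by
  obtain ⟨h0, h1, _, _, _⟩ := k7a_c_meas D hD
  unfold K7aData.bs K7aData.y
  exact measurable_snd.prodMk ((h0.comp measurable_fst).add ((h1.comp measurable_fst).mul measurable_snd))

theorem k7a_c_meas_x (D : K7aData Λ) {K : ℝ} (hD : D.Adm K) : Measurable fun z : Λ × ℝ => D.x z.1 z.2 := by
  obtain ⟨_, _, h0, h1, h2⟩ := k7a_c_meas D hD
  unfold K7aData.x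
  exact ((h0.comp measurable_fst).add ((h1.comp measurable_fst).mul measurable_snd)).add
    ((h2.comp measurable_fst).mul (measurable_snd.pow_const 2))

/-- the active measure is finite, of mass `≤ K` -/
theorem k7a_c_mass_le (D : K7aData Λ) {K : ℝ} (hD : D.Adm K) : D.mu Set.univ ≤ ENNReal.ofReal K := by
  have := hD.prob
  have : SFinite k7aTm := k7a_jadm_tm_sfinite
  refine le_trans (hD.dom _) ?_
  rw [Measure.smul_apply, smul_eq_mul, ← Set.univ_prod_univ, Measure.prod_prod]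
  have h1 : k7aTm Set.univ = 1 := by
    unfold k7aTm
    rw [Measure.restrict_apply MeasurableSet.univ, Set.univ_inter, Real.volume_Icc]
    norm_num
  rw [h1, mul_one, measure_univ, mul_one]

/-- `μ (A × ℝ) ≤ K ν A` -/
theorem k7a_c_mu_cyl (D : K7aData Λ) {K : ℝ} (hD : D.Adm K) (A : Set Λ) (hA : MeasurableSet A) :
    D.mu (A ×ˢ Set.univ) ≤ ENNReal.ofReal K * D.nu A := by
  have := hD.prob
  have : SFinite k7aTm := k7a_jadm_tm_sfinite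
  refine le_trans (hD.dom _) ?_
  rw [Measure.smul_apply, smul_eq_mul, Measure.prod_prod]
  have h1 : k7aTm Set.univ = 1 := by
    unfold k7aTm
    rw [Measure.restrict_apply MeasurableSet.univ, Set.univ_inter, Real.volume_Icc]
    norm_num
  rw [h1, mul_one]

theorem k7a_c_ae_time (D : K7aData Λ) {K : ℝ} (hD : D.Adm K) : ∀ᵐ z ∂D.mu, z.2 ∈ Set.Icc (0 : ℝ) 1 := by
  have := hD.prob
  exact ae_mono hD.dom (Measure.ae_smul_measure (k7a_jsup_time D.nu) _)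

theorem k7a_c_bd (D : K7aData Λ) {K : ℝ} (hD : D.Adm K) (l : Λ) {t : ℝ} (ht : t ∈ Set.Icc (0 : ℝ) 1) :
    |D.y l t| ≤ 2 * K ∧ |D.x l t| ≤ 3 * K := by
  obtain ⟨h0, h1, h2, h3, h4⟩ := hD.bd l
  obtain ⟨t0, t1⟩ := ht
  have hK : 0 ≤ K := le_trans (abs_nonneg _) h0
  rw [abs_le] at h0 h1 h2 h3 h4
  have ht2 : t ^ 2 ≤ 1 := by nlinarith
  have ht2' : 0 ≤ t ^ 2 := by positivity
  unfold K7aData.y K7aData.x
  constructor
  · rw [abs_le]
    constructor <;> nlinarith [h0.1, h0.2, h1.1, h1.2]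
  · rw [abs_le]
    constructor <;> nlinarith [h2.1, h2.2, h3.1, h3.2, h4.1, h4.2]

/-- auxiliary: the weight of the only world -/
theorem k7a_c_om_zero (D : K7aData Λ) {K : ℝ} (hD : D.Adm K) : D.om (fun _ => 0) 0 = 1 := by
  have := hD.prob
  unfold K7aData.om
  have h : (fun _ : Λ => (0 : ℕ)) ⁻¹' {0} = Set.univ := by ext; simp
  rw [h, measure_univ]

/-- **L-252-S7aC-B2** (~100 l.).  `d < 0` is impossible at large scales: the unit cap (`p = 1`, the `≤ 6K + 2` unit bins of `x`) over the base set `⋃ k, U 0 k` of the terminal support, against the mass `≥ 1/K`.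
`om (fun _ => 0) 0 = ν univ = 1`. -/
theorem k7a_c_dneg (D : K7aData Λ) {K c d a : ℝ} (hD : D.Adm K) (hK : 1 ≤ K) (hc : 0 < c) (ha0 : 0 < a) (ha1 : a ≤ 1)
    (hcap : D.ECap (fun _ => 0) K c d a) (hsup : D.ESup (fun _ => 0) K c d a) : a ^ d ≤ 8 * K ^ 4 := by
  classical
  obtain ⟨U, hUm, hUae, hUsum⟩ := hsup
  have hom := k7a_c_om_zero D hD
  set B : Set (ℝ × ℝ) := ⋃ k, U 0 k with hB
  have hBm : MeasurableSet B := MeasurableSet.iUnion (hUm 0)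
  have hvolB : ENNReal.ofReal (c * a ^ d) * volume B ≤ ENNReal.ofReal K := by
    refine le_trans (mul_le_mul_right ?_ _) hUsum
    calc volume B ≤ ∑' k, volume (U 0 k) := measure_iUnion_le _
      _ = D.om (fun _ => 0) 0 * ∑' k, volume (U 0 k) := by rw [hom, one_mul]
      _ ≤ ∑' γ, D.om (fun _ => 0) γ * ∑' k, volume (U γ k) :=
          ENNReal.le_tsum (f := fun γ => D.om (fun _ => 0) γ * ∑' k, volume (U γ k)) 0
  set I : Finset ℤ := Finset.Icc ⌊-(3 * K)⌋ ⌊3 * K⌋ with hI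
  have hcard : (I.card : ℝ) ≤ 6 * K + 2 := by
    rw [hI, Int.card_Icc]
    have h1 : (⌊3 * K⌋ : ℝ) ≤ 3 * K := Int.floor_le _
    have h2 : -(3 * K) < ⌊-(3 * K)⌋ + 1 := Int.lt_floor_add_one _
    have h3 : (0 : ℤ) ≤ ⌊3 * K⌋ + 1 - ⌊-(3 * K)⌋ := by
      have : ⌊-(3 * K)⌋ ≤ ⌊3 * K⌋ := Int.floor_le_floor (by linarith)
      omega
    have h4 : (((⌊3 * K⌋ + 1 - ⌊-(3 * K)⌋).toNat : ℕ) : ℝ) = ((⌊3 * K⌋ + 1 - ⌊-(3 * K)⌋ : ℤ) : ℝ) := by
      rw [← Int.cast_natCast, Int.toNat_of_nonneg h3]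
    rw [h4]; push_cast; linarith
  have hcover : D.mu Set.univ ≤ ∑ n ∈ I, D.mu {z | (fun _ : Λ => (0 : ℕ)) z.1 = 0 ∧ D.bs z ∈ B ∧
      D.x z.1 z.2 ∈ Set.Ico (n : ℝ) ((n : ℝ) + 1)} := by
    refine le_trans ?_ (measure_biUnion_finset_le I _)
    have hae : ∀ᵐ z ∂D.mu, z ∈ ⋃ n ∈ I, {z : Λ × ℝ | (fun _ : Λ => (0 : ℕ)) z.1 = 0 ∧ D.bs z ∈ B ∧
        D.x z.1 z.2 ∈ Set.Ico (n : ℝ) ((n : ℝ) + 1)} := by
      filter_upwards [hUae, k7a_c_ae_time D hD] with z hz ht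
      have hx := (k7a_c_bd D hD z.1 ht).2
      rw [abs_le] at hx
      refine Set.mem_biUnion (x := ⌊D.x z.1 z.2⌋) ?_ ⟨rfl, Set.mem_iUnion.2 ⟨_, hz⟩, Int.floor_le _, Int.lt_floor_add_one _⟩
      rw [Finset.mem_coe, hI, Finset.mem_Icc]
      exact ⟨Int.floor_le_floor hx.1, Int.floor_le_floor hx.2⟩
    exact measure_mono_ae (hae.mono (fun z hz _ => hz))
  have hterm : ∀ n ∈ I, D.mu {z | (fun _ : Λ => (0 : ℕ)) z.1 = 0 ∧ D.bs z ∈ B ∧
      D.x z.1 z.2 ∈ Set.Ico (n : ℝ) ((n : ℝ) + 1)} ≤ ENNReal.ofReal (K * c) * volume B := by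
    intro n _
    have h := hcap 0 B 1 n hBm ha1 le_rfl
    rwa [hom, mul_one, Real.one_rpow, mul_one] at h
  have hmu : D.mu Set.univ ≤ (I.card : ℝ≥0∞) * (ENNReal.ofReal (K * c) * volume B) := by
    refine le_trans hcover (le_trans (Finset.sum_le_card_nsmul _ _ _ hterm) ?_)
    rw [nsmul_eq_mul]
  have hK0 : 0 ≤ K := by linarith
  have had : 0 < a ^ d := Real.rpow_pos_of_pos ha0 d
  have hfin : ENNReal.ofReal (c * a ^ d) ≤ ENNReal.ofReal (K * I.card * (K * c) * K) := by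
    calc ENNReal.ofReal (c * a ^ d) = ENNReal.ofReal (c * a ^ d) * 1 := (mul_one _).symm
      _ ≤ ENNReal.ofReal (c * a ^ d) * (ENNReal.ofReal K * D.mu Set.univ) := mul_le_mul_right hD.mass _
      _ ≤ ENNReal.ofReal (c * a ^ d) * (ENNReal.ofReal K * ((I.card : ℝ≥0∞) * (ENNReal.ofReal (K * c) * volume B))) :=
          mul_le_mul_right (mul_le_mul_right hmu _) _
      _ = ENNReal.ofReal K * (I.card : ℝ≥0∞) * ENNReal.ofReal (K * c) * (ENNReal.ofReal (c * a ^ d) * volume B) := by ring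
      _ ≤ ENNReal.ofReal K * (I.card : ℝ≥0∞) * ENNReal.ofReal (K * c) * ENNReal.ofReal K := mul_le_mul_right hvolB _
      _ = ENNReal.ofReal (K * I.card * (K * c) * K) := by
          rw [ENNReal.ofReal_mul (show 0 ≤ K * (I.card : ℝ) * (K * c) by positivity),
            ENNReal.ofReal_mul (show 0 ≤ K * (I.card : ℝ) by positivity), ENNReal.ofReal_mul (q := (I.card : ℝ)) hK0,
            ENNReal.ofReal_natCast]
  rw [ENNReal.ofReal_le_ofReal_iff (by positivity)] at hfin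
  have h1 : a ^ d ≤ K ^ 3 * I.card := by
    have h2 : c * a ^ d ≤ c * (K ^ 3 * I.card) := by
      calc c * a ^ d ≤ K * I.card * (K * c) * K := hfin
        _ = c * (K ^ 3 * I.card) := by ring
    exact le_of_mul_le_mul_left h2 hc
  have hK3 : 0 ≤ K ^ 3 := by positivity
  calc a ^ d ≤ K ^ 3 * I.card := h1
    _ ≤ K ^ 3 * (6 * K + 2) := mul_le_mul_of_nonneg_left hcard hK3
    _ ≤ K ^ 3 * (8 * K) := mul_le_mul_of_nonneg_left (by linarith) hK3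
    _ = 8 * K ^ 4 := by ring

/-- a finite grid of `[0, L]` of step `δ` -/
def K7aGrid (G : Finset ℝ) (L δ : ℝ) : Prop :=
  (0 : ℝ) ∈ G ∧ L ∈ G ∧ (∀ x ∈ G, 0 ≤ x ∧ x ≤ L) ∧ ∀ x, 0 ≤ x → x ≤ L → ∃ g ∈ G, g ≤ x ∧ x ≤ g + δ

/-- **L-252-S7aC-B3** (the next two statements, ~100 l.).  `G = insert L (image (fun i : ℕ => i δ) (range n) filtered by ≤ L)`, `g = ⌊x/δ⌋₊ δ`. -/
theorem k7a_c_grid (L δ : ℝ) (hL : 0 ≤ L) (hδ : 0 < δ) : ∃ G : Finset ℝ, K7aGrid G L δ := by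
  classical
  refine ⟨insert L ((Finset.range (⌊L / δ⌋₊ + 1)).image (fun i : ℕ => (i : ℝ) * δ)), ?_, ?_, ?_, ?_⟩
  · refine Finset.mem_insert_of_mem (Finset.mem_image.2 ⟨0, Finset.mem_range.2 (Nat.succ_pos _), ?_⟩)
    simp
  · exact Finset.mem_insert_self _ _
  · intro x hx
    rcases Finset.mem_insert.1 hx with rfl | hx
    · exact ⟨hL, le_rfl⟩
    · obtain ⟨i, hi, rfl⟩ := Finset.mem_image.1 hx
      refine ⟨by positivity, ?_⟩
      have h1 : i ≤ ⌊L / δ⌋₊ := Nat.lt_succ_iff.1 (Finset.mem_range.1 hi)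
      have h2 : (i : ℝ) ≤ L / δ := le_trans (by exact_mod_cast h1) (Nat.floor_le (by positivity))
      rwa [le_div_iff₀ hδ] at h2
  · intro x hx0 hxL
    refine ⟨(⌊x / δ⌋₊ : ℝ) * δ, Finset.mem_insert_of_mem (Finset.mem_image.2 ⟨⌊x / δ⌋₊, ?_, rfl⟩), ?_, ?_⟩
    · rw [Finset.mem_range, Nat.lt_succ_iff]
      exact Nat.floor_le_floor (div_le_div_of_nonneg_right hxL hδ.le)
    · have h := Nat.floor_le (show 0 ≤ x / δ by positivity)
      rwa [le_div_iff₀ hδ] at h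
    · have h := (Nat.lt_floor_add_one (x / δ)).le
      rw [div_le_iff₀ hδ] at h
      linarith

/-- rounding a width `p ∈ [N^{-L}, 1]` to the grid (`x = - logb N p`, `Real.rpow_logb`) -/
theorem k7a_c_round {N L δ p : ℝ} {G : Finset ℝ} (hN : 1 < N) (hG : K7aGrid G L δ) (hp0 : N ^ (-L) ≤ p) (hp1 : p ≤ 1) :
    ∃ g ∈ G, N ^ (-(g + δ)) ≤ p ∧ p ≤ N ^ (-g) := by
  have hN0 : 0 < N := lt_trans zero_lt_one hN
  have hp : 0 < p := lt_of_lt_of_le (Real.rpow_pos_of_pos hN0 _) hp0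
  have h1 : 0 ≤ - Real.logb N p := by
    have := Real.logb_nonpos hN hp.le hp1
    linarith
  have h2 : - Real.logb N p ≤ L := by
    have := (Real.le_logb_iff_rpow_le hN hp).2 hp0
    linarith
  obtain ⟨g, hg, hg1, hg2⟩ := hG.2.2.2 _ h1 h2
  refine ⟨g, hg, ?_, ?_⟩
  · exact (Real.le_logb_iff_rpow_le hN hp).1 (by linarith)
  · exact (Real.logb_le_iff_le_rpow hN hp).1 (by linarith)

/-! ## 1. Profiles -/

/-- the label at the depths `(r, u)` : the `x`-bin of width `N^{-r}` and the velocity bin of width `N^{-u}` -/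
def K7aData.lbl (D : K7aData Λ) (N r u : ℝ) (z : Λ × ℝ) : ℤ × ℤ := (⌊D.x z.1 z.2 / N ^ (-r)⌋, ⌊D.y1 z.1 / N ^ (-u)⌋)

/-- **a homogenised profile**: on the event `E0` the joint exact-base density of the label at the depths `(r,u)` is `≤ H r u`, and its support has measure `≤ θ μ(univ) / H r u` -/
structure K7aProf (D : K7aData Λ) (N : ℝ) (Gr Gu : Finset ℝ) (θ : ℝ) (E0 : Set (Λ × ℝ)) (H : ℝ → ℝ → ℝ) : Prop where
  meas : MeasurableSet E0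
  ceil : ∀ r ∈ Gr, ∀ u ∈ Gu, ∀ (e : ℤ × ℤ) (B : Set (ℝ × ℝ)), MeasurableSet B →
    D.mu (E0 ∩ D.lbl N r u ⁻¹' {e} ∩ D.bs ⁻¹' B) ≤ ENNReal.ofReal (H r u) * volume B
  supp : ∀ r ∈ Gr, ∀ u ∈ Gu, ∃ U : ℤ × ℤ → Set (ℝ × ℝ), (∀ e, MeasurableSet (U e)) ∧ (∀ z ∈ E0, D.bs z ∈ U (D.lbl N r u z)) ∧
    ENNReal.ofReal (H r u / θ) * ∑' e, volume (U e) ≤ D.mu Set.univ

theorem k7a_c_defs_cite1 : True := by
  have := @K7aData.lbl.eq_1; have := @K7aGrid.eq_1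
  trivial

/-- **L-252-S7aC-P0** (~40 l.) -/
theorem k7a_c_meas_lbl (D : K7aData Λ) {K : ℝ} (hD : D.Adm K) (N r u : ℝ) : Measurable (D.lbl N r u) := by
  obtain ⟨_, h1, _, _, _⟩ := k7a_c_meas D hD
  unfold K7aData.lbl
  exact (((k7a_c_meas_x D hD).div_const _).floor).prodMk (((h1.comp measurable_fst).div_const _).floor)

/-- auxiliary: the fibres of a floor -/
theorem k7a_c_floor_fib {P : ℝ} (hP : 0 < P) (x : ℝ) (k : ℤ) : ⌊x / P⌋ = k ↔ x ∈ Set.Ico (k * P) (k * P + P) := by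
  rw [Int.floor_eq_iff, le_div_iff₀ hP, div_lt_iff₀ hP, Set.mem_Ico, add_mul, one_mul]

/-- **L-252-S7aC-P0** fibres of the label (`Int.floor_eq_iff`, `div_lt_iff₀`, `le_div_iff₀`) -/
theorem k7a_c_lbl_fib (D : K7aData Λ) {N : ℝ} (hN : 0 < N) (r u : ℝ) (k m : ℤ) (z : Λ × ℝ) :
    D.lbl N r u z = (k, m) ↔ D.x z.1 z.2 ∈ Set.Ico (k * N ^ (-r)) (k * N ^ (-r) + N ^ (-r)) ∧
      D.y1 z.1 ∈ Set.Ico (m * N ^ (-u)) (m * N ^ (-u) + N ^ (-u)) := by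
  unfold K7aData.lbl
  rw [Prod.mk.injEq, k7a_c_floor_fib (Real.rpow_pos_of_pos hN _), k7a_c_floor_fib (Real.rpow_pos_of_pos hN _)]

/-- **L-252-S7aC-P5** (the next two statements, ~120 l.).  The ceilings `ECap`, `ESl` on the fibres of a label (`k7a_c_lbl_fib`; `p = N^{-r} ∈ [N^{-s}, 1]`, `xs = e.1 p`, `ρ = N^{-u}`, `vs = e.2 ρ`; `om (fun _ => 0) 0 = ν univ = 1`; `measure_mono`). -/
theorem k7a_c_ce_cap (D : K7aData Λ) {K c d s N r : ℝ} (hD : D.Adm K) (hN : 1 < N) (hr0 : 0 ≤ r) (hrs : r ≤ s)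
    (hcap : D.ECap (fun _ => 0) K c d (N ^ (-s))) (u : ℝ) (e : ℤ × ℤ) (B : Set (ℝ × ℝ)) (hB : MeasurableSet B) :
    D.mu (D.lbl N r u ⁻¹' {e} ∩ D.bs ⁻¹' B) ≤ ENNReal.ofReal (K * c * (N ^ (-r)) ^ d) * volume B := by
  have hN0 : 0 < N := lt_trans zero_lt_one hN
  have h := hcap 0 B (N ^ (-r)) (e.1 * N ^ (-r)) hB
    (Real.rpow_le_rpow_of_exponent_le hN.le (by linarith))
    (Real.rpow_le_one_of_one_le_of_nonpos hN.le (by linarith))
  rw [k7a_c_om_zero D hD, mul_one] at h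
  refine le_trans (measure_mono ?_) h
  rintro z ⟨hz1, hz2⟩
  have hz1' : D.lbl N r u z = (e.1, e.2) := hz1
  exact ⟨rfl, hz2, ((k7a_c_lbl_fib D hN0 r u e.1 e.2 z).1 hz1').1⟩

theorem k7a_c_ce_sl (D : K7aData Λ) {K c d s N r u σ : ℝ} (hD : D.Adm K) (hN : 1 < N) (hr0 : 0 ≤ r) (hrs : r ≤ s)
    (hsl : D.ESl (fun _ => 0) K c d (N ^ (-s)) σ) (hu : N ^ (-u) ≤ σ) (e : ℤ × ℤ) (B : Set (ℝ × ℝ)) (hB : MeasurableSet B) :
    D.mu (D.lbl N r u ⁻¹' {e} ∩ D.bs ⁻¹' B) ≤ ENNReal.ofReal (K * c * (N ^ (-r)) ^ d * (N ^ (-u) / σ)) * volume B := by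
  have hN0 : 0 < N := lt_trans zero_lt_one hN
  have h := hsl 0 B (N ^ (-r)) (e.1 * N ^ (-r)) (N ^ (-u)) (e.2 * N ^ (-u)) hB
    (Real.rpow_le_rpow_of_exponent_le hN.le (by linarith))
    (Real.rpow_le_one_of_one_le_of_nonpos hN.le (by linarith)) (Real.rpow_pos_of_pos hN0 _) hu
  rw [k7a_c_om_zero D hD, mul_one] at h
  refine le_trans (measure_mono ?_) h
  rintro z ⟨hz1, hz2⟩
  have hz1' : D.lbl N r u z = (e.1, e.2) := hz1
  have h2 := (k7a_c_lbl_fib D hN0 r u e.1 e.2 z).1 hz1'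
  exact ⟨rfl, hz2, h2.1, h2.2⟩

/-- the integer parts of the numbers of modulus `≤ a` -/
theorem k7a_c_p1_card (a : ℝ) (ha : 0 ≤ a) : ((Finset.Icc ⌈-a - 1⌉ ⌊a⌋).card : ℝ) ≤ 2 * a + 3 := by
  rw [Int.card_Icc]
  have e1 : (⌊a⌋ : ℝ) ≤ a := Int.floor_le a
  have e2 : -a - 1 ≤ (⌈-a - 1⌉ : ℝ) := Int.le_ceil _
  have e3 : (((⌊a⌋ + 1 - ⌈-a - 1⌉).toNat : ℕ) : ℝ) = (((⌊a⌋ + 1 - ⌈-a - 1⌉).toNat : ℤ) : ℝ) := (Int.cast_natCast _).symm
  rw [e3, Int.toNat_eq_max, Int.cast_max]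
  refine max_le ?_ ?_
  · push_cast
    linarith
  · push_cast
    linarith

theorem k7a_c_p1_mem {a w : ℝ} (hw : |w| ≤ a) : ⌊w⌋ ∈ Finset.Icc ⌈-a - 1⌉ ⌊a⌋ := by
  rw [abs_le] at hw
  rw [Finset.mem_Icc]
  refine ⟨?_, Int.floor_le_floor hw.2⟩
  rw [Int.ceil_le]
  have := Int.lt_floor_add_one w
  linarith

/-- the region of the (label, base) pairs -/
theorem k7a_c_p1_reg (D : K7aData Λ) {K s U N r u : ℝ} (hD : D.Adm K) (hK : 1 ≤ K) (hN : 1 < N) (hr0 : 0 ≤ r) (hrs : r ≤ s) (hu0 : 0 ≤ u)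
    (huU : u ≤ U) : ∃ Rg : ℤ × ℤ → Set (ℝ × ℝ), (∀ e, MeasurableSet (Rg e)) ∧ (∀ᵐ z ∂D.mu, D.bs z ∈ Rg (D.lbl N r u z)) ∧
      ∑' e, volume (Rg e) ≤ ENNReal.ofReal (180 * K ^ 3 * N ^ (s + U)) := by
  classical
  have hN0 : 0 < N := by linarith
  have hK0 : 0 ≤ K := by linarith
  have hP : 1 ≤ N ^ s := Real.one_le_rpow hN.le (hr0.trans hrs)
  have hQ : 1 ≤ N ^ U := Real.one_le_rpow hN.le (hu0.trans huU)
  set F : Finset (ℤ × ℤ) := Finset.Icc ⌈-(3 * K * N ^ s) - 1⌉ ⌊3 * K * N ^ s⌋ ×ˢ Finset.Icc ⌈-(K * N ^ U) - 1⌉ ⌊K * N ^ U⌋ with hF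
  refine ⟨fun e => if e ∈ F then Set.Icc (0 : ℝ) 1 ×ˢ Set.Icc (-(2 * K)) (2 * K) else ∅, ?_, ?_, ?_⟩
  · intro e
    by_cases he : e ∈ F
    · simp only [if_pos he]
      exact measurableSet_Icc.prod measurableSet_Icc
    · simp only [if_neg he]
      exact MeasurableSet.empty
  · filter_upwards [k7a_c_ae_time D hD] with z hz
    obtain ⟨hy, hx⟩ := k7a_c_bd D hD z.1 hz
    have hy1 := (hD.bd z.1).2.1
    have hmem : D.lbl N r u z ∈ F := by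
      rw [hF, Finset.mem_product]
      constructor
      · refine k7a_c_p1_mem ?_
        rw [Real.rpow_neg hN0.le, div_inv_eq_mul, abs_mul, abs_of_pos (Real.rpow_pos_of_pos hN0 r)]
        exact mul_le_mul hx (Real.rpow_le_rpow_of_exponent_le hN.le hrs) (Real.rpow_pos_of_pos hN0 r).le (by positivity)
      · refine k7a_c_p1_mem ?_
        rw [Real.rpow_neg hN0.le, div_inv_eq_mul, abs_mul, abs_of_pos (Real.rpow_pos_of_pos hN0 u)]
        exact mul_le_mul hy1 (Real.rpow_le_rpow_of_exponent_le hN.le huU) (Real.rpow_pos_of_pos hN0 u).le hK0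
    simp only [if_pos hmem]
    rw [abs_le] at hy
    exact ⟨hz, hy.1, hy.2⟩
  · rw [tsum_eq_sum (s := F) (fun e he => by simp only [if_neg he, measure_empty])]
    have h1 : ∀ e ∈ F, volume (if e ∈ F then Set.Icc (0 : ℝ) 1 ×ˢ Set.Icc (-(2 * K)) (2 * K) else ∅) = ENNReal.ofReal (4 * K) := by
      intro e he
      rw [if_pos he, Measure.volume_eq_prod, Measure.prod_prod, Real.volume_Icc, Real.volume_Icc]
      rw [sub_zero, ENNReal.ofReal_one, one_mul]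
      congr 1
      ring
    rw [Finset.sum_congr rfl h1, Finset.sum_const, nsmul_eq_mul, ← ENNReal.ofReal_natCast, ← ENNReal.ofReal_mul (Nat.cast_nonneg _)]
    refine ENNReal.ofReal_le_ofReal ?_
    rw [hF, Finset.card_product, Nat.cast_mul, Real.rpow_add hN0]
    have c1 := k7a_c_p1_card (3 * K * N ^ s) (by positivity)
    have c2 := k7a_c_p1_card (K * N ^ U) (by positivity)
    have hKP : 1 ≤ K * N ^ s := by nlinarith
    have hKQ : 1 ≤ K * N ^ U := by nlinarith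
    have c1' : ((Finset.Icc ⌈-(3 * K * N ^ s) - 1⌉ ⌊3 * K * N ^ s⌋).card : ℝ) ≤ 9 * (K * N ^ s) := by linarith
    have c2' : ((Finset.Icc ⌈-(K * N ^ U) - 1⌉ ⌊K * N ^ U⌋).card : ℝ) ≤ 5 * (K * N ^ U) := by linarith
    calc ((Finset.Icc ⌈-(3 * K * N ^ s) - 1⌉ ⌊3 * K * N ^ s⌋).card : ℝ) * ((Finset.Icc ⌈-(K * N ^ U) - 1⌉ ⌊K * N ^ U⌋).card : ℝ) * (4 * K)
        ≤ (9 * (K * N ^ s)) * (5 * (K * N ^ U)) * (4 * K) := by gcongr
      _ = 180 * K ^ 3 * (N ^ s * N ^ U) := by ring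

/-- **L-252-S7aC-P1** (~250 l.).  `k7a_homog` with `Ω = Λ × ℝ`, `μ = D.mu` (finite: `k7a_c_mass_le`), `b = D.bs`, `ι = ↥(Gr ×ˢ Gu)`, `ℓ i = D.lbl N i.1.1 i.1.2`, `Hi = K c`, `V = 180 K³ N^{s+U}`.
`hup`: `ECap` at `p = N^{-r} ∈ [N^{-s}, 1]`, `xs = k p` (`k7a_c_lbl_fib`), `p^d ≤ 1`.     `hreg`: `Rg e = [0,1] × [-2K, 2K]` if `|e.1| ≤ 3K N^s + 1`, `|e.2| ≤ K N^U + 1`, else `∅` (`k7a_c_ae_time`, `k7a_c_bd`);
the number of these `e` is `≤ (6K N^s + 3)(2K N^U + 3) ≤ 45 K² N^{s+U}`.     `lev r u = j ⟨(r,u), _⟩` on the grid, `0` elsewhere.     Mass: `μ univ ≤ J^# μ E0 + 1/(2K)`, `1/(2K) ≤ μ univ / 2`. -/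
theorem k7a_c_prof (D : K7aData Λ) {K c d s U N θ : ℝ} {J : ℕ} (Gr Gu : Finset ℝ) (hD : D.Adm K) (hK : 1 ≤ K) (hc : 0 < c) (hd : 0 ≤ d)
    (hN : 1 < N) (hθ : 1 < θ) (hJ : 0 < J) (hGr : ∀ r ∈ Gr, 0 ≤ r ∧ r ≤ s) (hGu : ∀ u ∈ Gu, 0 ≤ u ∧ u ≤ U)
    (hcap : D.ECap (fun _ => 0) K c d (N ^ (-s)))
    (hbig : ((Gr.card * Gu.card : ℕ) : ℝ) * (K * c / θ ^ J) * (180 * K ^ 3 * N ^ (s + U)) ≤ 1 / (2 * K)) :
    ∃ (E0 : Set (Λ × ℝ)) (lev : ℝ → ℝ → ℕ), (∀ r u, lev r u < J) ∧ K7aProf D N Gr Gu θ E0 (fun r u => K * c / θ ^ lev r u) ∧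
      D.mu Set.univ ≤ ENNReal.ofReal (2 * (J : ℝ) ^ (Gr.card * Gu.card)) * D.mu E0 := by
  classical
  have hN0 : 0 < N := by linarith
  have hK0 : 0 < K := by linarith
  have hθ0 : 0 < θ := by linarith
  have hfinM : D.mu Set.univ ≠ ⊤ := ne_top_of_le_ne_top ENNReal.ofReal_ne_top (k7a_c_mass_le D hD)
  have : IsFiniteMeasure D.mu := ⟨lt_top_iff_ne_top.2 hfinM⟩
  have hmem : ∀ i : ↥(Gr ×ˢ Gu), i.1.1 ∈ Gr ∧ i.1.2 ∈ Gu := fun i => Finset.mem_product.1 i.2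
  obtain ⟨E0, j, hE0m, hjJ, hmass, hceil, hsupp⟩ := k7a_homog (ι := ↥(Gr ×ˢ Gu)) D.mu D.bs (k7a_c_meas_bs D hD)
    (fun i => D.lbl N i.1.1 i.1.2) (fun i => k7a_c_meas_lbl D hD N _ _) (Hi := K * c) (V := 180 * K ^ 3 * N ^ (s + U)) (θ := θ) (J := J)
    (by positivity) (by positivity) hθ hJ
    (fun i e B hB => by
      obtain ⟨hr, _⟩ := hmem i
      refine (k7a_c_ce_cap D hD hN (hGr _ hr).1 (hGr _ hr).2 hcap i.1.2 e B hB).trans (mul_le_mul' (ENNReal.ofReal_le_ofReal ?_) le_rfl)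
      have h1 : (N ^ (-i.1.1)) ^ d ≤ 1 := Real.rpow_le_one (Real.rpow_pos_of_pos hN0 _).le
        (Real.rpow_le_one_of_one_le_of_nonpos hN.le (by have := (hGr _ hr).1; linarith)) hd
      calc K * c * (N ^ (-i.1.1)) ^ d ≤ K * c * 1 := by gcongr
        _ = K * c := mul_one _)
    (fun i => k7a_c_p1_reg D hD hK hN (hGr _ (hmem i).1).1 (hGr _ (hmem i).1).2 (hGu _ (hmem i).2).1 (hGu _ (hmem i).2).2)
  have hcard : Fintype.card ↥(Gr ×ˢ Gu) = Gr.card * Gu.card := by rw [Fintype.card_coe, Finset.card_product]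
  rw [hcard] at hmass
  refine ⟨E0, fun r u => if h : (r, u) ∈ Gr ×ˢ Gu then j ⟨(r, u), h⟩ else 0, ?_, ⟨hE0m, ?_, ?_⟩, ?_⟩
  · intro r u
    by_cases h : (r, u) ∈ Gr ×ˢ Gu
    · simp only [dif_pos h]
      exact hjJ _
    · simp only [dif_neg h]
      exact hJ
  · intro r hr u hu e B hB
    have h : (r, u) ∈ Gr ×ˢ Gu := Finset.mem_product.2 ⟨hr, hu⟩
    simp only [dif_pos h]
    exact hceil ⟨(r, u), h⟩ e B hB
  · intro r hr u hu
    have h : (r, u) ∈ Gr ×ˢ Gu := Finset.mem_product.2 ⟨hr, hu⟩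
    obtain ⟨W, hW1, hW2, hW3⟩ := hsupp ⟨(r, u), h⟩
    refine ⟨W, hW1, hW2, ?_⟩
    simp only [dif_pos h]
    rw [div_div, ← pow_succ]
    exact hW3
  · have h1 : ENNReal.ofReal (((Gr.card * Gu.card : ℕ) : ℝ) * (K * c / θ ^ J) * (180 * K ^ 3 * N ^ (s + U))) ≤ D.mu Set.univ / 2 := by
      refine (ENNReal.ofReal_le_ofReal hbig).trans ?_
      calc ENNReal.ofReal (1 / (2 * K)) = ENNReal.ofReal (1 / (2 * K)) * 1 := (mul_one _).symm
        _ ≤ ENNReal.ofReal (1 / (2 * K)) * (ENNReal.ofReal K * D.mu Set.univ) := mul_le_mul' le_rfl hD.mass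
        _ = ENNReal.ofReal (1 / (2 * K) * K) * D.mu Set.univ := by rw [← mul_assoc, ← ENNReal.ofReal_mul (by positivity)]
        _ = D.mu Set.univ / 2 := by
          have e : 1 / (2 * K) * K = 2⁻¹ := by field_simp
          rw [e, ENNReal.ofReal_inv_of_pos (by norm_num), ENNReal.ofReal_ofNat, mul_comm, div_eq_mul_inv]
    have h2 : D.mu Set.univ / 2 + D.mu Set.univ / 2 ≤ (J : ℝ≥0∞) ^ (Gr.card * Gu.card) * D.mu E0 + D.mu Set.univ / 2 := by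
      rw [ENNReal.add_halves]
      exact hmass.trans (add_le_add le_rfl h1)
    have hfin2 : D.mu Set.univ / 2 ≠ ⊤ := ENNReal.div_ne_top hfinM (by norm_num)
    have h3 : D.mu Set.univ / 2 ≤ (J : ℝ≥0∞) ^ (Gr.card * Gu.card) * D.mu E0 := (ENNReal.add_le_add_iff_right hfin2).1 h2
    calc D.mu Set.univ = D.mu Set.univ / 2 + D.mu Set.univ / 2 := (ENNReal.add_halves _).symm
      _ ≤ (J : ℝ≥0∞) ^ (Gr.card * Gu.card) * D.mu E0 + (J : ℝ≥0∞) ^ (Gr.card * Gu.card) * D.mu E0 := add_le_add h3 h3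
      _ = ENNReal.ofReal (2 * (J : ℝ) ^ (Gr.card * Gu.card)) * D.mu E0 := by
        rw [ENNReal.ofReal_mul (by norm_num), ENNReal.ofReal_pow (Nat.cast_nonneg _), ENNReal.ofReal_natCast, ENNReal.ofReal_ofNat]
        ring

/-- **L-252-S7aC-P2** (~120 l.).  The level of a profile is not above a true ceiling.  `μ E0 = ∑' e, μ (E0 ∩ lbl⁻¹ e) ≤ ∑' e, μ (lbl⁻¹ e ∩ bs⁻¹ (U e)) ≤ Ce ∑' vol (U e)`; multiply by `H/θ`, use `supp` and `hm`; `0 < μ E0 < ∞`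
(`hm`, `Adm.mass`, `k7a_c_mass_le`). -/
theorem k7a_c_prof_le (D : K7aData Λ) {K N θ Cs Ce r u : ℝ} {Gr Gu : Finset ℝ} {E0 : Set (Λ × ℝ)} {H : ℝ → ℝ → ℝ} (hD : D.Adm K)
    (hP : K7aProf D N Gr Gu θ E0 H) (hθ : 0 < θ) (hCs : 0 ≤ Cs) (hCe : 0 ≤ Ce) (hm : D.mu Set.univ ≤ ENNReal.ofReal Cs * D.mu E0) (hr : r ∈ Gr) (hu : u ∈ Gu)
    (hce : ∀ (e : ℤ × ℤ) (B : Set (ℝ × ℝ)), MeasurableSet B → D.mu (D.lbl N r u ⁻¹' {e} ∩ D.bs ⁻¹' B) ≤ ENNReal.ofReal Ce * volume B) :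
    H r u ≤ θ * Ce * Cs := by
  obtain ⟨U, hUm, hUmem, hUsum⟩ := hP.supp r hr u hu
  have hE0le : D.mu E0 ≤ ENNReal.ofReal Ce * ∑' e, volume (U e) := by
    have hsub : E0 ⊆ ⋃ e, (D.lbl N r u ⁻¹' {e} ∩ D.bs ⁻¹' (U e)) := by
      intro z hz
      exact Set.mem_iUnion.2 ⟨D.lbl N r u z, rfl, hUmem z hz⟩
    calc D.mu E0 ≤ D.mu (⋃ e, (D.lbl N r u ⁻¹' {e} ∩ D.bs ⁻¹' (U e))) := measure_mono hsub
      _ ≤ ∑' e, D.mu (D.lbl N r u ⁻¹' {e} ∩ D.bs ⁻¹' (U e)) := measure_iUnion_le _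
      _ ≤ ∑' e, ENNReal.ofReal Ce * volume (U e) := ENNReal.tsum_le_tsum (fun e => hce e (U e) (hUm e))
      _ = ENNReal.ofReal Ce * ∑' e, volume (U e) := ENNReal.tsum_mul_left
  have huniv0 : D.mu Set.univ ≠ 0 := by
    intro h0
    have := hD.mass
    rw [h0, mul_zero] at this
    exact absurd this (by norm_num)
  have hE00 : D.mu E0 ≠ 0 := by
    intro h0
    rw [h0, mul_zero] at hm
    exact huniv0 (le_antisymm hm (zero_le))
  have hE0top : D.mu E0 ≠ ∞ :=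
    ne_top_of_le_ne_top ENNReal.ofReal_ne_top (le_trans (measure_mono (Set.subset_univ _)) (k7a_c_mass_le D hD))
  have hmain : ENNReal.ofReal (H r u / θ) * D.mu E0 ≤ ENNReal.ofReal (Ce * Cs) * D.mu E0 := by
    calc ENNReal.ofReal (H r u / θ) * D.mu E0
        ≤ ENNReal.ofReal (H r u / θ) * (ENNReal.ofReal Ce * ∑' e, volume (U e)) := mul_le_mul_right hE0le _
      _ = ENNReal.ofReal Ce * (ENNReal.ofReal (H r u / θ) * ∑' e, volume (U e)) := by ring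
      _ ≤ ENNReal.ofReal Ce * D.mu Set.univ := mul_le_mul_right hUsum _
      _ ≤ ENNReal.ofReal Ce * (ENNReal.ofReal Cs * D.mu E0) := mul_le_mul_right hm _
      _ = ENNReal.ofReal (Ce * Cs) * D.mu E0 := by rw [ENNReal.ofReal_mul hCe, mul_assoc]
  rw [ENNReal.mul_le_mul_iff_left hE00 hE0top, ENNReal.ofReal_le_ofReal_iff (by positivity), div_le_iff₀ hθ] at hmain
  linarith

/-- **L-252-S7aC-P3** (~150 l.).  The terminal level is not below the terminal density.  Label `(s, 0)`: `N^{-0} = 1`, `⌊y1⌋ ∈ [-K-1, K]` (`≤ 2K+3` values `m`);  `μ E0 ≤ ∑_m ∑' k, μ (E0 ∩ lbl⁻¹ (k,m) ∩ bs⁻¹ (U 0 k)) ≤ H s 0 (2K+3) ∑' k vol (U 0 k)`;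
`c a^d ∑' k vol (U 0 k) ≤ K` (`om (fun _ => 0) 0 = 1`, `ENNReal.le_tsum`);  `1 ≤ K μ univ ≤ K Cs μ E0`. -/
theorem k7a_c_prof_ge (D : K7aData Λ) {K N θ Cs c d s : ℝ} {Gr Gu : Finset ℝ} {E0 : Set (Λ × ℝ)} {H : ℝ → ℝ → ℝ} (hD : D.Adm K) (hK : 1 ≤ K)
    (hN : 0 < N) (hc : 0 < c) (hP : K7aProf D N Gr Gu θ E0 H) (hCs : 0 ≤ Cs) (hH : 0 ≤ H s 0) (hm : D.mu Set.univ ≤ ENNReal.ofReal Cs * D.mu E0)
    (hs : s ∈ Gr) (h0 : (0 : ℝ) ∈ Gu) (hsup : D.ESup (fun _ => 0) K c d (N ^ (-s))) :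
    c * (N ^ (-s)) ^ d ≤ H s 0 * ((2 * K + 3) * K ^ 2 * Cs) := by
  classical
  obtain ⟨U, hUm, hUae, hUle⟩ := hsup
  have hprob := hD.prob
  have hK0 : 0 ≤ K := by linarith
  have hom : D.om (fun _ => 0) 0 = 1 := by
    unfold K7aData.om
    have e : ((fun _ : Λ => (0 : ℕ)) ⁻¹' {0}) = Set.univ := by
      ext l
      simp
    rw [e, measure_univ]
  have h1 : ENNReal.ofReal (c * (N ^ (-s)) ^ d) * ∑' k, volume (U 0 k) ≤ ENNReal.ofReal K := by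
    refine le_trans (mul_le_mul' le_rfl ?_) hUle
    have h := ENNReal.le_tsum (f := fun γ => D.om (fun _ => 0) γ * ∑' k, volume (U γ k)) 0
    simp only [hom, one_mul] at h
    exact h
  have hScard : ((Finset.Icc ⌈-K - 1⌉ ⌊K⌋).card : ℝ) ≤ 2 * K + 3 := by
    rw [Int.card_Icc]
    have e1 : (⌊K⌋ : ℝ) ≤ K := Int.floor_le K
    have e2 : -K - 1 ≤ (⌈-K - 1⌉ : ℝ) := Int.le_ceil _
    have e3 : (((⌊K⌋ + 1 - ⌈-K - 1⌉).toNat : ℕ) : ℝ) = (((⌊K⌋ + 1 - ⌈-K - 1⌉).toNat : ℤ) : ℝ) := (Int.cast_natCast _).symm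
    rw [e3, Int.toNat_eq_max, Int.cast_max]
    refine max_le ?_ ?_
    · push_cast
      linarith
    · push_cast
      linarith
  have h2 : D.mu E0 ≤ ∑ m ∈ Finset.Icc ⌈-K - 1⌉ ⌊K⌋, ∑' k : ℤ, D.mu (E0 ∩ D.lbl N s 0 ⁻¹' {(k, m)} ∩ D.bs ⁻¹' (U 0 k)) := by
    have hsub : D.mu E0 ≤ D.mu (⋃ m ∈ Finset.Icc ⌈-K - 1⌉ ⌊K⌋, ⋃ k : ℤ, (E0 ∩ D.lbl N s 0 ⁻¹' {(k, m)} ∩ D.bs ⁻¹' (U 0 k))) := by
      refine measure_mono_ae ?_
      filter_upwards [hUae] with z hz hzE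
      have hy := (hD.bd z.1).2.1
      rw [abs_le] at hy
      have e0 : N ^ (-(0 : ℝ)) = 1 := by rw [neg_zero, Real.rpow_zero]
      have hmem : ⌊D.y1 z.1 / N ^ (-(0 : ℝ))⌋ ∈ Finset.Icc ⌈-K - 1⌉ ⌊K⌋ := by
        rw [e0, div_one, Finset.mem_Icc]
        refine ⟨?_, Int.floor_le_floor hy.2⟩
        rw [Int.ceil_le]
        have := Int.lt_floor_add_one (D.y1 z.1)
        linarith
      refine Set.mem_biUnion (Finset.mem_coe.2 hmem) (Set.mem_iUnion.2 ⟨⌊D.x z.1 z.2 / N ^ (-s)⌋, ⟨hzE, rfl⟩, hz⟩)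
    refine hsub.trans ((measure_biUnion_finset_le _ _).trans (Finset.sum_le_sum fun m _ => measure_iUnion_le _))
  have h3 : D.mu E0 ≤ ((Finset.Icc ⌈-K - 1⌉ ⌊K⌋).card : ℝ≥0∞) * (ENNReal.ofReal (H s 0) * ∑' k, volume (U 0 k)) := by
    refine h2.trans ?_
    have h : ∀ m ∈ Finset.Icc ⌈-K - 1⌉ ⌊K⌋, ∑' k : ℤ, D.mu (E0 ∩ D.lbl N s 0 ⁻¹' {(k, m)} ∩ D.bs ⁻¹' (U 0 k))
        ≤ ENNReal.ofReal (H s 0) * ∑' k, volume (U 0 k) := by
      intro m _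
      rw [← ENNReal.tsum_mul_left]
      exact ENNReal.tsum_le_tsum fun k => hP.ceil s hs 0 h0 (k, m) _ (hUm 0 k)
    refine (Finset.sum_le_sum h).trans ?_
    rw [Finset.sum_const, nsmul_eq_mul]
  have h4 : (1 : ℝ≥0∞) ≤ ENNReal.ofReal K * (ENNReal.ofReal Cs *
      (((Finset.Icc ⌈-K - 1⌉ ⌊K⌋).card : ℝ≥0∞) * (ENNReal.ofReal (H s 0) * ∑' k, volume (U 0 k)))) :=
    hD.mass.trans (mul_le_mul' le_rfl (hm.trans (mul_le_mul' le_rfl h3)))
  have h5 : ENNReal.ofReal (c * (N ^ (-s)) ^ d) ≤ ENNReal.ofReal K * (ENNReal.ofReal Cs *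
      (((Finset.Icc ⌈-K - 1⌉ ⌊K⌋).card : ℝ≥0∞) * (ENNReal.ofReal (H s 0) * ENNReal.ofReal K))) := by
    calc ENNReal.ofReal (c * (N ^ (-s)) ^ d) = ENNReal.ofReal (c * (N ^ (-s)) ^ d) * 1 := (mul_one _).symm
      _ ≤ ENNReal.ofReal (c * (N ^ (-s)) ^ d) * (ENNReal.ofReal K * (ENNReal.ofReal Cs *
          (((Finset.Icc ⌈-K - 1⌉ ⌊K⌋).card : ℝ≥0∞) * (ENNReal.ofReal (H s 0) * ∑' k, volume (U 0 k))))) := mul_le_mul' le_rfl h4
      _ = ENNReal.ofReal K * (ENNReal.ofReal Cs * (((Finset.Icc ⌈-K - 1⌉ ⌊K⌋).card : ℝ≥0∞) * (ENNReal.ofReal (H s 0) *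
          (ENNReal.ofReal (c * (N ^ (-s)) ^ d) * ∑' k, volume (U 0 k))))) := by ring
      _ ≤ _ := by gcongr
  rw [← ENNReal.ofReal_natCast, ← ENNReal.ofReal_mul hH, ← ENNReal.ofReal_mul (Nat.cast_nonneg _), ← ENNReal.ofReal_mul hCs,
    ← ENNReal.ofReal_mul hK0, ENNReal.ofReal_le_ofReal_iff (by positivity)] at h5
  refine h5.trans ?_
  have h6 : ((Finset.Icc ⌈-K - 1⌉ ⌊K⌋).card : ℝ) * (H s 0 * K) ≤ (2 * K + 3) * (H s 0 * K) :=
    mul_le_mul_of_nonneg_right hScard (by positivity)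
  calc K * (Cs * (((Finset.Icc ⌈-K - 1⌉ ⌊K⌋).card : ℝ) * (H s 0 * K))) ≤ K * (Cs * ((2 * K + 3) * (H s 0 * K))) := by gcongr
    _ = H s 0 * ((2 * K + 3) * K ^ 2 * Cs) := by ring

/-- auxiliary: a short interval meets at most two bins -/
theorem k7a_c_two_bins {P p xs x : ℝ} (hP : 0 < P) (hp : p ≤ P) (hx : x ∈ Set.Ico xs (xs + p)) :
    ⌊x / P⌋ = ⌊xs / P⌋ ∨ ⌊x / P⌋ = ⌊xs / P⌋ + 1 := by
  have h1 : ⌊xs / P⌋ ≤ ⌊x / P⌋ := Int.floor_le_floor (div_le_div_of_nonneg_right hx.1 hP.le)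
  have h2 : ⌊x / P⌋ ≤ ⌊xs / P + 1⌋ := by
    apply Int.floor_le_floor
    rw [div_add_one hP.ne']
    exact div_le_div_of_nonneg_right (by linarith [hx.2]) hP.le
  rw [Int.floor_add_one] at h2
  omega

/-- **L-252-S7aC-P4** (~120 l.).  Rounding: an `x`-interval of length `p ≤ N^{-r}` meets `≤ 2` bins, a velocity interval of length `w ≤ N^{-u}` meets `≤ 2` bins
(`⌊x/P⌋ ∈ {⌊xs/P⌋, ⌊xs/P⌋ + 1}`); `measure_union_le`, `K7aProf.ceil`. -/
theorem k7a_c_prof_bins (D : K7aData Λ) {N θ r u p w xs vs : ℝ} {Gr Gu : Finset ℝ} {E0 : Set (Λ × ℝ)} {H : ℝ → ℝ → ℝ}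
    (hP : K7aProf D N Gr Gu θ E0 H) (hN : 0 < N) (hH : 0 ≤ H r u) (hr : r ∈ Gr) (hu : u ∈ Gu) (hp : p ≤ N ^ (-r)) (hw : w ≤ N ^ (-u))
    (B : Set (ℝ × ℝ)) (hB : MeasurableSet B) :
    D.mu (E0 ∩ {z | D.bs z ∈ B ∧ D.x z.1 z.2 ∈ Set.Ico xs (xs + p) ∧ D.y1 z.1 ∈ Set.Ico vs (vs + w)})
      ≤ ENNReal.ofReal (4 * H r u) * volume B := by
  classical
  set k0 := ⌊xs / N ^ (-r)⌋ with hk0
  set m0 := ⌊vs / N ^ (-u)⌋ with hm0
  set S : Finset (ℤ × ℤ) := ({k0, k0 + 1} : Finset ℤ) ×ˢ ({m0, m0 + 1} : Finset ℤ) with hS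
  have hcard : S.card ≤ 4 := by
    rw [hS, Finset.card_product]
    calc _ ≤ 2 * 2 := Nat.mul_le_mul Finset.card_le_two Finset.card_le_two
      _ = 4 := rfl
  have hsub : E0 ∩ {z | D.bs z ∈ B ∧ D.x z.1 z.2 ∈ Set.Ico xs (xs + p) ∧ D.y1 z.1 ∈ Set.Ico vs (vs + w)}
      ⊆ ⋃ e ∈ S, (E0 ∩ D.lbl N r u ⁻¹' {e} ∩ D.bs ⁻¹' B) := by
    rintro z ⟨hz0, hzB, hzx, hzy⟩
    refine Set.mem_biUnion (x := D.lbl N r u z) ?_ ⟨⟨hz0, rfl⟩, hzB⟩
    rw [Finset.mem_coe, hS, Finset.mem_product]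
    have h1 := k7a_c_two_bins (Real.rpow_pos_of_pos hN (-r)) hp hzx
    have h2 := k7a_c_two_bins (Real.rpow_pos_of_pos hN (-u)) hw hzy
    constructor
    · rw [Finset.mem_insert, Finset.mem_singleton]; exact h1
    · rw [Finset.mem_insert, Finset.mem_singleton]; exact h2
  refine le_trans (measure_mono hsub) (le_trans (measure_biUnion_finset_le S _) ?_)
  refine le_trans (Finset.sum_le_card_nsmul _ _ _ (fun e _ => hP.ceil r hr u hu e B hB)) ?_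
  rw [nsmul_eq_mul, ← mul_assoc]
  refine mul_le_mul_left ?_ _
  rw [ENNReal.ofReal_mul (by norm_num)]
  refine mul_le_mul_left ?_ _
  have h4 : (S.card : ℝ≥0∞) ≤ ((4 : ℕ) : ℝ≥0∞) := by exact_mod_cast hcard
  refine le_trans h4 ?_
  rw [show (4 : ℝ) = ((4 : ℕ) : ℝ) by norm_num, ENNReal.ofReal_natCast]

/-! ## 2. Crops -/

namespace K7aData

variable (D : K7aData Λ)

/-- the crop of a trajectory at width `G` -/
def crw (G : ℝ) (l : Λ) : ℤ × ℤ := (⌊D.y0 l / G⌋, ⌊D.y1 l / G⌋)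

/-- the crops as worlds -/
def cwd (G : ℝ) (l : Λ) : ℕ := Denumerable.eqv (ℤ × ℤ) (D.crw G l)

/-- the prior mass of the crop of `l` -/
def cpr (G : ℝ) (l : Λ) : ℝ≥0∞ := D.nu (D.crw G ⁻¹' {D.crw G l})

/-- the trajectories whose crop has prior mass in `(lo, hi]` -/
def cW (G lo hi : ℝ) : Set Λ := {l | ENNReal.ofReal lo < D.cpr G l ∧ D.cpr G l ≤ ENNReal.ofReal hi}

/-- **the cropped law** -/
def crop (G : ℝ) (W : Set Λ) (E0 : Set (Λ × ℝ)) : K7aData Λ where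
  nu := (D.nu W)⁻¹ • D.nu.restrict W
  mu := (D.nu W)⁻¹ • D.mu.restrict (E0 ∩ W ×ˢ Set.univ)
  y0 := fun l => Int.fract (D.y0 l / G)
  y1 := fun l => Int.fract (D.y1 l / G)
  x0 := D.x0
  x1 := D.x1
  x2 := D.x2

/-- angular ceiling at terminal width, written with the WIDTH `w ∈ [wmin, 1]` of the velocity bin: further factor `w^ε` -/
def EAngW (wd : Λ → ℕ) (K c d a ε wmin : ℝ) : Prop :=
  ∀ (γ : ℕ) (B : Set (ℝ × ℝ)) (xs vs w : ℝ), MeasurableSet B → wmin ≤ w → w ≤ 1 →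
    D.mu {z | wd z.1 = γ ∧ D.bs z ∈ B ∧ D.x z.1 z.2 ∈ Set.Ico xs (xs + a) ∧ D.y1 z.1 ∈ Set.Ico vs (vs + w)}
      ≤ ENNReal.ofReal (K * c * a ^ d * w ^ ε) * D.om wd γ * volume B

end K7aData

theorem k7a_c_defs_cite2 : True := by
  have := @K7aData.crw.eq_1; have := @K7aData.cwd.eq_1; have := @K7aData.cpr.eq_1; have := @K7aData.cW.eq_1
  have := @K7aData.crop.eq_1; have := @K7aData.EAngW.eq_1
  trivial

/-- **L-252-S7aC-C0** (the next three statements, ~100 l.).  `crw` is measurable into a countable discrete space; `cpr = (fun e => ν (crw⁻¹ e)) ∘ crw`. -/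
theorem k7a_c_meas_crw (D : K7aData Λ) {K : ℝ} (hD : D.Adm K) (G : ℝ) : Measurable (D.crw G) ∧ Measurable (D.cwd G) := by
  obtain ⟨h0, h1, _, _, _⟩ := k7a_c_meas D hD
  have h : Measurable (D.crw G) := by
    unfold K7aData.crw
    exact ((h0.div_const _).floor).prodMk ((h1.div_const _).floor)
  refine ⟨h, ?_⟩
  unfold K7aData.cwd
  exact (Measurable.of_discrete (f := fun e : ℤ × ℤ => Denumerable.eqv (ℤ × ℤ) e)).comp h

theorem k7a_c_meas_cW (D : K7aData Λ) {K : ℝ} (hD : D.Adm K) (G lo hi : ℝ) : MeasurableSet (D.cW G lo hi) := by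
  have h := (k7a_c_meas_crw D hD G).1
  have hc : Measurable (D.cpr G) := by
    unfold K7aData.cpr
    exact (Measurable.of_discrete (f := fun e : ℤ × ℤ => D.nu (D.crw G ⁻¹' {e}))).comp h
  unfold K7aData.cW
  have h1 : MeasurableSet {l | ENNReal.ofReal lo < D.cpr G l} := measurableSet_lt measurable_const hc
  have h2 : MeasurableSet {l | D.cpr G l ≤ ENNReal.ofReal hi} := measurableSet_le hc measurable_const
  exact h1.inter h2

/-- `cW` is a union of crops -/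
theorem k7a_c_cW_crop (D : K7aData Λ) (G lo hi : ℝ) {l l' : Λ} (h : D.crw G l = D.crw G l') : l ∈ D.cW G lo hi ↔ l' ∈ D.cW G lo hi := by
  have hc : D.cpr G l = D.cpr G l' := by
    unfold K7aData.cpr
    rw [h]
  unfold K7aData.cW
  show (_ < D.cpr G l ∧ D.cpr G l ≤ _) ↔ (_ < D.cpr G l' ∧ D.cpr G l' ≤ _)
  rw [hc]

/-- **L-252-S7aC-C1** (~40 l.) `N'^{-(ε u)} = (N'^{-u})^ε`, `wmin ≤ N'^{-u₁} ≤ N'^{-u} ≤ 1` -/
theorem k7a_c_eang_of_W (D : K7aData Λ) {wd : Λ → ℕ} {K c d a ε wmin N' u1 : ℝ} (hN' : 1 ≤ N') (hw : wmin ≤ N' ^ (-u1))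
    (h : D.EAngW wd K c d a ε wmin) : D.EAng wd K c d a N' ε u1 := by
  intro γ B xs vs u hB hu0 hu1
  have h1 := h γ B xs vs (N' ^ (-u)) hB
    (le_trans hw (Real.rpow_le_rpow_of_exponent_le hN' (by linarith)))
    (Real.rpow_le_one_of_one_le_of_nonpos hN' (by linarith))
  rw [← Real.rpow_mul (by linarith)] at h1
  rwa [show -(ε * u) = -u * ε by ring]

/-- **L-252-S7aC-C2** (~200 l.).  PIGEONHOLE of the prior masses of the crops.  `cpr ≤ 1 = θ^0`.  `Λ = W_low ⊔ ⨆_{k < J'} cW G θ^{-(k+1)} θ^{-k}`, `W_low = {cpr ≤ θ^{-J'}}`;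
all crops lie in `[-K/G - 1, K/G]²` (`≤ (2K/G+3)²` crops), so `ν W_low ≤ (2K/G+3)² θ^{-J'}` and `μ (W_low × ℝ) ≤ K ν W_low` (`k7a_c_mu_cyl`). -/
theorem k7a_c_level (D : K7aData Λ) {K G θ : ℝ} {J' : ℕ} (hD : D.Adm K) (hK : 1 ≤ K) (hG0 : 0 < G) (hθ : 1 < θ) (hJ' : 0 < J')
    (E0 : Set (Λ × ℝ)) (hE0 : MeasurableSet E0) (hlight : ENNReal.ofReal (2 * K * (2 * K / G + 3) ^ 2 / θ ^ J') ≤ D.mu E0) :
    ∃ k < J', D.mu E0 ≤ ENNReal.ofReal (2 * J') * D.mu (E0 ∩ D.cW G (1 / θ ^ (k + 1)) (1 / θ ^ k) ×ˢ Set.univ) := by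
  classical
  have := hD.prob
  have hθ0 : 0 < θ := by linarith
  have hK0 : 0 ≤ K := by linarith
  set Wl : Set Λ := {l | D.cpr G l ≤ ENNReal.ofReal (1 / θ ^ J')} with hWl
  set Wk : ℕ → Set Λ := fun k => D.cW G (1 / θ ^ (k + 1)) (1 / θ ^ k) with hWk
  have hcrw := (k7a_c_meas_crw D hD G).1
  have hcprm : Measurable (D.cpr G) := by
    unfold K7aData.cpr
    exact (Measurable.of_discrete (f := fun e : ℤ × ℤ => D.nu (D.crw G ⁻¹' {e}))).comp hcrw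
  have hWlm : MeasurableSet Wl := measurableSet_le hcprm measurable_const
  have hcover : ∀ l, l ∈ Wl ∨ ∃ k ∈ Finset.range J', l ∈ Wk k := by
    intro l
    by_cases hl : l ∈ Wl
    · exact Or.inl hl
    · right
      have hl' : ENNReal.ofReal (1 / θ ^ J') < D.cpr G l := not_le.1 hl
      have hex : ∃ k, ENNReal.ofReal (1 / θ ^ (k + 1)) < D.cpr G l :=
        ⟨J' - 1, by rwa [Nat.sub_add_cancel hJ']⟩
      refine ⟨Nat.find hex, ?_, Nat.find_spec hex, ?_⟩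
      · rw [Finset.mem_range]
        have : Nat.find hex ≤ J' - 1 := Nat.find_min' hex (by rwa [Nat.sub_add_cancel hJ'])
        omega
      · rcases Nat.eq_zero_or_pos (Nat.find hex) with h0 | hpos
        · rw [h0, pow_zero, div_one, ENNReal.ofReal_one]
          exact prob_le_one
        · have h1 := Nat.find_min hex (m := Nat.find hex - 1) (by omega)
          rw [Nat.sub_add_cancel hpos] at h1
          exact not_lt.1 h1
  set I : Finset ℤ := Finset.Icc ⌊-(K / G)⌋ ⌊K / G⌋ with hI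
  have hKG : 0 ≤ K / G := by positivity
  have hcard : (I.card : ℝ) ≤ 2 * K / G + 3 := by
    rw [hI, Int.card_Icc]
    have h1 : (⌊K / G⌋ : ℝ) ≤ K / G := Int.floor_le _
    have h2 : -(K / G) < ⌊-(K / G)⌋ + 1 := Int.lt_floor_add_one _
    have h3 : (0 : ℤ) ≤ ⌊K / G⌋ + 1 - ⌊-(K / G)⌋ := by
      have : ⌊-(K / G)⌋ ≤ ⌊K / G⌋ := Int.floor_le_floor (by linarith)
      omega
    have h4 : (((⌊K / G⌋ + 1 - ⌊-(K / G)⌋).toNat : ℕ) : ℝ) = ((⌊K / G⌋ + 1 - ⌊-(K / G)⌋ : ℤ) : ℝ) := by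
      rw [← Int.cast_natCast, Int.toNat_of_nonneg h3]
    rw [h4]; push_cast
    have h5 : 2 * K / G = K / G + K / G := by ring
    linarith
  have hbox : ∀ l, D.crw G l ∈ I ×ˢ I := by
    intro l
    obtain ⟨b0, b1, _⟩ := hD.bd l
    rw [abs_le] at b0 b1
    have hfl : ∀ y : ℝ, -K ≤ y → y ≤ K → ⌊y / G⌋ ∈ I := by
      intro y h1 h2
      rw [hI, Finset.mem_Icc]
      refine ⟨Int.floor_le_floor ?_, Int.floor_le_floor (div_le_div_of_nonneg_right h2 hG0.le)⟩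
      rw [← neg_div]
      exact div_le_div_of_nonneg_right h1 hG0.le
    rw [Finset.mem_product]
    exact ⟨hfl _ b0.1 b0.2, hfl _ b1.1 b1.2⟩
  have hνWl : D.nu Wl ≤ ((I ×ˢ I).card : ℝ≥0∞) * ENNReal.ofReal (1 / θ ^ J') := by
    have hsub : Wl ⊆ ⋃ e ∈ I ×ˢ I, (Wl ∩ D.crw G ⁻¹' {e}) :=
      fun l hl => Set.mem_biUnion (Finset.mem_coe.2 (hbox l)) ⟨hl, rfl⟩
    refine le_trans (measure_mono hsub) (le_trans (measure_biUnion_finset_le _ _) ?_)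
    refine le_trans (Finset.sum_le_card_nsmul _ _ _ ?_) (by rw [nsmul_eq_mul])
    intro e _
    rcases (Wl ∩ D.crw G ⁻¹' {e}).eq_empty_or_nonempty with h0 | ⟨l, hl1, hl2⟩
    · rw [h0, measure_empty]; exact zero_le
    · have hl2' : D.crw G l = e := hl2
      have h1 : D.cpr G l ≤ ENNReal.ofReal (1 / θ ^ J') := hl1
      unfold K7aData.cpr at h1
      rw [hl2'] at h1
      exact le_trans (measure_mono Set.inter_subset_right) h1
  set m := D.mu E0 with hm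
  set a := D.mu (E0 ∩ Wl ×ˢ Set.univ) with ha
  set b : ℕ → ℝ≥0∞ := fun k => D.mu (E0 ∩ Wk k ×ˢ Set.univ) with hb
  have hmtop : m ≠ ∞ :=
    ne_top_of_le_ne_top ENNReal.ofReal_ne_top (le_trans (measure_mono (Set.subset_univ _)) (k7a_c_mass_le D hD))
  have h2a : 2 * a ≤ m := by
    refine le_trans ?_ hlight
    have h1 : a ≤ ENNReal.ofReal K * (((I ×ˢ I).card : ℝ≥0∞) * ENNReal.ofReal (1 / θ ^ J')) :=
      le_trans (measure_mono Set.inter_subset_right)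
        (le_trans (k7a_c_mu_cyl D hD Wl hWlm) (mul_le_mul_right hνWl _))
    have h2 : (2 : ℝ≥0∞) * (ENNReal.ofReal K * (((I ×ˢ I).card : ℝ≥0∞) * ENNReal.ofReal (1 / θ ^ J')))
        = ENNReal.ofReal (2 * (K * (((I ×ˢ I).card : ℝ) * (1 / θ ^ J')))) := by
      rw [ENNReal.ofReal_mul (by norm_num : (0 : ℝ) ≤ 2), ENNReal.ofReal_mul hK0,
        ENNReal.ofReal_mul (Nat.cast_nonneg _), ENNReal.ofReal_natCast]
      norm_num
    refine le_trans (mul_le_mul_right h1 _) ?_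
    rw [h2]
    apply ENNReal.ofReal_le_ofReal
    rw [Finset.card_product]
    push_cast
    have h3 : (I.card : ℝ) * I.card ≤ (2 * K / G + 3) ^ 2 := by
      have h0 : (0 : ℝ) ≤ I.card := Nat.cast_nonneg _
      nlinarith
    have h4 : 0 < θ ^ J' := by positivity
    calc 2 * (K * ((I.card : ℝ) * I.card * (1 / θ ^ J'))) = 2 * K * ((I.card : ℝ) * I.card) / θ ^ J' := by ring
      _ ≤ 2 * K * (2 * K / G + 3) ^ 2 / θ ^ J' := by gcongr
  have hsplit : m ≤ a + ∑ k ∈ Finset.range J', b k := by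
    have hsub : E0 ⊆ (E0 ∩ Wl ×ˢ Set.univ) ∪ ⋃ k ∈ Finset.range J', (E0 ∩ Wk k ×ˢ Set.univ) := by
      intro z hz
      rcases hcover z.1 with h1 | ⟨k, hk, h1⟩
      · exact Or.inl ⟨hz, h1, Set.mem_univ _⟩
      · exact Or.inr (Set.mem_biUnion (Finset.mem_coe.2 hk) ⟨hz, h1, Set.mem_univ _⟩)
    refine le_trans (measure_mono hsub) (le_trans (measure_union_le _ _) ?_)
    exact add_le_add le_rfl (measure_biUnion_finset_le _ _)
  have hm2 : m ≤ 2 * ∑ k ∈ Finset.range J', b k := by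
    have h1 : m + m ≤ m + 2 * ∑ k ∈ Finset.range J', b k := by
      calc m + m = 2 * m := (two_mul m).symm
        _ ≤ 2 * (a + ∑ k ∈ Finset.range J', b k) := mul_le_mul_right hsplit _
        _ = 2 * a + 2 * ∑ k ∈ Finset.range J', b k := mul_add _ _ _
        _ ≤ m + 2 * ∑ k ∈ Finset.range J', b k := add_le_add h2a le_rfl
    exact (ENNReal.add_le_add_iff_left hmtop).1 h1
  obtain ⟨k, hk, hkmax⟩ := Finset.exists_max_image (Finset.range J') b ⟨0, Finset.mem_range.2 hJ'⟩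
  refine ⟨k, Finset.mem_range.1 hk, le_trans hm2 ?_⟩
  have h5 : ∑ k' ∈ Finset.range J', b k' ≤ (J' : ℝ≥0∞) * b k := by
    refine le_trans (Finset.sum_le_card_nsmul _ _ _ hkmax) ?_
    rw [Finset.card_range, nsmul_eq_mul]
  refine le_trans (mul_le_mul_right h5 _) ?_
  rw [ENNReal.ofReal_mul (by norm_num : (0 : ℝ) ≤ 2), ENNReal.ofReal_natCast, ← mul_assoc,
    show ENNReal.ofReal 2 = 2 by norm_num]

/-! ## 3. The cropped law -/

/-- auxiliary: volume of the preimage under `(t, y) ↦ (t, a y + c t)` -/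
theorem k7a_c_vol_aff {a : ℝ} (ha : a ≠ 0) (c : ℝ → ℝ) (hc : Measurable c) (B : Set (ℝ × ℝ)) (hB : MeasurableSet B) :
    MeasurableSet ((fun o : ℝ × ℝ => (o.1, a * o.2 + c o.1)) ⁻¹' B) ∧
      volume ((fun o : ℝ × ℝ => (o.1, a * o.2 + c o.1)) ⁻¹' B) = ENNReal.ofReal |a⁻¹| * volume B := by
  have hm : Measurable (fun o : ℝ × ℝ => (o.1, a * o.2 + c o.1)) :=
    measurable_fst.prodMk ((measurable_snd.const_mul a).add (hc.comp measurable_fst))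
  have hmB := hm hB
  refine ⟨hmB, ?_⟩
  rw [Measure.volume_eq_prod, Measure.prod_apply hmB, Measure.prod_apply hB,
    ← lintegral_const_mul' _ _ ENNReal.ofReal_ne_top]
  apply lintegral_congr
  intro t
  have h1 : Prod.mk t ⁻¹' ((fun o : ℝ × ℝ => (o.1, a * o.2 + c o.1)) ⁻¹' B)
      = (a * ·) ⁻¹' ((fun y => y + c t) ⁻¹' (Prod.mk t ⁻¹' B)) := rfl
  rw [h1, Real.volume_preimage_mul_left ha, measure_preimage_add_right]

/-- **L-252-S7aC-V** (~100 l.).  Shear (`MeasurePreserving.skew_product`, as in `R256/Og/Ae.lean og_ae_shear`) and dilation of the second coordinate (`Real.volume_preimage_mul_left` / `Measure.prod` of maps, or `addHaar_preimage_linearMap`). -/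
theorem k7a_c_vol_pre {G : ℝ} (hG : 0 < G) (i j : ℝ) (B : Set (ℝ × ℝ)) (hB : MeasurableSet B) :
    MeasurableSet ((fun o : ℝ × ℝ => (o.1, (o.2 - G * (i + j * o.1)) / G)) ⁻¹' B) ∧
      volume ((fun o : ℝ × ℝ => (o.1, (o.2 - G * (i + j * o.1)) / G)) ⁻¹' B) = ENNReal.ofReal G * volume B := by
  have h := k7a_c_vol_aff (a := G⁻¹) (inv_ne_zero hG.ne') (fun t => -(i + j * t))
    ((measurable_const.add (measurable_id.const_mul j)).neg) B hB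
  have e : (fun o : ℝ × ℝ => (o.1, (o.2 - G * (i + j * o.1)) / G))
      = (fun o : ℝ × ℝ => (o.1, G⁻¹ * o.2 + -(i + j * o.1))) := by
    funext o
    congr 1
    field_simp
    ring
  rw [e]
  rwa [inv_inv, abs_of_pos hG] at h

/-- the inverse chart -/
theorem k7a_c_vol_pre' {G : ℝ} (hG : 0 < G) (i j : ℝ) (B : Set (ℝ × ℝ)) (hB : MeasurableSet B) :
    MeasurableSet ((fun o : ℝ × ℝ => (o.1, G * o.2 + G * (i + j * o.1))) ⁻¹' B) ∧
      volume ((fun o : ℝ × ℝ => (o.1, G * o.2 + G * (i + j * o.1))) ⁻¹' B) = ENNReal.ofReal G⁻¹ * volume B := by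
  have h := k7a_c_vol_aff (a := G) hG.ne' (fun t => G * (i + j * t))
    ((measurable_const.add (measurable_id.const_mul j)).const_mul G) B hB
  rwa [abs_of_pos (inv_pos.2 hG)] at h

/-- **L-252-S7aC-K0** (the next three statements, ~120 l.): the chart of a crop; the weights of the worlds; the cropped active measure -/
theorem k7a_c_crop_bs (D : K7aData Λ) {G : ℝ} (hG : 0 < G) (W : Set Λ) (E0 : Set (Λ × ℝ)) (z : Λ × ℝ) :
    (D.crop G W E0).bs z = (z.2, (D.y z.1 z.2 - G * (((D.crw G z.1).1 : ℝ) + ((D.crw G z.1).2 : ℝ) * z.2)) / G) ∧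
      (D.crop G W E0).x z.1 z.2 = D.x z.1 z.2 ∧ (D.crop G W E0).y1 z.1 = D.y1 z.1 / G - ((D.crw G z.1).2 : ℝ) := by
  refine ⟨?_, rfl, rfl⟩
  show (z.2, Int.fract (D.y0 z.1 / G) + Int.fract (D.y1 z.1 / G) * z.2)
    = (z.2, (D.y0 z.1 + D.y1 z.1 * z.2 - G * (((⌊D.y0 z.1 / G⌋ : ℤ) : ℝ) + ((⌊D.y1 z.1 / G⌋ : ℤ) : ℝ) * z.2)) / G)
  congr 1
  rw [← Int.self_sub_floor, ← Int.self_sub_floor]
  field_simp
  ring

/-- the weight of the world of the crop `e` : `ν (crw⁻¹ e) / ν W` if the crop is used, `0` otherwise -/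
theorem k7a_c_crop_om (D : K7aData Λ) {K : ℝ} (hD : D.Adm K) (G lo hi : ℝ) (E0 : Set (Λ × ℝ)) (e : ℤ × ℤ) :
    (D.crop G (D.cW G lo hi) E0).om (D.cwd G) (Denumerable.eqv (ℤ × ℤ) e) = (D.nu (D.cW G lo hi))⁻¹ * D.nu (D.cW G lo hi ∩ D.crw G ⁻¹' {e}) ∧
      (D.nu (D.cW G lo hi ∩ D.crw G ⁻¹' {e}) ≤ ENNReal.ofReal hi) ∧
      ((D.cW G lo hi ∩ D.crw G ⁻¹' {e}).Nonempty → ENNReal.ofReal lo ≤ D.nu (D.cW G lo hi ∩ D.crw G ⁻¹' {e})) := by
  have hpre : D.cwd G ⁻¹' {Denumerable.eqv (ℤ × ℤ) e} = D.crw G ⁻¹' {e} := by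
    ext l
    show Denumerable.eqv (ℤ × ℤ) (D.crw G l) = Denumerable.eqv (ℤ × ℤ) e ↔ D.crw G l = e
    exact (Denumerable.eqv (ℤ × ℤ)).injective.eq_iff
  have hmeas : MeasurableSet (D.crw G ⁻¹' {e}) := (k7a_c_meas_crw D hD G).1 (measurableSet_singleton e)
  refine ⟨?_, ?_, ?_⟩
  · show ((D.nu (D.cW G lo hi))⁻¹ • D.nu.restrict (D.cW G lo hi)) (D.cwd G ⁻¹' {Denumerable.eqv (ℤ × ℤ) e}) = _
    rw [hpre, Measure.smul_apply, smul_eq_mul, Measure.restrict_apply hmeas, Set.inter_comm]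
  · rcases (D.cW G lo hi ∩ D.crw G ⁻¹' {e}).eq_empty_or_nonempty with h0 | ⟨l, hl1, hl2⟩
    · rw [h0, measure_empty]; exact zero_le
    · have hl2' : D.crw G l = e := hl2
      have h1 : D.cpr G l ≤ ENNReal.ofReal hi := hl1.2
      unfold K7aData.cpr at h1
      rw [hl2'] at h1
      exact le_trans (measure_mono Set.inter_subset_right) h1
  · rintro ⟨l, hl1, hl2⟩
    have hl2' : D.crw G l = e := hl2
    have h1 : ENNReal.ofReal lo < D.cpr G l := hl1.1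
    unfold K7aData.cpr at h1
    rw [hl2'] at h1
    refine le_trans h1.le (measure_mono ?_)
    intro l' hl'
    have hl'' : D.crw G l' = e := hl'
    exact ⟨(k7a_c_cW_crop D G lo hi (hl2'.trans hl''.symm)).1 hl1, hl'⟩

theorem k7a_c_crop_mu (D : K7aData Λ) (G : ℝ) (W : Set Λ) (E0 : Set (Λ × ℝ)) (S : Set (Λ × ℝ)) (hS : MeasurableSet S) :
    (D.crop G W E0).mu S = (D.nu W)⁻¹ * D.mu (S ∩ (E0 ∩ W ×ˢ Set.univ)) := by
  show ((D.nu W)⁻¹ • D.mu.restrict (E0 ∩ W ×ˢ Set.univ)) S = _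
  rw [Measure.smul_apply, smul_eq_mul, Measure.restrict_apply hS]

/-- auxiliary: the product of the cropped prior with the time -/
theorem k7a_c_crop_prod (D : K7aData Λ) [SFinite D.nu] (G : ℝ) (W : Set Λ) (E0 : Set (Λ × ℝ)) :
    (D.crop G W E0).nu.prod k7aTm = (D.nu W)⁻¹ • (D.nu.prod k7aTm).restrict (W ×ˢ Set.univ) := by
  have : SFinite k7aTm := k7a_jadm_tm_sfinite
  show ((D.nu W)⁻¹ • D.nu.restrict W).prod k7aTm = _
  rw [Measure.prod_smul_left, ← Measure.prod_restrict, Measure.restrict_univ]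

/-- **L-252-S7aC-K1** (~150 l.).  `0 < ν W ≤ 1` (`hmass`, `k7a_c_mu_cyl`): `ν(·|W)` is a probability; `|fract| ≤ 1`; `μ' ≤ K (ν W)⁻¹ (ν × dt)|_{W × ℝ} = K ν' × dt` (`Measure.prod_restrict`, `Measure.restrict_univ`);  `μ' univ ≥ μ (E0 ∩ W × ℝ)`. -/
theorem k7a_c_crop_adm (D : K7aData Λ) {K K' G lo hi : ℝ} (hD : D.Adm K) (hKK : K ≤ K') (h1 : 1 ≤ K') (E0 : Set (Λ × ℝ)) (hE0 : MeasurableSet E0)
    (hmass : 1 ≤ ENNReal.ofReal K' * D.mu (E0 ∩ D.cW G lo hi ×ˢ Set.univ)) : (D.crop G (D.cW G lo hi) E0).Adm K' := by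
  have := hD.prob
  set W := D.cW G lo hi with hW
  have hWm : MeasurableSet W := k7a_c_meas_cW D hD G lo hi
  have hW0 : D.nu W ≠ 0 := by
    intro h0
    have h2 := k7a_c_mu_cyl D hD W hWm
    rw [h0, mul_zero] at h2
    have h3 : D.mu (E0 ∩ W ×ˢ Set.univ) = 0 :=
      le_antisymm (le_trans (measure_mono Set.inter_subset_right) h2) zero_le
    rw [h3, mul_zero] at hmass
    exact absurd hmass (by norm_num)
  have hWtop : D.nu W ≠ ∞ := measure_ne_top _ _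
  have hW1 : D.nu W ≤ 1 := prob_le_one
  obtain ⟨m0, m1, m2, m3, m4⟩ := k7a_c_meas D hD
  refine ⟨⟨?_⟩, ?_, ?_, ?_, ?_⟩
  · show ((D.nu W)⁻¹ • D.nu.restrict W) Set.univ = 1
    rw [Measure.smul_apply, smul_eq_mul, Measure.restrict_apply MeasurableSet.univ, Set.univ_inter]
    exact ENNReal.inv_mul_cancel hW0 hWtop
  · show Measurable fun l => (Int.fract (D.y0 l / G), Int.fract (D.y1 l / G), D.x0 l, D.x1 l, D.x2 l)
    exact ((m0.div_const G).fract).prodMk (((m1.div_const G).fract).prodMk (m2.prodMk (m3.prodMk m4)))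
  · intro l
    obtain ⟨_, _, b2, b3, b4⟩ := hD.bd l
    have hf : ∀ x : ℝ, |Int.fract x| ≤ K' := fun x => by
      rw [abs_of_nonneg (Int.fract_nonneg x)]
      exact le_trans (Int.fract_lt_one x).le h1
    exact ⟨hf _, hf _, le_trans b2 hKK, le_trans b3 hKK, le_trans b4 hKK⟩
  · rw [k7a_c_crop_prod]
    show (D.nu W)⁻¹ • D.mu.restrict (E0 ∩ W ×ˢ Set.univ) ≤ _
    rw [smul_comm]
    have h2 : D.mu.restrict (E0 ∩ W ×ˢ Set.univ) ≤ ENNReal.ofReal K' • (D.nu.prod k7aTm).restrict (W ×ˢ Set.univ) := by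
      rw [← Measure.restrict_smul]
      refine Measure.restrict_mono Set.inter_subset_right (le_trans hD.dom ?_)
      intro S
      rw [Measure.smul_apply, Measure.smul_apply, smul_eq_mul, smul_eq_mul]
      exact mul_le_mul_left (ENNReal.ofReal_le_ofReal hKK) _
    intro S
    rw [Measure.smul_apply, Measure.smul_apply, smul_eq_mul, smul_eq_mul]
    exact mul_le_mul_right (h2 S) _
  · rw [k7a_c_crop_mu D G W E0 Set.univ MeasurableSet.univ, Set.univ_inter]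
    refine le_trans hmass (mul_le_mul_right ?_ _)
    calc D.mu (E0 ∩ W ×ˢ Set.univ) = 1 * D.mu (E0 ∩ W ×ˢ Set.univ) := (one_mul _).symm
      _ ≤ (D.nu W)⁻¹ * D.mu (E0 ∩ W ×ˢ Set.univ) := mul_le_mul_left (ENNReal.one_le_inv.2 hW1) _

/-- **L-252-S7aC-K2** (~80 l.).  `μ = (ν × dt)|_E` gives `μ' = (ν' × dt)|_{E ∩ E0 ∩ W × ℝ}`. -/
theorem k7a_c_crop_evt (D : K7aData Λ) {K G lo hi : ℝ} (hD : D.Adm K) (hE : D.Evt) (E0 : Set (Λ × ℝ)) (hE0 : MeasurableSet E0)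
    (hW : D.nu (D.cW G lo hi) ≠ 0) : (D.crop G (D.cW G lo hi) E0).Evt := by
  have := hD.prob
  obtain ⟨E, hEm, hEmu⟩ := hE
  have hWm : MeasurableSet (D.cW G lo hi) := k7a_c_meas_cW D hD G lo hi
  have hWu : MeasurableSet (D.cW G lo hi ×ˢ (Set.univ : Set ℝ)) := hWm.prod MeasurableSet.univ
  have hE0W : MeasurableSet (E0 ∩ D.cW G lo hi ×ˢ (Set.univ : Set ℝ)) := hE0.inter hWu
  refine ⟨E0 ∩ E, hE0.inter hEm, ?_⟩
  rw [k7a_c_crop_prod]
  show (D.nu (D.cW G lo hi))⁻¹ • D.mu.restrict (E0 ∩ D.cW G lo hi ×ˢ Set.univ) = _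
  rw [hEmu, Measure.restrict_smul, Measure.restrict_restrict hE0W, Measure.restrict_restrict (hE0.inter hEm)]
  congr 2
  ext z
  simp only [Set.mem_inter_iff]
  tauto

/-- auxiliary: image of the Lebesgue measure under `y ↦ y / G - i` -/
theorem k7a_c_map_aff {G : ℝ} (hG : 0 < G) (i : ℝ) :
    (volume : Measure ℝ).map (fun y => y / G - i) = ENNReal.ofReal G • volume := by
  have e : (fun y : ℝ => y / G - i) = (fun y => y + (-i)) ∘ (fun y => G⁻¹ * y) := by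
    funext y
    simp [div_eq_inv_mul, sub_eq_add_neg]
  have m1 : Measurable (fun y : ℝ => y + (-i)) := measurable_id.add_const _
  have m2 : Measurable (fun y : ℝ => G⁻¹ * y) := measurable_id.const_mul _
  rw [e, ← Measure.map_map m1 m2,
    Real.map_volume_mul_left (inv_ne_zero hG.ne'), Measure.map_smul, map_add_right_eq_self, inv_inv, abs_of_pos hG]

/-- auxiliary: image of the Lebesgue measure of the coefficient space under the chart of a crop -/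
theorem k7a_c_map_chart {G : ℝ} (hG : 0 < G) (i j : ℝ) :
    (volume : Measure K7aU).map (fun v : K7aU => (v.1 / G - i, v.2.1 / G - j, v.2.2))
      = (ENNReal.ofReal G * ENNReal.ofReal G) • volume := by
  have hm : ∀ i : ℝ, Measurable (fun y : ℝ => y / G - i) := fun i => (measurable_id.div_const G).sub_const i
  have e : (fun v : K7aU => (v.1 / G - i, v.2.1 / G - j, v.2.2))
      = Prod.map (fun y : ℝ => y / G - i) (Prod.map (fun y : ℝ => y / G - j) (id : ℝ × ℝ × ℝ → ℝ × ℝ × ℝ)) := rfl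
  have v1 : (volume : Measure K7aU) = (volume : Measure ℝ).prod ((volume : Measure ℝ).prod (volume : Measure (ℝ × ℝ × ℝ))) := rfl
  rw [e, v1, ← Measure.map_prod_map _ _ (hm i) ((hm j).prodMap measurable_id),
    ← Measure.map_prod_map _ _ (hm j) measurable_id, k7a_c_map_aff hG, k7a_c_map_aff hG, Measure.map_id,
    Measure.prod_smul_left, Measure.prod_smul_left, Measure.prod_smul_right, smul_smul]

/-- **L-252-S7aC-K3** (~250 l.).  Worlds: the crops lie in `[-K/G - 1, K/G]²`.   Density: on the crop `e = (i,j) ⊆ W` the new coefficients are `T (co l)`, `T (y0,y1,x) = (y0/G - i, y1/G - j, x)`, `vol.map T = G² vol`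
(`Measure.map_prod_map`, `Real.map_volume_mul_left`, translation invariance), `(ν|_e).map co ≤ ν.map co ≤ Q vol` (`Tmp.dens 0`, `om (fun _ => 0) 0 = 1`); weight `ν e / ν W ≥ lo / ν W`.   Unused or empty crops: the restricted prior is `0`. -/
theorem k7a_c_crop_tmp (D : K7aData Λ) {K Q Q' G lo hi : ℝ} (hD : D.Adm K) (hK : 1 ≤ K) (hT : D.Tmp (fun _ => 0) Q) (hG0 : 0 < G) (hlo : 0 < lo)
    (hQ : Q * G ^ 2 ≤ Q' * lo) (hcard : (2 * K / G + 3) ^ 2 ≤ Q') (E0 : Set (Λ × ℝ)) : (D.crop G (D.cW G lo hi) E0).Tmp (D.cwd G) Q' := by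
  classical
  have := hD.prob
  have hK0 : 0 ≤ K := by linarith
  obtain ⟨hcrwm, hcwdm⟩ := k7a_c_meas_crw D hD G
  refine ⟨hcwdm, ?_, ?_⟩
  · set I : Finset ℤ := Finset.Icc ⌊-(K / G)⌋ ⌊K / G⌋ with hI
    have hKG : 0 ≤ K / G := by positivity
    have hcardI : (I.card : ℝ) ≤ 2 * K / G + 3 := by
      rw [hI, Int.card_Icc]
      have h1 : (⌊K / G⌋ : ℝ) ≤ K / G := Int.floor_le _
      have h2 : -(K / G) < ⌊-(K / G)⌋ + 1 := Int.lt_floor_add_one _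
      have h3 : (0 : ℤ) ≤ ⌊K / G⌋ + 1 - ⌊-(K / G)⌋ := by
        have : ⌊-(K / G)⌋ ≤ ⌊K / G⌋ := Int.floor_le_floor (by linarith)
        omega
      have h4 : (((⌊K / G⌋ + 1 - ⌊-(K / G)⌋).toNat : ℕ) : ℝ) = ((⌊K / G⌋ + 1 - ⌊-(K / G)⌋ : ℤ) : ℝ) := by
        rw [← Int.cast_natCast, Int.toNat_of_nonneg h3]
      rw [h4]; push_cast
      have h5 : 2 * K / G = K / G + K / G := by ring
      linarith
    have hbox : ∀ l, D.crw G l ∈ I ×ˢ I := by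
      intro l
      obtain ⟨b0, b1, _⟩ := hD.bd l
      rw [abs_le] at b0 b1
      have hfl : ∀ y : ℝ, -K ≤ y → y ≤ K → ⌊y / G⌋ ∈ I := by
        intro y h1 h2
        rw [hI, Finset.mem_Icc]
        refine ⟨Int.floor_le_floor ?_, Int.floor_le_floor (div_le_div_of_nonneg_right h2 hG0.le)⟩
        rw [← neg_div]
        exact div_le_div_of_nonneg_right h1 hG0.le
      rw [Finset.mem_product]
      exact ⟨hfl _ b0.1 b0.2, hfl _ b1.1 b1.2⟩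
    refine ⟨(I ×ˢ I).image (Denumerable.eqv (ℤ × ℤ)), fun l => Finset.mem_image_of_mem _ (hbox l), ?_⟩
    refine le_trans ?_ hcard
    have h1 : (((I ×ˢ I).image (Denumerable.eqv (ℤ × ℤ))).card : ℝ) ≤ ((I ×ˢ I).card : ℝ) := by
      exact_mod_cast Finset.card_image_le
    refine le_trans h1 ?_
    rw [Finset.card_product]
    push_cast
    have h0 : (0 : ℝ) ≤ I.card := Nat.cast_nonneg _
    nlinarith
  · intro γ
    obtain ⟨⟨i, j⟩, rfl⟩ := (Denumerable.eqv (ℤ × ℤ)).surjective γ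
    set W := D.cW G lo hi with hW
    obtain ⟨hom, _, hlow⟩ := k7a_c_crop_om D hD G lo hi E0 (i, j)
    have hpre : D.cwd G ⁻¹' {Denumerable.eqv (ℤ × ℤ) (i, j)} = D.crw G ⁻¹' {(i, j)} := by
      ext l
      show Denumerable.eqv (ℤ × ℤ) (D.crw G l) = Denumerable.eqv (ℤ × ℤ) (i, j) ↔ D.crw G l = (i, j)
      exact (Denumerable.eqv (ℤ × ℤ)).injective.eq_iff
    have hCm : MeasurableSet (D.crw G ⁻¹' {(i, j)}) := hcrwm (measurableSet_singleton _)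
    have hWm : MeasurableSet W := k7a_c_meas_cW D hD G lo hi
    have hres : (D.crop G W E0).nu.restrict (D.cwd G ⁻¹' {Denumerable.eqv (ℤ × ℤ) (i, j)})
        = (D.nu W)⁻¹ • D.nu.restrict (W ∩ D.crw G ⁻¹' {(i, j)}) := by
      show ((D.nu W)⁻¹ • D.nu.restrict W).restrict _ = _
      rw [hpre, Measure.restrict_smul, Measure.restrict_restrict hCm, Set.inter_comm]
    rw [hres, Measure.map_smul, hom]
    by_cases hne : (W ∩ D.crw G ⁻¹' {(i, j)}).Nonempty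
    · have hlo' := hlow hne
      set T : K7aU → K7aU := fun v => (v.1 / G - (i : ℝ), v.2.1 / G - (j : ℝ), v.2.2) with hTdef
      have hTm : Measurable T :=
        ((measurable_fst.div_const G).sub_const _).prodMk
          (((measurable_fst.comp measurable_snd).div_const G).sub_const _ |>.prodMk (measurable_snd.comp measurable_snd))
      have hco : Measurable D.co := hD.meas
      have h1 : (D.nu.restrict (W ∩ D.crw G ⁻¹' {(i, j)})).map (D.crop G W E0).co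
          = ((D.nu.restrict (W ∩ D.crw G ⁻¹' {(i, j)})).map D.co).map T := by
        rw [Measure.map_map hTm hco]
        apply Measure.map_congr
        filter_upwards [ae_restrict_mem (hWm.inter hCm)] with l hl
        have hl2 : D.crw G l = (i, j) := hl.2
        have hi : ⌊D.y0 l / G⌋ = i := congrArg Prod.fst hl2
        have hj : ⌊D.y1 l / G⌋ = j := congrArg Prod.snd hl2
        show (Int.fract (D.y0 l / G), Int.fract (D.y1 l / G), D.x0 l, D.x1 l, D.x2 l)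
          = (D.y0 l / G - (i : ℝ), D.y1 l / G - (j : ℝ), D.x0 l, D.x1 l, D.x2 l)
        rw [← Int.self_sub_floor, ← Int.self_sub_floor, hi, hj]
      have h2 : (D.nu.restrict (W ∩ D.crw G ⁻¹' {(i, j)})).map D.co ≤ ENNReal.ofReal Q • volume := by
        have h3 := hT.dens 0
        have h4 : (fun _ : Λ => (0 : ℕ)) ⁻¹' {0} = Set.univ := by ext; simp
        rw [k7a_c_om_zero D hD, mul_one, h4, Measure.restrict_univ] at h3
        exact le_trans (Measure.map_mono Measure.restrict_le_self hco) h3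
      have h3 := Measure.map_mono h2 hTm
      rw [Measure.map_smul, k7a_c_map_chart hG0] at h3
      rw [h1]
      intro A
      have h4 := h3 A
      rw [Measure.smul_apply, Measure.smul_apply, smul_eq_mul, smul_eq_mul] at h4
      rw [Measure.smul_apply, Measure.smul_apply, smul_eq_mul, smul_eq_mul]
      have h5 : ENNReal.ofReal Q * (ENNReal.ofReal G * ENNReal.ofReal G) ≤ ENNReal.ofReal Q' * ENNReal.ofReal lo := by
        rw [← ENNReal.ofReal_mul hG0.le, ← ENNReal.ofReal_mul' (by positivity), ← ENNReal.ofReal_mul' hlo.le]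
        apply ENNReal.ofReal_le_ofReal
        calc Q * (G * G) = Q * G ^ 2 := by ring
          _ ≤ Q' * lo := hQ
      calc (D.nu W)⁻¹ * (((D.nu.restrict (W ∩ D.crw G ⁻¹' {(i, j)})).map D.co).map T) A
          ≤ (D.nu W)⁻¹ * (ENNReal.ofReal Q * (ENNReal.ofReal G * ENNReal.ofReal G * volume A)) := mul_le_mul_right h4 _
        _ = (D.nu W)⁻¹ * ((ENNReal.ofReal Q * (ENNReal.ofReal G * ENNReal.ofReal G)) * volume A) := by ring
        _ ≤ (D.nu W)⁻¹ * ((ENNReal.ofReal Q' * ENNReal.ofReal lo) * volume A) := by gcongr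
        _ = ENNReal.ofReal Q' * ((D.nu W)⁻¹ * ENNReal.ofReal lo) * volume A := by ring
        _ ≤ ENNReal.ofReal Q' * ((D.nu W)⁻¹ * D.nu (W ∩ D.crw G ⁻¹' {(i, j)})) * volume A := by gcongr
    · rw [Set.not_nonempty_iff_eq_empty.1 hne, Measure.restrict_empty, Measure.map_zero, smul_zero]
      exact Measure.zero_le _

/-- auxiliary: the common part of `k7a_c_crop_ecap` and `k7a_c_crop_eangW` -/
theorem k7a_c_crop_core (D : K7aData Λ) {K G lo hi X : ℝ} (hD : D.Adm K) (hG0 : 0 < G) (hlo : 0 < lo) (E0 : Set (Λ × ℝ)) (hE0 : MeasurableSet E0)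
    (e : ℤ × ℤ) (S : Set (Λ × ℝ)) (V : ℝ≥0∞) (hS : ∀ z ∈ S, D.crw G z.1 = e)
    (hb : D.mu (S ∩ (E0 ∩ D.cW G lo hi ×ˢ Set.univ)) ≤ ENNReal.ofReal (X * lo / G) * (ENNReal.ofReal G * V)) :
    (D.crop G (D.cW G lo hi) E0).mu S
      ≤ ENNReal.ofReal X * (D.crop G (D.cW G lo hi) E0).om (D.cwd G) (Denumerable.eqv (ℤ × ℤ) e) * V := by
  have hWm := k7a_c_meas_cW D hD G lo hi
  have hT : MeasurableSet (E0 ∩ D.cW G lo hi ×ˢ (Set.univ : Set ℝ)) := hE0.inter (hWm.prod MeasurableSet.univ)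
  obtain ⟨hom, _, hlow⟩ := k7a_c_crop_om D hD G lo hi E0 e
  have hmu : (D.crop G (D.cW G lo hi) E0).mu S
      = (D.nu (D.cW G lo hi))⁻¹ * D.mu (S ∩ (E0 ∩ D.cW G lo hi ×ˢ Set.univ)) := by
    show ((D.nu (D.cW G lo hi))⁻¹ • D.mu.restrict (E0 ∩ D.cW G lo hi ×ˢ Set.univ)) S = _
    rw [Measure.smul_apply, smul_eq_mul, Measure.restrict_apply' hT]
  rw [hmu, hom]
  by_cases hne : (D.cW G lo hi ∩ D.crw G ⁻¹' {e}).Nonempty
  · have h1 := hlow hne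
    have e1 : ENNReal.ofReal (X * lo / G) * (ENNReal.ofReal G * V) = ENNReal.ofReal X * ENNReal.ofReal lo * V := by
      rw [← mul_assoc, ← ENNReal.ofReal_mul' hG0.le, div_mul_cancel₀ _ hG0.ne', ENNReal.ofReal_mul' hlo.le]
    calc (D.nu (D.cW G lo hi))⁻¹ * D.mu (S ∩ (E0 ∩ D.cW G lo hi ×ˢ Set.univ))
        ≤ (D.nu (D.cW G lo hi))⁻¹ * (ENNReal.ofReal X * ENNReal.ofReal lo * V) := mul_le_mul_right (hb.trans_eq e1) _
      _ = ENNReal.ofReal X * ((D.nu (D.cW G lo hi))⁻¹ * ENNReal.ofReal lo) * V := by ring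
      _ ≤ ENNReal.ofReal X * ((D.nu (D.cW G lo hi))⁻¹ * D.nu (D.cW G lo hi ∩ D.crw G ⁻¹' {e})) * V := by gcongr
  · have h0 : S ∩ (E0 ∩ D.cW G lo hi ×ˢ Set.univ) = ∅ := by
      rw [Set.eq_empty_iff_forall_notMem]
      rintro z ⟨hz1, _, hz2⟩
      exact hne ⟨z.1, hz2.1, hS z hz1⟩
    rw [h0, measure_empty, mul_zero]; exact zero_le

/-- **L-252-S7aC-K4** (~200 l.).  World `γ = eqv (i,j)` (`Equiv.surjective`).  By `k7a_c_crop_mu`, `k7a_c_crop_bs` the event is contained in `E0 ∩ {bs ∈ Φ⁻¹ B, x ∈ .., y1 ∈ [Gj, Gj+G)}`, `vol (Φ⁻¹ B) = G vol B` (`k7a_c_vol_pre`);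
if it meets `W × ℝ`, the weight of the world is `≥ lo / ν W` (`k7a_c_crop_om`), otherwise the left side is `0`.   (`(ν W)⁻¹` may be `∞` or `0`: no case distinction is needed, it is a common factor.) -/
theorem k7a_c_crop_ecap (D : K7aData Λ) {K Kc G lo hi c' d' a' : ℝ} (hD : D.Adm K) (hG0 : 0 < G) (hlo : 0 < lo) (E0 : Set (Λ × ℝ)) (hE0 : MeasurableSet E0)
    (h : ∀ (j : ℤ) (B : Set (ℝ × ℝ)) (p xs : ℝ), MeasurableSet B → a' ≤ p → p ≤ 1 →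
      D.mu (E0 ∩ {z | D.bs z ∈ B ∧ D.x z.1 z.2 ∈ Set.Ico xs (xs + p) ∧ D.y1 z.1 ∈ Set.Ico (G * j) (G * j + G)})
        ≤ ENNReal.ofReal (Kc * c' * p ^ d' * lo / G) * volume B) :
    (D.crop G (D.cW G lo hi) E0).ECap (D.cwd G) Kc c' d' a' := by
  intro γ B p xs hB hap hp1
  obtain ⟨⟨i, j⟩, rfl⟩ := (Denumerable.eqv (ℤ × ℤ)).surjective γ
  obtain ⟨hΦm, hΦv⟩ := k7a_c_vol_pre hG0 (i : ℝ) (j : ℝ) B hB
  refine k7a_c_crop_core D hD hG0 hlo E0 hE0 (i, j) _ (volume B) ?_ ?_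
  · rintro z ⟨hz, _⟩
    exact (Denumerable.eqv (ℤ × ℤ)).injective hz
  · rw [← hΦv]
    refine le_trans (measure_mono ?_) (h j _ p xs hΦm hap hp1)
    rintro z ⟨⟨hz1, hz2, hz3⟩, hz4, _⟩
    have hcrw : D.crw G z.1 = (i, j) := (Denumerable.eqv (ℤ × ℤ)).injective hz1
    obtain ⟨hbs, hx, _⟩ := k7a_c_crop_bs D hG0 (D.cW G lo hi) E0 z
    refine ⟨hz4, ?_, ?_, ?_⟩
    · show (fun o : ℝ × ℝ => (o.1, (o.2 - G * (i + j * o.1)) / G)) (D.bs z) ∈ B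
      rw [hbs, hcrw] at hz2
      exact hz2
    · rw [hx] at hz3; exact hz3
    · have h1 : ⌊D.y1 z.1 / G⌋ = j := congrArg Prod.snd hcrw
      have h2 := (k7a_c_floor_fib hG0 _ _).1 h1
      rwa [mul_comm] at h2

/-- **L-252-S7aC-K5** (~200 l.).  As K4; `y1' = y1/G - j ∈ [vs, vs + w)` iff `y1 ∈ [G (j + vs), G (j + vs) + G w)`. -/
theorem k7a_c_crop_eangW (D : K7aData Λ) {K Kc G lo hi c' d' a' ε wmin : ℝ} (hD : D.Adm K) (hG0 : 0 < G) (hlo : 0 < lo) (E0 : Set (Λ × ℝ))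
    (hE0 : MeasurableSet E0)
    (h : ∀ (B : Set (ℝ × ℝ)) (xs vs w : ℝ), MeasurableSet B → wmin ≤ w → w ≤ 1 →
      D.mu (E0 ∩ {z | D.bs z ∈ B ∧ D.x z.1 z.2 ∈ Set.Ico xs (xs + a') ∧ D.y1 z.1 ∈ Set.Ico vs (vs + G * w)})
        ≤ ENNReal.ofReal (Kc * c' * a' ^ d' * w ^ ε * lo / G) * volume B) :
    (D.crop G (D.cW G lo hi) E0).EAngW (D.cwd G) Kc c' d' a' ε wmin := by
  intro γ B xs vs w hB hw0 hw1
  obtain ⟨⟨i, j⟩, rfl⟩ := (Denumerable.eqv (ℤ × ℤ)).surjective γ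
  obtain ⟨hΦm, hΦv⟩ := k7a_c_vol_pre hG0 (i : ℝ) (j : ℝ) B hB
  refine k7a_c_crop_core D hD hG0 hlo E0 hE0 (i, j) _ (volume B) ?_ ?_
  · rintro z ⟨hz, _⟩
    exact (Denumerable.eqv (ℤ × ℤ)).injective hz
  · rw [← hΦv]
    refine le_trans (measure_mono ?_) (h _ xs (G * ((j : ℝ) + vs)) w hΦm hw0 hw1)
    rintro z ⟨⟨hz1, hz2, hz3, hz5⟩, hz4, _⟩
    have hcrw : D.crw G z.1 = (i, j) := (Denumerable.eqv (ℤ × ℤ)).injective hz1
    obtain ⟨hbs, hx, hy1⟩ := k7a_c_crop_bs D hG0 (D.cW G lo hi) E0 z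
    refine ⟨hz4, ?_, ?_, ?_⟩
    · show (fun o : ℝ × ℝ => (o.1, (o.2 - G * (i + j * o.1)) / G)) (D.bs z) ∈ B
      rw [hbs, hcrw] at hz2
      exact hz2
    · rw [hx] at hz3; exact hz3
    · rw [hy1, hcrw] at hz5
      obtain ⟨h1, h2⟩ := hz5
      have h1' : vs + (j : ℝ) ≤ D.y1 z.1 / G := by linarith
      have h2' : D.y1 z.1 / G < vs + w + (j : ℝ) := by linarith
      rw [le_div_iff₀ hG0] at h1'
      rw [div_lt_iff₀ hG0] at h2'
      constructor <;> nlinarith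

/-- two families of disjoint strips -/
theorem k7a_c_strip_sum {G : ℝ} (hG : 0 < G) (j : ℝ) (X : Set (ℝ × ℝ)) (hX : MeasurableSet X) :
    ∑' i : ℤ, volume (X ∩ {o : ℝ × ℝ | G * (i : ℝ) ≤ o.2 - G * j * o.1 ∧ o.2 - G * j * o.1 < G * (i : ℝ) + 2 * G}) ≤ 2 * volume X := by
  have hf : Measurable fun o : ℝ × ℝ => ⌊(o.2 - G * j * o.1) / G⌋ := by
    have h0 : Measurable fun o : ℝ × ℝ => (o.2 - G * j * o.1) / G := by fun_prop
    exact Int.measurable_floor.comp h0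
  have h1 : ∀ s : ℤ, ∑' i : ℤ, volume (X ∩ (fun o : ℝ × ℝ => ⌊(o.2 - G * j * o.1) / G⌋) ⁻¹' {i + s}) ≤ volume X := by
    intro s
    rw [← measure_iUnion]
    · exact measure_mono (Set.iUnion_subset fun i => Set.inter_subset_left)
    · intro i i' hii
      refine Set.disjoint_left.2 fun o ho ho' => hii ?_
      have e1 : ⌊(o.2 - G * j * o.1) / G⌋ = i + s := ho.2
      have e2 : ⌊(o.2 - G * j * o.1) / G⌋ = i' + s := ho'.2
      omega
    · intro i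
      exact hX.inter (hf (measurableSet_singleton _))
  calc ∑' i : ℤ, volume (X ∩ {o : ℝ × ℝ | G * (i : ℝ) ≤ o.2 - G * j * o.1 ∧ o.2 - G * j * o.1 < G * (i : ℝ) + 2 * G})
      ≤ ∑' i : ℤ, (volume (X ∩ (fun o : ℝ × ℝ => ⌊(o.2 - G * j * o.1) / G⌋) ⁻¹' {i + 0})
          + volume (X ∩ (fun o : ℝ × ℝ => ⌊(o.2 - G * j * o.1) / G⌋) ⁻¹' {i + 1})) := by
        refine ENNReal.tsum_le_tsum fun i => ?_
        refine (measure_mono ?_).trans (measure_union_le _ _)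
        rintro o ⟨hoX, h2, h3⟩
        have h4 : (i : ℝ) ≤ (o.2 - G * j * o.1) / G := by
          rw [le_div_iff₀ hG]; linarith
        have h5 : (o.2 - G * j * o.1) / G < (i : ℝ) + 2 := by
          rw [div_lt_iff₀ hG]; linarith
        by_cases h6 : (o.2 - G * j * o.1) / G < (i : ℝ) + 1
        · left
          refine ⟨hoX, ?_⟩
          show ⌊(o.2 - G * j * o.1) / G⌋ = i + 0
          rw [add_zero, Int.floor_eq_iff]
          exact ⟨h4, h6⟩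
        · right
          refine ⟨hoX, ?_⟩
          show ⌊(o.2 - G * j * o.1) / G⌋ = i + 1
          rw [Int.floor_eq_iff]
          push_cast
          exact ⟨not_lt.1 h6, by linarith⟩
    _ = ∑' i : ℤ, volume (X ∩ (fun o : ℝ × ℝ => ⌊(o.2 - G * j * o.1) / G⌋) ⁻¹' {i + 0})
          + ∑' i : ℤ, volume (X ∩ (fun o : ℝ × ℝ => ⌊(o.2 - G * j * o.1) / G⌋) ⁻¹' {i + 1}) := ENNReal.tsum_add
    _ ≤ volume X + volume X := add_le_add (h1 0) (h1 1)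
    _ = 2 * volume X := (two_mul _).symm

theorem k7a_c_strip_meas (G i j : ℝ) : MeasurableSet {o : ℝ × ℝ | G * i ≤ o.2 - G * j * o.1 ∧ o.2 - G * j * o.1 < G * i + 2 * G} := by
  have h0 : Measurable fun o : ℝ × ℝ => o.2 - G * j * o.1 := by fun_prop
  exact (measurableSet_le measurable_const h0).inter (measurableSet_lt h0 measurable_const)

/-- the triple sum of the strips -/
theorem k7a_c_strip_tsum {G : ℝ} (hG : 0 < G) (U : ℤ × ℤ → Set (ℝ × ℝ)) (hU : ∀ e, MeasurableSet (U e)) :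
    ∑' e : ℤ × ℤ, ∑' k : ℤ, volume (U (k, e.2) ∩ {o : ℝ × ℝ | G * (e.1 : ℝ) ≤ o.2 - G * (e.2 : ℝ) * o.1 ∧ o.2 - G * (e.2 : ℝ) * o.1 < G * (e.1 : ℝ) + 2 * G})
      ≤ 2 * ∑' e, volume (U e) := by
  rw [ENNReal.tsum_prod (f := fun i j : ℤ => ∑' k : ℤ, volume (U (k, j) ∩ {o : ℝ × ℝ | G * (i : ℝ) ≤ o.2 - G * (j : ℝ) * o.1 ∧ o.2 - G * (j : ℝ) * o.1 < G * (i : ℝ) + 2 * G})),
    ENNReal.tsum_comm]
  calc ∑' (j : ℤ) (i : ℤ) (k : ℤ), volume (U (k, j) ∩ {o : ℝ × ℝ | G * (i : ℝ) ≤ o.2 - G * (j : ℝ) * o.1 ∧ o.2 - G * (j : ℝ) * o.1 < G * (i : ℝ) + 2 * G})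
      = ∑' (j : ℤ) (k : ℤ) (i : ℤ), volume (U (k, j) ∩ {o : ℝ × ℝ | G * (i : ℝ) ≤ o.2 - G * (j : ℝ) * o.1 ∧ o.2 - G * (j : ℝ) * o.1 < G * (i : ℝ) + 2 * G}) :=
        tsum_congr fun j => ENNReal.tsum_comm
    _ ≤ ∑' (j : ℤ) (k : ℤ), 2 * volume (U (k, j)) :=
        ENNReal.tsum_le_tsum fun j => ENNReal.tsum_le_tsum fun k => k7a_c_strip_sum hG j _ (hU _)
    _ = 2 * ∑' e, volume (U e) := by
        rw [ENNReal.tsum_comm, ENNReal.tsum_prod (f := fun a b => volume (U (a, b))), ← ENNReal.tsum_mul_left]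
        exact tsum_congr fun k => ENNReal.tsum_mul_left

/-- **L-252-S7aC-K6** (~300 l.).  `U' (eqv (i,j)) k = Ψ⁻¹ (U (k,j) ∩ St i j)`, `Ψ (t,y') = (t, G y' + G (i + j t))`, `St i j = {(t,y) | G i ≤ y - G j t < G i + 2 G}` (`y' ∈ [0,2)` for `t ∈ [0,1]`: `k7a_c_ae_time`), `vol = G⁻¹ vol (U (k,j) ∩ St i j)`
(`k7a_c_vol_pre'`);  `∑' i, vol (X ∩ St i j) ≤ 2 vol X` (two families of disjoint strips);  weights `≤ hi / ν W` (`k7a_c_crop_om`);  `∑' γ = ∑' (i,j)` (`Equiv.tsum_eq`), `ENNReal.tsum_prod`, `ENNReal.tsum_comm`;  `Hs ∑' vol (U e) ≤ μ univ ≤ K`. -/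
theorem k7a_c_crop_esup (D : K7aData Λ) {K Ks G lo hi c' d' a' Hs P0 : ℝ} (hD : D.Adm K) (hG0 : 0 < G) (hhi : 0 < hi) (hHs : 0 < Hs) (hP0 : 0 < P0)
    (hc' : 0 ≤ c' * a' ^ d') (E0 : Set (Λ × ℝ)) (hE0 : MeasurableSet E0) (U : ℤ × ℤ → Set (ℝ × ℝ)) (hU : ∀ e, MeasurableSet (U e))
    (hmem : ∀ z ∈ E0, D.bs z ∈ U (⌊D.x z.1 z.2 / a'⌋, ⌊D.y1 z.1 / G⌋))
    (hsum : ENNReal.ofReal Hs * ∑' e, volume (U e) ≤ D.mu Set.univ) (hP : ENNReal.ofReal P0 ≤ D.nu (D.cW G lo hi))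
    (hnum : 2 * (c' * a' ^ d') * hi / G * K ≤ Ks * Hs * P0) :
    (D.crop G (D.cW G lo hi) E0).ESup (D.cwd G) Ks c' d' a' := by
  obtain ⟨V, hV⟩ : ∃ V : ℤ × ℤ → ℤ → Set (ℝ × ℝ), V = fun e k => (fun o : ℝ × ℝ => (o.1, G * o.2 + G * ((e.1 : ℝ) + (e.2 : ℝ) * o.1))) ⁻¹'
      (U (k, e.2) ∩ {o : ℝ × ℝ | G * (e.1 : ℝ) ≤ o.2 - G * (e.2 : ℝ) * o.1 ∧ o.2 - G * (e.2 : ℝ) * o.1 < G * (e.1 : ℝ) + 2 * G}) := ⟨_, rfl⟩
  have hVm : ∀ e k, MeasurableSet (V e k) ∧ volume (V e k) = ENNReal.ofReal G⁻¹ *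
      volume (U (k, e.2) ∩ {o : ℝ × ℝ | G * (e.1 : ℝ) ≤ o.2 - G * (e.2 : ℝ) * o.1 ∧ o.2 - G * (e.2 : ℝ) * o.1 < G * (e.1 : ℝ) + 2 * G}) := by
    intro e k
    rw [hV]
    exact k7a_c_vol_pre' hG0 (e.1 : ℝ) (e.2 : ℝ) _ ((hU _).inter (k7a_c_strip_meas G _ _))
  refine ⟨fun γ k => V ((Denumerable.eqv (ℤ × ℤ)).symm γ) k, fun γ k => (hVm _ k).1, ?_, ?_⟩
  · have hS : MeasurableSet (E0 ∩ D.cW G lo hi ×ˢ (Set.univ : Set ℝ)) := hE0.inter ((k7a_c_meas_cW D hD G lo hi).prod MeasurableSet.univ)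
    have h1 : ∀ᵐ z ∂(D.mu.restrict (E0 ∩ D.cW G lo hi ×ˢ (Set.univ : Set ℝ))), z ∈ E0 ∩ D.cW G lo hi ×ˢ (Set.univ : Set ℝ) := ae_restrict_mem hS
    have h2 : ∀ᵐ z ∂(D.mu.restrict (E0 ∩ D.cW G lo hi ×ˢ (Set.univ : Set ℝ))), z.2 ∈ Set.Icc (0 : ℝ) 1 := ae_restrict_of_ae (k7a_c_ae_time D hD)
    refine Measure.ae_smul_measure ?_ _
    filter_upwards [h1, h2] with z hz1 hz2
    obtain ⟨hb, hx, -⟩ := k7a_c_crop_bs D hG0 (D.cW G lo hi) E0 z
    have he : (Denumerable.eqv (ℤ × ℤ)).symm (D.cwd G z.1) = D.crw G z.1 := Equiv.symm_apply_apply _ _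
    rw [hb, hx, he, hV]
    have hpt : (z.2, G * ((D.y z.1 z.2 - G * (((D.crw G z.1).1 : ℝ) + ((D.crw G z.1).2 : ℝ) * z.2)) / G) + G * (((D.crw G z.1).1 : ℝ) + ((D.crw G z.1).2 : ℝ) * z.2))
        = D.bs z := by
      unfold K7aData.bs
      congr 1
      field_simp
      ring
    suffices key : D.bs z ∈ U (⌊D.x z.1 z.2 / a'⌋, (D.crw G z.1).2) ∩ {o : ℝ × ℝ | G * ((D.crw G z.1).1 : ℝ) ≤ o.2 - G * ((D.crw G z.1).2 : ℝ) * o.1 ∧ o.2 - G * ((D.crw G z.1).2 : ℝ) * o.1 < G * ((D.crw G z.1).1 : ℝ) + 2 * G} by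
      rw [← hpt] at key
      exact key
    refine ⟨hmem z hz1.1, ?_⟩
    have f0 : ((D.crw G z.1).1 : ℝ) ≤ D.y0 z.1 / G ∧ D.y0 z.1 / G < ((D.crw G z.1).1 : ℝ) + 1 := ⟨Int.floor_le _, Int.lt_floor_add_one _⟩
    have f1 : ((D.crw G z.1).2 : ℝ) ≤ D.y1 z.1 / G ∧ D.y1 z.1 / G < ((D.crw G z.1).2 : ℝ) + 1 := ⟨Int.floor_le _, Int.lt_floor_add_one _⟩
    rw [le_div_iff₀ hG0, div_lt_iff₀ hG0] at f0 f1
    show G * ((D.crw G z.1).1 : ℝ) ≤ D.y z.1 z.2 - G * ((D.crw G z.1).2 : ℝ) * z.2 ∧ D.y z.1 z.2 - G * ((D.crw G z.1).2 : ℝ) * z.2 < G * ((D.crw G z.1).1 : ℝ) + 2 * G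
    unfold K7aData.y
    have g1 : 0 ≤ (D.y1 z.1 - ((D.crw G z.1).2 : ℝ) * G) * z.2 := mul_nonneg (by linarith [f1.1]) hz2.1
    have g2 : (D.y1 z.1 - ((D.crw G z.1).2 : ℝ) * G) * z.2 ≤ G * 1 := mul_le_mul (by linarith [f1.2]) hz2.2 hz2.1 hG0.le
    constructor
    · linarith [f0.1]
    · linarith [f0.2]
  · obtain ⟨A, hA⟩ : ∃ A : ℝ≥0∞, A = ∑' e, volume (U e) := ⟨_, rfl⟩
    obtain ⟨cc, hcc⟩ : ∃ cc : ℝ, cc = c' * a' ^ d' := ⟨_, rfl⟩
    rw [← hcc] at hc' hnum ⊢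
    rw [← hA] at hsum
    have hA1 : A ≤ ENNReal.ofReal (K / Hs) := by
      rw [ENNReal.ofReal_div_of_pos hHs, ENNReal.le_div_iff_mul_le (Or.inl (by simpa using hHs)) (Or.inl ENNReal.ofReal_ne_top), mul_comm]
      exact hsum.trans (k7a_c_mass_le D hD)
    have hW1 : (D.nu (D.cW G lo hi))⁻¹ ≤ ENNReal.ofReal P0⁻¹ := by
      rw [ENNReal.ofReal_inv_of_pos hP0]
      exact ENNReal.inv_le_inv.2 hP
    have hstep : ∑' γ, (D.crop G (D.cW G lo hi) E0).om (D.cwd G) γ * ∑' k, volume (V ((Denumerable.eqv (ℤ × ℤ)).symm γ) k)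
        ≤ (ENNReal.ofReal P0⁻¹ * ENNReal.ofReal hi * ENNReal.ofReal G⁻¹) * (2 * A) := by
      rw [← Equiv.tsum_eq (Denumerable.eqv (ℤ × ℤ))]
      calc ∑' e : ℤ × ℤ, (D.crop G (D.cW G lo hi) E0).om (D.cwd G) (Denumerable.eqv (ℤ × ℤ) e) * ∑' k, volume (V ((Denumerable.eqv (ℤ × ℤ)).symm (Denumerable.eqv (ℤ × ℤ) e)) k)
          ≤ ∑' e : ℤ × ℤ, (ENNReal.ofReal P0⁻¹ * ENNReal.ofReal hi * ENNReal.ofReal G⁻¹) * ∑' k : ℤ, volume (U (k, e.2) ∩ {o : ℝ × ℝ | G * (e.1 : ℝ) ≤ o.2 - G * (e.2 : ℝ) * o.1 ∧ o.2 - G * (e.2 : ℝ) * o.1 < G * (e.1 : ℝ) + 2 * G}) := by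
            refine ENNReal.tsum_le_tsum fun e => ?_
            obtain ⟨o1, o2, -⟩ := k7a_c_crop_om D hD G lo hi E0 e
            rw [o1, Equiv.symm_apply_apply, tsum_congr fun k => (hVm e k).2, ENNReal.tsum_mul_left, ← mul_assoc]
            gcongr
        _ = (ENNReal.ofReal P0⁻¹ * ENNReal.ofReal hi * ENNReal.ofReal G⁻¹) * ∑' e : ℤ × ℤ, ∑' k : ℤ, volume (U (k, e.2) ∩ {o : ℝ × ℝ | G * (e.1 : ℝ) ≤ o.2 - G * (e.2 : ℝ) * o.1 ∧ o.2 - G * (e.2 : ℝ) * o.1 < G * (e.1 : ℝ) + 2 * G}) := ENNReal.tsum_mul_left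
        _ ≤ (ENNReal.ofReal P0⁻¹ * ENNReal.ofReal hi * ENNReal.ofReal G⁻¹) * (2 * A) := by
            rw [hA]
            gcongr
            exact k7a_c_strip_tsum hG0 U hU
    calc ENNReal.ofReal cc * ∑' γ, (D.crop G (D.cW G lo hi) E0).om (D.cwd G) γ * ∑' k, volume (V ((Denumerable.eqv (ℤ × ℤ)).symm γ) k)
        ≤ ENNReal.ofReal cc * ((ENNReal.ofReal P0⁻¹ * ENNReal.ofReal hi * ENNReal.ofReal G⁻¹) * (ENNReal.ofReal 2 * ENNReal.ofReal (K / Hs))) := by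
          have e2 : ENNReal.ofReal 2 = 2 := by norm_num
          rw [e2]
          gcongr
          exact hstep.trans (by gcongr)
      _ = ENNReal.ofReal (cc * (P0⁻¹ * hi * G⁻¹ * (2 * (K / Hs)))) := by
          have p1 : 0 ≤ P0⁻¹ := (inv_pos.2 hP0).le
          have p2 : 0 ≤ G⁻¹ := (inv_pos.2 hG0).le
          rw [ENNReal.ofReal_mul hc', ENNReal.ofReal_mul (by positivity), ENNReal.ofReal_mul (by positivity), ENNReal.ofReal_mul p1, ENNReal.ofReal_mul (by norm_num)]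
      _ ≤ ENNReal.ofReal Ks := by
          refine ENNReal.ofReal_le_ofReal ?_
          have e : cc * (P0⁻¹ * hi * G⁻¹ * (2 * (K / Hs))) = (2 * cc * hi / G * K) / (Hs * P0) := by
            field_simp
          rw [e, div_le_iff₀ (by positivity)]
          linarith

/-! ## 4. Lifting a block -/

/-- **L-252-S7aC-L1** (~150 l.).  Dropping labels: if the floor is only known for the labels in `good` and the selected mass is carried by them, re-index by `Fintype.equivFin {i // good i}`. -/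
theorem k7a_c_block_filter (D : K7aData Λ) {wd : Λ → ℕ} {K c d a t0 q : ℝ} {n : ℕ} (lab : Λ → Option (Fin n)) (L : Fin n → K7aLab) (β : Fin n → ℝ)
    (w : Fin n → ℕ) (good : Fin n → Prop) (h1 : 0 ≤ t0) (h2 : t0 + q ≤ 1) (h3 : 1 ≤ K * q) (h4 : ∀ o, MeasurableSet (lab ⁻¹' {o}))
    (h5 : 1 ≤ ENNReal.ofReal K * D.mu {z | (∃ i, good i ∧ lab z.1 = some i) ∧ z.2 ∈ Set.Ico t0 (t0 + q)})
    (h6 : ∀ i, good i → K7aQuad (L i).F ∧ 0 < β i ∧ β i ≤ K ∧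
      (∀ l, lab l = some i → wd l = w i ∧ ∀ t ∈ Set.Ico t0 (t0 + q),
        |D.y l t - (L i).cen t| ≤ K * β i ∧ |D.x l t - (L i).F t (D.y l t)| ≤ K * a) ∧
      ENNReal.ofReal (q * c * a ^ d * β i) * D.om wd (w i)
        ≤ ENNReal.ofReal K * D.mu {z | lab z.1 = some i ∧ z.2 ∈ Set.Ico t0 (t0 + q)}) :
    D.Block wd K c d a := by
  classical
  set eq := Fintype.equivFin {i // good i} with heq
  set lab' : Λ → Option (Fin (Fintype.card {i // good i})) :=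
    fun l => (lab l).bind (fun i => if h : good i then some (eq ⟨i, h⟩) else none) with hlab'
  have hsome : ∀ l k, lab' l = some k ↔ lab l = some (eq.symm k).1 := by
    intro l k
    simp only [hlab']
    constructor
    · intro h
      rw [Option.bind_eq_some_iff] at h
      obtain ⟨i, hi, h'⟩ := h
      by_cases hg : good i
      · rw [dif_pos hg] at h'
        have h7 : eq ⟨i, hg⟩ = k := Option.some.inj h'
        rw [hi, ← h7, Equiv.symm_apply_apply]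
      · rw [dif_neg hg] at h'; exact absurd h' (by simp)
    · intro h
      rw [h, Option.bind_some, dif_pos (eq.symm k).2]
      simp
  have hnone : ∀ l, lab' l ≠ none ↔ ∃ i, good i ∧ lab l = some i := by
    intro l
    rw [Option.ne_none_iff_exists']
    constructor
    · rintro ⟨k, hk⟩; exact ⟨(eq.symm k).1, (eq.symm k).2, (hsome l k).1 hk⟩
    · rintro ⟨i, hg, hi⟩
      exact ⟨eq ⟨i, hg⟩, (hsome l _).2 (by rw [Equiv.symm_apply_apply]; exact hi)⟩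
  refine ⟨t0, q, _, lab', fun k => L (eq.symm k).1, fun k => β (eq.symm k).1, fun k => w (eq.symm k).1,
    h1, h2, h3, ?_, ?_, ?_⟩
  · have hs : ∀ k, MeasurableSet (lab' ⁻¹' {some k}) := by
      intro k
      have h7 : lab' ⁻¹' {some k} = lab ⁻¹' {some (eq.symm k).1} := by ext l; exact hsome l k
      rw [h7]; exact h4 _
    intro o
    cases o with
    | some k => exact hs k
    | none =>
      have h7 : lab' ⁻¹' {none} = (⋃ k, lab' ⁻¹' {some k})ᶜ := by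
        ext l
        simp only [Set.mem_preimage, Set.mem_singleton_iff, Set.mem_compl_iff, Set.mem_iUnion, not_exists]
        constructor
        · intro h k hk; rw [h] at hk; exact absurd hk (by simp)
        · intro h; by_contra hn; obtain ⟨k, hk⟩ := Option.ne_none_iff_exists'.1 hn; exact h k hk
      rw [h7]; exact (MeasurableSet.iUnion hs).compl
  · have h7 : {z : Λ × ℝ | lab' z.1 ≠ none ∧ z.2 ∈ Set.Ico t0 (t0 + q)}
        = {z | (∃ i, good i ∧ lab z.1 = some i) ∧ z.2 ∈ Set.Ico t0 (t0 + q)} := by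
      ext z; exact and_congr_left' (hnone z.1)
    rw [h7]; exact h5
  · intro k
    obtain ⟨a1, a2, a3, a4, a5⟩ := h6 (eq.symm k).1 (eq.symm k).2
    refine ⟨a1, a2, a3, fun l hl => a4 l ((hsome l k).1 hl), ?_⟩
    have h7 : {z : Λ × ℝ | lab' z.1 = some k ∧ z.2 ∈ Set.Ico t0 (t0 + q)}
        = {z | lab z.1 = some (eq.symm k).1 ∧ z.2 ∈ Set.Ico t0 (t0 + q)} := by
      ext z; exact and_congr_left' (hsome z.1 k)
    rw [h7]; exact a5

/-- the predictor in the chart of a crop is again a quadratic polynomial -/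
theorem k7a_c_quad_chart {F : ℝ → ℝ → ℝ} (hF : K7aQuad F) {G : ℝ} (hG : 0 < G) (i j : ℝ) :
    K7aQuad fun t y => F t ((y - G * (i + j * t)) / G) := by
  obtain ⟨e0, e1, e2, e3, e4, e5, h⟩ := hF
  refine ⟨e0 - e2 * i + e5 * i ^ 2, e1 - e2 * j - e4 * i + 2 * e5 * i * j, e2 / G - 2 * e5 * i / G, e3 - e4 * j + e5 * j ^ 2,
    e4 / G - 2 * e5 * j / G, e5 / G ^ 2, fun t y => ?_⟩
  show F t ((y - G * (i + j * t)) / G) = _
  rw [h]
  field_simp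
  ring

/-- **L-252-S7aC-L2** (~350 l.).  LIFT.  Block `(t0, q, n, lab, L, β, w)` of the cropped law; `(i_κ, j_κ) = eqv.symm (w κ)`; `good κ` := the crop `(i_κ, j_κ)` meets `W`.
New centre `G (i_κ + c0) + G (j_κ + c1) t`, new width `G β κ`, new predictor `F (t, (y - G (i_κ + j_κ t))/G)` (again `K7aQuad`: expand), world `0`.   Position and fit: `k7a_c_crop_bs` (pointwise, all `l`), `hfit`.
Floor: `om' (w κ) ≥ lo / ν W` (`k7a_c_crop_om`), `μ' S = μ (S ∩ ..) / ν W ≤ μ S / ν W` (`k7a_c_crop_mu`), `0 < ν W < ∞` cancels, `hfloor`; `om (fun _ => 0) 0 = 1`.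
Mass: the labels which are not good have `μ'`-mass `0` (their trajectories lie in a crop disjoint from `W`); `μ {sel} ≥ ν W μ' {sel} ≥ P0 / K''`, `hmass`.   Then `k7a_c_block_filter`. -/
theorem k7a_c_lift (D : K7aData Λ) {K K'' K' G lo hi c c' d d' a a' P0 : ℝ} (hD : D.Adm K) (hG0 : 0 < G) (hG1 : G ≤ 1) (hlo : 0 < lo) (hP0 : 0 < P0)
    (ha : 0 ≤ a) (hK'' : 1 ≤ K'') (hca : 0 ≤ c * a ^ d) (E0 : Set (Λ × ℝ)) (hE0 : MeasurableSet E0) (hP : ENNReal.ofReal P0 ≤ D.nu (D.cW G lo hi))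
    (hKK : K'' ≤ K') (hfit : K'' * a' ≤ K' * a) (hmass : K'' ≤ K' * P0) (hfloor : c * a ^ d * G * K'' ≤ K' * (c' * a' ^ d' * lo))
    (hB : (D.crop G (D.cW G lo hi) E0).Block (D.cwd G) K'' c' d' a') : D.Block (fun _ => 0) K' c d a := by
  obtain ⟨t0, q, n, lab, L, β, w, b1, b2, b3, b4, b5, b6⟩ := hB
  have hprob := hD.prob
  have hK0 : 0 < K'' := by linarith
  have hK'0 : 0 < K' := by linarith
  have hq : 0 < q := by
    by_contra hq
    have : K'' * q ≤ 0 := mul_nonpos_of_nonneg_of_nonpos hK0.le (not_lt.1 hq)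
    linarith
  obtain ⟨W, hW⟩ : ∃ W : Set Λ, W = D.cW G lo hi := ⟨_, rfl⟩
  have hW0 : D.nu W ≠ 0 := by
    rw [hW]
    intro h0
    rw [h0] at hP
    have : ENNReal.ofReal P0 = 0 := le_antisymm hP bot_le
    rw [ENNReal.ofReal_eq_zero] at this
    linarith
  have hWt : D.nu W ≠ ∞ := measure_ne_top _ _
  have hWi : (D.nu W)⁻¹ ≤ ENNReal.ofReal P0⁻¹ := by
    rw [ENNReal.ofReal_inv_of_pos hP0, hW]
    exact ENNReal.inv_le_inv.2 hP
  -- the crop of a label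
  obtain ⟨ce, hce⟩ : ∃ ce : Fin n → ℤ × ℤ, ce = fun κ => (Denumerable.eqv (ℤ × ℤ)).symm (w κ) := ⟨_, rfl⟩
  have hcrw : ∀ κ l, lab l = some κ → D.crw G l = ce κ := by
    intro κ l hl
    have h1 : D.cwd G l = w κ := ((b6 κ).2.2.2.1 l hl).1
    rw [hce]
    show D.crw G l = (Denumerable.eqv (ℤ × ℤ)).symm (w κ)
    rw [← h1]
    exact (Equiv.symm_apply_apply _ _).symm
  have hmeasS : ∀ A : Set (Option (Fin n)), MeasurableSet {z : Λ × ℝ | lab z.1 ∈ A ∧ z.2 ∈ Set.Ico t0 (t0 + q)} := by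
    intro A
    have hA : MeasurableSet (lab ⁻¹' A) := by
      have : lab ⁻¹' A = ⋃ o ∈ A, lab ⁻¹' {o} := by
        ext l; simp
      rw [this]
      exact MeasurableSet.biUnion (Set.to_countable A) fun o _ => b4 o
    exact hA.prod measurableSet_Ico
  refine k7a_c_block_filter D lab
    (fun κ => ⟨G * (((ce κ).1 : ℝ) + (L κ).c0), G * (((ce κ).2 : ℝ) + (L κ).c1), fun t y => (L κ).F t ((y - G * (((ce κ).1 : ℝ) + ((ce κ).2 : ℝ) * t)) / G)⟩)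
    (fun κ => G * β κ) (fun _ => 0) (fun κ => (W ∩ D.crw G ⁻¹' {ce κ}).Nonempty) b1 b2 ?_ b4 ?_ ?_
  · calc (1 : ℝ) ≤ K'' * q := b3
      _ ≤ K' * q := mul_le_mul_of_nonneg_right hKK hq.le
  · -- mass
    have hm := k7a_c_crop_mu D G W E0 {z : Λ × ℝ | lab z.1 ≠ none ∧ z.2 ∈ Set.Ico t0 (t0 + q)} (hmeasS {o | o ≠ none})
    rw [← hW, hm] at b5
    have hsub : {z : Λ × ℝ | lab z.1 ≠ none ∧ z.2 ∈ Set.Ico t0 (t0 + q)} ∩ (E0 ∩ W ×ˢ Set.univ)
        ⊆ {z | (∃ i, (W ∩ D.crw G ⁻¹' {ce i}).Nonempty ∧ lab z.1 = some i) ∧ z.2 ∈ Set.Ico t0 (t0 + q)} := by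
      rintro z ⟨⟨hz1, hz2⟩, -, hz3⟩
      obtain ⟨κ, hκ⟩ := Option.ne_none_iff_exists'.1 hz1
      exact ⟨⟨κ, ⟨z.1, hz3.1, hcrw κ z.1 hκ⟩, hκ⟩, hz2⟩
    calc (1 : ℝ≥0∞) ≤ ENNReal.ofReal K'' * ((D.nu W)⁻¹ * D.mu ({z : Λ × ℝ | lab z.1 ≠ none ∧ z.2 ∈ Set.Ico t0 (t0 + q)} ∩ (E0 ∩ W ×ˢ Set.univ))) := b5
      _ ≤ ENNReal.ofReal K'' * (ENNReal.ofReal P0⁻¹ * D.mu {z | (∃ i, (W ∩ D.crw G ⁻¹' {ce i}).Nonempty ∧ lab z.1 = some i) ∧ z.2 ∈ Set.Ico t0 (t0 + q)}) := by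
          gcongr
      _ = ENNReal.ofReal (K'' * P0⁻¹) * D.mu {z | (∃ i, (W ∩ D.crw G ⁻¹' {ce i}).Nonempty ∧ lab z.1 = some i) ∧ z.2 ∈ Set.Ico t0 (t0 + q)} := by
          rw [ENNReal.ofReal_mul hK0.le, mul_assoc]
      _ ≤ ENNReal.ofReal K' * D.mu {z | (∃ i, (W ∩ D.crw G ⁻¹' {ce i}).Nonempty ∧ lab z.1 = some i) ∧ z.2 ∈ Set.Ico t0 (t0 + q)} := by
          gcongr
          rw [← div_eq_mul_inv, div_le_iff₀ hP0]
          exact hmass
  · intro κ hgood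
    obtain ⟨c1, c2, c3, c4, c5⟩ := b6 κ
    refine ⟨k7a_c_quad_chart c1 hG0 _ _, mul_pos hG0 c2, ?_, ?_, ?_⟩
    · calc G * β κ ≤ 1 * K'' := mul_le_mul hG1 c3 c2.le zero_le_one
        _ ≤ K' := by linarith
    · intro l hl
      refine ⟨rfl, fun t ht => ?_⟩
      obtain ⟨p1, p2⟩ := (c4 l hl).2 t ht
      obtain ⟨hb, hx, -⟩ := k7a_c_crop_bs D hG0 (D.cW G lo hi) E0 (l, t)
      have hy : (D.crop G (D.cW G lo hi) E0).y l t = (D.y l t - G * (((ce κ).1 : ℝ) + ((ce κ).2 : ℝ) * t)) / G := by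
        have := congrArg Prod.snd hb
        rw [hcrw κ l hl] at this
        exact this
      have hx' : (D.crop G (D.cW G lo hi) E0).x l t = D.x l t := hx
      rw [hy] at p1 p2
      rw [hx'] at p2
      constructor
      · have e : D.y l t - (G * (((ce κ).1 : ℝ) + (L κ).c0) + G * (((ce κ).2 : ℝ) + (L κ).c1) * t)
            = G * ((D.y l t - G * (((ce κ).1 : ℝ) + ((ce κ).2 : ℝ) * t)) / G - (L κ).cen t) := by
          unfold K7aLab.cen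
          field_simp
          ring
        show |D.y l t - (G * (((ce κ).1 : ℝ) + (L κ).c0) + G * (((ce κ).2 : ℝ) + (L κ).c1) * t)| ≤ K' * (G * β κ)
        rw [e, abs_mul, abs_of_pos hG0]
        calc G * |(D.y l t - G * (((ce κ).1 : ℝ) + ((ce κ).2 : ℝ) * t)) / G - (L κ).cen t| ≤ G * (K'' * β κ) := mul_le_mul_of_nonneg_left p1 hG0.le
          _ ≤ G * (K' * β κ) := mul_le_mul_of_nonneg_left (mul_le_mul_of_nonneg_right hKK c2.le) hG0.le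
          _ = K' * (G * β κ) := by ring
      · exact p2.trans hfit
    · -- floor
      rw [k7a_c_om_zero D hD, mul_one]
      obtain ⟨o1, -, o3⟩ := k7a_c_crop_om D hD G lo hi E0 (ce κ)
      have hwκ : Denumerable.eqv (ℤ × ℤ) (ce κ) = w κ := by
        rw [hce]
        exact Equiv.apply_symm_apply _ _
      rw [hwκ, ← hW] at o1
      rw [← hW] at o3
      have hm := k7a_c_crop_mu D G W E0 {z : Λ × ℝ | lab z.1 = some κ ∧ z.2 ∈ Set.Ico t0 (t0 + q)} (hmeasS {some κ})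
      rw [← hW, o1, hm] at c5
      obtain ⟨S, hS⟩ : ∃ S : Set (Λ × ℝ), S = {z : Λ × ℝ | lab z.1 = some κ ∧ z.2 ∈ Set.Ico t0 (t0 + q)} := ⟨_, rfl⟩
      rw [← hS] at c5 ⊢
      have k1 : (D.nu W)⁻¹ * (ENNReal.ofReal (q * c' * a' ^ d' * β κ) * ENNReal.ofReal lo) ≤ (D.nu W)⁻¹ * (ENNReal.ofReal K'' * D.mu S) := by
        calc (D.nu W)⁻¹ * (ENNReal.ofReal (q * c' * a' ^ d' * β κ) * ENNReal.ofReal lo)
            ≤ (D.nu W)⁻¹ * (ENNReal.ofReal (q * c' * a' ^ d' * β κ) * D.nu (W ∩ D.crw G ⁻¹' {ce κ})) := by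
              gcongr
              exact o3 hgood
          _ = ENNReal.ofReal (q * c' * a' ^ d' * β κ) * ((D.nu W)⁻¹ * D.nu (W ∩ D.crw G ⁻¹' {ce κ})) := by ring
          _ ≤ ENNReal.ofReal K'' * ((D.nu W)⁻¹ * D.mu (S ∩ (E0 ∩ W ×ˢ Set.univ))) := c5
          _ ≤ ENNReal.ofReal K'' * ((D.nu W)⁻¹ * D.mu S) := by
              gcongr
              exact Set.inter_subset_left
          _ = (D.nu W)⁻¹ * (ENNReal.ofReal K'' * D.mu S) := by ring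
      have k2 : ENNReal.ofReal (q * c' * a' ^ d' * β κ) * ENNReal.ofReal lo ≤ ENNReal.ofReal K'' * D.mu S :=
        (ENNReal.mul_le_mul_iff_right (ENNReal.inv_ne_zero.2 hWt) (ENNReal.inv_ne_top.2 hW0)).1 k1
      rw [← ENNReal.ofReal_mul' hlo.le] at k2
      calc ENNReal.ofReal (q * c * a ^ d * (G * β κ)) ≤ ENNReal.ofReal (K' / K'' * (q * c' * a' ^ d' * β κ * lo)) := by
            refine ENNReal.ofReal_le_ofReal ?_
            have e1 : q * c * a ^ d * (G * β κ) = (c * a ^ d * G * K'') * (q * β κ / K'') := by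
              field_simp
            have e2 : K' / K'' * (q * c' * a' ^ d' * β κ * lo) = (K' * (c' * a' ^ d' * lo)) * (q * β κ / K'') := by
              field_simp
            rw [e1, e2]
            exact mul_le_mul_of_nonneg_right hfloor (by positivity)
        _ = ENNReal.ofReal (K' / K'') * ENNReal.ofReal (q * c' * a' ^ d' * β κ * lo) := ENNReal.ofReal_mul (by positivity)
        _ ≤ ENNReal.ofReal (K' / K'') * (ENNReal.ofReal K'' * D.mu S) := by gcongr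
        _ = ENNReal.ofReal K' * D.mu S := by
            rw [← mul_assoc, ← ENNReal.ofReal_mul (by positivity), div_mul_cancel₀ _ hK0.ne']

end

end Claimed.Agent.R252

/-!
# ROW 252 (S0492), unit S7a, post BP-252-S7a-CROP (helper85), file 2: **EXPONENTS** and the theorem `k7a_c_front : k7a_FrontAng → k7a_Front` (07 l.173-226).   Glue over `S7a/CropLaw.lean`.
All slacks are `N^v` with ONE small exponent `v`.
-/

set_option autoImplicit false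

namespace Claimed.Agent.R252

open MeasureTheory
open scoped ENNReal BigOperators

noncomputable section

variable {Λ : Type} [MeasurableSpace Λ]

/-! ## 0. powers of `N` -/

theorem k7a_m_le {N x y : ℝ} (hN : 1 < N) (h : x ≤ y) : N ^ x ≤ N ^ y :=
  Real.rpow_le_rpow_of_exponent_le hN.le h

theorem k7a_m_cle {N C k x y : ℝ} (hN : 1 < N) (hC : C ≤ N ^ k) (h : k + x ≤ y) : C * N ^ x ≤ N ^ y := by
  have hN0 : 0 < N := by linarith
  calc C * N ^ x ≤ N ^ k * N ^ x := by gcongr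
    _ = N ^ (k + x) := (Real.rpow_add hN0 _ _).symm
    _ ≤ N ^ y := k7a_m_le hN h

theorem k7a_m_of_le {N x y : ℝ} (hN : 1 < N) (h : N ^ x ≤ N ^ y) : x ≤ y :=
  (Real.rpow_le_rpow_left_iff hN).1 h

theorem k7a_m_npow {N x : ℝ} (hN : 1 < N) (n : ℕ) : (N ^ x) ^ n = N ^ (x * n) := by
  rw [← Real.rpow_natCast, ← Real.rpow_mul (by linarith)]

theorem k7a_m_one_le {N x : ℝ} (hN : 1 < N) (h : 0 ≤ x) : 1 ≤ N ^ x :=
  Real.one_le_rpow hN.le h

theorem k7a_m_le_one {N x : ℝ} (hN : 1 < N) (h : x ≤ 0) : N ^ x ≤ 1 :=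
  Real.rpow_le_one_of_one_le_of_nonpos hN.le h

/-- `1 ≤ a m` and `m ≤ b m'` give `1 ≤ (a b) m'` -/
theorem k7a_m_chain {a b : ℝ} {m m' : ℝ≥0∞} (ha : 0 ≤ a) (h1 : 1 ≤ ENNReal.ofReal a * m) (h2 : m ≤ ENNReal.ofReal b * m') :
    1 ≤ ENNReal.ofReal (a * b) * m' := by
  rw [ENNReal.ofReal_mul ha, mul_assoc]
  exact h1.trans (by gcongr)

/-- `1 ≤ a m` and `x a ≤ 1` give `x ≤ m` -/
theorem k7a_m_floor {a x : ℝ} {m : ℝ≥0∞} (hx : 0 ≤ x) (h1 : 1 ≤ ENNReal.ofReal a * m) (h2 : x * a ≤ 1) : ENNReal.ofReal x ≤ m := by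
  calc ENNReal.ofReal x = ENNReal.ofReal x * 1 := (mul_one _).symm
    _ ≤ ENNReal.ofReal x * (ENNReal.ofReal a * m) := by gcongr
    _ = ENNReal.ofReal (x * a) * m := by rw [ENNReal.ofReal_mul hx, mul_assoc]
    _ ≤ 1 * m := by
        gcongr
        exact ENNReal.ofReal_le_one.2 h2
    _ = m := one_mul _

/-! ## 1. The profile in exponent form -/

theorem k7a_c_step1 (D : K7aData Λ) {N s M U d A v σ C0 : ℝ} {J : ℕ} {Gr Gu : Finset ℝ}
    (hN : 1 < N) (hd : 0 ≤ d) (hv : 0 < v) (hv1 : 6 * v ≤ 1) (hJ0 : 0 < J)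
    (hGr : K7aGrid Gr s v) (hGu : K7aGrid Gu U v) (hJ : A + s + U + 1 ≤ v * J)
    (hb1 : 2 * (J : ℝ) ^ (Gr.card * Gu.card) ≤ N ^ v) (hb2 : 360 * ((Gr.card * Gu.card : ℕ) : ℝ) ≤ N ^ v) (hb3 : 5 ≤ N ^ v)
    (hσ : N ^ (-M - v) ≤ σ) (hC : C0 ≤ A)
    (hD : D.Adm (N ^ v)) (hcap : D.ECap (fun _ => 0) (N ^ v) (N ^ C0) d (N ^ (-s)))
    (hsl : D.ESl (fun _ => 0) (N ^ v) (N ^ C0) d (N ^ (-s)) σ) (hsup : D.ESup (fun _ => 0) (N ^ v) (N ^ C0) d (N ^ (-s))) :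
    ∃ (E0 : Set (Λ × ℝ)) (f : ℝ → ℝ → ℝ), K7aProf D N Gr Gu (N ^ v) E0 (fun r u => N ^ (-(f r u))) ∧
      D.mu Set.univ ≤ ENNReal.ofReal (N ^ v) * D.mu E0 ∧
      (∀ r u, -(C0 + v) ≤ f r u ∧ f r u ≤ v * J - C0) ∧
      f s 0 ≤ d * s - C0 + 6 * v ∧
      ∀ r ∈ Gr, ∀ u ∈ Gu, d * r - C0 + max 0 (u - M) - 6 * v ≤ f r u := by
  have hN0 : 0 < N := by linarith
  have hK : 1 ≤ N ^ v := k7a_m_one_le hN hv.le
  have hθ : 1 < N ^ v := Real.one_lt_rpow hN hv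
  have hp : ∀ x : ℝ, 0 < N ^ x := fun x => Real.rpow_pos_of_pos hN0 x
  obtain ⟨g0, gL, gb, -⟩ := hGr
  obtain ⟨g0', gL', gb', -⟩ := hGu
  have hbig : ((Gr.card * Gu.card : ℕ) : ℝ) * (N ^ v * N ^ C0 / (N ^ v) ^ J) * (180 * (N ^ v) ^ 3 * N ^ (s + U))
      ≤ 1 / (2 * N ^ v) := by
    rw [le_div_iff₀ (by have := hp v; positivity)]
    have e : ((Gr.card * Gu.card : ℕ) : ℝ) * (N ^ v * N ^ C0 / (N ^ v) ^ J) * (180 * (N ^ v) ^ 3 * N ^ (s + U)) * (2 * N ^ v)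
        = (360 * ((Gr.card * Gu.card : ℕ) : ℝ)) * N ^ (v + C0 - v * J + v * (3 : ℕ) + (s + U) + v) := by
      rw [k7a_m_npow hN, k7a_m_npow hN]
      simp only [Real.rpow_add hN0, Real.rpow_sub hN0]
      ring
    rw [e]
    refine (k7a_m_cle hN hb2 (y := 0) ?_).trans_eq (Real.rpow_zero N)
    push_cast
    linarith
  obtain ⟨E0, lev, hlev, hP, hm⟩ := k7a_c_prof D Gr Gu hD hK (hp C0) hd hN hθ hJ0 gb gb' hcap hbig
  have hH : (fun r u => N ^ v * N ^ C0 / (N ^ v) ^ lev r u) = fun r u => N ^ (-(v * (lev r u : ℝ) - v - C0)) := by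
    funext r u
    rw [k7a_m_npow hN, ← Real.rpow_add hN0, ← Real.rpow_sub hN0]
    congr 1
    ring
  rw [hH] at hP
  have hm' : D.mu Set.univ ≤ ENNReal.ofReal (N ^ v) * D.mu E0 := hm.trans (by gcongr)
  refine ⟨E0, fun r u => v * (lev r u : ℝ) - v - C0, hP, hm', fun r u => ⟨?_, ?_⟩, ?_, ?_⟩
  · have : 0 ≤ v * (lev r u : ℝ) := by positivity
    simp only
    linarith
  · have : v * (lev r u : ℝ) ≤ v * J := by
      have : (lev r u : ℝ) ≤ J := by exact_mod_cast (hlev r u).le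
      gcongr
    simp only
    linarith
  · have h1 := k7a_c_prof_ge D hD hK hN0 (hp C0) hP (hp v).le (hp _).le hm' gL g0' hsup
    simp only at h1 ⊢
    have h2 : N ^ (-(v * (lev s 0 : ℝ) - v - C0)) * ((2 * N ^ v + 3) * (N ^ v) ^ 2 * N ^ v)
        ≤ N ^ (v + (-(v * (lev s 0 : ℝ) - v - C0) + v + v * (2 : ℕ) + v)) := by
      have e : N ^ (-(v * (lev s 0 : ℝ) - v - C0)) * ((5 * N ^ v) * (N ^ v) ^ 2 * N ^ v)
          = 5 * N ^ (-(v * (lev s 0 : ℝ) - v - C0) + v + v * (2 : ℕ) + v) := by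
        rw [k7a_m_npow hN]
        simp only [Real.rpow_add hN0]
        ring
      refine le_trans ?_ (e.trans_le (k7a_m_cle hN hb3 le_rfl))
      have := hp (-(v * (lev s 0 : ℝ) - v - C0))
      have := hp v
      gcongr
      linarith
    have h3 : N ^ C0 * (N ^ (-s)) ^ d = N ^ (C0 + -s * d) := by
      rw [← Real.rpow_mul hN0.le, ← Real.rpow_add hN0]
    rw [h3] at h1
    have := k7a_m_of_le hN (h1.trans h2)
    push_cast at this
    linarith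
  · intro r hr u hu
    obtain ⟨hr0, hrs⟩ := gb r hr
    simp only
    have b1 : d * r - C0 - 3 * v ≤ v * (lev r u : ℝ) - v - C0 := by
      have h1 := k7a_c_prof_le D hD hP (hp v) (hp v).le (Ce := N ^ v * N ^ C0 * (N ^ (-r)) ^ d)
        (by have := hp v; have := hp C0; have := hp (-r); positivity) hm' hr hu (k7a_c_ce_cap D hD hN hr0 hrs hcap u)
      have e : N ^ v * (N ^ v * N ^ C0 * (N ^ (-r)) ^ d) * N ^ v = N ^ (v + (v + C0 + -r * d) + v) := by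
        rw [← Real.rpow_mul hN0.le]
        simp only [Real.rpow_add hN0]
      rw [e] at h1
      have := k7a_m_of_le hN h1
      linarith
    by_cases hc : N ^ (-u) ≤ σ
    · have b2 : d * r - C0 + (u - M) - 4 * v ≤ v * (lev r u : ℝ) - v - C0 := by
        have hσ0 : 0 < σ := (hp _).trans_le hσ
        have h1 := k7a_c_prof_le D hD hP (hp v) (hp v).le (Ce := N ^ v * N ^ C0 * (N ^ (-r)) ^ d * (N ^ (-u) / σ))
          (by have := hp v; have := hp C0; have := hp (-r); have := hp (-u); positivity) hm' hr hu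
          (k7a_c_ce_sl D hD hN hr0 hrs hsl hc)
        have h2 : N ^ v * (N ^ v * N ^ C0 * (N ^ (-r)) ^ d * (N ^ (-u) / σ)) * N ^ v
            ≤ N ^ v * (N ^ v * N ^ C0 * (N ^ (-r)) ^ d * (N ^ (-u) / N ^ (-M - v))) * N ^ v := by
          have := hp v; have := hp C0; have := hp (-r); have := hp (-u); have := hp (-M - v)
          gcongr
        have e : N ^ v * (N ^ v * N ^ C0 * (N ^ (-r)) ^ d * (N ^ (-u) / N ^ (-M - v))) * N ^ v
            = N ^ (v + (v + C0 + -r * d + (-u - (-M - v))) + v) := by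
          rw [← Real.rpow_mul hN0.le, ← Real.rpow_sub hN0]
          simp only [Real.rpow_add hN0]
        rw [e] at h2
        have := k7a_m_of_le hN (h1.trans h2)
        linarith
      rcases max_cases 0 (u - M) with ⟨h, _⟩ | ⟨h, _⟩ <;> rw [h] <;> linarith
    · push Not at hc
      have h3 : -M - v < -u := by
        by_contra hcon
        push Not at hcon
        exact absurd ((k7a_m_le hN hcon).trans hσ) (not_le.2 hc)
      rcases max_cases 0 (u - M) with ⟨h, _⟩ | ⟨h, _⟩ <;> rw [h] <;> linarith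

/-! ## 2. The level of the crops -/

theorem k7a_c_step3 (D : K7aData Λ) {N U v u0 : ℝ} {J' : ℕ} (hN : 1 < N) (hv : 0 < v) (hv1 : 6 * v ≤ 1) (hu0U : u0 ≤ U)
    (hu0 : 0 ≤ u0) (hJ0 : 0 < J') (hJ' : 2 * U + 1 ≤ v * J') (hJ'2 : v * J' ≤ 2 * U + 2) (hb1 : 2 * (J' : ℝ) ≤ N ^ v) (hb2 : 50 ≤ N ^ v)
    (hD : D.Adm (N ^ v)) (E0 : Set (Λ × ℝ)) (hE0 : MeasurableSet E0) (hm : D.mu Set.univ ≤ ENNReal.ofReal (N ^ v) * D.mu E0) :
    ∃ α, 0 ≤ α ∧ α ≤ 2 * U + 2 ∧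
      1 ≤ ENNReal.ofReal (N ^ (3 * v)) * D.mu (E0 ∩ D.cW (N ^ (-u0)) (N ^ (-α - v)) (N ^ (-α)) ×ˢ Set.univ) ∧
      ENNReal.ofReal (N ^ (-(4 * v))) ≤ D.nu (D.cW (N ^ (-u0)) (N ^ (-α - v)) (N ^ (-α))) := by
  have hN0 : 0 < N := by linarith
  have hK : 1 ≤ N ^ v := k7a_m_one_le hN hv.le
  have hθ : 1 < N ^ v := Real.one_lt_rpow hN hv
  have hp : ∀ x : ℝ, 0 < N ^ x := fun x => Real.rpow_pos_of_pos hN0 x
  have hmE : 1 ≤ ENNReal.ofReal (N ^ v * N ^ v) * D.mu E0 := k7a_m_chain (hp v).le hD.mass hm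
  have hlight : ENNReal.ofReal (2 * N ^ v * (2 * N ^ v / N ^ (-u0) + 3) ^ 2 / (N ^ v) ^ J') ≤ D.mu E0 := by
    refine k7a_m_floor (by have := hp v; have := hp (-u0); positivity) hmE ?_
    have e1 : N ^ v / N ^ (-u0) = N ^ (v + u0) := by
      rw [← Real.rpow_sub hN0]
      congr 1
      ring
    have h1 : 1 ≤ N ^ (v + u0) := k7a_m_one_le hN (by linarith)
    have h2 : 2 * N ^ v / N ^ (-u0) + 3 ≤ 5 * N ^ (v + u0) := by
      rw [mul_div_assoc, e1]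
      linarith
    have h3 : 2 * N ^ v * (2 * N ^ v / N ^ (-u0) + 3) ^ 2 / (N ^ v) ^ J' * (N ^ v * N ^ v)
        ≤ 2 * N ^ v * (5 * N ^ (v + u0)) ^ 2 / (N ^ v) ^ J' * (N ^ v * N ^ v) := by
      have := hp v; have := hp (-u0)
      gcongr
    have e : 2 * N ^ v * (5 * N ^ (v + u0)) ^ 2 / (N ^ v) ^ J' * (N ^ v * N ^ v)
        = 50 * N ^ (v + (v + u0) * (2 : ℕ) - v * J' + (v + v)) := by
      rw [mul_pow, k7a_m_npow hN, k7a_m_npow hN, Real.rpow_add hN0 _ (v + v), Real.rpow_sub hN0, Real.rpow_add hN0 v ((v + u0) * _),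
        Real.rpow_add hN0 v v]
      ring
    refine h3.trans (e.trans_le ((k7a_m_cle hN hb2 (y := 0) ?_).trans_eq (Real.rpow_zero N)))
    push_cast
    linarith
  obtain ⟨k, hk, hlev⟩ := k7a_c_level D hD hK (hp (-u0)) hθ hJ0 E0 hE0 hlight
  have e1 : 1 / (N ^ v) ^ (k + 1) = N ^ (-(v * k) - v) := by
    rw [k7a_m_npow hN, one_div, ← Real.rpow_neg hN0.le]
    congr 1
    push_cast
    ring
  have e2 : 1 / (N ^ v) ^ k = N ^ (-(v * k)) := by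
    rw [k7a_m_npow hN, one_div, ← Real.rpow_neg hN0.le]
  rw [e1, e2] at hlev
  have hkJ : (k : ℝ) ≤ J' := by exact_mod_cast hk.le
  have hmass : 1 ≤ ENNReal.ofReal (N ^ (3 * v)) *
      D.mu (E0 ∩ D.cW (N ^ (-u0)) (N ^ (-(v * k) - v)) (N ^ (-(v * k))) ×ˢ Set.univ) := by
    refine (k7a_m_chain (by have := hp v; positivity) hmE hlev).trans ?_
    gcongr
    rw [← Real.rpow_add hN0, mul_comm]
    exact k7a_m_cle hN hb1 (by linarith)
  refine ⟨v * k, by positivity, ?_, hmass, ?_⟩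
  · have : v * (k : ℝ) ≤ v * J' := by gcongr
    linarith
  · have h1 : D.mu (E0 ∩ D.cW (N ^ (-u0)) (N ^ (-(v * k) - v)) (N ^ (-(v * k))) ×ˢ Set.univ)
        ≤ ENNReal.ofReal (N ^ v) * D.nu (D.cW (N ^ (-u0)) (N ^ (-(v * k) - v)) (N ^ (-(v * k)))) :=
      (measure_mono Set.inter_subset_right).trans (k7a_c_mu_cyl D hD _ (k7a_c_meas_cW D hD _ _ _))
    refine k7a_m_floor (hp _).le (k7a_m_chain (hp _).le hmass h1) ?_
    rw [← Real.rpow_add hN0, ← Real.rpow_add hN0]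
    exact k7a_m_le_one hN (by linarith)

/-! ## 3. The six hypotheses of `k7a_FrontAng` for the cropped law -/

theorem k7a_c_step4 (D D' : K7aData Λ) {N s U d' ε v r0 u0 α A A1 : ℝ} {Gr Gu : Finset ℝ} {E0 : Set (Λ × ℝ)} {f : ℝ → ℝ → ℝ}
    (hN : 1 < N) (hv : 0 < v) (hv1 : 6 * v ≤ 1) (hb : 50 ≤ N ^ v) (hGr : K7aGrid Gr s v) (hGu : K7aGrid Gu U v)
    (hP : K7aProf D N Gr Gu (N ^ v) E0 (fun r u => N ^ (-(f r u)))) (hr0 : r0 ∈ Gr) (hu0 : u0 ∈ Gu) (hu01 : u0 + 1 ≤ U)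
    (hdd : ∀ r ∈ Gr, f r0 u0 - f r u0 ≤ d' * (r0 - r)) (hee : ∀ u ∈ Gu, ε * (u - u0) ≤ f r0 u - f r0 u0)
    (hd0 : 0 ≤ d') (hd1 : d' ≤ 1) (hε0 : 0 ≤ ε) (hε1 : ε ≤ 1) (hαU : α ≤ 2 * U + 2) (hA1 : A + 2 * U + 3 ≤ A1) (hA1' : 2 * U + 1 ≤ A1)
    (hmass : 1 ≤ ENNReal.ofReal (N ^ (3 * v)) * D.mu (E0 ∩ D.cW (N ^ (-u0)) (N ^ (-α - v)) (N ^ (-α)) ×ˢ Set.univ))
    (hnu : ENNReal.ofReal (N ^ (-(4 * v))) ≤ D.nu (D.cW (N ^ (-u0)) (N ^ (-α - v)) (N ^ (-α))))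
    (hD : D.Adm (N ^ v)) (hE : D.Evt) (hT : D.Tmp (fun _ => 0) (N ^ A))
    (hD' : D' = D.crop (N ^ (-u0)) (D.cW (N ^ (-u0)) (N ^ (-α - v)) (N ^ (-α))) E0) :
    D'.Adm (N ^ (7 * v)) ∧ D'.Evt ∧ D'.Tmp (D.cwd (N ^ (-u0))) (N ^ A1) ∧
      D'.ECap (D.cwd (N ^ (-u0))) (N ^ (7 * v)) (N ^ (-(f r0 u0) - u0 + α + d' * r0)) d' (N ^ (-r0)) ∧
      D'.ESup (D.cwd (N ^ (-u0))) (N ^ (7 * v)) (N ^ (-(f r0 u0) - u0 + α + d' * r0)) d' (N ^ (-r0)) ∧
      D'.EAngW (D.cwd (N ^ (-u0))) (N ^ (7 * v)) (N ^ (-(f r0 u0) - u0 + α + d' * r0)) d' (N ^ (-r0)) ε (N ^ (-1 : ℝ)) := by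
  subst hD'
  have hN0 : 0 < N := by linarith
  have hK : 1 ≤ N ^ v := k7a_m_one_le hN hv.le
  have hp : ∀ x : ℝ, 0 < N ^ x := fun x => Real.rpow_pos_of_pos hN0 x
  have hr0b := hGr.2.2.1 r0 hr0
  have hu0b := hGu.2.2.1 u0 hu0
  have hb4 : (4 : ℝ) ≤ N ^ v := by linarith
  have hvd : v * d' ≤ v := by nlinarith
  have hvε : v * ε ≤ v := by nlinarith
  refine ⟨?_, ?_, ?_, ?_, ?_, ?_⟩
  · refine k7a_c_crop_adm D hD (k7a_m_le hN (by linarith)) (k7a_m_one_le hN (by linarith)) E0 hP.meas (hmass.trans ?_)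
    gcongr
    · exact hN.le
    · linarith
  · exact k7a_c_crop_evt D hD hE E0 hP.meas ((ENNReal.ofReal_pos.2 (hp _)).trans_le hnu).ne'
  · refine k7a_c_crop_tmp D hD hK hT (hp _) (hp _) ?_ ?_ E0
    · rw [k7a_m_npow hN, ← Real.rpow_add hN0, ← Real.rpow_add hN0]
      refine k7a_m_le hN ?_
      push_cast
      linarith
    · have e1 : N ^ v / N ^ (-u0) = N ^ (v + u0) := by
        rw [← Real.rpow_sub hN0]
        congr 1
        ring
      have h1 : 1 ≤ N ^ (v + u0) := k7a_m_one_le hN (by linarith)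
      have h2 : 2 * N ^ v / N ^ (-u0) + 3 ≤ 5 * N ^ (v + u0) := by
        rw [mul_div_assoc, e1]
        linarith
      have h3 : (2 * N ^ v / N ^ (-u0) + 3) ^ 2 ≤ (5 * N ^ (v + u0)) ^ 2 := by
        have := hp v; have := hp (-u0)
        gcongr
      refine h3.trans ?_
      rw [mul_pow, k7a_m_npow hN]
      refine k7a_m_cle hN (k := v) (by linarith) ?_
      push_cast
      linarith
  · refine k7a_c_crop_ecap D hD (hp _) (hp _) E0 hP.meas fun j B p xs hB hp0 hp1 => ?_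
    obtain ⟨g, hg, hg1, hg2⟩ := k7a_c_round hN hGr ((k7a_m_le hN (by linarith)).trans hp0) hp1
    refine (k7a_c_prof_bins D hP hN0 (hp _).le hg hu0 hg2 le_rfl B hB).trans ?_
    gcongr
    have h1 : N ^ (-(g + v) * d') ≤ p ^ d' := by
      rw [Real.rpow_mul hN0.le]
      exact Real.rpow_le_rpow (hp _).le hg1 hd0
    have h2 : N ^ (7 * v) * N ^ (-(f r0 u0) - u0 + α + d' * r0) * N ^ (-(g + v) * d') * N ^ (-α - v) / N ^ (-u0)
        ≤ N ^ (7 * v) * N ^ (-(f r0 u0) - u0 + α + d' * r0) * p ^ d' * N ^ (-α - v) / N ^ (-u0) := by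
      have := hp (7 * v); have := hp (-(f r0 u0) - u0 + α + d' * r0); have := hp (-α - v); have := hp (-u0)
      gcongr
    refine le_trans ?_ h2
    rw [← Real.rpow_add hN0, ← Real.rpow_add hN0, ← Real.rpow_add hN0, ← Real.rpow_sub hN0]
    refine k7a_m_cle hN hb4 ?_
    have := hdd g hg
    nlinarith
  · obtain ⟨Us, hUm, hUmem, hUsum⟩ := hP.supp r0 hr0 u0 hu0
    refine k7a_c_crop_esup D hD (hp _) (hp _) (Hs := N ^ (-(f r0 u0)) / N ^ v) (P0 := N ^ (-(4 * v))) (div_pos (hp _) (hp _)) (hp _)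
      (by have := hp (-(f r0 u0) - u0 + α + d' * r0); have := hp (-r0); positivity) E0 hP.meas Us hUm hUmem hUsum hnu ?_
    rw [← Real.rpow_mul hN0.le, ← Real.rpow_add hN0, ← Real.rpow_sub hN0, ← Real.rpow_add hN0, ← Real.rpow_add hN0, mul_assoc 2,
      ← Real.rpow_add hN0, mul_div_assoc, ← Real.rpow_sub hN0, mul_assoc, ← Real.rpow_add hN0]
    refine k7a_m_cle hN (k := v) (by linarith) ?_
    linarith
  · refine k7a_c_crop_eangW D hD (hp _) (hp _) E0 hP.meas fun B xs vs w hB hw0 hw1 => ?_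
    have hw00 : 0 < w := (hp _).trans_le hw0
    have hGw0 : N ^ (-U) ≤ N ^ (-u0) * w := by
      calc N ^ (-U) ≤ N ^ (-u0 + -1) := k7a_m_le hN (by linarith)
        _ = N ^ (-u0) * N ^ (-1 : ℝ) := Real.rpow_add hN0 _ _
        _ ≤ N ^ (-u0) * w := by
            have := hp (-u0)
            gcongr
    have hGw1 : N ^ (-u0) * w ≤ 1 := mul_le_one₀ (k7a_m_le_one hN (by linarith)) hw00.le hw1
    obtain ⟨g, hg, hg1, hg2⟩ := k7a_c_round hN hGu hGw0 hGw1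
    refine (k7a_c_prof_bins D hP hN0 (hp _).le hr0 hg le_rfl hg2 B hB).trans ?_
    gcongr
    have h0 : N ^ (-(g + v) + u0) ≤ w := by
      rw [Real.rpow_add hN0]
      have e : N ^ (-u0) * N ^ u0 = 1 := by rw [← Real.rpow_add hN0]; simp
      calc N ^ (-(g + v)) * N ^ u0 ≤ N ^ (-u0) * w * N ^ u0 := by
            have := hp u0
            gcongr
        _ = w * (N ^ (-u0) * N ^ u0) := by ring
        _ = w := by rw [e, mul_one]
    have h1 : N ^ ((-(g + v) + u0) * ε) ≤ w ^ ε := by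
      rw [Real.rpow_mul hN0.le]
      exact Real.rpow_le_rpow (hp _).le h0 hε0
    have h2 : N ^ (7 * v) * N ^ (-(f r0 u0) - u0 + α + d' * r0) * (N ^ (-r0)) ^ d' * N ^ ((-(g + v) + u0) * ε) * N ^ (-α - v) / N ^ (-u0)
        ≤ N ^ (7 * v) * N ^ (-(f r0 u0) - u0 + α + d' * r0) * (N ^ (-r0)) ^ d' * w ^ ε * N ^ (-α - v) / N ^ (-u0) := by
      have := hp (7 * v); have := hp (-(f r0 u0) - u0 + α + d' * r0); have := hp (-α - v); have := hp (-u0); have := hp (-r0)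
      gcongr
    refine le_trans ?_ h2
    rw [← Real.rpow_mul hN0.le, ← Real.rpow_add hN0, ← Real.rpow_add hN0, ← Real.rpow_add hN0, ← Real.rpow_add hN0, ← Real.rpow_sub hN0]
    refine k7a_m_cle hN hb4 ?_
    have := hee g hg
    nlinarith

/-! ## 4. One scale -/

set_option maxHeartbeats 400000 in
theorem k7a_c_core {s M d A τ' ε v τF N1F U A1 N : ℝ} {J J' : ℕ} {Gr Gu : Finset ℝ}
    (hs : 0 < s) (hM : 0 < M) (hd0 : 0 ≤ d) (hd1 : d < 1) (hτ' : 0 < τ') (hU : U = 4 * (M + s + 1)) (hA1 : A1 = 2 * A + 2 * s + 3 * U + 10)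
    (hε0 : 0 < ε) (hε1 : ε ≤ 1 / 2) (hεU : ε * U ≤ (1 - d) / 2 * min (s / 2) (τ' / 2) / 2)
    (hv : 0 < v) (hv1 : v ≤ 1 / 24) (hv2 : v ≤ (1 - d) / 2 * min (s / 2) (τ' / 2) / 24) (hv3 : v ≤ τF / 14)
    (hGr : K7aGrid Gr s v) (hGu : K7aGrid Gu U v) (hJ0 : 0 < J) (hJ : A + s + U + 1 ≤ v * J) (hJ2 : v * J ≤ A + s + U + 2)
    (hJ0' : 0 < J') (hJ' : 2 * U + 1 ≤ v * J') (hJ2' : v * J' ≤ 2 * U + 2)
    (hF : ∀ N' : ℝ, N1F ≤ N' → ∀ (Λ : Type) [MeasurableSpace Λ] (D : K7aData Λ) (wd : Λ → ℕ) (c : ℝ),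
      N' ^ (-(2 * A1)) ≤ c → c ≤ N' ^ (2 * A1) → D.Adm (N' ^ τF) → D.Evt → D.Tmp wd (N' ^ (2 * A1)) →
      D.ECap wd (N' ^ τF) c (1 - (1 - d) / 2) (N' ^ (-s)) → D.ESup wd (N' ^ τF) c (1 - (1 - d) / 2) (N' ^ (-s)) →
      D.EAng wd (N' ^ τF) c (1 - (1 - d) / 2) (N' ^ (-s)) N' ε 1 → D.Block wd (N' ^ (τ' / 4)) c (1 - (1 - d) / 2) (N' ^ (-s)))
    (hN : 1 < N) (hNF : N1F ≤ N ^ (1 / 2 : ℝ))
    (hb1 : 2 * (J : ℝ) ^ (Gr.card * Gu.card) ≤ N ^ v) (hb2 : 360 * ((Gr.card * Gu.card : ℕ) : ℝ) ≤ N ^ v) (hb3 : 50 ≤ N ^ v)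
    (hb4 : 2 * (J' : ℝ) ≤ N ^ v)
    (D : K7aData Λ) (σ c : ℝ) (hσ : N ^ (-M - v) ≤ σ) (hc1 : N ^ (-A) ≤ c) (hc2 : c ≤ N ^ A)
    (hD : D.Adm (N ^ v)) (hE : D.Evt) (hT : D.Tmp (fun _ => 0) (N ^ A)) (hcap : D.ECap (fun _ => 0) (N ^ v) c d (N ^ (-s)))
    (hsl : D.ESl (fun _ => 0) (N ^ v) c d (N ^ (-s)) σ) (hsup : D.ESup (fun _ => 0) (N ^ v) c d (N ^ (-s))) :
    D.Block (fun _ => 0) (N ^ τ') c d (N ^ (-s)) := by
  have hN0 : 0 < N := by linarith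
  have hp : ∀ x : ℝ, 0 < N ^ x := fun x => Real.rpow_pos_of_pos hN0 x
  have hc0 : 0 < c := (hp _).trans_le hc1
  obtain ⟨C0, rfl⟩ : ∃ C0, c = N ^ C0 := ⟨Real.logb N c, (Real.rpow_logb hN0 hN.ne' hc0).symm⟩
  have hC1 : -A ≤ C0 := k7a_m_of_le hN hc1
  have hC2 : C0 ≤ A := k7a_m_of_le hN hc2
  have hv6 : 6 * v ≤ 1 := by linarith
  have hR0 : 0 < (1 - d) / 2 := by linarith
  have hR1 : (1 - d) / 2 ≤ 1 / 2 := by linarith
  have hm0 : 0 < min (s / 2) (τ' / 2) := lt_min (by linarith) (by linarith)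
  have hm1 : min (s / 2) (τ' / 2) ≤ s / 2 := min_le_left _ _
  have hm2 : min (s / 2) (τ' / 2) ≤ τ' / 2 := min_le_right _ _
  have hRm : (1 - d) / 2 * min (s / 2) (τ' / 2) ≤ τ' / 4 := by
    have := mul_le_mul_of_nonneg_right hR1 hm0.le
    linarith
  -- the profile
  obtain ⟨E0, f, hP, hm, hfb, hterm, hlow⟩ := k7a_c_step1 D hN hd0 hv hv6 hJ0 hGr hGu hJ hb1 hb2 (by linarith) hσ hC2 hD hcap hsl hsup
  -- the maximiser
  obtain ⟨r0, hr0, u0, hu0, ha, hb, hcc, hdd, hee⟩ := k7a_argmax Gr Gu f hd0 hd1 hε0 (by linarith : (0 : ℝ) ≤ 6 * v) hGr.2.1 hGu.1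
    hGr.2.2.1 hGu.2.2.1 hterm hlow
  obtain ⟨hr00, hr0s⟩ := hGr.2.2.1 r0 hr0
  obtain ⟨hu00, hu0U⟩ := hGu.2.2.1 u0 hu0
  have hsr : s - r0 ≤ min (s / 2) (τ' / 2) := by
    by_contra hcon
    push Not at hcon
    have := mul_lt_mul_of_pos_left hcon hR0
    linarith
  have hu01 : u0 + 1 ≤ U := by
    rw [max_eq_left hM.le] at hb
    have := mul_le_mul_of_nonneg_right hε1 hu00
    linarith
  -- the level of the crops
  obtain ⟨α, hα0, hαU, hmass, hnu⟩ := k7a_c_step3 D hN hv hv6 hu0U hu00 hJ0' hJ' hJ2' hb4 hb3 hD E0 hP.meas hm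
  -- the cropped law
  obtain ⟨d', hd'⟩ : ∃ d', d' = 1 - (1 - d) / 2 := ⟨_, rfl⟩
  rw [← hd'] at hdd hF
  have hd'0 : 0 ≤ d' := by linarith
  have hd'1 : d' ≤ 1 := by linarith
  obtain ⟨D', hD'⟩ : ∃ D', D' = D.crop (N ^ (-u0)) (D.cW (N ^ (-u0)) (N ^ (-α - v)) (N ^ (-α))) E0 := ⟨_, rfl⟩
  obtain ⟨q1, q2, q3, q4, q5, q6⟩ := k7a_c_step4 D D' (A := A) (A1 := A1) (d' := d') (ε := ε) hN hv hv6 hb3 hGr hGu hP hr0 hu0 hu01
    hdd hee hd'0 hd'1 hε0.le (by linarith) hαU (by linarith) (by linarith) hmass hnu hD hE hT hD'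
  obtain ⟨C', hC'⟩ : ∃ C', C' = -(f r0 u0) - u0 + α + d' * r0 := ⟨_, rfl⟩
  rw [← hC'] at q4 q5 q6
  have hdr0 : 0 ≤ d' * r0 := mul_nonneg hd'0 hr00
  have hdr1 : d' * r0 ≤ s := by
    have := mul_le_mul_of_nonneg_right hd'1 hr00
    linarith
  obtain ⟨hf1, hf2⟩ := hfb r0 u0
  have hA0 : 0 ≤ A := by linarith
  have hU0 : 0 < U := by linarith
  have hA10 : 0 ≤ A1 := by linarith
  have hC'1 : -A1 ≤ C' := by linarith
  have hC'2 : C' ≤ A1 := by linarith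
  -- the rebased scale
  have hl1 : 1 / 2 ≤ r0 / s := by
    rw [le_div_iff₀ hs]
    linarith
  have hl2 : r0 / s ≤ 1 := by
    rw [div_le_one hs]
    exact hr0s
  obtain ⟨lam, hlam⟩ : ∃ lam, lam = r0 / s := ⟨_, rfl⟩
  rw [← hlam] at hl1 hl2
  have hNx : ∀ x : ℝ, (N ^ lam) ^ x = N ^ (lam * x) := fun x => (Real.rpow_mul hN0.le lam x).symm
  have hls : lam * -s = -r0 := by
    rw [hlam]
    field_simp
  have hτF : 0 ≤ τF := by linarith
  have hK7 : N ^ (7 * v) ≤ (N ^ lam) ^ τF := by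
    rw [hNx]
    refine k7a_m_le hN ?_
    have := mul_le_mul_of_nonneg_right hl1 hτF
    linarith
  have hlA : A1 ≤ lam * (2 * A1) := by
    have := mul_le_mul_of_nonneg_right hl1 (by linarith : (0 : ℝ) ≤ 2 * A1)
    linarith
  have hB : D'.Block (D.cwd (N ^ (-u0))) ((N ^ lam) ^ (τ' / 4)) (N ^ C') d' ((N ^ lam) ^ (-s)) := by
    refine hF (N ^ lam) (hNF.trans (k7a_m_le hN hl1)) Λ D' _ _ ?_ ?_ (k7a_glue_adm_mono hK7 q1) q2 (k7a_glue_tmp_mono ?_ q3) ?_ ?_ ?_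
    · rw [hNx]
      refine k7a_m_le hN ?_
      linarith
    · rw [hNx]
      refine k7a_m_le hN ?_
      linarith
    · rw [hNx]
      refine k7a_m_le hN ?_
      linarith
    · rw [hNx (-s), hls]
      exact k7a_glue_ecap_mono hK7 (hp _).le (hp _).le q4
    · rw [hNx (-s), hls]
      exact k7a_glue_esup_mono hK7 q5
    · rw [hNx (-s), hls]
      refine k7a_glue_eang_mono hK7 (hp _).le (hp _).le (hp _).le (k7a_c_eang_of_W D' (k7a_m_one_le hN (by linarith)) ?_ q6)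
      rw [hNx]
      exact k7a_m_le hN (by linarith)
  rw [hNx, hNx, hls, hD'] at hB
  -- the lift
  have hlt : lam * (τ' / 4) ≤ τ' / 4 := by
    have := mul_le_mul_of_nonneg_right hl2 (by linarith : (0 : ℝ) ≤ τ' / 4)
    linarith
  have hlt0 : 0 ≤ lam * (τ' / 4) := by
    have : 0 ≤ lam := by linarith
    positivity
  refine k7a_c_lift D hD (hp _) (k7a_m_le_one hN (by linarith)) (hp _) (hp (-(4 * v))) (hp _).le (k7a_m_one_le hN hlt0)
    (by have := hp C0; have := hp (-s); positivity) E0 hP.meas hnu (k7a_m_le hN (by linarith)) ?_ ?_ ?_ hB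
  · rw [← Real.rpow_add hN0, ← Real.rpow_add hN0]
    exact k7a_m_le hN (by linarith)
  · rw [← Real.rpow_add hN0]
    exact k7a_m_le hN (by linarith)
  · rw [← Real.rpow_mul hN0.le, ← Real.rpow_mul hN0.le, ← Real.rpow_add hN0, ← Real.rpow_add hN0, ← Real.rpow_add hN0, ← Real.rpow_add hN0,
      ← Real.rpow_add hN0, ← Real.rpow_add hN0]
    refine k7a_m_le hN ?_
    linarith

/-! ## 5. The choice of the exponents -/

/-- `d < 0` is impossible at large scales -/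
theorem k7a_c_neg {s d : ℝ} (hs : 0 < s) (hd : d < 0) : ∃ τ : ℝ, 0 < τ ∧ ∃ N1 : ℝ, ∀ N : ℝ, N1 ≤ N →
    ∀ (Λ : Type) [MeasurableSpace Λ] (D : K7aData Λ) (c : ℝ), 0 < c → D.Adm (N ^ τ) →
      D.ECap (fun _ => 0) (N ^ τ) c d (N ^ (-s)) → D.ESup (fun _ => 0) (N ^ τ) c d (N ^ (-s)) → False := by
  have hsd : 0 < s * -d := mul_pos hs (by linarith)
  obtain ⟨N1, -, hN1⟩ := k7a_glue_big 9 (s * -d / 2) (by linarith)
  refine ⟨s * -d / 8, by linarith, max N1 2, fun N hN Λ _ D c hc hD hcap hsup => ?_⟩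
  have hN2 : 1 < N := by linarith [(le_max_right N1 2).trans hN]
  have hN0 : 0 < N := by linarith
  have h9 := hN1 N ((le_max_left _ _).trans hN)
  have h1 := k7a_c_dneg D hD (k7a_m_one_le hN2 (by linarith)) hc (Real.rpow_pos_of_pos hN0 _) (k7a_m_le_one hN2 (by linarith)) hcap hsup
  rw [k7a_m_npow hN2, ← Real.rpow_mul hN0.le] at h1
  have e1 : N ^ (-s * d) = N ^ (s * -d / 2) * N ^ (s * -d / 2) := by
    rw [← Real.rpow_add hN0]
    congr 1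
    ring
  have e2 : N ^ (s * -d / 8 * ((4 : ℕ) : ℝ)) = N ^ (s * -d / 2) := by
    congr 1
    push_cast
    ring
  rw [e1, e2] at h1
  have := Real.rpow_pos_of_pos hN0 (s * -d / 2)
  nlinarith

theorem k7a_c_pos (h : k7a_FrontAng) {s M d A τ' : ℝ} (hs : 0 < s) (hM : 0 < M) (hd0 : 0 ≤ d) (hd1 : d < 1) (hτ' : 0 < τ') :
    ∃ τ : ℝ, 0 < τ ∧ ∃ N1 : ℝ, ∀ N : ℝ, N1 ≤ N →
    ∀ (Λ : Type) [MeasurableSpace Λ] (D : K7aData Λ) (σ c : ℝ), N ^ (-M - τ) ≤ σ → σ ≤ N ^ (-M + τ) → N ^ (-A) ≤ c → c ≤ N ^ A →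
      D.Adm (N ^ τ) → D.Evt → D.Tmp (fun _ => 0) (N ^ A) →
      D.ECap (fun _ => 0) (N ^ τ) c d (N ^ (-s)) → D.ESl (fun _ => 0) (N ^ τ) c d (N ^ (-s)) σ → D.ESup (fun _ => 0) (N ^ τ) c d (N ^ (-s)) →
      D.Block (fun _ => 0) (N ^ τ') c d (N ^ (-s)) := by
  obtain ⟨U, hU⟩ : ∃ U, U = 4 * (M + s + 1) := ⟨_, rfl⟩
  obtain ⟨A1, hA1⟩ : ∃ A1, A1 = 2 * A + 2 * s + 3 * U + 10 := ⟨_, rfl⟩
  have hU0 : 0 < U := by linarith
  obtain ⟨Rm, hRm⟩ : ∃ Rm, Rm = (1 - d) / 2 * min (s / 2) (τ' / 2) := ⟨_, rfl⟩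
  have hRm0 : 0 < Rm := by
    rw [hRm]
    exact mul_pos (by linarith) (lt_min (by linarith) (by linarith))
  obtain ⟨ε, hε⟩ : ∃ ε, ε = min (1 / 2) (Rm / (2 * U)) := ⟨_, rfl⟩
  have hε0 : 0 < ε := by
    rw [hε]
    exact lt_min (by norm_num) (by positivity)
  have hε1 : ε ≤ 1 / 2 := by
    rw [hε]
    exact min_le_left _ _
  have hεU : ε * U ≤ Rm / 2 := by
    have h1 : ε ≤ Rm / (2 * U) := by
      rw [hε]
      exact min_le_right _ _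
    calc ε * U ≤ Rm / (2 * U) * U := by gcongr
      _ = Rm / 2 := by field_simp
  obtain ⟨τF, hτF, N1F, hF⟩ := h s (1 - (1 - d) / 2) (2 * A1) ε 1 (τ' / 4) hs (by linarith) hε0 one_pos (by linarith)
  obtain ⟨v, hvdef⟩ : ∃ v, v = min (1 / 24) (min (Rm / 24) (τF / 14)) := ⟨_, rfl⟩
  have hv : 0 < v := by
    rw [hvdef]
    exact lt_min (by norm_num) (lt_min (by linarith) (by linarith))
  have hv1 : v ≤ 1 / 24 := by
    rw [hvdef]
    exact min_le_left _ _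
  have hv2 : v ≤ Rm / 24 := by
    rw [hvdef]
    exact (min_le_right _ _).trans (min_le_left _ _)
  have hv3 : v ≤ τF / 14 := by
    rw [hvdef]
    exact (min_le_right _ _).trans (min_le_right _ _)
  obtain ⟨Gr, hGr⟩ := k7a_c_grid s v hs.le hv
  obtain ⟨Gu, hGu⟩ := k7a_c_grid U v hU0.le hv
  obtain ⟨J, hJdef⟩ : ∃ J : ℕ, J = ⌈(A + s + U + 1) / v⌉₊ := ⟨_, rfl⟩
  obtain ⟨J', hJdef'⟩ : ∃ J' : ℕ, J' = ⌈(2 * U + 1) / v⌉₊ := ⟨_, rfl⟩
  obtain ⟨Na, -, hNa⟩ := k7a_glue_big (2 * (J : ℝ) ^ (Gr.card * Gu.card)) v hv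
  obtain ⟨Nb, -, hNb⟩ := k7a_glue_big (360 * ((Gr.card * Gu.card : ℕ) : ℝ)) v hv
  obtain ⟨Nc, -, hNc⟩ := k7a_glue_big 50 v hv
  obtain ⟨Nd, -, hNd⟩ := k7a_glue_big (2 * (J' : ℝ)) v hv
  refine ⟨v, hv, max (max (max Na Nb) (max Nc Nd)) (max 2 ((max N1F 1) ^ 2)),
    fun N hN Λ _ D σ c hσ1 _ hc1 hc2 hD hE hT hcap hsl hsup => ?_⟩
  have hN1 : max (max Na Nb) (max Nc Nd) ≤ N := (le_max_left _ _).trans hN
  have hN2 : max 2 ((max N1F 1) ^ 2) ≤ N := (le_max_right _ _).trans hN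
  have hNgt : 1 < N := by linarith [(le_max_left _ _).trans hN2]
  have hA0 : 0 ≤ A := by
    have := k7a_m_of_le hNgt (hc1.trans hc2)
    linarith
  have hx0 : 0 < (A + s + U + 1) / v := by positivity
  have hx0' : 0 < (2 * U + 1) / v := by positivity
  have hNF : N1F ≤ N ^ (1 / 2 : ℝ) := by
    rw [← Real.sqrt_eq_rpow]
    refine (le_max_left N1F 1).trans (Real.le_sqrt_of_sq_le ((le_max_right _ _).trans hN2))
  refine k7a_c_core (J := J) (J' := J') hs hM hd0 hd1 hτ' hU hA1 hε0 hε1 (hRm ▸ hεU) hv hv1 (hRm ▸ hv2) hv3 hGr hGu ?_ ?_ ?_ ?_ ?_ ?_ hF hNgt hNF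
    (hNa N (((le_max_left _ _).trans (le_max_left _ _)).trans hN1)) (hNb N (((le_max_right _ _).trans (le_max_left _ _)).trans hN1))
    (hNc N (((le_max_left _ _).trans (le_max_right _ _)).trans hN1)) (hNd N (((le_max_right _ _).trans (le_max_right _ _)).trans hN1))
    D σ c hσ1 hc1 hc2 hD hE hT hcap hsl hsup
  · rw [hJdef]
    exact Nat.ceil_pos.2 hx0
  · have := Nat.le_ceil ((A + s + U + 1) / v)
    rw [← hJdef, div_le_iff₀ hv] at this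
    linarith
  · have := (Nat.ceil_lt_add_one hx0.le).le
    rw [← hJdef, ← sub_le_iff_le_add, le_div_iff₀ hv] at this
    nlinarith
  · rw [hJdef']
    exact Nat.ceil_pos.2 hx0'
  · have := Nat.le_ceil ((2 * U + 1) / v)
    rw [← hJdef', div_le_iff₀ hv] at this
    linarith
  · have := (Nat.ceil_lt_add_one hx0'.le).le
    rw [← hJdef', ← sub_le_iff_le_add, le_div_iff₀ hv] at this
    nlinarith

/-- **obtaining an angular gain** (07 l.173-226) -/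
theorem k7a_c_front (h : k7a_FrontAng) : k7a_Front := by
  intro s M d A τ' hs hsM hd hτ'
  by_cases hd0 : 0 ≤ d
  · exact k7a_c_pos h hs (hs.trans hsM) hd0 hd hτ'
  · push Not at hd0
    obtain ⟨τ, hτ, N1, hN1⟩ := k7a_c_neg hs hd0
    refine ⟨τ, hτ, max N1 1, fun N hN Λ _ D σ c _ _ hc1 _ hD _ _ hcap _ hsup => ?_⟩
    have hN0 : 0 < N := by linarith [(le_max_right N1 1).trans hN]
    exact (hN1 N ((le_max_left _ _).trans hN) Λ D c ((Real.rpow_pos_of_pos hN0 _).trans_le hc1) hD hcap hsup).elim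

end

end Claimed.Agent.R252
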