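import Claimed.Agent.R252.Base.Pb
import Claimed.Agent.R252.State.KsState
import Claimed.Agent.R252.S7a.Defs

/-!
# ROW 252 (S0492), unit S7a (architect helper26), file 3: THE ABSTRACT RECORD OF THE WIDE-INTERVAL PROPOSITION  (07 l.551-918, `prop:wide-interval` = P7.3).      Definitions only.

P7.3 is used three times (07 l.919 native signal of a tangent parent; 08 l.813-1090 the observable `x` of the horizontal problem, there `g = h`; 09 l.1209), so its hypotheses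
"the finite-narrowness parent data: the joint caps, conditional palette domination at fine point and path states, and the true `Q_s` graph lists" are ONE abstract one-scale record, independent of `KsRef`:
* `K7aLn`           DATA: lines `(Z, Y)(t)` affine, `v = Z'`, observable `X(t)` quadratic along lines, prior `ν` (ONE parent), prepared selection `Ev0`, palette `pal : Measure ℝ` + finest velocity mesh `χ0` (all bins are the nested dyadic bins `kbBin`), end histories + reference weights.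
* `K7aW extends K7aLn`   + the true labels `Q ∈ Qa` of ONE depth on ONE common dyadic time partition `q = 2^{-lev}` with their tilted boxes `|Z - Zc| ≤ K h`, `|Y - Y_Q(t,Z)| ≤ K h g`, `Y_Q = r0 + r1 t + r2 Z`.
* `W.Ok N K d S a h g Ms Ws`   all properties, slack `K`;  `Ms`, `Ws` = the REQUIRED mesh exponents (`σ = N^{-M}`) and width exponents (`p = N^{-r}`).   Antitone in `Ms`, `Ws`, monotone in `K`.
                    Only UPPER bounds on the prepared law `lam0` + two-sided bounds on reference objects.  The graph lists of `Q` enter ONLY through the list bounds `K7aLists` (= conclusion of L7.2).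
* `K7aLayer Ln`     one family of projected labels `Φ` ("labels of the type constructed above"): disjoint trajectory assignments, group `α = ([v]_χ, [Z(0)]_χ)` (`kbBin χ`), moving centre, predictor `F_Φ(t, Y)`.
* `P.Ok K χ th β d` full-time fits at thickness `th`, interval scale `β`, norm `≤ K` in adapted coordinates, WITNESS floor `w_α th^d β ≤ K lam0 {lab = Φ}`, `w_α = π([v]_χ) χ`.
* `K7aLists W P E K χ qd g m`  given `(α, D, Q)` at most `K` retained `Φ`; given `(D, Φ)` at most `K` retained `Q`; `D` = comparison domain (time `qd`, slope bin `g`, position bin `m`)     (counts of what OCCURS in the current selection `E`: they persist under restriction).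
* `k7a_Match`       Cor 3.x `a02:local-graph-matching` for quadratic polynomials on the unit square (exit of unit S3; here a hypothesis).
* `k7a_P73`         **the finite-scale statement of P7.3.**
-/

set_option autoImplicit false

namespace Claimed.Agent.R252

open MeasureTheory
open scoped ENNReal BigOperators

noncomputable section

/-- polynomials of total degree `≤ 2` in `(t, Z, Y)`, as functions -/
def K7aQuad3 (F : ℝ → ℝ → ℝ → ℝ) : Prop :=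
  ∃ e : Fin 10 → ℝ, ∀ t Z Y, F t Z Y = e 0 + e 1 * t + e 2 * Z + e 3 * Y + e 4 * t ^ 2 + e 5 * t * Z + e 6 * t * Y + e 7 * Z ^ 2
    + e 8 * Z * Y + e 9 * Y ^ 2

/-- the dyadic bin number `m` of requested width `χ` : `kbBin χ x = m ↔ x ∈ k7aBinI χ m` -/
def k7aBinI (χ : ℝ) (m : ℤ) : Set ℝ := Set.Ico ((m : ℝ) * kbDy χ) (((m : ℝ) + 1) * kbDy χ)

/-- **the lines of a finite-narrowness parent with an observable, its prepared law, palette and end histories** (data only) -/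
structure K7aLn where
  L : Type
  mL : MeasurableSpace L
  /-- the prior of the parent -/
  ν : Measure L
  /-- full set on which the trajectory bounds hold -/
  Sp : Set L
  /-- `Z(t) = Z0 + v t`, `Y(t) = Y0 + Y1 t`, `X(t) = x0 + x1 t + x2 t²` -/
  Z0 : L → ℝ
  v : L → ℝ
  Y0 : L → ℝ
  Y1 : L → ℝ
  x0 : L → ℝ
  x1 : L → ℝ
  x2 : L → ℝ
  /-- the prepared selection -/
  Ev0 : Set (L × ℝ)
  /-- the mesh of the finest prepared velocity bins, and the palette `π` (a measure on the velocities `v`) -/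
  χ0 : ℝ
  pal : Measure ℝ
  /-- end histories and their reference weights -/
  H : Type
  fH : Fintype H
  hist : L × ℝ → H
  ref : H → ℝ≥0∞

attribute [instance] K7aLn.mL K7aLn.fH

namespace K7aLn

variable (W : K7aLn)

def Z (l : W.L) (t : ℝ) : ℝ := W.Z0 l + W.v l * t
def Y (l : W.L) (t : ℝ) : ℝ := W.Y0 l + W.Y1 l * t
def X (l : W.L) (t : ℝ) : ℝ := W.x0 l + W.x1 l * t + W.x2 l * t ^ 2
/-- exact base `(t, Z, Y)` -/
def base (p : W.L × ℝ) : ℝ × ℝ × ℝ := (p.2, W.Z p.1 p.2, W.Y p.1 p.2)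
def prior : Measure (W.L × ℝ) := W.ν.prod k7aTm
def law (E : Set (W.L × ℝ)) : Measure (W.L × ℝ) := W.prior.restrict E
def lam0 : Measure (W.L × ℝ) := W.law W.Ev0
/-- the finest velocity bin (nested dyadic bins `Base/Pb.kbBin`) -/
def vbin (l : W.L) : ℤ := kbBin W.χ0 (W.v l)
/-- velocity tests -/
def vT (b : ℤ) : Set (W.L × ℝ) := {p | W.vbin p.1 = b}
/-- palette weight `π([v]_χ = m)` of a dyadic bin of requested width `χ` -/
def palχ (χ : ℝ) (m : ℤ) : ℝ≥0∞ := W.pal (k7aBinI χ m)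
/-- palette weight of a finest bin -/
def pi (b : ℤ) : ℝ≥0∞ := W.palχ W.χ0 b
/-- point state: nested dyadic bins (`Base/Pb.kbBin`) of mesh `σ` in `(t, Z, Y)` and of width `p` in `X` -/
def pt (σ p : ℝ) (z : W.L × ℝ) : ℤ × ℤ × ℤ × ℤ := (kbBin σ z.2, kbBin σ (W.Z z.1 z.2), kbBin σ (W.Y z.1 z.2), kbBin p (W.X z.1 z.2))
/-- lines, palette, joint caps, end histories: slack `K`; `Ms`, `Ws` = required mesh and width EXPONENTS -/
structure Ok (N K d S : ℝ) (Ms Ws : Finset ℝ) : Prop where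
  prob : IsProbabilityMeasure W.ν
  m_co : Measurable W.Z0 ∧ Measurable W.v ∧ Measurable W.Y0 ∧ Measurable W.Y1 ∧ Measurable W.x0 ∧ Measurable W.x1 ∧ Measurable W.x2
  m_Sp : MeasurableSet W.Sp
  m_Ev0 : MeasurableSet W.Ev0
  m_hist : KsLab W.hist
  Sp_full : W.ν W.Spᶜ = 0
  Ev0_sub : W.Ev0 ⊆ W.Sp ×ˢ Set.Icc (0 : ℝ) 1
  bd : ∀ l ∈ W.Sp, |W.Z0 l| ≤ K ∧ |W.v l| ≤ K ∧ |W.Y0 l| ≤ K ∧ |W.Y1 l| ≤ K ∧ ∀ t ∈ Set.Icc (0 : ℝ) 1, |W.X l t| ≤ K
  χ0_pos : 0 < W.χ0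
  χ0_le : W.χ0 ≤ 1
  pal_le : W.pal Set.univ ≤ 1
  pal_ball : ∀ x p, W.χ0 ≤ p → W.pal (Set.Icc (x - p) (x + p)) ≤ ENNReal.ofReal (K * p ^ S)
  /-- joint caps at the required meshes and widths: `K p^d π(b)` per unit base volume -/
  joint : ∀ M ∈ Ms, ∀ r ∈ Ws, ∀ c b, W.lam0 {z | W.pt (N ^ (-M)) (N ^ (-r)) z = c ∧ W.vbin z.1 = b}
    ≤ ENNReal.ofReal (K * (N ^ (-r)) ^ d * (N ^ (-M)) ^ 3) * W.pi b
  /-- numerator ceiling at the end histories -/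
  dom : KsDom W.lam0 W.hist W.vT (fun _ b => W.pi b) W.ref (ENNReal.ofReal K)

end K7aLn

/-- **finite-narrowness parent data**: the lines + the true labels of ONE depth (data only) -/
structure K7aW extends K7aLn where
  /-- true labels (`Qa` = the labels of the depth in question): full assignment, block `[iv q, (iv+1) q)`, `q = 2^{-lev}`, constant major centre, plane `Y_Q(t,Z) = r0 + r1 t + r2 Z` -/
  Q : Type
  fQ : Fintype Q
  Qa : Set Q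
  asg : Q → Set L
  lev : ℕ
  iv : Q → ℕ
  Zc : Q → ℝ
  r0 : Q → ℝ
  r1 : Q → ℝ
  r2 : Q → ℝ
  /-- THE true label of an incidence -/
  labQ : L × ℝ → Q

attribute [instance] K7aW.fQ

namespace K7aW

variable (W : K7aW)

/-- common block length -/
def q : ℝ := (1 / 2 : ℝ) ^ W.lev
def blk (Q : W.Q) : Set ℝ := Set.Ico ((W.iv Q : ℝ) * W.q) (((W.iv Q : ℝ) + 1) * W.q)
def inc (Q : W.Q) : Set (W.L × ℝ) := W.asg Q ×ˢ W.blk Q
def νQ (Q : W.Q) : ℝ≥0∞ := W.ν (W.asg Q)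
def YQ (Q : W.Q) (t Z : ℝ) : ℝ := W.r0 Q + W.r1 Q * t + W.r2 Q * Z
open Classical in
/-- the reference weights of the histories which occur in `Q` -/
def refIn (Q : W.Q) : ℝ≥0∞ := ∑ e ∈ Finset.univ.filter (fun e => W.lam0 (W.hist ⁻¹' {e} ∩ W.labQ ⁻¹' {Q}) ≠ 0), W.ref e

/-- **the finite-narrowness parent data at one scale**, slack `K`; scales `a` (thickness of `Q`), `h` (block length), `g` (narrowness), `b = h g` -/
structure Ok (N K d S a h g : ℝ) (Ms Ws : Finset ℝ) : Prop where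
  ln : W.toK7aLn.Ok N K d S Ms Ws
  m_labQ : KsLab W.labQ
  m_asg : ∀ Q, MeasurableSet (W.asg Q)
  q_lo : h ≤ K * W.q
  q_hi : W.q ≤ K * h
  iv_lt : ∀ Q ∈ W.Qa, W.iv Q < 2 ^ W.lev
  asg_Sp : ∀ Q ∈ W.Qa, W.asg Q ⊆ W.Sp
  disj : ∀ Q ∈ W.Qa, ∀ Q' ∈ W.Qa, W.iv Q = W.iv Q' → Q ≠ Q' → Disjoint (W.asg Q) (W.asg Q')
  row_bd : ∀ Q ∈ W.Qa, |W.Zc Q| ≤ K ∧ |W.r0 Q| ≤ K ∧ |W.r1 Q| ≤ K ∧ |W.r2 Q| ≤ K
  box : ∀ Q ∈ W.Qa, ∀ l ∈ W.asg Q, ∀ t ∈ W.blk Q, |W.Z l t - W.Zc Q| ≤ K * h ∧ |W.Y l t - W.YQ Q t (W.Z l t)| ≤ K * (h * g)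
  slope : ∀ Q ∈ W.Qa, ∀ l ∈ W.asg Q, |W.Y1 l - (W.r1 Q + W.r2 Q * W.v l)| ≤ K * g
  ν_lo : ∀ Q ∈ W.Qa, ENNReal.ofReal (a ^ d * h * (h * g)) ≤ ENNReal.ofReal K * W.νQ Q
  ν_hi : ∀ Q ∈ W.Qa, W.νQ Q ≤ ENNReal.ofReal (K * (a ^ d * h * (h * g)))
  lab : ∀ p ∈ W.Ev0, W.labQ p ∈ W.Qa ∧ p ∈ W.inc (W.labQ p)
  /-- (a03:packet-base-cap): base density `≤ K q ν_Q` in unit coordinates of `Q` -/
  capQ : ∀ Q ∈ W.Qa, ∀ U : Set (ℝ × ℝ × ℝ), MeasurableSet U →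
    ENNReal.ofReal (h * (h * g)) * W.lam0 (W.inc Q ∩ W.base ⁻¹' U) ≤ ENNReal.ofReal K * W.νQ Q * volume U
  /-- deep histories leave `≤ K` options for (true label, required point state) -/
  opt : ∀ M ∈ Ms, ∀ r ∈ Ws, ∃ n : ℕ, (n : ℝ) ≤ K ∧ KsOpt W.lam0 W.hist (fun z => (W.labQ z, W.pt (N ^ (-M)) (N ^ (-r)) z)) n
  /-- the reference weights sum inside `Q` to at most `K q ν_Q` -/
  ref_in : ∀ Q ∈ W.Qa, W.refIn Q ≤ ENNReal.ofReal (K * h) * W.νQ Q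

end K7aW

/-- **one family of projected labels** (data only) -/
structure K7aLayer (W : K7aLn) where
  Ph : Type
  fPh : Fintype Ph
  /-- disjoint trajectory assignments -/
  lab : W.L → Option Ph
  /-- the group `α = ([v]_χ, [Z(0)]_χ)` of a label -/
  vi : Ph → ℤ
  zi : Ph → ℤ
  /-- moving centre in `Y` and predictor `F(t, Y)` -/
  G : Ph → K7aLab

attribute [instance] K7aLayer.fPh

namespace K7aLayer

variable {W : K7aLn} (P : K7aLayer W)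

/-- projected labels of thickness `th` and interval scale `β` over the groups of mesh `χ`, slack `K` -/
structure Ok (K χ th β d : ℝ) : Prop where
  meas : ∀ o, MeasurableSet (P.lab ⁻¹' {o})
  grp : ∀ l φ, P.lab l = some φ → l ∈ W.Sp ∧ kbBin χ (W.v l) = P.vi φ ∧ kbBin χ (W.Z0 l) = P.zi φ
  quad : ∀ φ, K7aQuad (P.G φ).F
  norm : ∀ φ, ∀ t ∈ Set.Icc (0 : ℝ) 1, ∀ u ∈ Set.Icc (-1 : ℝ) 1, |(P.G φ).F t ((P.G φ).cen t + β * u)| ≤ K
  fit : ∀ l φ, P.lab l = some φ → ∀ t ∈ Set.Icc (0 : ℝ) 1,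
    |W.Y l t - (P.G φ).cen t| ≤ K * β ∧ |W.X l t - (P.G φ).F t (W.Y l t)| ≤ K * th
  /-- stored witness floor -/
  floor : ∀ φ, ENNReal.ofReal (χ * th ^ d * β) * W.palχ χ (P.vi φ) ≤ ENNReal.ofReal K * W.lam0 {z | P.lab z.1 = some φ}

end K7aLayer

/-- comparison domain of an incidence (07 l.417-425): time interval of length `qd`, `Y'`-bin of width `g`, `Y`-bin of width `m` at the left end of the time interval -/
def K7aLn.sdom (W : K7aLn) (qd g m : ℝ) (z : W.L × ℝ) : ℤ × ℤ × ℤ :=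
  (⌊z.2 / qd⌋, ⌊W.Y1 z.1 / g⌋, ⌊W.Y z.1 (⌊z.2 / qd⌋ * qd) / m⌋)

/-- **the comparison lists** (conclusion of L7.2) for what occurs in the current selection `E`, on the domains `(qd, g, m)` :
given `(α, D, Q)` at most `K` retained `Φ`; given `(D, Φ)` (`Φ` knows `α`) at most `K` retained `Q` -/
structure K7aLists (W : K7aW) (P : K7aLayer W.toK7aLn) (E : Set (W.L × ℝ)) (K χ qd g m : ℝ) : Prop where
  fwd : ∀ (Q : W.Q) (mv z : ℤ) (D : ℤ × ℤ × ℤ), ∃ S : Finset P.Ph, (S.card : ℝ) ≤ K ∧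
    ∀ p ∈ E, W.labQ p = Q → kbBin χ (W.v p.1) = mv → kbBin χ (W.Z0 p.1) = z → W.sdom qd g m p = D → ∀ φ, P.lab p.1 = some φ → φ ∈ S
  bwd : ∀ (φ : P.Ph) (D : ℤ × ℤ × ℤ), ∃ S : Finset W.Q, (S.card : ℝ) ≤ K ∧
    ∀ p ∈ E, P.lab p.1 = some φ → W.sdom qd g m p = D → W.labQ p ∈ S

/-- **Cor 3.x (`a02:local-graph-matching`) for quadratic polynomials on the unit square.** -/
def k7a_Match : Prop :=
  ∀ d0 : ℝ, d0 < 1 → ∃ ε : ℝ, 0 < ε ∧ ∃ R0 : ℝ, ∀ R M Δ : ℝ, R0 ≤ R → 0 < Δ → M = R * Δ →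
    ∀ (I1 I2 : Type) [Fintype I1] [Fintype I2] (f1 : I1 → ℝ → ℝ → ℝ) (f2 : I2 → ℝ → ℝ → ℝ) (fs : ℝ → ℝ → ℝ)
      (π1 : I1 → ℝ≥0∞) (π2 : I2 → ℝ≥0∞) (Pr : I1 → I2 → Measure (ℝ × ℝ)),
      (∀ i, K7aQuad (f1 i)) → (∀ j, K7aQuad (f2 j)) → K7aQuad fs →
      (Fintype.card I1 : ℝ) ≤ R ^ (d0 + ε) → (Fintype.card I2 : ℝ) ≤ R ^ (d0 + ε) →
      (∀ i, ∀ t ∈ Set.Icc (0 : ℝ) 1, ∀ y ∈ Set.Icc (0 : ℝ) 1, |f1 i t y - fs t y| ≤ M * R ^ ε) →
      (∀ j, ∀ t ∈ Set.Icc (0 : ℝ) 1, ∀ y ∈ Set.Icc (0 : ℝ) 1, |f2 j t y - fs t y| ≤ M * R ^ ε) →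
      ∑ i, π1 i ≤ 1 → ∑ j, π2 j ≤ 1 →
      (∀ i j, Pr i j (Set.Icc (0 : ℝ) 1 ×ˢ Set.Icc (0 : ℝ) 1)ᶜ = 0) →
      (∀ i, ∑ j, Pr i j ≤ (ENNReal.ofReal (R ^ ε) * π1 i) • volume) →
      (∀ j, ∑ i, Pr i j ≤ (ENNReal.ofReal (R ^ ε) * π2 j) • volume) →
      (∀ i j, ∀ᵐ z ∂Pr i j, |f1 i z.1 z.2 - f2 j z.1 z.2| ≤ Δ * R ^ ε) →
      (∀ i j, Pr i j ≠ 0 → ∃ t ∈ Set.Icc (0 : ℝ) 1, ∃ y ∈ Set.Icc (0 : ℝ) 1, M * R ^ (-ε) ≤ |f1 i t y - f2 j t y|) →
      ∑ i, ∑ j, Pr i j Set.univ < ENNReal.ofReal (R ^ (-ε))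

/-- **Proposition 7.3 (wide-interval improvement), finite-scale form.**
Fixed exponents: `a = N^{-s}`, `a₁ = a N^{-u}`, `a₂ = a N^{-c₂}`, `h = N^{-eh}`, `g = N^{-eg}`, `β_i ∼ N^{-B i}`, `χ = N^{-Mχ}` (any `Mχ` beyond a threshold), finest velocity mesh `χ0 ≤ N^{-M0}`.
v4 (20:20Z, asked by helper98): `M0` is chosen BEFORE `τ'` and bounds all required exponents; the SETS `Ms`, `Ws` come after `τ'` (`Ws` = a `τ`-grid of widths: `p^d` is not additive, so widths cannot be derived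
from the finest one; base meshes can: `joint ∝ σ³`, `opt` passes to coarser nested bins). -/
def k7a_P73 : Prop :=
  ∀ (d S s u c2 eh eg : ℝ) (B : Fin 3 → ℝ), 0 ≤ d → d < 1 → 0 < S → 0 < s → 0 < u → 0 < c2 → c2 < (1 - d) * u / 4 → 0 < eh → 0 < eg →
    (∀ i, eg ≤ B i) → (∀ i, (10 / (1 - d) + 3) * u ≤ eh + eg - B i) → (∀ i j, (10 / (1 - d) + 3) * u ≤ eh + B i - B j) →
    ∃ Mχ0 : ℝ, ∀ Mχ : ℝ, Mχ0 ≤ Mχ → ∃ M0 : ℝ, ∀ τ' : ℝ, 0 < τ' → ∃ (τ N1 : ℝ) (Ms Ws : Finset ℝ), 0 < τ ∧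
      (∀ M ∈ Ms, 0 ≤ M ∧ M ≤ M0) ∧ (∀ r ∈ Ws, 0 ≤ r ∧ r ≤ M0) ∧ ∀ N : ℝ, N1 ≤ N →
      ∀ (W : K7aW) (P : Fin 3 → K7aLayer W.toK7aLn) (β : Fin 3 → ℝ) (E : Set (W.L × ℝ)),
        W.Ok N (N ^ τ) d S (N ^ (-s)) (N ^ (-eh)) (N ^ (-eg)) Ms Ws → W.χ0 ≤ N ^ (-M0) →
        (∀ i, N ^ (-B i - τ) ≤ β i ∧ β i ≤ N ^ (-B i + τ)) →
        (P 0).Ok (N ^ τ) (N ^ (-Mχ)) (N ^ (-s)) (β 0) d → (P 1).Ok (N ^ τ) (N ^ (-Mχ)) (N ^ (-s - u)) (β 1) d →
        (P 2).Ok (N ^ τ) (N ^ (-Mχ)) (N ^ (-s - c2)) (β 2) d →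
        MeasurableSet E → E ⊆ W.Ev0 → (∀ p ∈ E, ∀ i, (P i).lab p.1 ≠ none) → 1 ≤ ENNReal.ofReal (N ^ τ) * W.prior E →
        K7aLists W (P 0) E (N ^ τ) (N ^ (-Mχ)) W.q (N ^ (-eg)) (W.q * N ^ (-eg)) →
        ∃ (Q : W.Q) (F : ℝ → ℝ → ℝ → ℝ) (Cn : Set (W.L × ℝ)), Q ∈ W.Qa ∧ K7aQuad3 F ∧ MeasurableSet Cn ∧ Cn ⊆ E ∩ W.inc Q ∧
          (∀ p ∈ Cn, ∀ t ∈ W.blk Q, |W.X p.1 t - F t (W.Z p.1 t) (W.Y p.1 t)| ≤ N ^ τ' * N ^ (-s - c2)) ∧
          ENNReal.ofReal (W.q * N ^ (-(d * c2))) * W.νQ Q ≤ ENNReal.ofReal (N ^ τ') * W.prior Cn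

end

end Claimed.Agent.R252
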