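import Claimed.Agent.R252.State.KsTan
import Claimed.Agent.R252.S7b.HorLink
import Claimed.Agent.R252.S7a.WideDefs

/-!
# ROW 252 (S0492), unit S7a (architect helper26), file 5: FROM THE COMMON RECORD `KsRef` TO THE RECORD OF SECTION 7, AND THE EXITS OF SEC 7 (first half).      Definitions only.

Conventions of `State/KsLoc`, `State/KsTan` (helper31): ONE parent (`R.One A`), triangular charts (`R.Tilt K`), requirement lists `G : KsReq`, `G.Ok`, by INCLUSION (= `R.Sup p G` of `S7b/Exit`; the glue takes unions).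
* `R.toLn A`      the lines of a prepared tangent problem `R : KsRef two` (`0 < ℓ`): `(Z, Y) = (ksZ y, ksY y)`, `v = Z'`, `X` = native signal, palette = the `Z'`-marginal of `π_A`, end histories.
* `R.toW A s`     + the occupied true labels of depth `s` with their tilted boxes `R.YQ`, `R.row`, `R.tl`.      `(R.toW A s).toK7aLn` IS `R.toLn A` (by `rfl`).
* `R.RefIn K`     the form of `KsRef.Ok.ref_Q` used here (`k7a_refIn_of_ok` in `ProjContract`).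
* `k7a_P72K`      **Sec 7.2 + L7.2 at finite scale**: on every dense selection a dense part `E'`, and at each of finitely many depths projected labels (`K7aLayer.Ok`) with `g_s N^{-M} ≲ β_s ≲ g_s` and the comparison lists
                  on the domains `qd ∼ min(h_s, β_s/g_s)` (a dyadic part of the true block), `m = qd g_s`.
* `k7a_WideK`     **P7.3 + 07 l.919** : if the three interval scales are `∼ g_{s'}`, there is a time-improvement candidate (`KsTimeCand`) of gain `c₂`.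
* `k7a_RowK`      **07 l.941-955** : a narrow layer `N^{-B₁} ≤ β_s ≤ N^{-B₀}`, `ℓ r < B₀ ≤ B₁ < (k+ℓ) r`, `s < r`, gives the row list `K7bRowList` at the width `N^{-B₀}` = ENTRY of unit S7b (`prop:horizontal-model`).
  The dichotomy on `β_s` (07 l.919-924) at finite scale: the tolerance `τ_w(τ₁)` of `k7a_WideK` is the threshold; `[ℓ s_i + τ_w, ℓ s_i + M + 1]` is covered by finitely many windows `[B₀, B₁]` (`S7a/Exit`).
-/

set_option autoImplicit false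

namespace Claimed.Agent.R252

open MeasureTheory
open scoped ENNReal BigOperators

noncomputable section

namespace KsRef

variable (R : KsRef KbVer.two)

open Classical in
/-- the common level of the time partition at the depth `s` -/
def levAt (s : ℝ) : ℕ := if h : ∃ Q, R.dep Q = s then R.lev h.choose else 0

/-- the lines (one parent `A`) -/
def toLn (A : R.Par) : K7aLn where
  L := R.L
  mL := R.mL
  ν := R.ν
  Sp := R.Sp
  Z0 := fun l => ksZ (R.co l).1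
  v := fun l => ksZ (R.co l).2.1
  Y0 := fun l => ksY (R.co l).1
  Y1 := fun l => ksY (R.co l).2.1
  x0 := fun l => R.X l 0
  x1 := fun l => 4 * R.X l (1 / 2) - R.X l 1 - 3 * R.X l 0
  x2 := fun l => 2 * R.X l 1 - 4 * R.X l (1 / 2) + 2 * R.X l 0
  Ev0 := R.Ev0
  χ0 := R.χ
  pal := ((R.pal A).restrict {V | ksY V ∈ k7aBinI R.χ 0}).map ksZ
  H := R.Hist
  fH := R.fHist
  hist := R.hist
  ref := fun e => R.ref (A, e)

/-- the lines with the occupied true labels of the depth `s` -/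
def toW (A : R.Par) (s : ℝ) : K7aW where
  toK7aLn := R.toLn A
  Q := R.Lab
  fQ := R.fLab
  Qa := {Q | R.dep Q = s ∧ (R.Ev0 ∩ R.inc Q).Nonempty}
  asg := R.asg
  lev := R.levAt s
  iv := R.iv
  Zc := fun Q => ksZ ((R.ch Q).yc (R.t0 Q))
  r0 := fun Q => ksY (R.ch Q).y0 - R.tl Q * ksZ (R.ch Q).y0
  r1 := fun Q => R.row Q 0
  r2 := R.tl
  labQ := R.labAt s

open Classical in
/-- the reference weights of the end histories sum inside `Q` to at most `K q ν_Q` (07 l.826, l.868; 08 l.120) -/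
def RefIn (K : ℝ) : Prop :=
  ∀ Q, ∑ x ∈ Finset.univ.filter (fun x => R.lam0 (R.st ⁻¹' {x} ∩ R.inc Q) ≠ 0), R.ref x ≤ ENNReal.ofReal (K * R.q Q) * R.νQ Q

end KsRef

/-- **Sec 7.2 + Lemma 7.2, finite-scale form.**   `ss` = the finitely many depths; `M` = exponent of the projection mesh (common for the depths, independent of the finer `χ = N^{-Mχ}`). -/
def k7a_P72K : Prop :=
  ∀ (p : KpPrm) (ss : Finset ℝ), p.Ok → 0 < p.ell → (∀ s ∈ ss, 0 < s) →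
    ∃ M Mχ0 : ℝ, 0 ≤ M ∧ ∀ Mχ : ℝ, Mχ0 ≤ Mχ → ∀ τ' : ℝ, 0 < τ' → ∃ (τ N1 : ℝ) (G : KsReq), 0 < τ ∧ G.Ok ∧
      ∀ (R : KsRef KbVer.two) (A : R.Par) (E : Set (R.L × ℝ)), R.prm = p → N1 ≤ R.N →
        G.depths ⊆ R.depths → G.meshes ⊆ R.meshes → G.widths ⊆ R.widths → G.ord ≤ R.ord → R.χ ≤ R.N ^ (-G.U) →
        R.Ok (R.N ^ τ) → R.Tilt (R.N ^ τ) → R.One A → KsCur R E (R.N ^ τ) →
        ∃ (E' : Set (R.L × ℝ)) (P : ℝ → K7aLayer (R.toLn A)) (β qd : ℝ → ℝ), KsCur R E' (R.N ^ τ') ∧ E' ⊆ E ∧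
          ∀ s ∈ ss, (P s).Ok (R.N ^ τ') (R.N ^ (-Mχ)) (R.N ^ (-s)) (β s) p.d ∧
            R.N ^ (-(p.ell * s) - M - τ') ≤ β s ∧ β s ≤ R.N ^ (-(p.ell * s) + τ') ∧ (∀ x ∈ E', (P s).lab x.1 ≠ none) ∧
            (∃ j : ℕ, qd s = (R.toW A s).q / 2 ^ j) ∧
            min (R.N ^ (-(p.k * s))) (β s * R.N ^ (p.ell * s)) ≤ R.N ^ τ' * qd s ∧ qd s ≤ R.N ^ τ' * min (R.N ^ (-(p.k * s))) (β s * R.N ^ (p.ell * s)) ∧
            K7aLists (R.toW A s) (P s) E' (R.N ^ τ') (R.N ^ (-Mχ)) (qd s) (R.N ^ (-(p.ell * s))) (qd s * R.N ^ (-(p.ell * s)))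

/-- **P7.3 for the native signal of a tangent parent** (07 l.919): three wide projected layers at the depths `s, s+u, s+c₂` give a time-improvement candidate of gain `c₂`. -/
def k7a_WideK : Prop :=
  ∀ (p : KpPrm) (s u c2 : ℝ), p.Ok → 0 < p.ell → 0 < s → 0 < u → 0 < c2 → c2 < (1 - p.d) * u / 4 →
    (p.ell + 10 / (1 - p.d) + 3) * u ≤ p.k * s →
    ∃ Mχ0 : ℝ, ∀ Mχ : ℝ, Mχ0 ≤ Mχ → ∀ τ' : ℝ, 0 < τ' → ∃ (τ N1 : ℝ) (G : KsReq), 0 < τ ∧ G.Ok ∧
      ∀ (R : KsRef KbVer.two) (A : R.Par) (E' : Set (R.L × ℝ)) (P : Fin 3 → K7aLayer (R.toLn A)) (β : Fin 3 → ℝ) (qd : ℝ),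
        R.prm = p → N1 ≤ R.N → G.depths ⊆ R.depths → G.meshes ⊆ R.meshes → G.widths ⊆ R.widths → R.χ ≤ R.N ^ (-G.U) →
        R.Ok (R.N ^ τ) → R.Tilt (R.N ^ τ) → R.One A → KsCur R E' (R.N ^ τ) →
        (∀ i, (P i).Ok (R.N ^ τ) (R.N ^ (-Mχ)) (R.N ^ (-(s + ![0, u, c2] i))) (β i) p.d) →
        (∀ i, R.N ^ (-(p.ell * (s + ![0, u, c2] i)) - τ) ≤ β i ∧ β i ≤ R.N ^ (-(p.ell * (s + ![0, u, c2] i)) + τ)) →
        (∀ x ∈ E', ∀ i, (P i).lab x.1 ≠ none) →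
        (∃ j : ℕ, qd = (R.toW A s).q / 2 ^ j) →
        min (R.N ^ (-(p.k * s))) (β 0 * R.N ^ (p.ell * s)) ≤ R.N ^ τ * qd → qd ≤ R.N ^ τ * min (R.N ^ (-(p.k * s))) (β 0 * R.N ^ (p.ell * s)) →
        K7aLists (R.toW A s) (P 0) E' (R.N ^ τ) (R.N ^ (-Mχ)) qd (R.N ^ (-(p.ell * s))) (qd * R.N ^ (-(p.ell * s))) →
        ∃ (Q : R.Lab) (T : KbTest KbVer.two) (Cn : Set (R.L × ℝ)), R.dep Q = s ∧ KsTimeCand R E' (R.N ^ τ') c2 Q T Cn

/-- **from projected intervals to a row list** (07 l.941-955): the entry of `prop:horizontal-model`.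
v3 (20:45Z): `β` is a free real in a WINDOW `N^{-B1} ≤ β ≤ N^{-B0}`, `ℓ r < B0 ≤ B1 < (k+ℓ) r`; the list is delivered at the COARSE width `N^{-B0}`; NO threshold for the group mesh `Mχ` (only `Mξ ≥ Mξ0(Mχ, ..)`). -/
def k7a_RowK : Prop :=
  ∀ (p : KpPrm) (s r B0 B1 Mχ : ℝ), p.Ok → 0 < p.ell → 0 < s → s < r → p.ell * r < B0 → B0 ≤ B1 → B1 < (p.k + p.ell) * r → 0 ≤ Mχ →
    ∃ Mξ0 : ℝ, ∀ Mξ : ℝ, Mξ0 ≤ Mξ → ∀ τ' : ℝ, 0 < τ' → ∃ (τ N1 : ℝ), 0 < τ ∧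
      ∀ (R : KsRef KbVer.two) (A : R.Par) (E' : Set (R.L × ℝ)) (P : K7aLayer (R.toLn A)) (β qd : ℝ),
        R.prm = p → N1 ≤ R.N → s ∈ R.depths → r ∈ R.depths →
        R.Ok (R.N ^ τ) → R.Tilt (R.N ^ τ) → R.One A → KsCur R E' (R.N ^ τ) →
        P.Ok (R.N ^ τ) (R.N ^ (-Mχ)) (R.N ^ (-s)) β p.d → R.N ^ (-B1) ≤ β → β ≤ R.N ^ (-B0) → (∀ x ∈ E', P.lab x.1 ≠ none) →
        (∃ j : ℕ, qd = (R.toW A s).q / 2 ^ j) →
        min (R.N ^ (-(p.k * s))) (β * R.N ^ (p.ell * s)) ≤ R.N ^ τ * qd → qd ≤ R.N ^ τ * min (R.N ^ (-(p.k * s))) (β * R.N ^ (p.ell * s)) →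
        K7aLists (R.toW A s) P E' (R.N ^ τ) (R.N ^ (-Mχ)) qd (R.N ^ (-(p.ell * s))) (qd * R.N ^ (-(p.ell * s))) →
        K7bRowList R E' (R.N ^ τ') (R.N ^ (-B0)) r (R.N ^ (-Mξ))

end

end Claimed.Agent.R252
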