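import Claimed.Agent.R252.S7a.WideDefs
import Claimed.Agent.R252.Remez.One

/-!
# ROW 252 (S0492), unit S7a (architect helper26), file 4: PROPOSITION 7.3 (wide-interval improvement, 07 l.551-918).      CONTRACT file: every `sorry` is a post / leaf `*-252-S7w-*`.

TOP: `k7w_P73 : k7a_T71a → k7a_Match → k7a_P73` in `S7a/WideTopContract.lean`   (post BP-252-S7w: sub-architect; everything is PAPER-FREE: `S7a/WideDefs`, `State/KsState`, `R252/Remez`, `S7b/CoreB`).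
Notation: `a, a₁ = a N^{-u}, a₂ = a N^{-c₂}`, `b = h g`, `w_α = π([v]_χ) χ`, `e = a N^{-(1-d)u/2}`, `C_d = 10/(1-d)`, `K = N^τ` grows from step to step; "prune" = `ks_app_loss`/`ks_prune_half` against SUMMABLE reference weights.
## Plan (the steps of the paper, with the fields of `K7aW.Ok`, `K7aLayer.Ok`, `K7aLists` they use)
 S0 caps on moving boxes: `k7a_joint_cells` (field `joint`) : `lam0 {base ∈ cells, |X - f| ≤ κ p, vbin ∈ V} ≤ K (2κ+3) p^d σ³ #cells π(V)`.  All sets below are unions of cells of a mesh `M ∈ Ms` far finer than every scale.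
 S1 budgets: floors + disjointness give `Σ_Φ w_α a_i^d β_i ≤ K`; slicing a label into domains (time length `ρ'`, slope bin, position slice of width `m`) keeps the sum (07 l.447-459).  Prune: retained entries have WITNESS mass `≥ T/K` under `lam0`.
 S2 long domains (time `ρ ∼ β_min/β_max`, slope bin `β_max`, width `β_min`): discrepancy of `F_{Φ_i}` and `F_Φ` is `≤ K a N^{C_d u}` off a negligible part: group by coefficient bins at the dyadic scale `M₀`; list sizes `≤ K (M₀/a_i)^d` by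
    packing (`k7b_packing`) under S0; `k7a_group` picks a group with `B ≥ (W₁+W₂)/K`; jitter the event point in its tiny cell (`k7a_cell_jitter`) to get density ceilings; `k7a_Match` with `R = M₀/a`, `d₀ = (1+d)/2` (`k7a_exp_room`).
 S3 short domains (block of `Q`, width `b`): normalised diameter `≤ K (h/ρ + b/β_min) ≤ N^{-(C_d+3)u}`, so `F_{Φ_i} - F_Φ = D_i + O(K a_i)` (`k7a_quad_coeff`, `k7a_quad_lip`), `|D_i| ≤ K a`;  `≤ K (a/a_i)^d` labels `Φ_i` per `(Q, α, Φ)` (packing under the cap at width `K a`);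
    `≤ K` labels `Φ` per `(short domain, α, Φ_i)`.   Source entries `(α, D, Φ₁, Φ, Q)`: `K7aLists.bwd`.
 S4 expansion `F_Φ(t, Y_Q(t,Z) + b U) = f₀(z) + f₁(z) U + f₂ U²`.
 S5 coefficient agreement at a fine state `(Q, pt)`: conditional domination from `dom`, `opt`, `ks_step`; `k7a_pair_bad` reduces to: for a source entry and a target velocity bin, the source `U`-length where a target with coefficient gap `≥ e` can match is
    `≤ K N^{-τ₀} + K N^{du} a₁ N^{τ₀}/e`, `τ₀ = (1-d)u/8` : `k7a_match_len` with `n ≤ K N^{du}` offsets, for each of the `≤ K` coarse target polynomials (`K7aLists.fwd`).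
 S6 common field: `k7a_state_rep`; a heavy `Q` (`Σ q ν_Q ≤ 1`), `capQ`; two separated directions (`k7b_support_mass`, `k7b_sep_pairs`, `pal_ball`); product grid of step `ω`; `k7a_bilinear`; `k7a_duration` + `k7a_mixed` remove the mixed term.
 S7 residual bins: `≤ K (a/a₂)^d` bins of `X - P_nc` per fine `z`-cell: output state has `≤ K` options per history, `ref_in`, `ks_step`, then `k7b_options_count` against `π`.
 S8 `k7a_T71a` for `(X - P_nc, Z)` in the normalised block of `Q` : `c = a^{-d}`, terminal width `a₂`, angular factor from `pal_ball`.  One label of the output is the candidate.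
-/

set_option autoImplicit false

namespace Claimed.Agent.R252

open MeasureTheory
open scoped ENNReal BigOperators

noncomputable section

/-! ## Paper-free cores -/

/-- a set of reals of diameter `≤ L` has length `≤ L` -/
theorem k7a_vol_le_of_diam {s : Set ℝ} {L : ℝ} (h : ∀ x ∈ s, ∀ y ∈ s, |x - y| ≤ L) : volume s ≤ ENNReal.ofReal L := by
  refine (Real.volume_le_diam s).trans (Metric.ediam_le fun x hx y hy => ?_)
  rw [edist_dist, Real.dist_eq]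
  exact ENNReal.ofReal_le_ofReal (h x hx y hy)

/-- **L-252-S7w-LEN** (07 l.733-752).  `g(U) = α U + γ U²` with coefficient gap `≥ e`; the set of `U ∈ [-K, K]` where `g` is within `δ` of one of `n` offsets.
Proof: if `|γ| ≤ e/(4K)` then `|g'| ≥ e/2`; otherwise `{|g'| < eθ}` is an interval of length `< 4Kθ`; on each of the `≤ 2` remaining intervals `g` is monotone with `|g'| ≥ eθ`. -/
theorem k7a_match_len {α γ e K δ θ : ℝ} {n : ℕ} (D : Fin n → ℝ) (hK : 1 ≤ K) (he : 0 < e) (hθ0 : 0 < θ) (hθ : θ ≤ 1 / 2) (hδ : 0 ≤ δ)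
    (hgap : e ≤ max |α| |γ|) :
    volume {U : ℝ | U ∈ Set.Icc (-K) K ∧ ∃ k, |α * U + γ * U ^ 2 - D k| ≤ δ} ≤ ENNReal.ofReal (4 * K * θ + 6 * n * δ / (e * θ)) := by
  have hK0 : 0 < K := by linarith
  have heθ : 0 < e * θ := by positivity
  set B0 : Set ℝ := {U | U ∈ Set.Icc (-K) K ∧ |α + 2 * γ * U| < e * θ} with hB0
  set Sp : Fin n → Set ℝ := fun k => {U | e * θ ≤ α + 2 * γ * U ∧ |α * U + γ * U ^ 2 - D k| ≤ δ} with hSp
  set Sm : Fin n → Set ℝ := fun k => {U | α + 2 * γ * U ≤ -(e * θ) ∧ |α * U + γ * U ^ 2 - D k| ≤ δ} with hSm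
  have hsub : {U : ℝ | U ∈ Set.Icc (-K) K ∧ ∃ k, |α * U + γ * U ^ 2 - D k| ≤ δ} ⊆ B0 ∪ ⋃ k, (Sp k ∪ Sm k) := by
    rintro U ⟨hU, k, hk⟩
    by_cases h0 : |α + 2 * γ * U| < e * θ
    · exact Or.inl ⟨hU, h0⟩
    · refine Or.inr (Set.mem_iUnion.2 ⟨k, ?_⟩)
      rcases le_abs'.1 (not_lt.1 h0) with h1 | h1
      · exact Or.inr ⟨by linarith, hk⟩
      · exact Or.inl ⟨h1, hk⟩
  have hB0v : volume B0 ≤ ENNReal.ofReal (4 * K * θ) := by
    refine k7a_vol_le_of_diam ?_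
    rintro x ⟨hx, hx'⟩ y ⟨hy, hy'⟩
    by_cases hγ : |γ| ≤ e / (4 * K)
    · exfalso
      have hγe : |γ| < e := by
        refine hγ.trans_lt ?_
        rw [div_lt_iff₀ (by positivity)]
        nlinarith
      have hα : e ≤ |α| := by
        rcases le_max_iff.1 hgap with h | h
        · exact h
        · linarith
      have hxK : |x| ≤ K := abs_le.2 hx
      have h1 : |2 * γ * x| ≤ e / 2 := by
        rw [abs_mul, abs_mul, abs_two]
        have : |γ| * |x| ≤ e / (4 * K) * K := mul_le_mul hγ hxK (abs_nonneg _) (by positivity)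
        have e2 : e / (4 * K) * K = e / 4 := by field_simp
        nlinarith
      have h2 : |α| ≤ |α + 2 * γ * x| + |2 * γ * x| := by
        have := abs_sub (α + 2 * γ * x) (2 * γ * x)
        simpa using this
      nlinarith
    · push Not at hγ
      have hγ0 : 0 < |γ| := lt_trans (by positivity) hγ
      have h1 : |2 * γ * (x - y)| < 2 * (e * θ) := by
        have e1 : 2 * γ * (x - y) = (α + 2 * γ * x) - (α + 2 * γ * y) := by ring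
        rw [e1]
        exact (abs_sub _ _).trans_lt (by linarith)
      rw [abs_mul, abs_mul, abs_two] at h1
      have h2 : e < |γ| * (4 * K) := (div_lt_iff₀ (by positivity)).1 hγ
      by_contra hcon
      push Not at hcon
      have h3 : |γ| * (4 * K * θ) < |γ| * |x - y| := mul_lt_mul_of_pos_left hcon hγ0
      nlinarith
  have hdiam : ∀ (k : Fin n) (x y : ℝ), e * θ ≤ |α + γ * (x + y)| → |α * x + γ * x ^ 2 - D k| ≤ δ → |α * y + γ * y ^ 2 - D k| ≤ δ →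
      |x - y| ≤ 2 * δ / (e * θ) := fun k x y h1 hx hy => by
    rw [le_div_iff₀ heθ]
    have e1 : (x - y) * (α + γ * (x + y)) = (α * x + γ * x ^ 2 - D k) - (α * y + γ * y ^ 2 - D k) := by ring
    have h2 : |x - y| * |α + γ * (x + y)| ≤ 2 * δ := by
      rw [← abs_mul, e1]
      exact (abs_sub _ _).trans (by linarith)
    exact (mul_le_mul_of_nonneg_left h1 (abs_nonneg _)).trans h2
  have hSpv : ∀ k, volume (Sp k) ≤ ENNReal.ofReal (2 * δ / (e * θ)) := fun k => by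
    refine k7a_vol_le_of_diam ?_
    rintro x ⟨hx, hx'⟩ y ⟨hy, hy'⟩
    refine hdiam k x y ?_ hx' hy'
    refine le_trans ?_ (le_abs_self _)
    linarith
  have hSmv : ∀ k, volume (Sm k) ≤ ENNReal.ofReal (2 * δ / (e * θ)) := fun k => by
    refine k7a_vol_le_of_diam ?_
    rintro x ⟨hx, hx'⟩ y ⟨hy, hy'⟩
    refine hdiam k x y ?_ hx' hy'
    refine le_trans ?_ (neg_le_abs _)
    linarith
  have hq : 0 ≤ 2 * δ / (e * θ) := by positivity
  calc volume {U : ℝ | U ∈ Set.Icc (-K) K ∧ ∃ k, |α * U + γ * U ^ 2 - D k| ≤ δ}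
      ≤ volume (B0 ∪ ⋃ k, (Sp k ∪ Sm k)) := measure_mono hsub
    _ ≤ volume B0 + volume (⋃ k, (Sp k ∪ Sm k)) := measure_union_le _ _
    _ ≤ volume B0 + ∑ k, volume (Sp k ∪ Sm k) := by gcongr; exact measure_iUnion_fintype_le _ _
    _ ≤ ENNReal.ofReal (4 * K * θ) + ∑ _k : Fin n, (ENNReal.ofReal (2 * δ / (e * θ)) + ENNReal.ofReal (2 * δ / (e * θ))) := by
        gcongr with k
        exact (measure_union_le _ _).trans (add_le_add (hSpv k) (hSmv k))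
    _ = ENNReal.ofReal (4 * K * θ + n * (2 * δ / (e * θ) + 2 * δ / (e * θ))) := by
        rw [Finset.sum_const, Finset.card_univ, Fintype.card_fin, nsmul_eq_mul, ← ENNReal.ofReal_add hq hq,
          ← ENNReal.ofReal_natCast, ← ENNReal.ofReal_mul (by positivity), ← ENNReal.ofReal_add (by positivity) (by positivity)]
    _ ≤ ENNReal.ofReal (4 * K * θ + 6 * n * δ / (e * θ)) := by
        refine ENNReal.ofReal_le_ofReal ?_
        have e1 : (n : ℝ) * (2 * δ / (e * θ) + 2 * δ / (e * θ)) = 4 * n * δ / (e * θ) := by ring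
        rw [e1]
        have : 4 * n * δ / (e * θ) ≤ 6 * n * δ / (e * θ) := by gcongr; norm_num
        linarith

/-- the number of `j2` with `|j2 - j1| < x` is at most `2 x + 1` -/
theorem k7a_bil_close {n2 : ℕ} (j1 : Fin n2) {x : ℝ} (hx : 0 ≤ x) (P : Fin n2 → Prop) [DecidablePred P]
    (hP : ∀ j2, P j2 → |((j2 : ℕ) : ℝ) - (j1 : ℕ)| ≤ x) :
    ((Finset.univ.filter P).card : ℝ) ≤ 2 * x + 1 := by
  have h1 : (Finset.univ.filter P).card ≤ (Finset.Icc ⌈((j1 : ℕ) : ℝ) - x⌉ ⌊((j1 : ℕ) : ℝ) + x⌋).card := by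
    refine Finset.card_le_card_of_injOn (fun j2 : Fin n2 => ((j2 : ℕ) : ℤ)) ?_ ?_
    · intro j2 hj2
      have h := abs_le.1 (hP j2 (Finset.mem_filter.1 hj2).2)
      refine Finset.mem_coe.2 (Finset.mem_Icc.2 ⟨Int.ceil_le.2 ?_, Int.le_floor.2 ?_⟩)
      · push_cast
        linarith [h.1]
      · push_cast
        linarith [h.2]
    · intro a _ b _ hab
      have : ((a : ℕ) : ℤ) = ((b : ℕ) : ℤ) := hab
      exact Fin.ext (by exact_mod_cast this)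
  have h2 : ((Finset.Icc ⌈((j1 : ℕ) : ℝ) - x⌉ ⌊((j1 : ℕ) : ℝ) + x⌋).card : ℝ) ≤ 2 * x + 1 := by
    rw [Int.card_Icc]
    have a1 : (⌊((j1 : ℕ) : ℝ) + x⌋ : ℝ) ≤ ((j1 : ℕ) : ℝ) + x := Int.floor_le _
    have a2 : ((j1 : ℕ) : ℝ) - x ≤ ⌈((j1 : ℕ) : ℝ) - x⌉ := Int.le_ceil _
    by_cases hpos : 0 ≤ ⌊((j1 : ℕ) : ℝ) + x⌋ + 1 - ⌈((j1 : ℕ) : ℝ) - x⌉
    · have e : (((⌊((j1 : ℕ) : ℝ) + x⌋ + 1 - ⌈((j1 : ℕ) : ℝ) - x⌉).toNat : ℕ) : ℝ)
          = ((⌊((j1 : ℕ) : ℝ) + x⌋ + 1 - ⌈((j1 : ℕ) : ℝ) - x⌉ : ℤ) : ℝ) := by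
        have := Int.toNat_of_nonneg hpos
        exact_mod_cast congrArg (fun z : ℤ => (z : ℝ)) this
      rw [e]
      push_cast
      linarith
    · rw [Int.toNat_of_nonpos (not_le.1 hpos).le]
      simp only [Nat.cast_zero]
      positivity
  exact (by exact_mod_cast h1 : ((Finset.univ.filter P).card : ℝ) ≤ _).trans h2

/-- the interpolation estimate at one point -/
theorem k7a_bil_est {K e n2 J J1 J2 a b r1 r2 F F1 F2 : ℝ} (hK : 1 ≤ K) (he : 0 ≤ e) (hn : 0 < n2) (hfar : n2 ≤ 8 * K ^ 3 * |J2 - J1|)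
    (hJ1 : |J2 - J| ≤ n2) (hJ2 : |J - J1| ≤ n2)
    (c0 : |F - (a + b * J)| ≤ e) (c1 : |F1 - (a + b * J1)| ≤ e) (c2 : |F2 - (a + b * J2)| ≤ e) (q1 : |F1 - r1| ≤ e) (q2 : |F2 - r2| ≤ e) :
    |F - ((J2 - J) * r1 + (J - J1) * r2) / (J2 - J1)| ≤ 40 * K ^ 3 * e := by
  have hK3 : 1 ≤ K ^ 3 := one_le_pow₀ hK
  have hΔ : 0 < |J2 - J1| := by
    by_contra hcon
    have : |J2 - J1| = 0 := le_antisymm (not_lt.1 hcon) (abs_nonneg _)
    rw [this] at hfar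
    linarith
  have hΔne : J2 - J1 ≠ 0 := abs_pos.1 hΔ
  have e1 : F - ((J2 - J) * r1 + (J - J1) * r2) / (J2 - J1)
      = (F - (a + b * J)) + ((J2 - J) * ((a + b * J1) - r1) + (J - J1) * ((a + b * J2) - r2)) / (J2 - J1) := by
    field_simp
    ring
  have d1 : |(a + b * J1) - r1| ≤ 2 * e := by
    have : (a + b * J1) - r1 = (F1 - r1) - (F1 - (a + b * J1)) := by ring
    rw [this]
    exact (abs_sub _ _).trans (by linarith)
  have d2 : |(a + b * J2) - r2| ≤ 2 * e := by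
    have : (a + b * J2) - r2 = (F2 - r2) - (F2 - (a + b * J2)) := by ring
    rw [this]
    exact (abs_sub _ _).trans (by linarith)
  have m1 : |(J2 - J) * ((a + b * J1) - r1)| ≤ n2 * (2 * e) := by
    rw [abs_mul]
    exact mul_le_mul hJ1 d1 (abs_nonneg _) hn.le
  have m2 : |(J - J1) * ((a + b * J2) - r2)| ≤ n2 * (2 * e) := by
    rw [abs_mul]
    exact mul_le_mul hJ2 d2 (abs_nonneg _) hn.le
  have m3 : |((J2 - J) * ((a + b * J1) - r1) + (J - J1) * ((a + b * J2) - r2)) / (J2 - J1)| ≤ 32 * K ^ 3 * e := by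
    rw [abs_div, div_le_iff₀ hΔ]
    calc |(J2 - J) * ((a + b * J1) - r1) + (J - J1) * ((a + b * J2) - r2)| ≤ n2 * (2 * e) + n2 * (2 * e) :=
          (abs_add_le _ _).trans (add_le_add m1 m2)
      _ = 4 * e * n2 := by ring
      _ ≤ 4 * e * (8 * K ^ 3 * |J2 - J1|) := mul_le_mul_of_nonneg_left hfar (by positivity)
      _ = 32 * K ^ 3 * e * |J2 - J1| := by ring
  rw [e1]
  calc |(F - (a + b * J)) + ((J2 - J) * ((a + b * J1) - r1) + (J - J1) * ((a + b * J2) - r2)) / (J2 - J1)|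
      ≤ e + 32 * K ^ 3 * e := (abs_add_le _ _).trans (add_le_add c0 m3)
    _ ≤ 40 * K ^ 3 * e := by nlinarith

/-- the counting core: a separated pair of anchor rows which is seen by a dense part of `G` -/
theorem k7a_bil_count {n1 n2 : ℕ} (G : Finset (Fin n1 × Fin n2)) {K : ℝ} (hK : 1 ≤ K) (hn2 : 8 * K ^ 3 ≤ n2)
    (hG : (n1 : ℝ) * n2 ≤ K * G.card) (hpos : 0 < G.card) :
    ∃ j1 j2 : Fin n2, (n2 : ℝ) ≤ 8 * K ^ 3 * |((j2 : ℕ) : ℝ) - (j1 : ℕ)| ∧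
      (G.card : ℝ) ≤ 2 * K ^ 3 * (G.filter (fun x => (x.1, j1) ∈ G ∧ (x.1, j2) ∈ G)).card := by
  classical
  have hK0 : 0 < K := by linarith
  have hK3 : 1 ≤ K ^ 3 := one_le_pow₀ hK
  have hK2 : 1 ≤ K ^ 2 := one_le_pow₀ hK
  have hn2pos : (0 : ℝ) < n2 := lt_of_lt_of_le (by positivity) hn2
  have hGpos : (0 : ℝ) < G.card := by exact_mod_cast hpos
  have hn1pos : (0 : ℝ) < n1 := by
    obtain ⟨x, _⟩ := Finset.card_pos.1 hpos
    have : 0 < n1 := Nat.pos_of_ne_zero fun h => by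
      have y := x.1
      rw [h] at y
      exact y.elim0
    exact_mod_cast this
  set g : Fin n1 → Fin n2 → ℝ := fun i j => if (i, j) ∈ G then 1 else 0 with hg
  have g0 : ∀ i j, 0 ≤ g i j := fun i j => by simp only [hg]; split_ifs <;> norm_num
  have g1 : ∀ i j, g i j ≤ 1 := fun i j => by simp only [hg]; split_ifs <;> norm_num
  set dg : Fin n1 → ℝ := fun i => ∑ j, g i j with hdg
  have dg0 : ∀ i, 0 ≤ dg i := fun i => Finset.sum_nonneg fun j _ => g0 i j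
  have dgle : ∀ i, dg i ≤ n2 := fun i => by
    calc dg i ≤ ∑ _j : Fin n2, (1 : ℝ) := Finset.sum_le_sum fun j _ => g1 i j
      _ = n2 := by simp
  have hcardG : (G.card : ℝ) = ∑ i, dg i := by
    have h1 : (G.card : ℝ) = ∑ x : Fin n1 × Fin n2, if x ∈ G then (1 : ℝ) else 0 := by
      rw [Finset.sum_ite_mem, Finset.univ_inter]
      simp
    rw [h1, Fintype.sum_prod_type]
  set cnt : Fin n2 → Fin n2 → ℝ := fun j1 j2 => ∑ i, g i j1 * g i j2 * dg i with hcntdef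
  have hcnt : ∀ j1 j2, ((G.filter (fun x => (x.1, j1) ∈ G ∧ (x.1, j2) ∈ G)).card : ℝ) = cnt j1 j2 := fun j1 j2 => by
    have h1 : ((G.filter (fun x => (x.1, j1) ∈ G ∧ (x.1, j2) ∈ G)).card : ℝ)
        = ∑ x : Fin n1 × Fin n2, g x.1 j1 * g x.1 j2 * g x.1 x.2 := by
      rw [Finset.card_filter]
      push_cast
      rw [← Finset.sum_filter_add_sum_filter_not Finset.univ (fun x => x ∈ G)]
      have z : ∑ x ∈ Finset.univ.filter (fun x => ¬ x ∈ G), g x.1 j1 * g x.1 j2 * g x.1 x.2 = 0 :=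
        Finset.sum_eq_zero fun x hx => by
          have : g x.1 x.2 = 0 := by simp only [hg]; rw [if_neg (Finset.mem_filter.1 hx).2]
          rw [this, mul_zero]
      rw [z, add_zero, Finset.filter_mem_eq_inter, Finset.univ_inter]
      refine Finset.sum_congr rfl fun x hx => ?_
      have : g x.1 x.2 = 1 := by simp only [hg]; rw [if_pos hx]
      rw [this, mul_one]
      simp only [hg]
      by_cases a : (x.1, j1) ∈ G <;> by_cases b : (x.1, j2) ∈ G <;> simp [a, b]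
    rw [h1, Fintype.sum_prod_type]
    refine Finset.sum_congr rfl fun i _ => ?_
    change ∑ y, g i j1 * g i j2 * g i y = g i j1 * g i j2 * dg i
    rw [← Finset.mul_sum]
  have cnt0 : ∀ j1 j2, 0 ≤ cnt j1 j2 := fun j1 j2 =>
    Finset.sum_nonneg fun i _ => mul_nonneg (mul_nonneg (g0 _ _) (g0 _ _)) (dg0 _)
  by_contra hcon
  push Not at hcon
  simp only [hcnt] at hcon
  set x : ℝ := n2 / (8 * K ^ 3) with hx
  have hx1 : 1 ≤ x := by
    rw [hx, le_div_iff₀ (by positivity)]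
    linarith
  set cl : Fin n2 → Fin n2 → Prop := fun j1 j2 => 8 * K ^ 3 * |((j2 : ℕ) : ℝ) - (j1 : ℕ)| < n2 with hcl
  -- total
  have htotal : ∑ j1, ∑ j2, cnt j1 j2 = ∑ i, dg i ^ 3 := by
    simp only [hcntdef]
    calc ∑ j1, ∑ j2, ∑ i, g i j1 * g i j2 * dg i = ∑ j1, ∑ i, ∑ j2, g i j1 * g i j2 * dg i :=
          Finset.sum_congr rfl fun j1 _ => Finset.sum_comm
      _ = ∑ i, ∑ j1, ∑ j2, g i j1 * g i j2 * dg i := Finset.sum_comm
      _ = ∑ i, dg i ^ 3 := by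
          refine Finset.sum_congr rfl fun i _ => ?_
          have : ∀ j1, ∑ j2, g i j1 * g i j2 * dg i = g i j1 * (dg i * dg i) := fun j1 => by
            rw [← Finset.sum_mul, ← Finset.mul_sum]
            ring
          simp only [this]
          rw [← Finset.sum_mul]
          ring
  have hlow : (G.card : ℝ) ^ 3 / (n1 : ℝ) ^ 2 ≤ ∑ i, dg i ^ 3 := by
    have := pow_sum_div_card_le_sum_pow (s := (Finset.univ : Finset (Fin n1))) (f := dg) (fun i _ => dg0 i) 2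
    rw [Finset.card_univ, Fintype.card_fin, ← hcardG] at this
    exact this
  -- the close pairs
  have hclose : ∑ j1, ∑ j2, (if cl j1 j2 then cnt j1 j2 else 0) ≤ 3 * x * (n2 * G.card) := by
    have hnum : ∀ j1, ∑ j2, (if cl j1 j2 then (1 : ℝ) else 0) ≤ 3 * x := fun j1 => by
      have h1 := k7a_bil_close j1 (x := x) (by linarith) (cl j1) (fun j2 h => by
        have h' : 8 * K ^ 3 * |((j2 : ℕ) : ℝ) - (j1 : ℕ)| < n2 := h
        rw [hx, le_div_iff₀ (by positivity)]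
        linarith)
      rw [Finset.sum_boole]
      linarith
    calc ∑ j1, ∑ j2, (if cl j1 j2 then cnt j1 j2 else 0)
        ≤ ∑ j1, ∑ j2, (if cl j1 j2 then (1 : ℝ) else 0) * ∑ i, g i j1 * dg i := by
          refine Finset.sum_le_sum fun j1 _ => Finset.sum_le_sum fun j2 _ => ?_
          by_cases h : cl j1 j2
          · rw [if_pos h, if_pos h, one_mul]
            refine Finset.sum_le_sum fun i _ => ?_
            have : g i j1 * g i j2 ≤ g i j1 * 1 := mul_le_mul_of_nonneg_left (g1 _ _) (g0 _ _)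
            rw [mul_one] at this
            exact mul_le_mul_of_nonneg_right this (dg0 i)
          · rw [if_neg h, if_neg h, zero_mul]
      _ = ∑ j1, (∑ j2, (if cl j1 j2 then (1 : ℝ) else 0)) * ∑ i, g i j1 * dg i :=
          Finset.sum_congr rfl fun j1 _ => (Finset.sum_mul _ _ _).symm
      _ ≤ ∑ j1, 3 * x * ∑ i, g i j1 * dg i :=
          Finset.sum_le_sum fun j1 _ => mul_le_mul_of_nonneg_right (hnum j1)
            (Finset.sum_nonneg fun i _ => mul_nonneg (g0 _ _) (dg0 _))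
      _ = 3 * x * ∑ i, dg i * dg i := by
          rw [← Finset.mul_sum, Finset.sum_comm]
          congr 1
          exact Finset.sum_congr rfl fun i _ => (Finset.sum_mul _ _ _).symm
      _ ≤ 3 * x * ∑ i, n2 * dg i := by
          refine mul_le_mul_of_nonneg_left ?_ (by positivity)
          exact Finset.sum_le_sum fun i _ => mul_le_mul_of_nonneg_right (dgle i) (dg0 i)
      _ = 3 * x * (n2 * G.card) := by rw [← Finset.mul_sum, ← hcardG]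
  -- the far pairs
  have hall : ∑ j1, ∑ j2, cnt j1 j2 ≤ ∑ j1, ∑ j2, ((if cl j1 j2 then cnt j1 j2 else 0) + G.card / (2 * K ^ 3)) := by
    refine Finset.sum_le_sum fun j1 _ => Finset.sum_le_sum fun j2 _ => ?_
    by_cases h : cl j1 j2
    · rw [if_pos h]
      have : (0 : ℝ) ≤ G.card / (2 * K ^ 3) := by positivity
      linarith
    · rw [if_neg h, zero_add, le_div_iff₀ (by positivity)]
      have := hcon j1 j2 (not_lt.1 h)
      linarith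
  have hsplit : ∑ j1 : Fin n2, ∑ j2 : Fin n2, ((if cl j1 j2 then cnt j1 j2 else 0) + (G.card : ℝ) / (2 * K ^ 3))
      = ∑ j1, ∑ j2, (if cl j1 j2 then cnt j1 j2 else 0) + n2 * (n2 * ((G.card : ℝ) / (2 * K ^ 3))) := by
    simp only [Finset.sum_add_distrib, Finset.sum_const, Finset.card_univ, Fintype.card_fin, nsmul_eq_mul]
  -- conclusion
  have hfin : (G.card : ℝ) ^ 3 / (n1 : ℝ) ^ 2 ≤ 3 * x * (n2 * G.card) + n2 * (n2 * ((G.card : ℝ) / (2 * K ^ 3))) := by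
    calc (G.card : ℝ) ^ 3 / (n1 : ℝ) ^ 2 ≤ ∑ i, dg i ^ 3 := hlow
      _ = ∑ j1, ∑ j2, cnt j1 j2 := htotal.symm
      _ ≤ _ := hall
      _ = _ := hsplit
      _ ≤ _ := by linarith
  have hrhs : 3 * x * (n2 * G.card) + n2 * (n2 * ((G.card : ℝ) / (2 * K ^ 3))) = 7 / 8 * ((n2 : ℝ) ^ 2 * G.card / K ^ 3) := by
    rw [hx]
    field_simp
    ring
  have hlhs : (n2 : ℝ) ^ 2 * G.card / K ^ 2 ≤ (G.card : ℝ) ^ 3 / (n1 : ℝ) ^ 2 := by
    rw [div_le_div_iff₀ (by positivity) (by positivity)]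
    have h1 : ((n1 : ℝ) * n2) ^ 2 ≤ (K * G.card) ^ 2 := pow_le_pow_left₀ (by positivity) hG 2
    nlinarith [mul_le_mul_of_nonneg_left h1 hGpos.le]
  have hcmp : (n2 : ℝ) ^ 2 * G.card / K ^ 3 ≤ (n2 : ℝ) ^ 2 * G.card / K ^ 2 := by
    refine div_le_div_of_nonneg_left (by positivity) (by positivity) ?_
    nlinarith
  have hposq : 0 < (n2 : ℝ) ^ 2 * G.card / K ^ 2 := by positivity
  rw [hrhs] at hfin
  linarith

/-- **L-252-S7w-BIL** (07 l.800-818, with two anchor rows only).  `G` dense in the grid `n₁ × n₂`; `f` agrees to `e` with an affine function of `i` on every row and with an affine function of `j` on every column.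
Then the bilinear interpolant of two separated anchor rows fits `f` to `40 K³ e` on a dense part.
Proof: `Σ_{j₁,j₂} Σ_i 1[(i,j₁),(i,j₂) ∈ G] deg i = Σ_i (deg i)³ ≥ #G³/n₁²`; pairs with `|j₁-j₂| < n₂/(8K³)` contribute at most half. -/
theorem k7a_bilinear {n1 n2 : ℕ} (G : Finset (Fin n1 × Fin n2)) (f : Fin n1 × Fin n2 → ℝ) (ρ0 ρ1 : Fin n2 → ℝ) (κ0 κ1 : Fin n1 → ℝ)
    {K e : ℝ} (hK : 1 ≤ K) (he : 0 ≤ e) (hn2 : 8 * K ^ 3 ≤ n2) (hG : (n1 : ℝ) * n2 ≤ K * G.card)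
    (hrow : ∀ x ∈ G, |f x - (ρ0 x.2 + ρ1 x.2 * (x.1 : ℕ))| ≤ e) (hcol : ∀ x ∈ G, |f x - (κ0 x.1 + κ1 x.1 * (x.2 : ℕ))| ≤ e) :
    ∃ (j1 j2 : Fin n2) (G' : Finset (Fin n1 × Fin n2)), G' ⊆ G ∧ (G.card : ℝ) ≤ 2 * K ^ 3 * G'.card ∧
      (n2 : ℝ) ≤ 8 * K ^ 3 * |((j2 : ℕ) : ℝ) - (j1 : ℕ)| ∧
      ∀ x ∈ G', (x.1, j1) ∈ G ∧ (x.1, j2) ∈ G ∧
        |f x - ((((j2 : ℕ) : ℝ) - (x.2 : ℕ)) * (ρ0 j1 + ρ1 j1 * (x.1 : ℕ)) + (((x.2 : ℕ) : ℝ) - (j1 : ℕ)) * (ρ0 j2 + ρ1 j2 * (x.1 : ℕ)))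
          / (((j2 : ℕ) : ℝ) - (j1 : ℕ))| ≤ 40 * K ^ 3 * e := by
  classical
  have hK3 : 1 ≤ K ^ 3 := one_le_pow₀ hK
  have hn2r : (8 : ℝ) ≤ n2 := by linarith
  have hn2n : 8 ≤ n2 := by exact_mod_cast hn2r
  have hn2pos : (0 : ℝ) < n2 := by linarith
  rcases Nat.eq_zero_or_pos G.card with h0 | hpos
  · refine ⟨⟨0, by omega⟩, ⟨n2 - 1, by omega⟩, ∅, Finset.empty_subset _, ?_, ?_, fun x hx => absurd hx (Finset.notMem_empty x)⟩
    · rw [h0]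
      simp
    · have e1 : (((n2 - 1 : ℕ) : ℕ) : ℝ) = (n2 : ℝ) - 1 := by
        rw [Nat.cast_sub (by omega)]
        simp
      simp only [e1, Nat.cast_zero, sub_zero]
      rw [abs_of_nonneg (by linarith)]
      nlinarith
  · obtain ⟨j1, j2, hfar, hcard⟩ := k7a_bil_count G hK hn2 hG hpos
    refine ⟨j1, j2, G.filter (fun x => (x.1, j1) ∈ G ∧ (x.1, j2) ∈ G), Finset.filter_subset _ _, hcard, hfar, fun x hx => ?_⟩
    obtain ⟨hxG, h1, h2⟩ := Finset.mem_filter.1 hx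
    refine ⟨h1, h2, ?_⟩
    have hdist : ∀ a b : Fin n2, |((a : ℕ) : ℝ) - (b : ℕ)| ≤ n2 := fun a b => by
      have ha : ((a : ℕ) : ℝ) < n2 := by exact_mod_cast a.2
      have hb : ((b : ℕ) : ℝ) < n2 := by exact_mod_cast b.2
      have ha0 : (0 : ℝ) ≤ ((a : ℕ) : ℝ) := Nat.cast_nonneg _
      have hb0 : (0 : ℝ) ≤ ((b : ℕ) : ℝ) := Nat.cast_nonneg _
      exact abs_le.2 ⟨by linarith, by linarith⟩
    exact k7a_bil_est (a := κ0 x.1) (b := κ1 x.1) (F1 := f (x.1, j1)) (F2 := f (x.1, j2)) hK he hn2pos hfar (hdist _ _) (hdist _ _)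
      (hcol x hxG) (hcol _ h1) (hcol _ h2) (hrow _ h1) (hrow _ h2)

/-- **L-252-S7w-MIX** (07 l.820-856).  A bilinear function along a line whose two direction components are `≥ 1/K`, within `e` of an affine function on a time set of measure `≥ 1/K` : the mixed coefficient is `≤ 432 K⁴ e`  (`rmz_one`, degree 2). -/
theorem k7a_mixed {m0 m1 m2 m12 p1 p2 w1 w2 α0 α1 K e : ℝ} (T : Set ℝ) (hK : 1 ≤ K) (hT : T ⊆ Set.Icc 0 1)
    (hvol : ENNReal.ofReal (1 / K) ≤ volume T) (hw1 : 1 / K ≤ |w1|) (hw2 : 1 / K ≤ |w2|)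
    (h : ∀ t ∈ T, |m0 + m1 * (p1 + w1 * t) + m2 * (p2 + w2 * t) + m12 * (p1 + w1 * t) * (p2 + w2 * t) - (α0 + α1 * t)| ≤ e) :
    |m12| ≤ 432 * K ^ 4 * e := by
  have hK0 : 0 < K := by linarith
  set c0 : ℝ := m0 + m1 * p1 + m2 * p2 + m12 * p1 * p2 - α0 with hc0
  set c1 : ℝ := m1 * w1 + m2 * w2 + m12 * (p1 * w2 + p2 * w1) - α1 with hc1
  set c2 : ℝ := m12 * w1 * w2 with hc2
  set p : Polynomial ℝ := Polynomial.C c2 * Polynomial.X ^ 2 + Polynomial.C c1 * Polynomial.X + Polynomial.C c0 with hp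
  have hdeg : p.natDegree ≤ 2 := Polynomial.natDegree_quadratic_le
  have hev : ∀ t, p.eval t = m0 + m1 * (p1 + w1 * t) + m2 * (p2 + w2 * t) + m12 * (p1 + w1 * t) * (p2 + w2 * t) - (α0 + α1 * t) := fun t => by
    simp only [hp, Polynomial.eval_add, Polynomial.eval_mul, Polynomial.eval_C, Polynomial.eval_pow, Polynomial.eval_X, hc0, hc1, hc2]
    ring
  have hr := rmz_one 2 p hdeg (1 / K) e (by positivity) T hT hvol (fun t ht => by rw [hev]; exact h t ht)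
  have hcoef : p.coeff 2 = c2 := by
    simp [hp]
  have h1 : |c2| ≤ 432 * K ^ 2 * e := by
    have h2 := (rmz_coeff_le_N p 2).trans hr
    rw [hcoef] at h2
    have e1 : rmzC 2 (1 / K) = 432 * K ^ 2 := by
      unfold rmzC
      push_cast
      field_simp
      ring
    rwa [e1] at h2
  have hw : 1 / K ^ 2 ≤ |w1| * |w2| := by
    have : 1 / K * (1 / K) ≤ |w1| * |w2| := mul_le_mul hw1 hw2 (by positivity) (abs_nonneg _)
    have e2 : 1 / K ^ 2 = 1 / K * (1 / K) := by field_simp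
    rw [e2]
    exact this
  rw [hc2, abs_mul, abs_mul, mul_assoc] at h1
  have h3 : |m12| * (1 / K ^ 2) ≤ 432 * K ^ 2 * e := (mul_le_mul_of_nonneg_left hw (abs_nonneg _)).trans h1
  have h4 : |m12| = |m12| * (1 / K ^ 2) * K ^ 2 := by field_simp
  rw [h4]
  calc |m12| * (1 / K ^ 2) * K ^ 2 ≤ 432 * K ^ 2 * e * K ^ 2 := mul_le_mul_of_nonneg_right h3 (by positivity)
    _ = 432 * K ^ 4 * e := by ring

/-- **L-252-S7w-DUR** (07 l.836-840): some line has a long retained duration -/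
theorem k7a_duration {L : Type} [MeasurableSpace L] (ν : Measure L) [SFinite ν] (A : Set L) (E : Set (L × ℝ)) (hA : MeasurableSet A)
    (hE : MeasurableSet E) (T : ℝ≥0∞) (h : T * ν A < (ν.prod volume) (E ∩ A ×ˢ Set.univ)) :
    ∃ l ∈ A, T < volume {t | (l, t) ∈ E} := by
  by_contra hcon
  push Not at hcon
  refine absurd h (not_lt.2 ?_)
  rw [Measure.prod_apply (hE.inter (hA.prod MeasurableSet.univ))]
  have e : ∀ l, volume (Prod.mk l ⁻¹' (E ∩ A ×ˢ Set.univ)) = A.indicator (fun l => volume {t | (l, t) ∈ E}) l := fun l => by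
    by_cases hl : l ∈ A
    · rw [Set.indicator_of_mem hl]
      congr 1
      ext t
      simp [hl]
    · rw [Set.indicator_of_notMem hl]
      have : Prod.mk l ⁻¹' (E ∩ A ×ˢ Set.univ) = ∅ := by
        ext t
        simp [hl]
      rw [this, measure_empty]
  simp_rw [e]
  rw [lintegral_indicator hA]
  calc ∫⁻ l in A, volume {t | (l, t) ∈ E} ∂ν ≤ ∫⁻ _ in A, T ∂ν := setLIntegral_mono measurable_const fun l hl => hcon l hl
    _ = T * ν A := setLIntegral_const _ _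

/-- **L-252-S7w-QC**: coefficients of a quadratic bounded on the unit box `[0,1] × [-1,1]` -/
theorem k7a_quad_coeff {F : ℝ → ℝ → ℝ} {A : ℝ} (hF : K7aQuad F) (hA : ∀ t ∈ Set.Icc (0 : ℝ) 1, ∀ u ∈ Set.Icc (-1 : ℝ) 1, |F t u| ≤ A) :
    ∃ e0 e1 e2 e3 e4 e5 : ℝ, (∀ t y, F t y = e0 + e1 * t + e2 * y + e3 * t ^ 2 + e4 * t * y + e5 * y ^ 2) ∧
      |e0| ≤ 8 * A ∧ |e1| ≤ 8 * A ∧ |e2| ≤ 8 * A ∧ |e3| ≤ 8 * A ∧ |e4| ≤ 8 * A ∧ |e5| ≤ 8 * A := by
  obtain ⟨e0, e1, e2, e3, e4, e5, hF⟩ := hF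
  refine ⟨e0, e1, e2, e3, e4, e5, hF, ?_⟩
  have a00 := abs_le.1 (hA 0 (by norm_num) 0 (by norm_num))
  have a01 := abs_le.1 (hA 0 (by norm_num) 1 (by norm_num))
  have a0m := abs_le.1 (hA 0 (by norm_num) (-1) (by norm_num))
  have a10 := abs_le.1 (hA 1 (by norm_num) 0 (by norm_num))
  have ah0 := abs_le.1 (hA (1 / 2) (by norm_num) 0 (by norm_num))
  have a11 := abs_le.1 (hA 1 (by norm_num) 1 (by norm_num))
  have a1m := abs_le.1 (hA 1 (by norm_num) (-1) (by norm_num))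
  rw [hF] at a00 a01 a0m a10 ah0 a11 a1m
  refine ⟨abs_le.2 ⟨?_, ?_⟩, abs_le.2 ⟨?_, ?_⟩, abs_le.2 ⟨?_, ?_⟩, abs_le.2 ⟨?_, ?_⟩, abs_le.2 ⟨?_, ?_⟩, abs_le.2 ⟨?_, ?_⟩⟩ <;>
    linarith [a00.1, a00.2, a01.1, a01.2, a0m.1, a0m.2, a10.1, a10.2, ah0.1, ah0.2, a11.1, a11.2, a1m.1, a1m.2]

/-- **L-252-S7w-QL**: values and variation on the enlargement of ratio `lam ≥ 1` -/
theorem k7a_quad_lip {F : ℝ → ℝ → ℝ} {A lam : ℝ} (hF : K7aQuad F) (hA : ∀ t ∈ Set.Icc (0 : ℝ) 1, ∀ u ∈ Set.Icc (-1 : ℝ) 1, |F t u| ≤ A)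
    (hl : 1 ≤ lam) {t t' u u' : ℝ} (ht : |t| ≤ lam) (ht' : |t'| ≤ lam) (hu : |u| ≤ lam) (hu' : |u'| ≤ lam) :
    |F t u| ≤ 48 * A * lam ^ 2 ∧ |F t u - F t' u'| ≤ 48 * A * lam * (|t - t'| + |u - u'|) := by
  obtain ⟨e0, e1, e2, e3, e4, e5, hFe, b0, b1, b2, b3, b4, b5⟩ := k7a_quad_coeff hF hA
  have hA0 : 0 ≤ A := (abs_nonneg _).trans (hA 0 (by norm_num) 0 (by norm_num))
  have hl0 : 0 < lam := by linarith
  have hll : lam ≤ lam ^ 2 := by nlinarith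
  have h1l : 1 ≤ lam ^ 2 := by nlinarith
  have hmul : ∀ {c x B X : ℝ}, |c| ≤ B → |x| ≤ X → |c * x| ≤ B * X := fun {c x B X} hc hx => by
    rw [abs_mul]
    exact mul_le_mul hc hx (abs_nonneg _) ((abs_nonneg _).trans hc)
  constructor
  · rw [hFe]
    have t1 : |e1 * t| ≤ 8 * A * lam := hmul b1 ht
    have t2 : |e2 * u| ≤ 8 * A * lam := hmul b2 hu
    have t3 : |e3 * t ^ 2| ≤ 8 * A * lam ^ 2 := hmul b3 (by rw [abs_pow]; exact pow_le_pow_left₀ (abs_nonneg _) ht 2)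
    have t4 : |e4 * t * u| ≤ 8 * A * lam ^ 2 := by
      rw [mul_assoc]
      refine hmul b4 ?_
      rw [abs_mul, sq]
      exact mul_le_mul ht hu (abs_nonneg _) hl0.le
    have t5 : |e5 * u ^ 2| ≤ 8 * A * lam ^ 2 := hmul b5 (by rw [abs_pow]; exact pow_le_pow_left₀ (abs_nonneg _) hu 2)
    have s1 : 8 * A * lam ≤ 8 * A * lam ^ 2 := mul_le_mul_of_nonneg_left hll (by positivity)
    have s0 : 8 * A ≤ 8 * A * lam ^ 2 := by nlinarith
    calc |e0 + e1 * t + e2 * u + e3 * t ^ 2 + e4 * t * u + e5 * u ^ 2|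
        ≤ |e0| + |e1 * t| + |e2 * u| + |e3 * t ^ 2| + |e4 * t * u| + |e5 * u ^ 2| := by
          refine (abs_add_le _ _).trans (add_le_add ?_ le_rfl)
          refine (abs_add_le _ _).trans (add_le_add ?_ le_rfl)
          refine (abs_add_le _ _).trans (add_le_add ?_ le_rfl)
          refine (abs_add_le _ _).trans (add_le_add ?_ le_rfl)
          exact abs_add_le _ _
      _ ≤ 48 * A * lam ^ 2 := by linarith
  · rw [hFe, hFe]
    have e : e0 + e1 * t + e2 * u + e3 * t ^ 2 + e4 * t * u + e5 * u ^ 2 - (e0 + e1 * t' + e2 * u' + e3 * t' ^ 2 + e4 * t' * u' + e5 * u' ^ 2)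
        = e1 * (t - t') + e2 * (u - u') + e3 * ((t + t') * (t - t')) + e4 * (u * (t - t')) + e4 * (t' * (u - u')) + e5 * ((u + u') * (u - u')) := by
      ring
    rw [e]
    set dt := |t - t'| with hdt
    set du := |u - u'| with hdu
    have hdt0 : 0 ≤ dt := abs_nonneg _
    have hdu0 : 0 ≤ du := abs_nonneg _
    have hs : ∀ {x y : ℝ}, |x| ≤ lam → |y| ≤ lam → |x + y| ≤ 2 * lam := fun {x y} hx hy => (abs_add_le _ _).trans (by linarith)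
    have hprod : ∀ {x y X : ℝ}, |x| ≤ X → |x * y| ≤ X * |y| := fun {x y X} hx => by
      rw [abs_mul]
      exact mul_le_mul_of_nonneg_right hx (abs_nonneg _)
    have t1 : |e1 * (t - t')| ≤ 8 * A * dt := hprod b1
    have t2 : |e2 * (u - u')| ≤ 8 * A * du := hprod b2
    have t3 : |e3 * ((t + t') * (t - t'))| ≤ 8 * A * (2 * lam * dt) := hmul b3 (hprod (hs ht ht'))
    have t4 : |e4 * (u * (t - t'))| ≤ 8 * A * (lam * dt) := hmul b4 (hprod hu)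
    have t5 : |e4 * (t' * (u - u'))| ≤ 8 * A * (lam * du) := hmul b4 (hprod ht')
    have t6 : |e5 * ((u + u') * (u - u'))| ≤ 8 * A * (2 * lam * du) := hmul b5 (hprod (hs hu hu'))
    have s1 : 8 * A * dt ≤ 8 * A * (lam * dt) := by
      refine mul_le_mul_of_nonneg_left ?_ (by positivity)
      nlinarith
    have s2 : 8 * A * du ≤ 8 * A * (lam * du) := by
      refine mul_le_mul_of_nonneg_left ?_ (by positivity)
      nlinarith
    have s3 : 0 ≤ A * lam * dt := by positivity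
    have s4 : 0 ≤ A * lam * du := by positivity
    calc |e1 * (t - t') + e2 * (u - u') + e3 * ((t + t') * (t - t')) + e4 * (u * (t - t')) + e4 * (t' * (u - u')) + e5 * ((u + u') * (u - u'))|
        ≤ |e1 * (t - t')| + |e2 * (u - u')| + |e3 * ((t + t') * (t - t'))| + |e4 * (u * (t - t'))| + |e4 * (t' * (u - u'))|
          + |e5 * ((u + u') * (u - u'))| := by
          refine (abs_add_le _ _).trans (add_le_add ?_ le_rfl)
          refine (abs_add_le _ _).trans (add_le_add ?_ le_rfl)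
          refine (abs_add_le _ _).trans (add_le_add ?_ le_rfl)
          refine (abs_add_le _ _).trans (add_le_add ?_ le_rfl)
          exact abs_add_le _ _
      _ ≤ 48 * A * lam * (dt + du) := by nlinarith

/-- **L-252-S7w-EXP** (07 l.617-623): room in the exponent of the lists -/
theorem k7a_exp_room {N d u x : ℝ} (hN : 1 ≤ N) (hd0 : 0 ≤ d) (hd : d < 1) (hu : 0 ≤ u) (hx : N ^ (10 / (1 - d) * u) ≤ x) :
    x ^ d * N ^ (d * u) ≤ x ^ ((1 + d) / 2) := by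
  have hN0 : 0 < N := by linarith
  have h1d : 0 < 1 - d := by linarith
  have hx1 : 1 ≤ x := (Real.one_le_rpow hN (by positivity)).trans hx
  have hx0 : 0 < x := by linarith
  have e1 : x ^ ((1 + d) / 2) = x ^ d * x ^ ((1 - d) / 2) := by
    rw [← Real.rpow_add hx0]
    congr 1
    ring
  rw [e1]
  refine mul_le_mul_of_nonneg_left ?_ (Real.rpow_nonneg hx0.le _)
  calc N ^ (d * u) ≤ N ^ (5 * u) := Real.rpow_le_rpow_of_exponent_le hN (by nlinarith)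
    _ = (N ^ (10 / (1 - d) * u)) ^ ((1 - d) / 2) := by
        rw [← Real.rpow_mul hN0.le]
        congr 1
        field_simp
        ring
    _ ≤ x ^ ((1 - d) / 2) := Real.rpow_le_rpow (Real.rpow_nonneg hN0.le _) hx (by positivity)

/-- **L-252-S7w-GRP** (07 l.516-536): a group with `B ≥ (W₁ + W₂)/K²` : total bad mass `≥ 1/K`, total reference budget `≤ K` -/
theorem k7a_group {ι : Type} (S : Finset ι) (B Wt : ι → ℝ≥0∞) {K : ℝ≥0∞} (hK : K ≠ ⊤) (hB : 1 ≤ K * ∑ i ∈ S, B i) (hW : ∑ i ∈ S, Wt i ≤ K) :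
    ∃ i ∈ S, B i ≠ 0 ∧ Wt i ≤ K ^ 2 * B i := by
  classical
  by_contra hcon
  push Not at hcon
  set S' := S.filter (fun i => B i ≠ 0) with hS'
  have hsum : ∑ i ∈ S, B i = ∑ i ∈ S', B i := by
    rw [hS', Finset.sum_filter]
    refine Finset.sum_congr rfl fun i _ => ?_
    by_cases h : B i = 0
    · simp [h]
    · simp [h]
  have hne : S'.Nonempty := by
    by_contra hemp
    rw [Finset.not_nonempty_iff_eq_empty] at hemp
    rw [hsum, hemp] at hB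
    simp at hB
  have hlt : ∑ i ∈ S', K ^ 2 * B i < ∑ i ∈ S', Wt i :=
    ENNReal.sum_lt_sum_of_nonempty hne fun i hi => hcon i (Finset.mem_filter.1 hi).1 (Finset.mem_filter.1 hi).2
  have h1 : ∑ i ∈ S', Wt i ≤ K := (Finset.sum_le_sum_of_subset (Finset.filter_subset _ _)).trans hW
  have h2 : K ≤ ∑ i ∈ S', K ^ 2 * B i := by
    rw [← Finset.mul_sum, ← hsum, sq, mul_assoc]
    calc K = K * 1 := (mul_one K).symm
      _ ≤ K * (K * ∑ i ∈ S, B i) := mul_le_mul' le_rfl hB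
  exact absurd (h2.trans_lt hlt) (not_lt.2 h1)

/-- **L-252-S7w-PAIR** (07 l.700-712, 765-775).  Source and target sampled independently given the same state `st`; conditional velocity domination `K π`.
`Bd b` contains every source point that has a bad partner of velocity bin `b` in its state.  Then the pair mass of the bad relation is `≤ K Σ_b π(b) μ(Bd b)`. -/
theorem k7a_pair_bad {Ω S ι : Type} [MeasurableSpace Ω] [Fintype S] [Fintype ι] (μ : Measure Ω) [IsFiniteMeasure μ] (st : Ω → S) (hst : KsLab st)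
    (vb : Ω → ι) (hvb : KsLab vb) (π : ι → ℝ≥0∞) (K : ℝ≥0∞) (hdom : ∀ s b, μ (st ⁻¹' {s} ∩ vb ⁻¹' {b}) ≤ K * π b * μ (st ⁻¹' {s}))
    (Bad : Set (Ω × Ω)) (hBad : MeasurableSet Bad) (Bd : ι → Set Ω) (hBd : ∀ b, MeasurableSet (Bd b))
    (hsub : ∀ x ∈ Bad, st x.1 = st x.2 → x.1 ∈ Bd (vb x.2)) :
    ∑ s, (μ (st ⁻¹' {s}))⁻¹ * (μ.prod μ) (Bad ∩ (st ⁻¹' {s}) ×ˢ (st ⁻¹' {s})) ≤ K * ∑ b, π b * μ (Bd b) := by
  have hs : ∀ s, (μ (st ⁻¹' {s}))⁻¹ * (μ.prod μ) (Bad ∩ (st ⁻¹' {s}) ×ˢ (st ⁻¹' {s})) ≤ ∑ b, K * π b * μ (Bd b ∩ st ⁻¹' {s}) := fun s => by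
    have hsub' : Bad ∩ (st ⁻¹' {s}) ×ˢ (st ⁻¹' {s}) ⊆ ⋃ b, (Bd b ∩ st ⁻¹' {s}) ×ˢ (st ⁻¹' {s} ∩ vb ⁻¹' {b}) := by
      rintro x ⟨hx, h1, h2⟩
      have h1' : st x.1 = s := h1
      have h2' : st x.2 = s := h2
      exact Set.mem_iUnion.2 ⟨vb x.2, ⟨hsub x hx (h1'.trans h2'.symm), h1⟩, h2, rfl⟩
    calc (μ (st ⁻¹' {s}))⁻¹ * (μ.prod μ) (Bad ∩ (st ⁻¹' {s}) ×ˢ (st ⁻¹' {s}))
        ≤ (μ (st ⁻¹' {s}))⁻¹ * ∑ b, (μ.prod μ) ((Bd b ∩ st ⁻¹' {s}) ×ˢ (st ⁻¹' {s} ∩ vb ⁻¹' {b})) :=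
          mul_le_mul' le_rfl ((measure_mono hsub').trans (measure_iUnion_fintype_le _ _))
      _ ≤ (μ (st ⁻¹' {s}))⁻¹ * ∑ b, μ (Bd b ∩ st ⁻¹' {s}) * (K * π b * μ (st ⁻¹' {s})) := by
          refine mul_le_mul' le_rfl (Finset.sum_le_sum fun b _ => ?_)
          rw [Measure.prod_prod]
          exact mul_le_mul' le_rfl (hdom s b)
      _ = ∑ b, K * π b * μ (Bd b ∩ st ⁻¹' {s}) * ((μ (st ⁻¹' {s}))⁻¹ * μ (st ⁻¹' {s})) := by
          rw [Finset.mul_sum]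
          exact Finset.sum_congr rfl fun b _ => by ring
      _ ≤ ∑ b, K * π b * μ (Bd b ∩ st ⁻¹' {s}) * 1 :=
          Finset.sum_le_sum fun b _ => mul_le_mul' le_rfl (ENNReal.inv_mul_le_one _)
      _ = ∑ b, K * π b * μ (Bd b ∩ st ⁻¹' {s}) := by simp
  calc ∑ s, (μ (st ⁻¹' {s}))⁻¹ * (μ.prod μ) (Bad ∩ (st ⁻¹' {s}) ×ˢ (st ⁻¹' {s}))
      ≤ ∑ s, ∑ b, K * π b * μ (Bd b ∩ st ⁻¹' {s}) := Finset.sum_le_sum fun s _ => hs s
    _ = ∑ b, K * π b * ∑ s, μ (Bd b ∩ st ⁻¹' {s}) := by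
        rw [Finset.sum_comm]
        exact Finset.sum_congr rfl fun b _ => (Finset.mul_sum _ _ _).symm
    _ = K * ∑ b, π b * μ (Bd b) := by
        rw [Finset.mul_sum]
        exact Finset.sum_congr rfl fun b _ => by rw [ks_sum_inter μ hst, mul_assoc]

/-- **L-252-S7w-REP** (07 l.777-780): a deterministic representative in each state -/
theorem k7a_state_rep {Ω S : Type} [MeasurableSpace Ω] [Fintype S] [Nonempty Ω] (μ : Measure Ω) [IsFiniteMeasure μ] (st : Ω → S) (hst : KsLab st)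
    (Bad : Set (Ω × Ω)) (hBad : MeasurableSet Bad) :
    ∃ rep : S → Ω, μ {x | (x, rep (st x)) ∈ Bad} ≤ ∑ s, (μ (st ⁻¹' {s}))⁻¹ * (μ.prod μ) (Bad ∩ (st ⁻¹' {s}) ×ˢ (st ⁻¹' {s})) := by
  have hex : ∀ s, ∃ y : Ω, μ ({x | (x, y) ∈ Bad} ∩ st ⁻¹' {s}) ≤ (μ (st ⁻¹' {s}))⁻¹ * (μ.prod μ) (Bad ∩ (st ⁻¹' {s}) ×ˢ (st ⁻¹' {s})) := fun s => by
    by_cases h0 : μ (st ⁻¹' {s}) = 0
    · refine ⟨Classical.arbitrary Ω, ?_⟩
      rw [measure_mono_null Set.inter_subset_right h0]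
      exact zero_le
    · have hm : MeasurableSet (Bad ∩ (st ⁻¹' {s}) ×ˢ (st ⁻¹' {s})) := hBad.inter ((hst s).prod (hst s))
      have hfm : Measurable fun y => μ ((fun x => (x, y)) ⁻¹' (Bad ∩ (st ⁻¹' {s}) ×ˢ (st ⁻¹' {s}))) := measurable_measure_prodMk_right hm
      obtain ⟨y, hy, hle⟩ := exists_le_setLAverage (μ := μ) (s := st ⁻¹' {s}) h0 (measure_ne_top _ _) hfm.aemeasurable
      refine ⟨y, ?_⟩
      have e1 : (fun x => (x, y)) ⁻¹' (Bad ∩ (st ⁻¹' {s}) ×ˢ (st ⁻¹' {s})) = {x | (x, y) ∈ Bad} ∩ st ⁻¹' {s} := by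
        ext x
        have hy' : st y = s := hy
        simp [hy']
      rw [e1, setLAverage_eq] at hle
      refine hle.trans ?_
      rw [ENNReal.div_eq_inv_mul]
      refine mul_le_mul' le_rfl ?_
      rw [Measure.prod_apply_symm hm]
      exact setLIntegral_le_lintegral _ _
  choose rep hrep using hex
  refine ⟨rep, ?_⟩
  rw [← ks_sum_inter μ hst {x | (x, rep (st x)) ∈ Bad}]
  refine Finset.sum_le_sum fun s _ => ?_
  have e2 : {x | (x, rep (st x)) ∈ Bad} ∩ st ⁻¹' {s} = {x | (x, rep s) ∈ Bad} ∩ st ⁻¹' {s} := by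
    ext x
    constructor
    · rintro ⟨h1, h2⟩
      have h2' : st x = s := h2
      refine ⟨?_, h2⟩
      change (x, rep s) ∈ Bad
      rw [← h2']
      exact h1
    · rintro ⟨h1, h2⟩
      have h2' : st x = s := h2
      refine ⟨?_, h2⟩
      change (x, rep (st x)) ∈ Bad
      rw [h2']
      exact h1
  rw [e2]
  exact hrep s

/-- dyadic rounding upwards -/
theorem k7a_dy_ge {x : ℝ} (hx : 0 < x) : x ≤ kbDy x := by
  unfold kbDy
  rw [← Real.rpow_intCast]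
  calc x = (2 : ℝ) ^ Real.logb 2 x := (Real.rpow_logb (by norm_num) (by norm_num) hx).symm
    _ ≤ (2 : ℝ) ^ ((⌈Real.logb 2 x⌉ : ℤ) : ℝ) := Real.rpow_le_rpow_of_exponent_le (by norm_num) (Int.le_ceil _)

/-- **L-252-S7w-CELLS** (07 l.322-331): the joint caps summed over base cells, with an offset depending on the cell, and over velocity bins -/
theorem k7a_joint_cells (W : K7aLn) {N K d S M r κ : ℝ} {Ms Ws : Finset ℝ} (hW : W.Ok N K d S Ms Ws) (hN : 1 < N) (hK : 1 ≤ K) (hM : M ∈ Ms) (hr : r ∈ Ws)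
    (hκ : 0 ≤ κ) (Cs : Finset (ℤ × ℤ × ℤ)) (f : ℤ × ℤ × ℤ → ℝ) (V : Finset ℤ) :
    W.lam0 {z | ((W.pt (N ^ (-M)) (N ^ (-r)) z).1, (W.pt (N ^ (-M)) (N ^ (-r)) z).2.1, (W.pt (N ^ (-M)) (N ^ (-r)) z).2.2.1) ∈ Cs ∧
        |W.X z.1 z.2 - f ((W.pt (N ^ (-M)) (N ^ (-r)) z).1, (W.pt (N ^ (-M)) (N ^ (-r)) z).2.1, (W.pt (N ^ (-M)) (N ^ (-r)) z).2.2.1)| ≤ κ * N ^ (-r) ∧
        W.vbin z.1 ∈ V}
      ≤ ENNReal.ofReal (K * (2 * κ + 3) * (N ^ (-r)) ^ d * (N ^ (-M)) ^ 3) * Cs.card * ∑ b ∈ V, W.pi b := by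
  have hN0 : 0 < N := by linarith
  set σ : ℝ := N ^ (-M) with hσ
  set p : ℝ := N ^ (-r) with hp
  have hσ0 : 0 < σ := Real.rpow_pos_of_pos hN0 _
  have hp0 : 0 < p := Real.rpow_pos_of_pos hN0 _
  set p' : ℝ := kbDy p with hp'
  have hpp' : p ≤ p' := k7a_dy_ge hp0
  have hp'0 : 0 < p' := hp0.trans_le hpp'
  set cap : ℝ≥0∞ := ENNReal.ofReal (K * p ^ d * σ ^ 3) with hcap
  set bins : ℤ × ℤ × ℤ → Finset ℤ := fun c => Finset.Icc ⌊(f c - κ * p) / p'⌋ ⌊(f c + κ * p) / p'⌋ with hbins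
  have hcard : ∀ c, ((bins c).card : ℝ≥0∞) ≤ ENNReal.ofReal (2 * κ + 3) := fun c => by
    have h1 : (⌊(f c + κ * p) / p'⌋ : ℝ) ≤ (f c + κ * p) / p' := Int.floor_le _
    have h2 : (f c - κ * p) / p' < ⌊(f c - κ * p) / p'⌋ + 1 := Int.lt_floor_add_one _
    have h3 : (f c + κ * p) / p' - (f c - κ * p) / p' = 2 * κ * (p / p') := by ring
    have h4 : p / p' ≤ 1 := (div_le_one hp'0).2 hpp'
    have h5 : 2 * κ * (p / p') ≤ 2 * κ := by nlinarith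
    have h6 : ((bins c).card : ℝ) ≤ 2 * κ + 3 := by
      simp only [hbins, Int.card_Icc]
      by_cases hpos : 0 ≤ ⌊(f c + κ * p) / p'⌋ + 1 - ⌊(f c - κ * p) / p'⌋
      · have : (((⌊(f c + κ * p) / p'⌋ + 1 - ⌊(f c - κ * p) / p'⌋).toNat : ℤ) : ℝ) = ((⌊(f c + κ * p) / p'⌋ + 1 - ⌊(f c - κ * p) / p'⌋ : ℤ) : ℝ) := by
          rw [Int.toNat_of_nonneg hpos]
        have e : (((⌊(f c + κ * p) / p'⌋ + 1 - ⌊(f c - κ * p) / p'⌋).toNat : ℕ) : ℝ)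
            = (((⌊(f c + κ * p) / p'⌋ + 1 - ⌊(f c - κ * p) / p'⌋).toNat : ℤ) : ℝ) := by push_cast; rfl
        rw [e, this]
        push_cast
        linarith
      · rw [Int.toNat_of_nonpos (not_le.1 hpos).le]
        simp only [Nat.cast_zero]
        positivity
    rw [← ENNReal.ofReal_natCast]
    exact ENNReal.ofReal_le_ofReal h6
  have hsub : {z | ((W.pt σ p z).1, (W.pt σ p z).2.1, (W.pt σ p z).2.2.1) ∈ Cs ∧
        |W.X z.1 z.2 - f ((W.pt σ p z).1, (W.pt σ p z).2.1, (W.pt σ p z).2.2.1)| ≤ κ * p ∧ W.vbin z.1 ∈ V}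
      ⊆ ⋃ c ∈ Cs, ⋃ m ∈ bins c, ⋃ b ∈ V, {z | W.pt σ p z = (c.1, c.2.1, c.2.2, m) ∧ W.vbin z.1 = b} := by
    rintro z ⟨hc, hX, hV⟩
    have h2 := abs_le.1 hX
    simp only [Set.mem_iUnion]
    refine ⟨_, hc, (W.pt σ p z).2.2.2, ?_, W.vbin z.1, hV, rfl, rfl⟩
    refine Finset.mem_Icc.2 ⟨Int.floor_le_floor ?_, Int.floor_le_floor ?_⟩
    · exact div_le_div_of_nonneg_right (by linarith) hp'0.le
    · exact div_le_div_of_nonneg_right (by linarith) hp'0.le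
  calc W.lam0 _ ≤ W.lam0 (⋃ c ∈ Cs, ⋃ m ∈ bins c, ⋃ b ∈ V, {z | W.pt σ p z = (c.1, c.2.1, c.2.2, m) ∧ W.vbin z.1 = b}) := measure_mono hsub
    _ ≤ ∑ c ∈ Cs, ∑ m ∈ bins c, ∑ b ∈ V, W.lam0 {z | W.pt σ p z = (c.1, c.2.1, c.2.2, m) ∧ W.vbin z.1 = b} := by
        refine (measure_biUnion_finset_le _ _).trans (Finset.sum_le_sum fun c _ => ?_)
        refine (measure_biUnion_finset_le _ _).trans (Finset.sum_le_sum fun m _ => ?_)
        exact measure_biUnion_finset_le _ _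
    _ ≤ ∑ c ∈ Cs, ∑ m ∈ bins c, ∑ b ∈ V, cap * W.pi b :=
        Finset.sum_le_sum fun c _ => Finset.sum_le_sum fun m _ => Finset.sum_le_sum fun b _ => hW.joint M hM r hr _ b
    _ = ∑ c ∈ Cs, ((bins c).card : ℝ≥0∞) * (cap * ∑ b ∈ V, W.pi b) := by
        refine Finset.sum_congr rfl fun c _ => ?_
        rw [Finset.sum_const, nsmul_eq_mul, ← Finset.mul_sum]
    _ ≤ ∑ _c ∈ Cs, ENNReal.ofReal (2 * κ + 3) * (cap * ∑ b ∈ V, W.pi b) :=
        Finset.sum_le_sum fun c _ => mul_le_mul' (hcard c) le_rfl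
    _ = ENNReal.ofReal (K * (2 * κ + 3) * p ^ d * σ ^ 3) * Cs.card * ∑ b ∈ V, W.pi b := by
        rw [Finset.sum_const, nsmul_eq_mul]
        have e : K * (2 * κ + 3) * p ^ d * σ ^ 3 = (2 * κ + 3) * (K * p ^ d * σ ^ 3) := by ring
        rw [e, ENNReal.ofReal_mul (by positivity)]
        ring

/-! ## Top -/

/-! TOP: `k7w_P73 : k7a_T71a → k7a_Match → k7a_P73` is in `S7a/WideTopContract.lean` (helper89: five stages + proved glue). -/

end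

end Claimed.Agent.R252

/-!
# ROW 252 (S0492), unit S7w, post BP-252-S7w-CAP (helper85; chief helper89): **THE SHARED CORES OF P7.3**: BAND caps on moving boxes, SLICE budgets, PRUNE to witness floors.      PAPER-FREE (`S7a/WideDefs`, `S7a/WideContract`).

Every `sorry` is a LEAF `L-252-S7wc-*` (name in the docstring).  Statements frozen (tell helper85 if one looks false or inconvenient); prove IN PLACE, helper lemmas directly above, prefix `k7wc_`.  Explicit slack `K`, explicit constants.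
Conventions: `σ = N^{-M}`, `p = N^{-r}`; ALL bins are the dyadic bins `kbBin wd x = ⌊x / kbDy wd⌋`, `wd ≤ kbDy wd < 2 wd`.   `lam0 = prior.restrict Ev0`, `Ev0 ⊆ Sp × [0,1]`.
* s0 dyadic bins, the palette of a coarse bin, `lam0`.
* s1 BAND: `k7wc_cells_var` (offset = ANY function of the incidence which varies by `≤ p` on the cells), `k7wc_box_count` (cells meeting a moving box), `k7wc_band`, `k7wc_sdom_box`, `k7wc_band_dom` (box of a comparison domain).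
* s2 SLICE / PRUNE: entries `(φ, D)`, `D = W.sdom ρ γ m`; reference weight `P.cT`, witness mass `P.cWit`; `k7wc_slice`, `k7wc_prune`, `k7wc_sel`.     Packing of disjoint witnesses: `k7b_packing` (S7b/CoreB).
-/

set_option autoImplicit false

namespace Claimed.Agent.R252

open MeasureTheory
open scoped ENNReal BigOperators

noncomputable section

/-! ## 0. Dyadic bins, palette, prepared law -/

/-- **L-252-S7wc-D** (the next three statements, ~150 l.) -/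
theorem k7wc_dy {x : ℝ} (hx : 0 < x) : 0 < kbDy x ∧ x ≤ kbDy x ∧ kbDy x < 2 * x := by
  refine ⟨by unfold kbDy; positivity, k7a_dy_ge hx, ?_⟩
  unfold kbDy
  rw [← Real.rpow_intCast]
  calc (2 : ℝ) ^ ((⌈Real.logb 2 x⌉ : ℤ) : ℝ) < (2 : ℝ) ^ (Real.logb 2 x + 1) :=
        Real.rpow_lt_rpow_of_exponent_lt (by norm_num) (Int.ceil_lt_add_one _)
    _ = 2 * x := by
        rw [Real.rpow_add (by norm_num), Real.rpow_logb (by norm_num) (by norm_num) hx, Real.rpow_one, mul_comm]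

theorem k7wc_dy_pos (x : ℝ) : 0 < kbDy x := by
  unfold kbDy
  positivity

theorem k7wc_bin_iff (χ x : ℝ) (m : ℤ) : kbBin χ x = m ↔ x ∈ k7aBinI χ m := by
  have hD := k7wc_dy_pos χ
  unfold kbBin k7aBinI
  rw [Int.floor_eq_iff, Set.mem_Ico, le_div_iff₀ hD, div_lt_iff₀ hD]

theorem k7wc_meas_binI (χ : ℝ) (m : ℤ) : MeasurableSet (k7aBinI χ m) := measurableSet_Ico

/-- nested dyadic meshes -/
theorem k7wc_dy_nest {χ0 χ : ℝ} (h0 : 0 < χ0) (hχ : χ0 ≤ χ) : ∃ n : ℕ, kbDy χ = 2 ^ n * kbDy χ0 := by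
  have hle : ⌈Real.logb 2 χ0⌉ ≤ ⌈Real.logb 2 χ⌉ := Int.ceil_le_ceil (Real.logb_le_logb_of_le (by norm_num) h0 hχ)
  refine ⟨(⌈Real.logb 2 χ⌉ - ⌈Real.logb 2 χ0⌉).toNat, ?_⟩
  unfold kbDy
  rw [← zpow_natCast, Int.toNat_of_nonneg (by omega), ← zpow_add₀ (by norm_num)]
  congr 1
  ring

/-- the finest velocity bins inside a coarser bin: `kbDy χ = 2^n kbDy χ0`, `V = Ico (m 2^n) ((m+1) 2^n)`; the bins `k7aBinI χ0 b`, `b ∈ V`, are disjoint measurable subsets of `k7aBinI χ m` (`measure_biUnion_finset`) -/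
theorem k7wc_pal_sum (W : K7aLn) {χ : ℝ} (h0 : 0 < W.χ0) (hχ : W.χ0 ≤ χ) (m : ℤ) :
    ∃ V : Finset ℤ, (∀ x, kbBin χ x = m → kbBin W.χ0 x ∈ V) ∧ ∑ b ∈ V, W.pi b ≤ W.palχ χ m := by
  obtain ⟨n, hn⟩ := k7wc_dy_nest h0 hχ
  have hD0 := k7wc_dy_pos W.χ0
  refine ⟨Finset.Ico (m * 2 ^ n) ((m + 1) * 2 ^ n), fun x hx => ?_, ?_⟩
  · rw [k7wc_bin_iff] at hx
    unfold k7aBinI at hx
    rw [hn] at hx
    obtain ⟨h1, h2⟩ := hx
    rw [Finset.mem_Ico]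
    unfold kbBin
    constructor
    · rw [Int.le_floor, le_div_iff₀ hD0]
      push_cast
      linarith
    · rw [Int.floor_lt, div_lt_iff₀ hD0]
      push_cast
      linarith
  · have hdisj : Set.PairwiseDisjoint (↑(Finset.Ico (m * 2 ^ n) ((m + 1) * 2 ^ n)) : Set ℤ) (fun b => k7aBinI W.χ0 b) := by
      intro b _ b' _ hbb
      refine Set.disjoint_left.2 fun x hx hx' => hbb ?_
      rw [← k7wc_bin_iff] at hx hx'
      rw [← hx, ← hx']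
    have hsum : ∑ b ∈ Finset.Ico (m * 2 ^ n) ((m + 1) * 2 ^ n), W.pi b = W.pal (⋃ b ∈ Finset.Ico (m * 2 ^ n) ((m + 1) * 2 ^ n), k7aBinI W.χ0 b) :=
      (measure_biUnion_finset hdisj fun b _ => k7wc_meas_binI _ _).symm
    rw [hsum]
    refine measure_mono ?_
    intro x hx
    simp only [Set.mem_iUnion] at hx
    obtain ⟨b, hb, hx⟩ := hx
    rw [Finset.mem_Ico] at hb
    unfold k7aBinI at hx ⊢
    rw [hn]
    obtain ⟨h1, h2⟩ := hx
    have hb1 : ((m : ℝ) * 2 ^ n) ≤ b := by exact_mod_cast hb.1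
    have hb2 : (b : ℝ) + 1 ≤ ((m : ℝ) + 1) * 2 ^ n := by exact_mod_cast hb.2
    constructor
    · have := mul_le_mul_of_nonneg_right hb1 hD0.le
      linarith
    · have := mul_le_mul_of_nonneg_right hb2 hD0.le
      linarith

/-- **L-252-S7wc-L** (the next four statements, ~150 l.) -/
theorem k7wc_lam0_apply (W : K7aLn) {N K d S : ℝ} {Ms Ws : Finset ℝ} (hW : W.Ok N K d S Ms Ws) (A : Set (W.L × ℝ)) :
    W.lam0 A = W.prior (A ∩ W.Ev0) := by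
  unfold K7aLn.lam0 K7aLn.law
  exact Measure.restrict_apply' hW.m_Ev0

theorem k7wc_lam0_univ (W : K7aLn) {N K d S : ℝ} {Ms Ws : Finset ℝ} (hW : W.Ok N K d S Ms Ws) : W.lam0 Set.univ ≤ 1 := by
  rw [k7wc_lam0_apply W hW]
  refine (measure_mono (Set.subset_univ _)).trans ?_
  have := hW.prob
  have : SFinite k7aTm := by unfold k7aTm; infer_instance
  unfold K7aLn.prior
  rw [← Set.univ_prod_univ, Measure.prod_prod, measure_univ, one_mul]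
  unfold k7aTm
  rw [Measure.restrict_apply MeasurableSet.univ, Set.univ_inter, Real.volume_Icc]
  norm_num

/-- a set which does not meet `Ev0` is null -/
theorem k7wc_lam0_null (W : K7aLn) {N K d S : ℝ} {Ms Ws : Finset ℝ} (hW : W.Ok N K d S Ms Ws) {A : Set (W.L × ℝ)} (hA : ∀ z ∈ A, z ∉ W.Ev0) :
    W.lam0 A = 0 := by
  rw [k7wc_lam0_apply W hW]
  have : A ∩ W.Ev0 = ∅ := by
    ext z
    exact ⟨fun hz => hA z hz.1 hz.2, fun hz => hz.elim⟩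
  rw [this, measure_empty]

/-- a selection survives a small loss.  `prior E ≤ prior (E ∩ Kp) + lam0 Kpᶜ`; `Ke · lam0 Kpᶜ ≤ 1/2`. -/
theorem k7wc_sel (W : K7aLn) {N K d S : ℝ} {Ms Ws : Finset ℝ} (hW : W.Ok N K d S Ms Ws) {E Kp : Set (W.L × ℝ)} {Ke K1 Cb : ℝ} (hE : E ⊆ W.Ev0)
    (hKp : MeasurableSet Kp) (hCb : 0 < Cb) (hmass : 1 ≤ ENNReal.ofReal Ke * W.prior E)
    (hloss : ENNReal.ofReal K1 * W.lam0 Kpᶜ ≤ ENNReal.ofReal Cb) (hnum : 2 * Ke * Cb ≤ K1) :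
    1 ≤ ENNReal.ofReal (2 * Ke) * W.prior (E ∩ Kp) := by
  have hKe : 0 < Ke := by
    by_contra hne
    rw [ENNReal.ofReal_of_nonpos (not_lt.1 hne), zero_mul] at hmass
    exact absurd hmass (by norm_num)
  have hsplit : W.prior E ≤ W.prior (E ∩ Kp) + W.lam0 Kpᶜ := by
    rw [k7wc_lam0_apply W hW]
    calc W.prior E ≤ W.prior ((E ∩ Kp) ∪ (Kpᶜ ∩ W.Ev0)) := measure_mono fun z hz => by
          by_cases hk : z ∈ Kp
          · exact Or.inl ⟨hz, hk⟩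
          · exact Or.inr ⟨hk, hE hz⟩
      _ ≤ _ := measure_union_le _ _
  have hCb' : ENNReal.ofReal Cb ≠ 0 := by
    rw [Ne, ENNReal.ofReal_eq_zero, not_le]
    exact hCb
  have hsmall : ENNReal.ofReal (2 * Ke) * W.lam0 Kpᶜ ≤ 1 := by
    have h1 : ENNReal.ofReal Cb * (ENNReal.ofReal (2 * Ke) * W.lam0 Kpᶜ) ≤ ENNReal.ofReal Cb * 1 := by
      rw [mul_one, ← mul_assoc, ← ENNReal.ofReal_mul hCb.le]
      refine le_trans (mul_le_mul_left (ENNReal.ofReal_le_ofReal ?_) _) hloss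
      linarith
    exact (ENNReal.mul_le_mul_iff_right hCb' ENNReal.ofReal_ne_top).1 h1
  have h2 : (1 : ℝ≥0∞) + 1 ≤ ENNReal.ofReal (2 * Ke) * W.prior (E ∩ Kp) + 1 := by
    calc (1 : ℝ≥0∞) + 1 = 2 * 1 := by norm_num
      _ ≤ 2 * (ENNReal.ofReal Ke * W.prior E) := by gcongr
      _ = ENNReal.ofReal (2 * Ke) * W.prior E := by
          rw [ENNReal.ofReal_mul (by norm_num), ← mul_assoc]
          norm_num
      _ ≤ ENNReal.ofReal (2 * Ke) * (W.prior (E ∩ Kp) + W.lam0 Kpᶜ) := by gcongr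
      _ = ENNReal.ofReal (2 * Ke) * W.prior (E ∩ Kp) + ENNReal.ofReal (2 * Ke) * W.lam0 Kpᶜ := mul_add _ _ _
      _ ≤ _ := by gcongr
  exact ENNReal.le_of_add_le_add_right ENNReal.one_ne_top h2

/-! ## 1. BAND -/

/-- the base cell of an incidence at the mesh `σ` -/
def K7aLn.bc (W : K7aLn) (σ : ℝ) (z : W.L × ℝ) : ℤ × ℤ × ℤ := (kbBin σ z.2, kbBin σ (W.Z z.1 z.2), kbBin σ (W.Y z.1 z.2))

/-- **L-252-S7wc-V** (~100 l.).  `k7a_joint_cells` with `κ + 1` and `f c := G z_c`, `z_c ∈ Rg` any incidence of the region in the cell `c` (`Classical.choice`, `0` if there is none).   `W.bc σ z` is DEFINITIONALLY the triple of `k7a_joint_cells`. -/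
theorem k7wc_cells_var (W : K7aLn) {N K d S M r κ : ℝ} {Ms Ws : Finset ℝ} (hW : W.Ok N K d S Ms Ws) (hN : 1 < N) (hK : 1 ≤ K) (hM : M ∈ Ms) (hr : r ∈ Ws)
    (hκ : 0 ≤ κ) (Rg : Set (W.L × ℝ)) (Cs : Finset (ℤ × ℤ × ℤ)) (G : W.L × ℝ → ℝ) (V : Finset ℤ)
    (hCs : ∀ z ∈ Rg, W.bc (N ^ (-M)) z ∈ Cs) (hV : ∀ z ∈ Rg, W.vbin z.1 ∈ V)
    (hG : ∀ z ∈ Rg, ∀ z' ∈ Rg, W.bc (N ^ (-M)) z = W.bc (N ^ (-M)) z' → |G z - G z'| ≤ N ^ (-r)) :
    W.lam0 (Rg ∩ {z | |W.X z.1 z.2 - G z| ≤ κ * N ^ (-r)})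
      ≤ ENNReal.ofReal (K * (2 * κ + 5) * (N ^ (-r)) ^ d * (N ^ (-M)) ^ 3) * Cs.card * ∑ b ∈ V, W.pi b := by
  classical
  obtain ⟨f, hf⟩ : ∃ f : ℤ × ℤ × ℤ → ℝ, ∀ z ∈ Rg, |G z - f (W.bc (N ^ (-M)) z)| ≤ N ^ (-r) := by
    refine ⟨fun c => if hc : ∃ z ∈ Rg, W.bc (N ^ (-M)) z = c then G hc.choose else 0, fun z hz => ?_⟩
    have hc : ∃ z' ∈ Rg, W.bc (N ^ (-M)) z' = W.bc (N ^ (-M)) z := ⟨z, hz, rfl⟩
    simp only [dif_pos hc]
    exact hG z hz _ hc.choose_spec.1 hc.choose_spec.2.symm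
  have h1 := k7a_joint_cells W hW hN hK hM hr (by linarith : 0 ≤ κ + 1) Cs f V
  have e : K * (2 * (κ + 1) + 3) * (N ^ (-r)) ^ d * (N ^ (-M)) ^ 3 = K * (2 * κ + 5) * (N ^ (-r)) ^ d * (N ^ (-M)) ^ 3 := by ring
  rw [e] at h1
  refine le_trans (measure_mono ?_) h1
  rintro z ⟨hz, hzX⟩
  refine ⟨hCs z hz, ?_, hV z hz⟩
  have h2 : |W.X z.1 z.2 - G z| ≤ κ * N ^ (-r) := hzX
  have h3 := hf z hz
  have h4 : W.X z.1 z.2 - f (W.bc (N ^ (-M)) z) = (W.X z.1 z.2 - G z) + (G z - f (W.bc (N ^ (-M)) z)) := by ring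
  show |W.X z.1 z.2 - f (W.bc (N ^ (-M)) z)| ≤ (κ + 1) * N ^ (-r)
  rw [h4]
  refine (abs_add_le _ _).trans ?_
  linarith

/-- **L-252-S7wc-N** (~250 l.).  The cells meeting a moving box.  `σ' = kbDy σ ∈ [σ, 2σ)`.   `i = ⌊t/σ'⌋ ∈ Icc ⌊t0/σ'⌋ ⌊(t0+ρ)/σ'⌋` : `≤ ρ/σ' + 2 ≤ 3ρ/σ'` values;  for fixed `i` : `|v0 t - v0 i σ'| ≤ |v0| σ'`, so
`⌊Z/σ'⌋` lies in an `Icc` with `≤ (2 mz + 2|v0|σ')/σ' + 2 ≤ 4 mz/σ'` elements; the same for `Y`.   `Cs = (Icc ..).biUnion fun i => {i} ×ˢ Icc .. ×ˢ Icc ..` (`Finset.card_biUnion_le`, `Int.card_Icc`). -/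
theorem k7wc_card_Icc {a b : ℝ} (h : a ≤ b) : ((Finset.Icc ⌊a⌋ ⌊b⌋).card : ℝ) ≤ b - a + 2 := by
  rw [Int.card_Icc]
  have h1 : ⌊a⌋ ≤ ⌊b⌋ := Int.floor_le_floor h
  have h2 : (((⌊b⌋ + 1 - ⌊a⌋).toNat : ℤ) : ℝ) = (⌊b⌋ : ℝ) + 1 - ⌊a⌋ := by
    rw [Int.toNat_of_nonneg (by omega)]
    push_cast
    ring
  have h3 : (((⌊b⌋ + 1 - ⌊a⌋).toNat : ℕ) : ℝ) = (((⌊b⌋ + 1 - ⌊a⌋).toNat : ℤ) : ℝ) := by push_cast; rfl
  rw [h3, h2]
  linarith [Int.floor_le b, Int.lt_floor_add_one a]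

/-- a value within `m` of a centre which moves by at most `e` : the bin lies in a window around the frozen centre -/
theorem k7wc_bin_window {D c m x : ℝ} (hD : 0 < D) (hx : |x - c| ≤ m) : ⌊x / D⌋ ∈ Finset.Icc ⌊(c - m) / D⌋ ⌊(c + m) / D⌋ := by
  rw [abs_le] at hx
  rw [Finset.mem_Icc]
  exact ⟨Int.floor_le_floor (div_le_div_of_nonneg_right (by linarith) hD.le), Int.floor_le_floor (div_le_div_of_nonneg_right (by linarith) hD.le)⟩

theorem k7wc_box_count {σ ρ mz mw t0 z0 v0 yc sc : ℝ} (hσ : 0 < σ) (hρ : 2 * σ ≤ ρ) (hz : 2 * (|v0| + 1) * σ ≤ mz) (hw : 2 * (|sc| + 1) * σ ≤ mw) :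
    ∃ Cs : Finset (ℤ × ℤ × ℤ), (∀ t Z Y : ℝ, t ∈ Set.Ico t0 (t0 + ρ) → |Z - (z0 + v0 * t)| ≤ mz → |Y - (yc + sc * (t - t0))| ≤ mw →
        (kbBin σ t, kbBin σ Z, kbBin σ Y) ∈ Cs) ∧ (Cs.card : ℝ) * σ ^ 3 ≤ 48 * (ρ * mz * mw) := by
  classical
  obtain ⟨hD, hσD, hD2⟩ := k7wc_dy hσ
  set D : ℝ := kbDy σ with hDdef
  have hρ0 : 0 < ρ := by linarith
  have hv0 : 0 ≤ |v0| := abs_nonneg _
  have hs0 : 0 ≤ |sc| := abs_nonneg _
  have hzD : (|v0| + 1) * D ≤ mz := by nlinarith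
  have hwD : (|sc| + 1) * D ≤ mw := by nlinarith
  obtain ⟨I, hI⟩ : ∃ I : Finset ℤ, I = Finset.Icc ⌊t0 / D⌋ ⌊(t0 + ρ) / D⌋ := ⟨_, rfl⟩
  obtain ⟨JZ, hJZ⟩ : ∃ JZ : ℤ → Finset ℤ, JZ = fun i : ℤ => Finset.Icc ⌊((z0 + v0 * ((i : ℝ) * D)) - (mz + |v0| * D)) / D⌋ ⌊((z0 + v0 * ((i : ℝ) * D)) + (mz + |v0| * D)) / D⌋ := ⟨_, rfl⟩
  obtain ⟨JY, hJY⟩ : ∃ JY : ℤ → Finset ℤ, JY = fun i : ℤ => Finset.Icc ⌊((yc + sc * ((i : ℝ) * D - t0)) - (mw + |sc| * D)) / D⌋ ⌊((yc + sc * ((i : ℝ) * D - t0)) + (mw + |sc| * D)) / D⌋ := ⟨_, rfl⟩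
  have hIc : (I.card : ℝ) ≤ 3 * (ρ / D) := by
    rw [hI]
    refine (k7wc_card_Icc (div_le_div_of_nonneg_right (by linarith) hD.le)).trans ?_
    have h1 : (t0 + ρ) / D - t0 / D = ρ / D := by ring
    have h2 : 1 ≤ ρ / D := by rw [le_div_iff₀ hD]; linarith
    linarith
  have hJZc : ∀ i, ((JZ i).card : ℝ) ≤ 4 * (mz / D) := fun i => by
    rw [hJZ]
    refine (k7wc_card_Icc (div_le_div_of_nonneg_right (by nlinarith) hD.le)).trans ?_
    have h1 : ((z0 + v0 * (i * D)) + (mz + |v0| * D)) / D - ((z0 + v0 * (i * D)) - (mz + |v0| * D)) / D = 2 * (mz / D) + 2 * |v0| := by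
      field_simp
      ring
    have h2 : |v0| + 1 ≤ mz / D := by rw [le_div_iff₀ hD]; exact hzD
    rw [h1]
    linarith
  have hJYc : ∀ i, ((JY i).card : ℝ) ≤ 4 * (mw / D) := fun i => by
    rw [hJY]
    refine (k7wc_card_Icc (div_le_div_of_nonneg_right (by nlinarith) hD.le)).trans ?_
    have h1 : ((yc + sc * (i * D - t0)) + (mw + |sc| * D)) / D - ((yc + sc * (i * D - t0)) - (mw + |sc| * D)) / D = 2 * (mw / D) + 2 * |sc| := by
      field_simp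
      ring
    have h2 : |sc| + 1 ≤ mw / D := by rw [le_div_iff₀ hD]; exact hwD
    rw [h1]
    linarith
  refine ⟨I.biUnion fun i => ({i} : Finset ℤ) ×ˢ (JZ i ×ˢ JY i), fun t Z Y ht hZ hY => ?_, ?_⟩
  · have hfl : ((kbBin σ t : ℤ) : ℝ) * D ≤ t ∧ t < ((kbBin σ t : ℤ) + 1 : ℝ) * D := (k7wc_bin_iff σ t _).1 rfl
    have hdt : |t - (kbBin σ t : ℝ) * D| ≤ D := by
      rw [abs_le]
      constructor <;> nlinarith [hfl.1, hfl.2]
    rw [Finset.mem_biUnion]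
    refine ⟨kbBin σ t, ?_, ?_⟩
    · rw [hI, Finset.mem_Icc]
      exact ⟨Int.floor_le_floor (div_le_div_of_nonneg_right ht.1 hD.le), Int.floor_le_floor (div_le_div_of_nonneg_right ht.2.le hD.le)⟩
    · rw [Finset.mem_product, Finset.mem_product]
      refine ⟨Finset.mem_singleton.2 rfl, ?_, ?_⟩
      · rw [hJZ]
        refine k7wc_bin_window hD ?_
        have e : Z - (z0 + v0 * ((kbBin σ t : ℝ) * D)) = (Z - (z0 + v0 * t)) + v0 * (t - (kbBin σ t : ℝ) * D) := by ring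
        rw [e]
        refine (abs_add_le _ _).trans (add_le_add hZ ?_)
        rw [abs_mul]
        exact mul_le_mul_of_nonneg_left hdt hv0
      · rw [hJY]
        refine k7wc_bin_window hD ?_
        have e : Y - (yc + sc * ((kbBin σ t : ℝ) * D - t0)) = (Y - (yc + sc * (t - t0))) + sc * (t - (kbBin σ t : ℝ) * D) := by ring
        rw [e]
        refine (abs_add_le _ _).trans (add_le_add hY ?_)
        rw [abs_mul]
        exact mul_le_mul_of_nonneg_left hdt hs0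
  · have hmz0 : 0 ≤ mz / D := by
      have : 0 ≤ mz := by nlinarith
      positivity
    have hmw0 : 0 ≤ mw / D := by
      have : 0 ≤ mw := by nlinarith
      positivity
    have hcard : (((I.biUnion fun i => ({i} : Finset ℤ) ×ˢ (JZ i ×ˢ JY i)).card : ℕ) : ℝ) ≤ 3 * (ρ / D) * (4 * (mz / D) * (4 * (mw / D))) := by
      calc (((I.biUnion fun i => ({i} : Finset ℤ) ×ˢ (JZ i ×ˢ JY i)).card : ℕ) : ℝ)
          ≤ ((∑ i ∈ I, (({i} : Finset ℤ) ×ˢ (JZ i ×ˢ JY i)).card : ℕ) : ℝ) := by exact_mod_cast Finset.card_biUnion_le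
        _ = ∑ i ∈ I, ((JZ i).card : ℝ) * ((JY i).card : ℝ) := by
            push_cast
            refine Finset.sum_congr rfl fun i _ => ?_
            rw [Finset.card_product, Finset.card_product, Finset.card_singleton]
            push_cast
            ring
        _ ≤ ∑ _i ∈ I, 4 * (mz / D) * (4 * (mw / D)) :=
            Finset.sum_le_sum fun i _ => mul_le_mul (hJZc i) (hJYc i) (Nat.cast_nonneg _) (by positivity)
        _ = (I.card : ℝ) * (4 * (mz / D) * (4 * (mw / D))) := by rw [Finset.sum_const, nsmul_eq_mul]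
        _ ≤ _ := mul_le_mul_of_nonneg_right hIc (by positivity)
    have hσ3 : σ ^ 3 ≤ D ^ 3 := pow_le_pow_left₀ hσ.le hσD 3
    calc (((I.biUnion fun i => ({i} : Finset ℤ) ×ˢ (JZ i ×ˢ JY i)).card : ℕ) : ℝ) * σ ^ 3
        ≤ 3 * (ρ / D) * (4 * (mz / D) * (4 * (mw / D))) * D ^ 3 := mul_le_mul hcard hσ3 (by positivity) (by positivity)
      _ = 48 * (ρ * mz * mw) := by
          field_simp
          ring

/-- **L-252-S7wc-B** (~250 l.).  **BAND.**   `Rg` = the incidences of `Ev0` in the group `(mv, zz)` and in the moving `(t,Y)`-box.  If `Rg = ∅` the left side is `0` (`k7wc_lam0_null`).  Otherwise a line of `Sp` has `v ∈ k7aBinI χ mv`, so `|mv χ'| ≤ K + 2`, `χ' = kbDy χ`.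
For `z ∈ Rg` : `0 ≤ Z(t) - (zz χ' + mv χ' t) < 2 χ' < 4 χ` (`t ∈ [0,1]`).   `k7wc_box_count` (`z0 = zz χ'`, `v0 = mv χ'`, `mz = 4χ`), `k7wc_pal_sum`, `k7wc_cells_var` (`G z = F (base z)`; two points of one cell differ by `< kbDy σ < 2σ` in each coordinate). -/
theorem k7wc_bin_close {σ x x' : ℝ} (hσ : 0 < σ) (h : kbBin σ x = kbBin σ x') : |x - x'| ≤ 2 * σ := by
  obtain ⟨hD, -, hD2⟩ := k7wc_dy hσ
  have h1 : x ∈ k7aBinI σ (kbBin σ x) := (k7wc_bin_iff σ x _).1 rfl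
  have h2 : x' ∈ k7aBinI σ (kbBin σ x) := (k7wc_bin_iff σ x' _).1 h.symm
  unfold k7aBinI at h1 h2
  obtain ⟨a1, a2⟩ := h1
  obtain ⟨b1, b2⟩ := h2
  rw [abs_le]
  constructor <;> linarith

theorem k7wc_band (W : K7aLn) {N K d S M r κ χ ρ mw t0 yc sc : ℝ} {Ms Ws : Finset ℝ} (hW : W.Ok N K d S Ms Ws) (hN : 1 < N) (hK : 1 ≤ K)
    (hM : M ∈ Ms) (hr : r ∈ Ws) (hκ : 0 ≤ κ) (hχ0 : W.χ0 ≤ χ) (hχ1 : χ ≤ 1) (hρ : 2 * N ^ (-M) ≤ ρ) (hχ : 2 * K * N ^ (-M) ≤ χ)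
    (hw : 2 * (|sc| + 1) * N ^ (-M) ≤ mw) (mv zz : ℤ) (F : ℝ → ℝ → ℝ → ℝ)
    (hF : ∀ t Z Y t' Z' Y' : ℝ, t ∈ Set.Ico t0 (t0 + ρ) → t' ∈ Set.Ico t0 (t0 + ρ) → t ∈ Set.Icc (0 : ℝ) 1 → t' ∈ Set.Icc (0 : ℝ) 1 →
      |Z - (zz * kbDy χ + mv * kbDy χ * t)| ≤ 4 * χ → |Z' - (zz * kbDy χ + mv * kbDy χ * t')| ≤ 4 * χ →
      |Y - (yc + sc * (t - t0))| ≤ mw → |Y' - (yc + sc * (t' - t0))| ≤ mw →
      |t - t'| ≤ 2 * N ^ (-M) → |Z - Z'| ≤ 2 * N ^ (-M) → |Y - Y'| ≤ 2 * N ^ (-M) → |F t Z Y - F t' Z' Y'| ≤ N ^ (-r)) :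
    W.lam0 {z | kbBin χ (W.v z.1) = mv ∧ kbBin χ (W.Z0 z.1) = zz ∧ z.2 ∈ Set.Ico t0 (t0 + ρ) ∧ |W.Y z.1 z.2 - (yc + sc * (z.2 - t0))| ≤ mw ∧
        |W.X z.1 z.2 - F z.2 (W.Z z.1 z.2) (W.Y z.1 z.2)| ≤ κ * N ^ (-r)}
      ≤ ENNReal.ofReal (192 * K * (2 * κ + 5) * (N ^ (-r)) ^ d * (χ * ρ * mw)) * W.palχ χ mv := by
  have hN0 : 0 < N := by linarith
  set σ : ℝ := N ^ (-M) with hσdef
  set p : ℝ := N ^ (-r) with hpdef
  have hσ : 0 < σ := Real.rpow_pos_of_pos hN0 _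
  have hp : 0 < p := Real.rpow_pos_of_pos hN0 _
  have hχpos : 0 < χ := lt_of_lt_of_le hW.χ0_pos hχ0
  obtain ⟨hD, hχD, hD2⟩ := k7wc_dy hχpos
  set D : ℝ := kbDy χ with hDdef
  obtain ⟨Rg, hRg⟩ : ∃ Rg : Set (W.L × ℝ), Rg = {z | z ∈ W.Ev0 ∧ kbBin χ (W.v z.1) = mv ∧ kbBin χ (W.Z0 z.1) = zz ∧ z.2 ∈ Set.Ico t0 (t0 + ρ) ∧
      |W.Y z.1 z.2 - (yc + sc * (z.2 - t0))| ≤ mw} := ⟨_, rfl⟩
  by_cases hne : Rg.Nonempty
  · obtain ⟨zs, hzs⟩ := hne
    rw [hRg] at hzs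
    have hv0 : |(mv : ℝ) * D| ≤ K + 2 := by
      have h1 := (hW.bd zs.1 (hW.Ev0_sub hzs.1).1).2.1
      have h2 : W.v zs.1 ∈ k7aBinI χ mv := (k7wc_bin_iff _ _ _).1 hzs.2.1
      unfold k7aBinI at h2
      rw [← hDdef] at h2
      obtain ⟨a1, a2⟩ := h2
      rw [abs_le] at h1 ⊢
      constructor <;> nlinarith [h1.1, h1.2]
    have hgeo : ∀ z ∈ Rg, z.2 ∈ Set.Icc (0 : ℝ) 1 ∧ |W.Z z.1 z.2 - ((zz : ℝ) * D + (mv : ℝ) * D * z.2)| ≤ 4 * χ := fun z hz => by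
      rw [hRg] at hz
      have ht := (hW.Ev0_sub hz.1).2
      refine ⟨ht, ?_⟩
      have h2 : W.v z.1 ∈ k7aBinI χ mv := (k7wc_bin_iff _ _ _).1 hz.2.1
      have h3 : W.Z0 z.1 ∈ k7aBinI χ zz := (k7wc_bin_iff _ _ _).1 hz.2.2.1
      unfold k7aBinI at h2 h3
      rw [← hDdef] at h2 h3
      obtain ⟨a1, a2⟩ := h2
      obtain ⟨b1, b2⟩ := h3
      obtain ⟨t1, t2⟩ := ht
      have e : W.Z z.1 z.2 - ((zz : ℝ) * D + (mv : ℝ) * D * z.2) = (W.Z0 z.1 - zz * D) + (W.v z.1 - mv * D) * z.2 := by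
        unfold K7aLn.Z
        ring
      have c1 : 0 ≤ (W.v z.1 - mv * D) * z.2 := mul_nonneg (by linarith) t1
      have c2 : (W.v z.1 - mv * D) * z.2 ≤ D * 1 := mul_le_mul (by linarith) t2 t1 hD.le
      rw [e, abs_le]
      constructor <;> linarith
    obtain ⟨Cs, hCs, hCsc⟩ := k7wc_box_count (σ := σ) (ρ := ρ) (mz := 4 * χ) (mw := mw) (t0 := t0) (z0 := (zz : ℝ) * D) (v0 := (mv : ℝ) * D) (yc := yc) (sc := sc)
      hσ hρ (by nlinarith) hw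
    obtain ⟨V, hV, hVs⟩ := k7wc_pal_sum W hW.χ0_pos hχ0 mv
    have hcv := k7wc_cells_var W hW hN hK hM hr hκ Rg Cs (fun z => F z.2 (W.Z z.1 z.2) (W.Y z.1 z.2)) V
      (fun z hz => by
        have h1 := hgeo z hz
        rw [hRg] at hz
        exact hCs z.2 (W.Z z.1 z.2) (W.Y z.1 z.2) hz.2.2.2.1 h1.2 hz.2.2.2.2)
      (fun z hz => by
        rw [hRg] at hz
        exact hV _ hz.2.1)
      (fun z hz z' hz' hbc => by
        have h1 := hgeo z hz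
        have h1' := hgeo z' hz'
        rw [hRg] at hz hz'
        have e1 : kbBin σ z.2 = kbBin σ z'.2 := congrArg Prod.fst hbc
        have e2 : kbBin σ (W.Z z.1 z.2) = kbBin σ (W.Z z'.1 z'.2) := congrArg (fun c => c.2.1) hbc
        have e3 : kbBin σ (W.Y z.1 z.2) = kbBin σ (W.Y z'.1 z'.2) := congrArg (fun c => c.2.2) hbc
        exact hF _ _ _ _ _ _ hz.2.2.2.1 hz'.2.2.2.1 h1.1 h1'.1 h1.2 h1'.2 hz.2.2.2.2 hz'.2.2.2.2 (k7wc_bin_close hσ e1) (k7wc_bin_close hσ e2) (k7wc_bin_close hσ e3))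
    have hsub : W.lam0 {z | kbBin χ (W.v z.1) = mv ∧ kbBin χ (W.Z0 z.1) = zz ∧ z.2 ∈ Set.Ico t0 (t0 + ρ) ∧ |W.Y z.1 z.2 - (yc + sc * (z.2 - t0))| ≤ mw ∧
        |W.X z.1 z.2 - F z.2 (W.Z z.1 z.2) (W.Y z.1 z.2)| ≤ κ * p}
        ≤ W.lam0 (Rg ∩ {z | |W.X z.1 z.2 - F z.2 (W.Z z.1 z.2) (W.Y z.1 z.2)| ≤ κ * p}) := by
      rw [k7wc_lam0_apply W hW, k7wc_lam0_apply W hW]
      refine measure_mono ?_
      rintro z ⟨⟨a1, a2, a3, a4, a5⟩, hE⟩
      refine ⟨⟨?_, a5⟩, hE⟩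
      rw [hRg]
      exact ⟨hE, a1, a2, a3, a4⟩
    refine hsub.trans (hcv.trans ?_)
    have hc0 : 0 ≤ K * (2 * κ + 5) * p ^ d := by positivity
    calc ENNReal.ofReal (K * (2 * κ + 5) * p ^ d * σ ^ 3) * (Cs.card : ℝ≥0∞) * ∑ b ∈ V, W.pi b
        = ENNReal.ofReal (K * (2 * κ + 5) * p ^ d * ((Cs.card : ℝ) * σ ^ 3)) * ∑ b ∈ V, W.pi b := by
          rw [← ENNReal.ofReal_natCast, ← ENNReal.ofReal_mul (by positivity)]
          congr 2
          ring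
      _ ≤ ENNReal.ofReal (192 * K * (2 * κ + 5) * p ^ d * (χ * ρ * mw)) * W.palχ χ mv := by
          refine mul_le_mul' (ENNReal.ofReal_le_ofReal ?_) hVs
          have := mul_le_mul_of_nonneg_left hCsc hc0
          calc K * (2 * κ + 5) * p ^ d * ((Cs.card : ℝ) * σ ^ 3) ≤ K * (2 * κ + 5) * p ^ d * (48 * (ρ * (4 * χ) * mw)) := this
            _ = _ := by ring
  · rw [k7wc_lam0_null W hW]
    · exact zero_le
    · rintro z ⟨a1, a2, a3, a4, -⟩ hE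
      refine hne ⟨z, ?_⟩
      rw [hRg]
      exact ⟨hE, a1, a2, a3, a4⟩

/-- **L-252-S7wc-G** (the next two statements, ~150 l.).  The box of a comparison domain: `Y(t) = Y(kρ) + Y1 (t - kρ)`, `Y(kρ) ∈ [yb m, yb m + m)`, `Y1 ∈ [sb γ, sb γ + γ)`. -/
theorem k7wc_sdom_box (W : K7aLn) {ρ γ m : ℝ} (hρ : 0 < ρ) (hγ : 0 < γ) (hm : 0 < m) (z : W.L × ℝ) (k sb yb : ℤ) (h : W.sdom ρ γ m z = (k, sb, yb)) :
    z.2 ∈ Set.Ico ((k : ℝ) * ρ) (k * ρ + ρ) ∧ W.Y1 z.1 ∈ Set.Ico ((sb : ℝ) * γ) (sb * γ + γ) ∧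
      ∀ t ∈ Set.Icc ((k : ℝ) * ρ) (k * ρ + ρ), 0 ≤ W.Y z.1 t - (yb * m + sb * γ * (t - k * ρ)) ∧ W.Y z.1 t - (yb * m + sb * γ * (t - k * ρ)) ≤ m + γ * ρ := by
  have h1 : ⌊z.2 / ρ⌋ = k := congrArg Prod.fst h
  have h2 : ⌊W.Y1 z.1 / γ⌋ = sb := congrArg (fun c => c.2.1) h
  have h3 : ⌊W.Y z.1 (⌊z.2 / ρ⌋ * ρ) / m⌋ = yb := congrArg (fun c => c.2.2) h
  rw [h1] at h3
  rw [Int.floor_eq_iff, le_div_iff₀ hρ, div_lt_iff₀ hρ] at h1
  rw [Int.floor_eq_iff, le_div_iff₀ hγ, div_lt_iff₀ hγ] at h2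
  rw [Int.floor_eq_iff, le_div_iff₀ hm, div_lt_iff₀ hm] at h3
  refine ⟨⟨h1.1, by linarith [h1.2]⟩, ⟨h2.1, by linarith [h2.2]⟩, fun t ht => ?_⟩
  have e : W.Y z.1 t - (yb * m + sb * γ * (t - k * ρ)) = (W.Y z.1 (k * ρ) - yb * m) + (W.Y1 z.1 - sb * γ) * (t - k * ρ) := by
    unfold K7aLn.Y
    ring
  have c1 : 0 ≤ (W.Y1 z.1 - sb * γ) * (t - k * ρ) := mul_nonneg (by linarith [h2.1]) (by linarith [ht.1])
  have c2 : (W.Y1 z.1 - sb * γ) * (t - k * ρ) ≤ γ * ρ := mul_le_mul (by linarith [h2.2]) (by linarith [ht.2]) (by linarith [ht.1]) hγ.le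
  rw [e]
  constructor <;> linarith [h3.1, h3.2]

/-- the comparison domain is a measurable label -/
theorem k7wc_meas_sdom (W : K7aLn) {N K d S : ℝ} {Ms Ws : Finset ℝ} (hW : W.Ok N K d S Ms Ws) (ρ γ m : ℝ) : Measurable (W.sdom ρ γ m) := by
  obtain ⟨-, -, hY0, hY1, -, -, -⟩ := hW.m_co
  have hk : Measurable fun z : W.L × ℝ => ⌊z.2 / ρ⌋ := (measurable_snd.div_const ρ).floor
  have hkr : Measurable fun z : W.L × ℝ => ((⌊z.2 / ρ⌋ : ℤ) : ℝ) := (measurable_from_top (f := fun n : ℤ => (n : ℝ))).comp hk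
  have hs : Measurable fun z : W.L × ℝ => ⌊W.Y1 z.1 / γ⌋ := ((hY1.comp measurable_fst).div_const γ).floor
  have hy : Measurable fun z : W.L × ℝ => ⌊W.Y z.1 (⌊z.2 / ρ⌋ * ρ) / m⌋ := by
    unfold K7aLn.Y
    exact (((hY0.comp measurable_fst).add ((hY1.comp measurable_fst).mul (hkr.mul_const ρ))).div_const m).floor
  exact hk.prodMk (hs.prodMk hy)

/-- **L-252-S7wc-BD** (~150 l.).  BAND over the box of a comparison domain `D = (k, sb, yb)` : `k7wc_band` with `t0 = k ρ`, `yc = yb m`, `sc = sb γ`, `mw = m + γ ρ` (`k7wc_sdom_box`).   If no incidence of `Ev0` lies in the event: `k7wc_lam0_null`; otherwise `|sb γ| ≤ K + γ`. -/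
theorem k7wc_band_dom (W : K7aLn) {N K d S M r κ χ ρ γ m : ℝ} {Ms Ws : Finset ℝ} (hW : W.Ok N K d S Ms Ws) (hN : 1 < N) (hK : 1 ≤ K)
    (hM : M ∈ Ms) (hr : r ∈ Ws) (hκ : 0 ≤ κ) (hχ0 : W.χ0 ≤ χ) (hχ1 : χ ≤ 1) (hρ : 2 * N ^ (-M) ≤ ρ) (hχ : 2 * K * N ^ (-M) ≤ χ) (hγ : 0 < γ)
    (hw : 2 * (K + γ + 1) * N ^ (-M) ≤ m) (mv zz k sb yb : ℤ) (F : ℝ → ℝ → ℝ → ℝ)
    (hF : ∀ t Z Y t' Z' Y' : ℝ, t ∈ Set.Ico ((k : ℝ) * ρ) (k * ρ + ρ) → t' ∈ Set.Ico ((k : ℝ) * ρ) (k * ρ + ρ) → t ∈ Set.Icc (0 : ℝ) 1 → t' ∈ Set.Icc (0 : ℝ) 1 →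
      |Z - (zz * kbDy χ + mv * kbDy χ * t)| ≤ 4 * χ → |Z' - (zz * kbDy χ + mv * kbDy χ * t')| ≤ 4 * χ →
      |Y - (yb * m + sb * γ * (t - k * ρ))| ≤ m + γ * ρ → |Y' - (yb * m + sb * γ * (t' - k * ρ))| ≤ m + γ * ρ →
      |t - t'| ≤ 2 * N ^ (-M) → |Z - Z'| ≤ 2 * N ^ (-M) → |Y - Y'| ≤ 2 * N ^ (-M) → |F t Z Y - F t' Z' Y'| ≤ N ^ (-r)) :
    W.lam0 {z | kbBin χ (W.v z.1) = mv ∧ kbBin χ (W.Z0 z.1) = zz ∧ W.sdom ρ γ m z = (k, sb, yb) ∧
        |W.X z.1 z.2 - F z.2 (W.Z z.1 z.2) (W.Y z.1 z.2)| ≤ κ * N ^ (-r)}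
      ≤ ENNReal.ofReal (192 * K * (2 * κ + 5) * (N ^ (-r)) ^ d * (χ * ρ * (m + γ * ρ))) * W.palχ χ mv := by
  have hN0 : 0 < N := by linarith
  have hσ : 0 < N ^ (-M) := Real.rpow_pos_of_pos hN0 _
  have hρ0 : 0 < ρ := by linarith
  have hm0 : 0 < m := by
    have : 0 < 2 * (K + γ + 1) * N ^ (-M) := by positivity
    linarith
  by_cases hne : ∃ z ∈ W.Ev0, W.sdom ρ γ m z = (k, sb, yb)
  · obtain ⟨zs, hzs, hzd⟩ := hne
    have hsb : |(sb : ℝ) * γ| ≤ K + γ := by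
      have h1 := (hW.bd zs.1 (hW.Ev0_sub hzs).1).2.2.2.1
      obtain ⟨a1, a2⟩ := (k7wc_sdom_box W hρ0 hγ hm0 zs k sb yb hzd).2.1
      rw [abs_le] at h1 ⊢
      constructor <;> linarith [h1.1, h1.2]
    have hw' : 2 * (|(sb : ℝ) * γ| + 1) * N ^ (-M) ≤ m + γ * ρ := by
      have h1 : 2 * (|(sb : ℝ) * γ| + 1) * N ^ (-M) ≤ 2 * (K + γ + 1) * N ^ (-M) := mul_le_mul_of_nonneg_right (by linarith) hσ.le
      have h2 : 0 ≤ γ * ρ := by positivity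
      linarith
    refine le_trans (measure_mono ?_) (k7wc_band W hW hN hK hM hr hκ hχ0 hχ1 hρ hχ hw' mv zz F hF)
    rintro z ⟨a1, a2, a3, a4⟩
    obtain ⟨b1, -, b3⟩ := k7wc_sdom_box W hρ0 hγ hm0 z k sb yb a3
    refine ⟨a1, a2, b1, ?_, a4⟩
    obtain ⟨c1, c2⟩ := b3 z.2 ⟨b1.1, b1.2.le⟩
    rw [abs_le]
    constructor <;> nlinarith
  · rw [k7wc_lam0_null W hW]
    · exact zero_le
    · rintro z ⟨-, -, a3, -⟩ hE
      exact hne ⟨z, hE, a3⟩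

/-! ## 2. SLICE and PRUNE -/

namespace K7aLayer

variable {W : K7aLn} (P : K7aLayer W)

/-- reference weight `ρ m w_φ th^d` of an entry `(φ, D)`, `w_φ = χ π([v]_χ)` -/
def cT (χ th d ρ m : ℝ) (φ : P.Ph) : ℝ≥0∞ := ENNReal.ofReal (ρ * m * (χ * th ^ d)) * W.palχ χ (P.vi φ)

/-- witness mass of an entry -/
def cWit (ρ γ m : ℝ) (φ : P.Ph) (D : ℤ × ℤ × ℤ) : ℝ≥0∞ := W.lam0 {z | P.lab z.1 = some φ ∧ W.sdom ρ γ m z = D}

end K7aLayer

theorem k7wc_defs_cite : True := by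
  have := @K7aLn.bc.eq_1; have := @K7aLayer.cT.eq_1; have := @K7aLayer.cWit.eq_1
  trivial

/-- **L-252-S7wc-S** (~350 l.).  **SLICE budget.**   For `lab l = φ` : `|Y_l(t) - cen(t)| ≤ K β` on `[0,1]`, hence `|Y1 - c1| ≤ 2 K β`.   The domains of the incidences `(l,t) ∈ Ev0` (`t ∈ [0,1]`) : `k = ⌊t/ρ⌋ ∈ Icc 0 ⌊1/ρ⌋` (`≤ 2/ρ` values, `k ρ ∈ [0,1]`),
`⌊Y1/γ⌋ ∈ Icc ⌊(c1 - 2Kβ)/γ⌋ ⌊(c1 + 2Kβ)/γ⌋` (`≤ 4Kβ/γ + 2 ≤ 6 K Kg`), `⌊Y(kρ)/m⌋ ∈ Icc ⌊(cen(kρ) - Kβ)/m⌋ ⌊(cen(kρ) + Kβ)/m⌋` (`≤ 2Kβ/m + 2 ≤ 4Kβ/m`): at most `48 K² Kg β/(ρ m)` domains per `φ`.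
`Ent = univ.biUnion fun φ => {φ} ×ˢ Dom φ`.   `∑_Ent cT ≤ 48 K² Kg ∑_φ ofReal (χ th^d β) palχ χ (vi φ) ≤ 48 K³ Kg ∑_φ lam0 {lab = φ} ≤ 48 K³ Kg` (`floor`; the sets `{lab = φ}` are disjoint and measurable; `k7wc_lam0_univ`). -/
theorem k7wc_dom_count {K β ρ γ m Kg : ℝ} (c0 c1 : ℝ) (hK : 1 ≤ K) (hρ0 : 0 < ρ) (hρ1 : ρ ≤ 1) (hγ : 0 < γ) (hm : 0 < m) (hmβ : m ≤ β) (hKg : 1 ≤ Kg)
    (hβγ : β ≤ Kg * γ) :
    ∃ Dm : Finset (ℤ × ℤ × ℤ), (∀ t Y0 Y1 : ℝ, t ∈ Set.Icc (0 : ℝ) 1 → (∀ s ∈ Set.Icc (0 : ℝ) 1, |Y0 + Y1 * s - (c0 + c1 * s)| ≤ K * β) →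
        ((⌊t / ρ⌋, ⌊Y1 / γ⌋, ⌊(Y0 + Y1 * (⌊t / ρ⌋ * ρ)) / m⌋) : ℤ × ℤ × ℤ) ∈ Dm) ∧ (Dm.card : ℝ) * (ρ * m) ≤ 48 * K ^ 2 * Kg * β := by
  classical
  have hβ : 0 < β := lt_of_lt_of_le hm hmβ
  have hKβ : 0 < K * β := by positivity
  obtain ⟨KI, hKI⟩ : ∃ KI : Finset ℤ, KI = Finset.Icc ⌊(0 : ℝ)⌋ ⌊1 / ρ⌋ := ⟨_, rfl⟩
  obtain ⟨SI, hSI⟩ : ∃ SI : Finset ℤ, SI = Finset.Icc ⌊(c1 - 2 * (K * β)) / γ⌋ ⌊(c1 + 2 * (K * β)) / γ⌋ := ⟨_, rfl⟩
  obtain ⟨YI, hYI⟩ : ∃ YI : ℤ → Finset ℤ, YI = fun k : ℤ => Finset.Icc ⌊((c0 + c1 * ((k : ℝ) * ρ)) - K * β) / m⌋ ⌊((c0 + c1 * ((k : ℝ) * ρ)) + K * β) / m⌋ := ⟨_, rfl⟩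
  have h1ρ : 1 ≤ 1 / ρ := by rw [le_div_iff₀ hρ0]; linarith
  have hKIc' : (KI.card : ℝ) ≤ 2 * (1 / ρ) := by
    rw [hKI, Int.card_Icc, Int.floor_zero]
    have h0 : 0 ≤ ⌊1 / ρ⌋ := Int.floor_nonneg.2 (by positivity)
    have h2 : (((⌊1 / ρ⌋ + 1 - 0).toNat : ℤ) : ℝ) = (⌊1 / ρ⌋ : ℝ) + 1 := by
      rw [Int.toNat_of_nonneg (by omega)]
      push_cast
      ring
    have h3 : (((⌊1 / ρ⌋ + 1 - 0).toNat : ℕ) : ℝ) = (((⌊1 / ρ⌋ + 1 - 0).toNat : ℤ) : ℝ) := by push_cast; rfl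
    rw [h3, h2]
    linarith [Int.floor_le (1 / ρ)]
  have hSIc : (SI.card : ℝ) ≤ 6 * (K * Kg) := by
    rw [hSI]
    refine (k7wc_card_Icc (div_le_div_of_nonneg_right (by linarith) hγ.le)).trans ?_
    have h1 : (c1 + 2 * (K * β)) / γ - (c1 - 2 * (K * β)) / γ = 4 * (K * (β / γ)) := by
      field_simp
      ring
    have h2 : β / γ ≤ Kg := by rw [div_le_iff₀ hγ]; exact hβγ
    have h3 : K * (β / γ) ≤ K * Kg := mul_le_mul_of_nonneg_left h2 (by linarith)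
    have h4 : 1 ≤ K * Kg := one_le_mul_of_one_le_of_one_le hK hKg
    rw [h1]
    linarith
  have hYIc : ∀ k, ((YI k).card : ℝ) ≤ 4 * (K * (β / m)) := fun k => by
    rw [hYI]
    refine (k7wc_card_Icc (div_le_div_of_nonneg_right (by linarith) hm.le)).trans ?_
    have h1 : ((c0 + c1 * ((k : ℝ) * ρ)) + K * β) / m - ((c0 + c1 * ((k : ℝ) * ρ)) - K * β) / m = 2 * (K * (β / m)) := by
      field_simp
      ring
    have h2 : 1 ≤ β / m := by rw [le_div_iff₀ hm]; linarith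
    have h4 : 1 ≤ K * (β / m) := one_le_mul_of_one_le_of_one_le hK h2
    rw [h1]
    linarith
  refine ⟨KI.biUnion fun k => ({k} : Finset ℤ) ×ˢ (SI ×ˢ YI k), fun t Y0 Y1 ht hfit => ?_, ?_⟩
  · have hk0 : 0 ≤ ⌊t / ρ⌋ := Int.floor_nonneg.2 (div_nonneg ht.1 hρ0.le)
    have hk0' : (0 : ℝ) ≤ (⌊t / ρ⌋ : ℝ) := by exact_mod_cast hk0
    have hkρ : (⌊t / ρ⌋ : ℝ) * ρ ≤ t := by
      have := Int.floor_le (t / ρ)
      rwa [le_div_iff₀ hρ0] at this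
    rw [Finset.mem_biUnion]
    refine ⟨⌊t / ρ⌋, ?_, ?_⟩
    · rw [hKI, Finset.mem_Icc, Int.floor_zero]
      exact ⟨hk0, Int.floor_le_floor (div_le_div_of_nonneg_right ht.2 hρ0.le)⟩
    · rw [Finset.mem_product, Finset.mem_product]
      refine ⟨Finset.mem_singleton.2 rfl, ?_, ?_⟩
      · rw [hSI]
        refine k7wc_bin_window hγ ?_
        have a0 := hfit 0 ⟨le_rfl, zero_le_one⟩
        have a1 := hfit 1 ⟨zero_le_one, le_rfl⟩
        rw [abs_le] at a0 a1 ⊢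
        constructor <;> linarith [a0.1, a0.2, a1.1, a1.2]
      · rw [hYI]
        exact k7wc_bin_window hm (hfit _ ⟨by positivity, by linarith [ht.2]⟩)
  · have hβm0 : 0 ≤ K * (β / m) := by positivity
    have hKKg : 0 ≤ K * Kg := by positivity
    have hcard : (((KI.biUnion fun k => ({k} : Finset ℤ) ×ˢ (SI ×ˢ YI k)).card : ℕ) : ℝ) ≤ 2 * (1 / ρ) * (6 * (K * Kg) * (4 * (K * (β / m)))) := by
      calc (((KI.biUnion fun k => ({k} : Finset ℤ) ×ˢ (SI ×ˢ YI k)).card : ℕ) : ℝ)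
          ≤ ((∑ k ∈ KI, (({k} : Finset ℤ) ×ˢ (SI ×ˢ YI k)).card : ℕ) : ℝ) := by exact_mod_cast Finset.card_biUnion_le
        _ = ∑ k ∈ KI, (SI.card : ℝ) * ((YI k).card : ℝ) := by
            push_cast
            refine Finset.sum_congr rfl fun i _ => ?_
            rw [Finset.card_product, Finset.card_product, Finset.card_singleton]
            push_cast
            ring
        _ ≤ ∑ _k ∈ KI, 6 * (K * Kg) * (4 * (K * (β / m))) :=
            Finset.sum_le_sum fun i _ => mul_le_mul hSIc (hYIc i) (Nat.cast_nonneg _) (by positivity)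
        _ = (KI.card : ℝ) * (6 * (K * Kg) * (4 * (K * (β / m)))) := by rw [Finset.sum_const, nsmul_eq_mul]
        _ ≤ _ := mul_le_mul_of_nonneg_right hKIc' (by positivity)
    calc (((KI.biUnion fun k => ({k} : Finset ℤ) ×ˢ (SI ×ˢ YI k)).card : ℕ) : ℝ) * (ρ * m)
        ≤ 2 * (1 / ρ) * (6 * (K * Kg) * (4 * (K * (β / m)))) * (ρ * m) := mul_le_mul_of_nonneg_right hcard (by positivity)
      _ = 48 * K ^ 2 * Kg * β := by
          field_simp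
          ring

theorem k7wc_meas_lab (W : K7aLn) (P : K7aLayer W) {K χ th β d : ℝ} (hP : P.Ok K χ th β d) (o : Option P.Ph) : MeasurableSet {z : W.L × ℝ | P.lab z.1 = o} :=
  measurable_fst (hP.meas o)

theorem k7wc_lab_sum (W : K7aLn) (P : K7aLayer W) {N K d S χ th β : ℝ} {Ms Ws : Finset ℝ} (hW : W.Ok N K d S Ms Ws) (hP : P.Ok K χ th β d) :
    ∑ φ : P.Ph, W.lam0 {z | P.lab z.1 = some φ} ≤ 1 := by
  have hdisj : Set.PairwiseDisjoint (↑(Finset.univ : Finset P.Ph) : Set P.Ph) (fun φ => {z : W.L × ℝ | P.lab z.1 = some φ}) := by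
    intro φ _ φ' _ hne
    refine Set.disjoint_left.2 fun z hz hz' => hne ?_
    have h1 : P.lab z.1 = some φ := hz
    have h2 : P.lab z.1 = some φ' := hz'
    rw [h1] at h2
    exact Option.some.inj h2
  rw [← measure_biUnion_finset hdisj fun φ _ => k7wc_meas_lab W P hP (some φ)]
  exact (measure_mono (Set.subset_univ _)).trans (k7wc_lam0_univ W hW)

theorem k7wc_slice (W : K7aLn) (P : K7aLayer W) {N K d S χ th β ρ γ m Kg : ℝ} {Ms Ws : Finset ℝ} (hW : W.Ok N K d S Ms Ws) (hP : P.Ok K χ th β d) (hK : 1 ≤ K)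
    (hχ : 0 ≤ χ) (hth : 0 ≤ th) (hρ0 : 0 < ρ) (hρ1 : ρ ≤ 1) (hγ : 0 < γ) (hm : 0 < m) (hmβ : m ≤ β) (hKg : 1 ≤ Kg) (hβγ : β ≤ Kg * γ) :
    ∃ Ent : Finset (P.Ph × (ℤ × ℤ × ℤ)), (∀ z ∈ W.Ev0, ∀ φ, P.lab z.1 = some φ → (φ, W.sdom ρ γ m z) ∈ Ent) ∧
      ∑ e ∈ Ent, P.cT χ th d ρ m e.1 ≤ ENNReal.ofReal (48 * K ^ 3 * Kg) := by
  classical
  have hK0 : 0 ≤ K := by linarith
  have hKg0 : 0 ≤ Kg := by linarith
  have hthd : 0 ≤ th ^ d := Real.rpow_nonneg hth d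
  choose Dm hDm hDmc using fun φ : P.Ph => k7wc_dom_count (P.G φ).c0 (P.G φ).c1 hK hρ0 hρ1 hγ hm hmβ hKg hβγ
  refine ⟨Finset.univ.biUnion fun φ => ({φ} : Finset P.Ph) ×ˢ Dm φ, fun z hz φ hφ => ?_, ?_⟩
  · rw [Finset.mem_biUnion]
    refine ⟨φ, Finset.mem_univ _, ?_⟩
    rw [Finset.mem_product]
    exact ⟨Finset.mem_singleton.2 rfl, hDm φ z.2 (W.Y0 z.1) (W.Y1 z.1) (hW.Ev0_sub hz).2 fun s hs => (hP.fit z.1 φ hφ s hs).1⟩
  · have hdisj : Set.PairwiseDisjoint (↑(Finset.univ : Finset P.Ph) : Set P.Ph) (fun φ => ({φ} : Finset P.Ph) ×ˢ Dm φ) := by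
      intro φ _ φ' _ hne
      refine Finset.disjoint_left.2 fun e he he' => hne ?_
      rw [Finset.mem_product, Finset.mem_singleton] at he he'
      rw [← he.1, ← he'.1]
    rw [Finset.sum_biUnion hdisj]
    have hterm : ∀ φ : P.Ph, ∑ e ∈ ({φ} : Finset P.Ph) ×ˢ Dm φ, P.cT χ th d ρ m e.1 ≤ ENNReal.ofReal (48 * K ^ 3 * Kg) * W.lam0 {z | P.lab z.1 = some φ} := fun φ => by
      have h1 : ∑ e ∈ ({φ} : Finset P.Ph) ×ˢ Dm φ, P.cT χ th d ρ m e.1 = ((Dm φ).card : ℝ≥0∞) * P.cT χ th d ρ m φ := by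
        rw [Finset.sum_congr rfl (fun e he => by rw [(Finset.mem_singleton.1 (Finset.mem_product.1 he).1)] : ∀ e ∈ ({φ} : Finset P.Ph) ×ˢ Dm φ, P.cT χ th d ρ m e.1 = P.cT χ th d ρ m φ),
          Finset.sum_const, Finset.card_product, Finset.card_singleton, one_mul, nsmul_eq_mul]
      rw [h1]
      unfold K7aLayer.cT
      calc ((Dm φ).card : ℝ≥0∞) * (ENNReal.ofReal (ρ * m * (χ * th ^ d)) * W.palχ χ (P.vi φ))
          = ENNReal.ofReal (((Dm φ).card : ℝ) * (ρ * m) * (χ * th ^ d)) * W.palχ χ (P.vi φ) := by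
            rw [← mul_assoc ((Dm φ).card : ℝ≥0∞), ← ENNReal.ofReal_natCast, ← ENNReal.ofReal_mul (Nat.cast_nonneg _)]
            congr 2
            ring
        _ ≤ ENNReal.ofReal (48 * K ^ 2 * Kg * β * (χ * th ^ d)) * W.palχ χ (P.vi φ) := by
            refine mul_le_mul_left (ENNReal.ofReal_le_ofReal ?_) _
            exact mul_le_mul_of_nonneg_right (hDmc φ) (by positivity)
        _ = ENNReal.ofReal (48 * K ^ 2 * Kg) * (ENNReal.ofReal (χ * th ^ d * β) * W.palχ χ (P.vi φ)) := by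
            rw [← mul_assoc (ENNReal.ofReal (48 * K ^ 2 * Kg)), ← ENNReal.ofReal_mul (by positivity)]
            congr 2
            ring
        _ ≤ ENNReal.ofReal (48 * K ^ 2 * Kg) * (ENNReal.ofReal K * W.lam0 {z | P.lab z.1 = some φ}) := mul_le_mul_right (hP.floor φ) _
        _ = ENNReal.ofReal (48 * K ^ 3 * Kg) * W.lam0 {z | P.lab z.1 = some φ} := by
            rw [← mul_assoc (ENNReal.ofReal (48 * K ^ 2 * Kg)), ← ENNReal.ofReal_mul (by positivity)]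
            congr 2
            ring
    calc ∑ φ : P.Ph, ∑ e ∈ ({φ} : Finset P.Ph) ×ˢ Dm φ, P.cT χ th d ρ m e.1
        ≤ ∑ φ : P.Ph, ENNReal.ofReal (48 * K ^ 3 * Kg) * W.lam0 {z | P.lab z.1 = some φ} := Finset.sum_le_sum fun φ _ => hterm φ
      _ = ENNReal.ofReal (48 * K ^ 3 * Kg) * ∑ φ : P.Ph, W.lam0 {z | P.lab z.1 = some φ} := by rw [Finset.mul_sum]
      _ ≤ ENNReal.ofReal (48 * K ^ 3 * Kg) * 1 := mul_le_mul_right (k7wc_lab_sum W P hW hP) _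
      _ = _ := mul_one _

/-- **L-252-S7wc-P** (~200 l.).  **PRUNE.**   `Kp = {z | ∀ φ, lab z.1 = some φ → cT φ ≤ K₁ cWit φ (sdom z)}` = preimage of a set under the measurable map `z ↦ (lab z.1, sdom z)` into a countable discrete space.
`Kpᶜ ∩ Ev0 ⊆ ⋃_{e ∈ Ent light} {lab = e.1, sdom = e.2}`, `K₁ cWit e < cT e.1` for the light entries, `k7wc_slice`.     The floors are floors of `lam0` : they do not change when the selection shrinks. -/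
theorem k7wc_prune (W : K7aLn) (P : K7aLayer W) {N K d S χ th β ρ γ m Kg : ℝ} {Ms Ws : Finset ℝ} (hW : W.Ok N K d S Ms Ws) (hP : P.Ok K χ th β d) (hK : 1 ≤ K)
    (hχ : 0 ≤ χ) (hth : 0 ≤ th) (hρ0 : 0 < ρ) (hρ1 : ρ ≤ 1) (hγ : 0 < γ) (hm : 0 < m) (hmβ : m ≤ β) (hKg : 1 ≤ Kg) (hβγ : β ≤ Kg * γ) (K1 : ℝ) :
    ∃ Kp : Set (W.L × ℝ), MeasurableSet Kp ∧ ENNReal.ofReal K1 * W.lam0 Kpᶜ ≤ ENNReal.ofReal (48 * K ^ 3 * Kg) ∧
      ∀ z ∈ Kp, ∀ φ, P.lab z.1 = some φ → P.cT χ th d ρ m φ ≤ ENNReal.ofReal K1 * P.cWit ρ γ m φ (W.sdom ρ γ m z) := by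
  classical
  obtain ⟨Ent, hEnt, hsum⟩ := k7wc_slice W P hW hP hK hχ hth hρ0 hρ1 hγ hm hmβ hKg hβγ
  obtain ⟨A, hA⟩ : ∃ A : P.Ph × (ℤ × ℤ × ℤ) → Set (W.L × ℝ), A = fun e => {z | P.lab z.1 = some e.1 ∧ W.sdom ρ γ m z = e.2} := ⟨_, rfl⟩
  obtain ⟨Lt, hLt⟩ : ∃ Lt : Set (P.Ph × (ℤ × ℤ × ℤ)), Lt = {e | ¬ P.cT χ th d ρ m e.1 ≤ ENNReal.ofReal K1 * P.cWit ρ γ m e.1 e.2} := ⟨_, rfl⟩
  have hAm : ∀ e, MeasurableSet (A e) := fun e => by
    rw [hA]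
    exact (k7wc_meas_lab W P hP (some e.1)).inter (k7wc_meas_sdom W hW ρ γ m (measurableSet_singleton e.2))
  have hAw : ∀ e, W.lam0 (A e) = P.cWit ρ γ m e.1 e.2 := fun e => by
    rw [hA]
    rfl
  have hBm : MeasurableSet (⋃ e ∈ Lt, A e) := MeasurableSet.biUnion (Set.to_countable Lt) fun e _ => hAm e
  refine ⟨(⋃ e ∈ Lt, A e)ᶜ, hBm.compl, ?_, fun z hz φ hφ => ?_⟩
  · rw [compl_compl]
    have h1 : W.lam0 (⋃ e ∈ Lt, A e) ≤ W.lam0 (⋃ e ∈ Ent.filter (fun e => e ∈ Lt), A e) := by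
      rw [k7wc_lam0_apply W hW, k7wc_lam0_apply W hW]
      refine measure_mono ?_
      rintro z ⟨hz, hE⟩
      refine ⟨?_, hE⟩
      simp only [Set.mem_iUnion] at hz ⊢
      obtain ⟨e, he, hze⟩ := hz
      refine ⟨e, Finset.mem_filter.2 ⟨?_, he⟩, hze⟩
      rw [hA] at hze
      have h2 := hEnt z hE e.1 hze.1
      rw [hze.2] at h2
      exact h2
    calc ENNReal.ofReal K1 * W.lam0 (⋃ e ∈ Lt, A e) ≤ ENNReal.ofReal K1 * ∑ e ∈ Ent.filter (fun e => e ∈ Lt), W.lam0 (A e) :=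
          mul_le_mul_right (h1.trans (measure_biUnion_finset_le _ _)) _
      _ = ∑ e ∈ Ent.filter (fun e => e ∈ Lt), ENNReal.ofReal K1 * P.cWit ρ γ m e.1 e.2 := by
          rw [Finset.mul_sum]
          exact Finset.sum_congr rfl fun e _ => by rw [hAw]
      _ ≤ ∑ e ∈ Ent.filter (fun e => e ∈ Lt), P.cT χ th d ρ m e.1 := Finset.sum_le_sum fun e he => by
          have h2 := (Finset.mem_filter.1 he).2
          rw [hLt] at h2
          exact (not_le.1 h2).le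
      _ ≤ ∑ e ∈ Ent, P.cT χ th d ρ m e.1 := Finset.sum_le_sum_of_subset (Finset.filter_subset _ _)
      _ ≤ _ := hsum
  · by_contra hne
    refine hz ?_
    simp only [Set.mem_iUnion]
    refine ⟨(φ, W.sdom ρ γ m z), ?_, ?_⟩
    · rw [hLt]
      exact hne
    · rw [hA]
      exact ⟨hφ, rfl⟩

/-- **PRUNE with nonzero witnesses** (asked by helper252): the entries of witness mass `0` are deleted too (a countable union of `lam0`-null sets), so that packing counts ALL surviving labels, also when `palχ = 0`. -/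
theorem k7wc_prune_pos (W : K7aLn) (P : K7aLayer W) {N K d S χ th β ρ γ m Kg : ℝ} {Ms Ws : Finset ℝ} (hW : W.Ok N K d S Ms Ws) (hP : P.Ok K χ th β d) (hK : 1 ≤ K)
    (hχ : 0 ≤ χ) (hth : 0 ≤ th) (hρ0 : 0 < ρ) (hρ1 : ρ ≤ 1) (hγ : 0 < γ) (hm : 0 < m) (hmβ : m ≤ β) (hKg : 1 ≤ Kg) (hβγ : β ≤ Kg * γ) (K1 : ℝ) :
    ∃ Kp : Set (W.L × ℝ), MeasurableSet Kp ∧ ENNReal.ofReal K1 * W.lam0 Kpᶜ ≤ ENNReal.ofReal (48 * K ^ 3 * Kg) ∧
      ∀ z ∈ Kp, ∀ φ, P.lab z.1 = some φ → P.cT χ th d ρ m φ ≤ ENNReal.ofReal K1 * P.cWit ρ γ m φ (W.sdom ρ γ m z) ∧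
        P.cWit ρ γ m φ (W.sdom ρ γ m z) ≠ 0 := by
  obtain ⟨Kp, h1, h2, h3⟩ := k7wc_prune W P hW hP hK hχ hth hρ0 hρ1 hγ hm hmβ hKg hβγ K1
  obtain ⟨A, hA⟩ : ∃ A : P.Ph × (ℤ × ℤ × ℤ) → Set (W.L × ℝ), A = fun e => {z | P.lab z.1 = some e.1 ∧ W.sdom ρ γ m z = e.2} := ⟨_, rfl⟩
  obtain ⟨Zr, hZr⟩ : ∃ Zr : Set (P.Ph × (ℤ × ℤ × ℤ)), Zr = {e | P.cWit ρ γ m e.1 e.2 = 0} := ⟨_, rfl⟩
  have hAm : ∀ e, MeasurableSet (A e) := fun e => by
    rw [hA]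
    exact (k7wc_meas_lab W P hP (some e.1)).inter (k7wc_meas_sdom W hW ρ γ m (measurableSet_singleton e.2))
  have hBm : MeasurableSet (⋃ e ∈ Zr, A e) := MeasurableSet.biUnion (Set.to_countable Zr) fun e _ => hAm e
  have hB0 : W.lam0 (⋃ e ∈ Zr, A e) = 0 := by
    refine (measure_biUnion_null_iff (Set.to_countable Zr)).2 fun e he => ?_
    rw [hZr] at he
    rw [hA]
    exact he
  refine ⟨Kp ∩ (⋃ e ∈ Zr, A e)ᶜ, h1.inter hBm.compl, ?_, fun z hz φ hφ => ⟨h3 z hz.1 φ hφ, fun h0 => hz.2 ?_⟩⟩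
  · rw [Set.compl_inter, compl_compl]
    have h4 : W.lam0 (Kpᶜ ∪ ⋃ e ∈ Zr, A e) ≤ W.lam0 Kpᶜ := by
      refine (measure_union_le _ _).trans ?_
      rw [hB0, add_zero]
    exact le_trans (by gcongr) h2
  · simp only [Set.mem_iUnion]
    refine ⟨(φ, W.sdom ρ γ m z), ?_, ?_⟩
    · rw [hZr]
      exact h0
    · rw [hA]
      exact ⟨hφ, rfl⟩

end

end Claimed.Agent.R252
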