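import Claimed.Agent.R252.S7a.WideDefs

/-!
# ROW 252 (S0492), unit S7w (sub-architect helper89, chief helper26), file 1: THE FIVE STAGES OF P7.3 (07 l.551-918).      Definitions only, no sorry.   -- KEEP

`k7a_P73` (S7a/WideDefs) is cut into FIVE stage statements `K7wStageA .. K7wStageE : Prop`, all of the same finite-scale shape
    `∀ exponents x, x.Adm → ∃ Mχ0, ∀ Mχ ≥ Mχ0, [∃ thresholds, ∀ state mesh/width exponents above them,] ∃ M0, ∀ τ' > 0, ∃ τ N1 Ms Ws, 0 < τ ∧ (Ms, Ws ⊆ [0, M0]) ∧ ∀ N ≥ N1, ∀ W P β E,`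
    `   K7wHyp x Mχ N (N^τ) Ms Ws W P β E → W.χ0 ≤ N^(-M0) → (outputs of the earlier stages on E, slack N^τ) → (a dense E' ⊆ E + new facts, slack N^τ')`.
The glue `k7w_glue : A → B → C → D → E → k7a_P73` is PROVED in `S7a/WideGlue.lean`.
Every output is either POINTWISE on the selection or a COUNT OF WHAT OCCURS in the selection (both persist under restriction), except `K7wField.dom` (consumed at once by stage D).

    E  ──A (S1,S2,S3: long domains, k7a_Match)──▶  E₁ : `K7wVar`   F_{Φ_i} - F_Φ varies by ≤ a₁ on the N^{u/2} b - neighbourhood of the line, over the whole block of Q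
       ──B (S3: packing under band caps)───────▶  E₂ : `K7wCnt`   ≤ K (a/a_i)^d labels Φ_i per (Q, Φ);  ≤ K labels Φ per (short domain, Φ₁)
       ──C (S4,S5: agreement at a fine state)──▶  E₃ : `K7wField` a coefficient pair (c₁, c₂)(state) fitting (f₁^Φ, f₂^Φ) to K e, conditional velocity domination at the states
       ──D (S6: common coefficient field)──────▶  Q, C₁ affine in (t,Z), C₂, E₄ ⊆ E₃ ∩ inc Q : `K7wCommon`
       ──E (S7,S8: residual bins, k7a_T71a)────▶  the conclusion of `k7a_P73`.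
Notation: `a = N^{-s}`, `a₁ = a N^{-u}`, `a₂ = a N^{-c₂}`, `h = N^{-eh}`, `g = N^{-eg}`, `b = h g`, `χ = N^{-Mχ}`, `e = a N^{-(1-d)u/2} = N^{-x.ee}`.
-/

set_option autoImplicit false

namespace Claimed.Agent.R252

open MeasureTheory
open scoped ENNReal BigOperators

noncomputable section

/-- the fixed exponents of P7.3 -/
structure K7wExp where
  d : ℝ
  S : ℝ
  s : ℝ
  u : ℝ
  c2 : ℝ
  eh : ℝ
  eg : ℝ
  B : Fin 3 → ℝ

namespace K7wExp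

variable (x : K7wExp)

/-- admissible exponents = the hypotheses on the exponents in `k7a_P73` -/
structure Adm : Prop where
  d0 : 0 ≤ x.d
  d1 : x.d < 1
  S0 : 0 < x.S
  s0 : 0 < x.s
  u0 : 0 < x.u
  c0 : 0 < x.c2
  c1 : x.c2 < (1 - x.d) * x.u / 4
  eh0 : 0 < x.eh
  eg0 : 0 < x.eg
  Bg : ∀ i, x.eg ≤ x.B i
  Bb : ∀ i, (10 / (1 - x.d) + 3) * x.u ≤ x.eh + x.eg - x.B i
  Bh : ∀ i j, (10 / (1 - x.d) + 3) * x.u ≤ x.eh + x.B i - x.B j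

/-- the three thickness exponents `s, s + u, s + c₂` -/
def st (i : Fin 3) : ℝ := x.s + (![0, x.u, x.c2] : Fin 3 → ℝ) i

/-- the exponent of `e = a N^{-(1-d)u/2}` -/
def ee : ℝ := x.s + (1 - x.d) * x.u / 2

end K7wExp

/-- **the standing hypotheses of P7.3 at one scale**, slack `K`, current selection `E` -/
structure K7wHyp (x : K7wExp) (Mχ N K : ℝ) (Ms Ws : Finset ℝ) (W : K7aW) (P : Fin 3 → K7aLayer W.toK7aLn) (β : Fin 3 → ℝ)
    (E : Set (W.L × ℝ)) : Prop where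
  w : W.Ok N K x.d x.S (N ^ (-x.s)) (N ^ (-x.eh)) (N ^ (-x.eg)) Ms Ws
  βlo : ∀ i, N ^ (-x.B i) ≤ K * β i
  βhi : ∀ i, β i ≤ K * N ^ (-x.B i)
  lay : ∀ i, (P i).Ok K (N ^ (-Mχ)) (N ^ (-x.st i)) (β i) x.d
  mE : MeasurableSet E
  sub : E ⊆ W.Ev0
  lab : ∀ p ∈ E, ∀ i, (P i).lab p.1 ≠ none
  mass : 1 ≤ ENNReal.ofReal K * W.prior E
  lists : K7aLists W (P 0) E K (N ^ (-Mχ)) W.q (N ^ (-x.eg)) (W.q * N ^ (-x.eg))

/-! ## Output of stage A -/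

/-- **constancy of the offsets** (07 l.631-645): at every retained incidence `p = (l, t)` with true label `Q`, the difference `F_{Φ_i} - F_Φ` of the two predictors of `l` varies by at most `ε`
on `{(t', y) : t' ∈ blk Q, |y - Y_l(t')| ≤ Λ b}`.   (This set contains the short domain of `p`, and the fibre box of `(Q, α)`.) -/
def K7wVar (W : K7aW) (P : Fin 3 → K7aLayer W.toK7aLn) (b ε Λ : ℝ) (E : Set (W.L × ℝ)) : Prop :=
  ∀ p ∈ E, ∀ (i : Fin 3) (φ0 : (P 0).Ph) (φ : (P i).Ph), (P 0).lab p.1 = some φ0 → (P i).lab p.1 = some φ →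
    ∀ t1 ∈ W.blk (W.labQ p), ∀ t2 ∈ W.blk (W.labQ p), ∀ y1 y2 : ℝ, |y1 - W.Y p.1 t1| ≤ Λ * b → |y2 - W.Y p.1 t2| ≤ Λ * b →
      |(((P i).G φ).F t1 y1 - ((P 0).G φ0).F t1 y1) - (((P i).G φ).F t2 y2 - ((P 0).G φ0).F t2 y2)| ≤ ε

/-! ## Output of stage B -/

/-- **the list counts** (07 l.647-660), counts of what occurs in `E`; `r i = (a / a_i)^d` -/
structure K7wCnt (W : K7aW) (P : Fin 3 → K7aLayer W.toK7aLn) (E : Set (W.L × ℝ)) (K g : ℝ) (r : Fin 3 → ℝ) : Prop where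
  fine : ∀ (i : Fin 3) (Q : W.Q) (φ0 : (P 0).Ph), ∃ S : Finset (P i).Ph, (S.card : ℝ) ≤ K * r i ∧
    ∀ p ∈ E, W.labQ p = Q → (P 0).lab p.1 = some φ0 → ∀ φ, (P i).lab p.1 = some φ → φ ∈ S
  back : ∀ (φ1 : (P 1).Ph) (D : ℤ × ℤ × ℤ), ∃ S : Finset (P 0).Ph, (S.card : ℝ) ≤ K ∧
    ∀ p ∈ E, (P 1).lab p.1 = some φ1 → W.sdom W.q g (W.q * g) p = D → ∀ φ, (P 0).lab p.1 = some φ → φ ∈ S

/-! ## Output of stage C -/

/-- `F(t, y + b U) = F(t, y) + f₁ U + f₂ U²` for `F` quadratic: `f₁` -/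
def k7wF1 (F : ℝ → ℝ → ℝ) (b t y : ℝ) : ℝ := (F t (y + b) - F t (y - b)) / 2

/-- `f₂` -/
def k7wF2 (F : ℝ → ℝ → ℝ) (b t y : ℝ) : ℝ := (F t (y + b) + F t (y - b) - 2 * F t y) / 2

namespace K7aW

variable (W : K7aW)

/-- the point `Y_Q(t, Z)` of the plane of the true label under an incidence -/
def yq (p : W.L × ℝ) : ℝ := W.YQ (W.labQ p) p.2 (W.Z p.1 p.2)

/-- the fine state `(Q, point state)` -/
def stt (σ pw : ℝ) (p : W.L × ℝ) : W.Q × (ℤ × ℤ × ℤ × ℤ) := (W.labQ p, W.pt σ pw p)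

end K7aW

/-- **a coefficient field on the fine states** (07 l.690-780) -/
structure K7wField (W : K7aW) (P0 : K7aLayer W.toK7aLn) (E : Set (W.L × ℝ)) (K e b σ pw : ℝ) (c1 c2 : W.Q × (ℤ × ℤ × ℤ × ℤ) → ℝ) : Prop where
  fit : ∀ p ∈ E, ∀ φ, P0.lab p.1 = some φ →
    |k7wF1 (P0.G φ).F b p.2 (W.yq p) - c1 (W.stt σ pw p)| ≤ K * e ∧ |k7wF2 (P0.G φ).F b p.2 (W.yq p) - c2 (W.stt σ pw p)| ≤ K * e
  /-- conditional velocity domination at the fine states, for the law of `E` itself -/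
  dom : ∀ s bn, W.law E (W.stt σ pw ⁻¹' {s} ∩ W.vT bn) ≤ ENNReal.ofReal K * W.pi bn * W.law E (W.stt σ pw ⁻¹' {s})

/-! ## Output of stage D -/

/-- **the common nonconstant coefficients in one heavy true label** (07 l.781-858): `C₁(t, Z) = γ0 + γ1 t + γ2 Z`, `C₂` -/
structure K7wCommon (W : K7aW) (P0 : K7aLayer W.toK7aLn) (E : Set (W.L × ℝ)) (K e b h : ℝ) (Q : W.Q) (γ0 γ1 γ2 C2 : ℝ) (E4 : Set (W.L × ℝ)) : Prop where
  Qa : Q ∈ W.Qa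
  meas : MeasurableSet E4
  sub : E4 ⊆ E ∩ W.inc Q
  mass : ENNReal.ofReal W.q * W.νQ Q ≤ ENNReal.ofReal K * W.prior E4
  fit : ∀ p ∈ E4, ∀ φ, P0.lab p.1 = some φ →
    |k7wF1 (P0.G φ).F b p.2 (W.yq p) - (γ0 + γ1 * p.2 + γ2 * W.Z p.1 p.2)| ≤ K * e ∧ |k7wF2 (P0.G φ).F b p.2 (W.yq p) - C2| ≤ K * e
  bd1 : ∀ t ∈ W.blk Q, ∀ Z : ℝ, |Z - W.Zc Q| ≤ h → |γ0 + γ1 * t + γ2 * Z| ≤ K
  bd2 : |C2| ≤ K

/-! ## The five stages -/

/-- dense selection inside `E` -/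
def K7wSel (W : K7aW) (E E' : Set (W.L × ℝ)) (K : ℝ) : Prop := E' ⊆ E ∧ MeasurableSet E' ∧ 1 ≤ ENNReal.ofReal K * W.prior E'

/-- **STAGE A** (07 l.585-645) -/
def K7wStageA : Prop :=
  ∀ x : K7wExp, x.Adm → ∃ Mχ0 : ℝ, ∀ Mχ : ℝ, Mχ0 ≤ Mχ → ∃ M0 : ℝ, ∀ τ' : ℝ, 0 < τ' → ∃ (τ N1 : ℝ) (Ms Ws : Finset ℝ), 0 < τ ∧
    (∀ M ∈ Ms, 0 ≤ M ∧ M ≤ M0) ∧ (∀ r ∈ Ws, 0 ≤ r ∧ r ≤ M0) ∧ ∀ N : ℝ, N1 ≤ N →
    ∀ (W : K7aW) (P : Fin 3 → K7aLayer W.toK7aLn) (β : Fin 3 → ℝ) (E : Set (W.L × ℝ)),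
      K7wHyp x Mχ N (N ^ τ) Ms Ws W P β E → W.χ0 ≤ N ^ (-M0) →
      ∃ E', K7wSel W E E' (N ^ τ') ∧ K7wVar W P (N ^ (-x.eh - x.eg)) (N ^ (-x.s - x.u)) (N ^ (x.u / 2)) E'

/-- **STAGE B** (07 l.647-665) -/
def K7wStageB : Prop :=
  ∀ x : K7wExp, x.Adm → ∃ Mχ0 : ℝ, ∀ Mχ : ℝ, Mχ0 ≤ Mχ → ∃ M0 : ℝ, ∀ τ' : ℝ, 0 < τ' → ∃ (τ N1 : ℝ) (Ms Ws : Finset ℝ), 0 < τ ∧
    (∀ M ∈ Ms, 0 ≤ M ∧ M ≤ M0) ∧ (∀ r ∈ Ws, 0 ≤ r ∧ r ≤ M0) ∧ ∀ N : ℝ, N1 ≤ N →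
    ∀ (W : K7aW) (P : Fin 3 → K7aLayer W.toK7aLn) (β : Fin 3 → ℝ) (E : Set (W.L × ℝ)),
      K7wHyp x Mχ N (N ^ τ) Ms Ws W P β E → W.χ0 ≤ N ^ (-M0) →
      K7wVar W P (N ^ (-x.eh - x.eg)) (N ^ (-x.s - x.u)) (N ^ (x.u / 2)) E →
      ∃ E', K7wSel W E E' (N ^ τ') ∧ K7wCnt W P E' (N ^ τ') (N ^ (-x.eg)) (fun i => N ^ (x.d * (x.st i - x.s)))

/-- **STAGE C** (07 l.666-780); `Mst`, `rst` = exponents of the mesh and of the `X`-width of the fine state (ANY values above thresholds) -/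
def K7wStageC : Prop :=
  ∀ x : K7wExp, x.Adm → ∃ Mχ0 : ℝ, ∀ Mχ : ℝ, Mχ0 ≤ Mχ → ∃ Mst0 rst0 : ℝ, ∀ Mst rst : ℝ, Mst0 ≤ Mst → rst0 ≤ rst →
    ∃ M0 : ℝ, ∀ τ' : ℝ, 0 < τ' → ∃ (τ N1 : ℝ) (Ms Ws : Finset ℝ), 0 < τ ∧
    (∀ M ∈ Ms, 0 ≤ M ∧ M ≤ M0) ∧ (∀ r ∈ Ws, 0 ≤ r ∧ r ≤ M0) ∧ ∀ N : ℝ, N1 ≤ N →
    ∀ (W : K7aW) (P : Fin 3 → K7aLayer W.toK7aLn) (β : Fin 3 → ℝ) (E : Set (W.L × ℝ)),
      K7wHyp x Mχ N (N ^ τ) Ms Ws W P β E → W.χ0 ≤ N ^ (-M0) →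
      K7wVar W P (N ^ (-x.eh - x.eg)) (N ^ (-x.s - x.u)) (N ^ (x.u / 2)) E →
      K7wCnt W P E (N ^ τ) (N ^ (-x.eg)) (fun i => N ^ (x.d * (x.st i - x.s))) →
      ∃ E' c1 c2, K7wSel W E E' (N ^ τ') ∧ K7wField W (P 0) E' (N ^ τ') (N ^ (-x.ee)) (N ^ (-x.eh - x.eg)) (N ^ (-Mst)) (N ^ (-rst)) c1 c2

/-- **STAGE D** (07 l.781-858) -/
def K7wStageD : Prop :=
  ∀ x : K7wExp, x.Adm → ∃ Mχ0 : ℝ, ∀ Mχ : ℝ, Mχ0 ≤ Mχ → ∃ Mst0 rst0 : ℝ, ∀ Mst rst : ℝ, Mst0 ≤ Mst → rst0 ≤ rst →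
    ∃ M0 : ℝ, ∀ τ' : ℝ, 0 < τ' → ∃ (τ N1 : ℝ) (Ms Ws : Finset ℝ), 0 < τ ∧
    (∀ M ∈ Ms, 0 ≤ M ∧ M ≤ M0) ∧ (∀ r ∈ Ws, 0 ≤ r ∧ r ≤ M0) ∧ ∀ N : ℝ, N1 ≤ N →
    ∀ (W : K7aW) (P : Fin 3 → K7aLayer W.toK7aLn) (β : Fin 3 → ℝ) (E : Set (W.L × ℝ)) (c1 c2 : W.Q × (ℤ × ℤ × ℤ × ℤ) → ℝ),
      K7wHyp x Mχ N (N ^ τ) Ms Ws W P β E → W.χ0 ≤ N ^ (-M0) →
      K7wField W (P 0) E (N ^ τ) (N ^ (-x.ee)) (N ^ (-x.eh - x.eg)) (N ^ (-Mst)) (N ^ (-rst)) c1 c2 →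
      ∃ Q γ0 γ1 γ2 C2 E4, K7wCommon W (P 0) E (N ^ τ') (N ^ (-x.ee)) (N ^ (-x.eh - x.eg)) (N ^ (-x.eh)) Q γ0 γ1 γ2 C2 E4

/-- **STAGE E** (07 l.860-918) -/
def K7wStageE : Prop :=
  ∀ x : K7wExp, x.Adm → ∃ Mχ0 : ℝ, ∀ Mχ : ℝ, Mχ0 ≤ Mχ → ∃ M0 : ℝ, ∀ τ' : ℝ, 0 < τ' → ∃ (τ N1 : ℝ) (Ms Ws : Finset ℝ), 0 < τ ∧
    (∀ M ∈ Ms, 0 ≤ M ∧ M ≤ M0) ∧ (∀ r ∈ Ws, 0 ≤ r ∧ r ≤ M0) ∧ ∀ N : ℝ, N1 ≤ N →
    ∀ (W : K7aW) (P : Fin 3 → K7aLayer W.toK7aLn) (β : Fin 3 → ℝ) (E : Set (W.L × ℝ)) (Q : W.Q) (γ0 γ1 γ2 C2 : ℝ) (E4 : Set (W.L × ℝ)),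
      K7wHyp x Mχ N (N ^ τ) Ms Ws W P β E → W.χ0 ≤ N ^ (-M0) →
      K7wVar W P (N ^ (-x.eh - x.eg)) (N ^ (-x.s - x.u)) (N ^ (x.u / 2)) E →
      K7wCnt W P E (N ^ τ) (N ^ (-x.eg)) (fun i => N ^ (x.d * (x.st i - x.s))) →
      K7wCommon W (P 0) E (N ^ τ) (N ^ (-x.ee)) (N ^ (-x.eh - x.eg)) (N ^ (-x.eh)) Q γ0 γ1 γ2 C2 E4 →
      ∃ (F : ℝ → ℝ → ℝ → ℝ) (Cn : Set (W.L × ℝ)), K7aQuad3 F ∧ MeasurableSet Cn ∧ Cn ⊆ E4 ∧
        (∀ p ∈ Cn, ∀ t ∈ W.blk Q, |W.X p.1 t - F t (W.Z p.1 t) (W.Y p.1 t)| ≤ N ^ τ' * N ^ (-x.s - x.c2)) ∧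
        ENNReal.ofReal (W.q * N ^ (-(x.d * x.c2))) * W.νQ Q ≤ ENNReal.ofReal (N ^ τ') * W.prior Cn

end

end Claimed.Agent.R252

/-!
# ROW 252 (S0492), unit S7w, post BP-252-S7w-D (helper242; chief helper89), file 1: THE INTERFACE BETWEEN D1-D3 AND D4-D5.      Definitions only, no sorry.   -- KEEP

Stage D (07 l.781-858) is cut in two explicit-`K` halves:
* **D1-D3** (helper242, `S7a/WideD*.lean`, prefix `k7wd_`): heavy true label `Q`, two separated finest velocity bins `b¹, b²` (`v^k` = left ends), oblique grid of step `ω`, ONE label per row and ONE per column: output `K7wdGrid`.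
* **D4-D5** (helper183, `S7a/WideD2*.lean`, prefix `k7wd2_`): `K7wdGrid` + `W.Ok` + `P0.Ok` + smallness of `ω` ⟹ `K7wCommon` (vertex masses by `capQ`, `k7a_bilinear`, `k7a_duration`, `k7a_mixed`, bounds `bd1`, `bd2`).
Oblique coordinates of `(t, Z)` in `Q` :   `(t - t_Q, Z - Zc)/q = ξ₁ (1, v¹) + ξ₂ (1, v²)`,   `ξ₁ = k7wdXi W Q v1 v2 t Z`,  `ξ₂ = k7wdXi W Q v2 v1 t Z`.     A line of velocity `v¹` has constant `ξ₂` (a ROW), a line of velocity `v²` has constant `ξ₁` (a COLUMN).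
-/

set_option autoImplicit false

namespace Claimed.Agent.R252

open MeasureTheory
open scoped ENNReal BigOperators

noncomputable section

/-- left end of the block of `Q` -/
def K7aW.tQ (W : K7aW) (Q : W.Q) : ℝ := (W.iv Q : ℝ) * W.q

/-- the oblique coordinate along `(1, va)` w.r.t. the basis `(1, va), (1, vb)` -/
def k7wdXi (W : K7aW) (Q : W.Q) (va vb t Z : ℝ) : ℝ := ((Z - W.Zc Q) - vb * (t - W.tQ Q)) / (W.q * (va - vb))

/-- **output of D1-D3 = input of D4-D5**, one slack `K` for everything.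
`ci`, `ri` = column / row index of an incidence (functions of its fine state, so NOT the exact floors of `ξ/ω`: only `near1`, `near2`);   row `j` carries the affine function `ρ0 j + ρ1 j t + ρ2 j Z` and the constant `cρ j`, column `i` the affine function `κ0 i + κ1 i t + κ2 i Z` and the constant `cκ i`. -/
structure K7wdGrid (W : K7aW) (P0 : K7aLayer W.toK7aLn) (E : Set (W.L × ℝ)) (K e b S r ω : ℝ) (Q : W.Q) (v1 v2 : ℝ) (E3 : Set (W.L × ℝ))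
    (ci ri : W.L × ℝ → ℤ) (ρ0 ρ1 ρ2 cρ κ0 κ1 κ2 cκ : ℤ → ℝ) : Prop where
  Qa : Q ∈ W.Qa
  sep : r ≤ |v1 - v2|
  v1b : |v1| ≤ K
  v2b : |v2| ≤ K
  meas : MeasurableSet E3
  sub : E3 ⊆ E ∩ W.inc Q
  labQ : ∀ p ∈ E3, W.labQ p = Q
  mass : ENNReal.ofReal W.q * W.νQ Q ≤ ENNReal.ofReal K * W.prior E3
  m_ci : KsLab ci
  m_ri : KsLab ri
  near1 : ∀ p ∈ E3, |k7wdXi W Q v1 v2 p.2 (W.Z p.1 p.2) - ω * ci p| ≤ 2 * ω
  near2 : ∀ p ∈ E3, |k7wdXi W Q v2 v1 p.2 (W.Z p.1 p.2) - ω * ri p| ≤ 2 * ω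
  fitr : ∀ p ∈ E3, ∀ φ, P0.lab p.1 = some φ →
    |k7wF1 (P0.G φ).F b p.2 (W.yq p) - (ρ0 (ri p) + ρ1 (ri p) * p.2 + ρ2 (ri p) * W.Z p.1 p.2)| ≤ K * e ∧ |k7wF2 (P0.G φ).F b p.2 (W.yq p) - cρ (ri p)| ≤ K * e
  fitc : ∀ p ∈ E3, ∀ φ, P0.lab p.1 = some φ →
    |k7wF1 (P0.G φ).F b p.2 (W.yq p) - (κ0 (ci p) + κ1 (ci p) * p.2 + κ2 (ci p) * W.Z p.1 p.2)| ≤ K * e ∧ |k7wF2 (P0.G φ).F b p.2 (W.yq p) - cκ (ci p)| ≤ K * e
  /-- the row and column functions vary by `≤ e` over `K` grid cells -/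
  gr : ∀ j, (|ρ1 j| + |ρ2 j|) * (K * W.q * ω) ≤ e
  gc : ∀ i, (|κ1 i| + |κ2 i|) * (K * W.q * ω) ≤ e
  /-- size of the coefficients at the occupied points -/
  sup : ∀ p ∈ E3, ∀ φ, P0.lab p.1 = some φ → |k7wF1 (P0.G φ).F b p.2 (W.yq p)| ≤ K ∧ |k7wF2 (P0.G φ).F b p.2 (W.yq p)| ≤ K
  /-- few incidences are nearly parallel to an axis -/
  axis1 : ∀ r' : ℝ, 2 * W.χ0 ≤ r' → W.prior (E3 ∩ {p | |W.v p.1 - v1| < r'}) ≤ ENNReal.ofReal (K * (2 * r') ^ S) * (ENNReal.ofReal W.q * W.νQ Q)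
  axis2 : ∀ r' : ℝ, 2 * W.χ0 ≤ r' → W.prior (E3 ∩ {p | |W.v p.1 - v2| < r'}) ≤ ENNReal.ofReal (K * (2 * r') ^ S) * (ENNReal.ofReal W.q * W.νQ Q)

end

end Claimed.Agent.R252

/-!
# ROW 252 (S0492), unit S7w (sub-architect helper89), file 2: MONOTONICITY OF THE RECORDS AND THE GLUE  `A → B → C → D → E → k7a_P73`.      No sorry.   -- KEEP
-/

set_option autoImplicit false

namespace Claimed.Agent.R252

open MeasureTheory
open scoped ENNReal BigOperators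

noncomputable section

/-! ## Monotonicity -/

theorem k7w_ln_mono {W : K7aLn} {N K K' d S : ℝ} {Ms Ms' Ws Ws' : Finset ℝ} (h : W.Ok N K d S Ms Ws) (hN : 0 ≤ N) (hK : K ≤ K')
    (hMs : Ms' ⊆ Ms) (hWs : Ws' ⊆ Ws) : W.Ok N K' d S Ms' Ws' where
  prob := h.prob
  m_co := h.m_co
  m_Sp := h.m_Sp
  m_Ev0 := h.m_Ev0
  m_hist := h.m_hist
  Sp_full := h.Sp_full
  Ev0_sub := h.Ev0_sub
  bd := fun l hl => by
    obtain ⟨h1, h2, h3, h4, h5⟩ := h.bd l hl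
    exact ⟨h1.trans hK, h2.trans hK, h3.trans hK, h4.trans hK, fun t ht => (h5 t ht).trans hK⟩
  χ0_pos := h.χ0_pos
  χ0_le := h.χ0_le
  pal_le := h.pal_le
  pal_ball := fun x p hp => (h.pal_ball x p hp).trans (ENNReal.ofReal_le_ofReal
    (mul_le_mul_of_nonneg_right hK (Real.rpow_nonneg (h.χ0_pos.le.trans hp) _)))
  joint := fun M hM r hr c b => (h.joint M (hMs hM) r (hWs hr) c b).trans (by
    have h1 : 0 ≤ (N ^ (-r)) ^ d := Real.rpow_nonneg (Real.rpow_nonneg hN _) _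
    have h2 : 0 ≤ N ^ (-M) := Real.rpow_nonneg hN _
    gcongr)
  dom := ks_dom_mono h.dom le_rfl (fun _ _ => le_rfl) (fun _ => le_rfl) (ENNReal.ofReal_le_ofReal hK)

theorem k7w_w_mono {W : K7aW} {N K K' d S a h g : ℝ} {Ms Ms' Ws Ws' : Finset ℝ} (H : W.Ok N K d S a h g Ms Ws) (hN : 0 ≤ N) (hK : K ≤ K')
    (ha : 0 ≤ a) (hh : 0 ≤ h) (hg : 0 ≤ g) (hMs : Ms' ⊆ Ms) (hWs : Ws' ⊆ Ws) : W.Ok N K' d S a h g Ms' Ws' where
  ln := k7w_ln_mono H.ln hN hK hMs hWs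
  m_labQ := H.m_labQ
  m_asg := H.m_asg
  q_lo := H.q_lo.trans (mul_le_mul_of_nonneg_right hK (by unfold K7aW.q; positivity))
  q_hi := H.q_hi.trans (mul_le_mul_of_nonneg_right hK hh)
  iv_lt := H.iv_lt
  asg_Sp := H.asg_Sp
  disj := H.disj
  row_bd := fun Q hQ => by
    obtain ⟨h1, h2, h3, h4⟩ := H.row_bd Q hQ
    exact ⟨h1.trans hK, h2.trans hK, h3.trans hK, h4.trans hK⟩
  box := fun Q hQ l hl t ht => by
    obtain ⟨h1, h2⟩ := H.box Q hQ l hl t ht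
    exact ⟨h1.trans (mul_le_mul_of_nonneg_right hK hh), h2.trans (mul_le_mul_of_nonneg_right hK (mul_nonneg hh hg))⟩
  slope := fun Q hQ l hl => (H.slope Q hQ l hl).trans (mul_le_mul_of_nonneg_right hK hg)
  ν_lo := fun Q hQ => (H.ν_lo Q hQ).trans (mul_le_mul' (ENNReal.ofReal_le_ofReal hK) le_rfl)
  ν_hi := fun Q hQ => (H.ν_hi Q hQ).trans (ENNReal.ofReal_le_ofReal (mul_le_mul_of_nonneg_right hK
    (mul_nonneg (mul_nonneg (Real.rpow_nonneg ha _) hh) (mul_nonneg hh hg))))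
  lab := H.lab
  capQ := fun Q hQ U hU => (H.capQ Q hQ U hU).trans (mul_le_mul' (mul_le_mul' (ENNReal.ofReal_le_ofReal hK) le_rfl) le_rfl)
  opt := fun M hM r hr => by
    obtain ⟨n, h1, h2⟩ := H.opt M (hMs hM) r (hWs hr)
    exact ⟨n, h1.trans hK, h2⟩
  ref_in := fun Q hQ => (H.ref_in Q hQ).trans (mul_le_mul' (ENNReal.ofReal_le_ofReal (mul_le_mul_of_nonneg_right hK hh)) le_rfl)

theorem k7w_layer_mono {W : K7aLn} {P : K7aLayer W} {K K' χ th β d : ℝ} (H : P.Ok K χ th β d) (hK : K ≤ K') (hth : 0 ≤ th) (hβ : 0 ≤ β) :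
    P.Ok K' χ th β d where
  meas := H.meas
  grp := H.grp
  quad := H.quad
  norm := fun φ t ht u hu => (H.norm φ t ht u hu).trans hK
  fit := fun l φ hl t ht => by
    obtain ⟨h1, h2⟩ := H.fit l φ hl t ht
    exact ⟨h1.trans (mul_le_mul_of_nonneg_right hK hβ), h2.trans (mul_le_mul_of_nonneg_right hK hth)⟩
  floor := fun φ => (H.floor φ).trans (mul_le_mul' (ENNReal.ofReal_le_ofReal hK) le_rfl)

theorem k7w_lists_mono {W : K7aW} {P : K7aLayer W.toK7aLn} {E E' : Set (W.L × ℝ)} {K K' χ qd g b : ℝ} (H : K7aLists W P E K χ qd g b) (hK : K ≤ K')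
    (hE : E' ⊆ E) : K7aLists W P E' K' χ qd g b where
  fwd := fun Q m z D => by
    obtain ⟨S, h1, h2⟩ := H.fwd Q m z D
    exact ⟨S, h1.trans hK, fun p hp => h2 p (hE hp)⟩
  bwd := fun φ D => by
    obtain ⟨S, h1, h2⟩ := H.bwd φ D
    exact ⟨S, h1.trans hK, fun p hp => h2 p (hE hp)⟩

/-- **the standing hypotheses pass to every dense sub-selection, to a larger slack and to shorter requirement lists** -/
theorem k7w_hyp_mono {x : K7wExp} {Mχ N K K' : ℝ} {Ms Ms' Ws Ws' : Finset ℝ} {W : K7aW} {P : Fin 3 → K7aLayer W.toK7aLn} {β : Fin 3 → ℝ}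
    {E E' : Set (W.L × ℝ)} (H : K7wHyp x Mχ N K Ms Ws W P β E) (hN : 0 < N) (hK0 : 0 < K) (hK : K ≤ K') (hMs : Ms' ⊆ Ms) (hWs : Ws' ⊆ Ws)
    (hE : K7wSel W E E' K') : K7wHyp x Mχ N K' Ms' Ws' W P β E' := by
  have hβ : ∀ i, 0 ≤ β i := by
    intro i
    have h1 : 0 < K * β i := lt_of_lt_of_le (Real.rpow_pos_of_pos hN _) (H.βlo i)
    exact ((mul_pos_iff_of_pos_left hK0).1 h1).le
  exact
  { w := k7w_w_mono H.w hN.le hK (Real.rpow_nonneg hN.le _) (Real.rpow_nonneg hN.le _) (Real.rpow_nonneg hN.le _) hMs hWs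
    βlo := fun i => (H.βlo i).trans (mul_le_mul_of_nonneg_right hK (hβ i))
    βhi := fun i => (H.βhi i).trans (mul_le_mul_of_nonneg_right hK (Real.rpow_nonneg hN.le _))
    lay := fun i => k7w_layer_mono (H.lay i) hK (Real.rpow_nonneg hN.le _) (hβ i)
    mE := hE.2.1
    sub := hE.1.trans H.sub
    lab := fun p hp => H.lab p (hE.1 hp)
    mass := hE.2.2
    lists := k7w_lists_mono H.lists hK hE.1 }

theorem k7w_var_mono {W : K7aW} {P : Fin 3 → K7aLayer W.toK7aLn} {b ε Λ : ℝ} {E E' : Set (W.L × ℝ)} (H : K7wVar W P b ε Λ E) (hE : E' ⊆ E) :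
    K7wVar W P b ε Λ E' := fun p hp => H p (hE hp)

theorem k7w_cnt_mono {W : K7aW} {P : Fin 3 → K7aLayer W.toK7aLn} {E E' : Set (W.L × ℝ)} {K K' g : ℝ} {r : Fin 3 → ℝ} (H : K7wCnt W P E K g r)
    (hK : K ≤ K') (hr : ∀ i, 0 ≤ r i) (hE : E' ⊆ E) : K7wCnt W P E' K' g r where
  fine := fun i Q φ0 => by
    obtain ⟨S, h1, h2⟩ := H.fine i Q φ0
    exact ⟨S, h1.trans (mul_le_mul_of_nonneg_right hK (hr i)), fun p hp => h2 p (hE hp)⟩
  back := fun φ1 D => by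
    obtain ⟨S, h1, h2⟩ := H.back φ1 D
    exact ⟨S, h1.trans hK, fun p hp => h2 p (hE hp)⟩

theorem k7w_field_mono {W : K7aW} {P0 : K7aLayer W.toK7aLn} {E : Set (W.L × ℝ)} {K K' e b σ pw : ℝ} {c1 c2 : W.Q × (ℤ × ℤ × ℤ × ℤ) → ℝ}
    (H : K7wField W P0 E K e b σ pw c1 c2) (hK : K ≤ K') (he : 0 ≤ e) : K7wField W P0 E K' e b σ pw c1 c2 where
  fit := fun p hp φ hφ => by
    obtain ⟨h1, h2⟩ := H.fit p hp φ hφ
    exact ⟨h1.trans (mul_le_mul_of_nonneg_right hK he), h2.trans (mul_le_mul_of_nonneg_right hK he)⟩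
  dom := fun s bn => (H.dom s bn).trans (mul_le_mul' (mul_le_mul' (ENNReal.ofReal_le_ofReal hK) le_rfl) le_rfl)

theorem k7w_sel_mono {W : K7aW} {E E' : Set (W.L × ℝ)} {K K' : ℝ} (H : K7wSel W E E' K) (hK : K ≤ K') : K7wSel W E E' K' :=
  ⟨H.1, H.2.1, H.2.2.trans (mul_le_mul' (ENNReal.ofReal_le_ofReal hK) le_rfl)⟩

/-! ## The glue -/

theorem k7w_rpow_le {N a b : ℝ} (hN : 1 ≤ N) (h : a ≤ b) : N ^ a ≤ N ^ b := Real.rpow_le_rpow_of_exponent_le hN h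

/-- **P7.3 from the five stages** -/
theorem k7w_glue (hA : K7wStageA) (hB : K7wStageB) (hC : K7wStageC) (hD : K7wStageD) (hE : K7wStageE) : k7a_P73 := by
  intro d S s u c2 eh eg B hd0 hd1 hS hs hu hc0 hc1 heh heg hBg hBb hBh
  have hadm : (K7wExp.mk d S s u c2 eh eg B).Adm := ⟨hd0, hd1, hS, hs, hu, hc0, hc1, heh, heg, hBg, hBb, hBh⟩
  obtain ⟨MA, hA⟩ := hA _ hadm
  obtain ⟨MB, hB⟩ := hB _ hadm
  obtain ⟨MC, hC⟩ := hC _ hadm
  obtain ⟨MD, hD⟩ := hD _ hadm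
  obtain ⟨ME, hE⟩ := hE _ hadm
  refine ⟨max MA (max MB (max MC (max MD ME))), fun Mχ hMχ => ?_⟩
  have hA := hA Mχ ((le_max_left _ _).trans hMχ)
  have hB := hB Mχ (((le_max_left _ _).trans (le_max_right _ _)).trans hMχ)
  have hC := hC Mχ ((((le_max_left _ _).trans (le_max_right _ _)).trans (le_max_right _ _)).trans hMχ)
  have hD := hD Mχ (((((le_max_left _ _).trans (le_max_right _ _)).trans (le_max_right _ _)).trans (le_max_right _ _)).trans hMχ)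
  have hE := hE Mχ (((((le_max_right _ _).trans (le_max_right _ _)).trans (le_max_right _ _)).trans (le_max_right _ _)).trans hMχ)
  obtain ⟨MstC, rstC, hC⟩ := hC
  obtain ⟨MstD, rstD, hD⟩ := hD
  have hC := hC (max MstC MstD) (max rstC rstD) (le_max_left _ _) (le_max_left _ _)
  have hD := hD (max MstC MstD) (max rstC rstD) (le_max_right _ _) (le_max_right _ _)
  obtain ⟨M0A, hA⟩ := hA
  obtain ⟨M0B, hB⟩ := hB
  obtain ⟨M0C, hC⟩ := hC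
  obtain ⟨M0D, hD⟩ := hD
  obtain ⟨M0E, hE⟩ := hE
  refine ⟨max M0A (max M0B (max M0C (max M0D M0E))), fun τ' hτ' => ?_⟩
  have mA : M0A ≤ max M0A (max M0B (max M0C (max M0D M0E))) := le_max_left _ _
  have mB : M0B ≤ max M0A (max M0B (max M0C (max M0D M0E))) := (le_max_left _ _).trans (le_max_right _ _)
  have mC : M0C ≤ max M0A (max M0B (max M0C (max M0D M0E))) := ((le_max_left _ _).trans (le_max_right _ _)).trans (le_max_right _ _)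
  have mD : M0D ≤ max M0A (max M0B (max M0C (max M0D M0E))) :=
    (((le_max_left _ _).trans (le_max_right _ _)).trans (le_max_right _ _)).trans (le_max_right _ _)
  have mE : M0E ≤ max M0A (max M0B (max M0C (max M0D M0E))) :=
    (((le_max_right _ _).trans (le_max_right _ _)).trans (le_max_right _ _)).trans (le_max_right _ _)
  obtain ⟨τE, N1E, MsE, WsE, hτE, bME, bWE, hE⟩ := hE τ' hτ'
  obtain ⟨τD, N1D, MsD, WsD, hτD, bMD, bWD, hD⟩ := hD τE hτE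
  obtain ⟨τC, N1C, MsC, WsC, hτC, bMC, bWC, hC⟩ := hC (min τD τE) (lt_min hτD hτE)
  obtain ⟨τB, N1B, MsB, WsB, hτB, bMB, bWB, hB⟩ := hB (min τC (min τD τE)) (lt_min hτC (lt_min hτD hτE))
  obtain ⟨τA, N1A, MsA, WsA, hτA, bMA, bWA, hA⟩ := hA (min τB (min τC (min τD τE))) (lt_min hτB (lt_min hτC (lt_min hτD hτE)))
  obtain ⟨τ0, hτ0⟩ : ∃ τ0, τ0 = min τA (min τB (min τC (min τD τE))) := ⟨_, rfl⟩
  have h0A : τ0 ≤ τA := hτ0 ▸ min_le_left _ _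
  have h0B : τ0 ≤ τB := hτ0 ▸ (min_le_right _ _).trans (min_le_left _ _)
  have h0C : τ0 ≤ τC := hτ0 ▸ ((min_le_right _ _).trans (min_le_right _ _)).trans (min_le_left _ _)
  have h0D : τ0 ≤ τD := hτ0 ▸ (((min_le_right _ _).trans (min_le_right _ _)).trans (min_le_right _ _)).trans (min_le_left _ _)
  have h0E : τ0 ≤ τE := hτ0 ▸ (((min_le_right _ _).trans (min_le_right _ _)).trans (min_le_right _ _)).trans (min_le_right _ _)
  have hτ0pos : 0 < τ0 := hτ0 ▸ lt_min hτA (lt_min hτB (lt_min hτC (lt_min hτD hτE)))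
  refine ⟨τ0, max 1 (max N1A (max N1B (max N1C (max N1D N1E)))),
    MsA ∪ (MsB ∪ (MsC ∪ (MsD ∪ MsE))), WsA ∪ (WsB ∪ (WsC ∪ (WsD ∪ WsE))), hτ0pos, ?_, ?_, ?_⟩
  · intro M hM
    simp only [Finset.mem_union] at hM
    rcases hM with h | h | h | h | h
    · exact ⟨(bMA M h).1, (bMA M h).2.trans mA⟩
    · exact ⟨(bMB M h).1, (bMB M h).2.trans mB⟩
    · exact ⟨(bMC M h).1, (bMC M h).2.trans mC⟩
    · exact ⟨(bMD M h).1, (bMD M h).2.trans mD⟩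
    · exact ⟨(bME M h).1, (bME M h).2.trans mE⟩
  · intro M hM
    simp only [Finset.mem_union] at hM
    rcases hM with h | h | h | h | h
    · exact ⟨(bWA M h).1, (bWA M h).2.trans mA⟩
    · exact ⟨(bWB M h).1, (bWB M h).2.trans mB⟩
    · exact ⟨(bWC M h).1, (bWC M h).2.trans mC⟩
    · exact ⟨(bWD M h).1, (bWD M h).2.trans mD⟩
    · exact ⟨(bWE M h).1, (bWE M h).2.trans mE⟩
  intro N hN W P β E hW hχ0 hβ hP0 hP1 hP2 hmE hsub hlab hmass hlists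
  have hN1 : 1 ≤ N := (le_max_left _ _).trans hN
  have hNpos : 0 < N := lt_of_lt_of_le one_pos hN1
  have hNA : N1A ≤ N := ((le_max_left _ _).trans (le_max_right _ _)).trans hN
  have hNB : N1B ≤ N := (((le_max_left _ _).trans (le_max_right _ _)).trans (le_max_right _ _)).trans hN
  have hNC : N1C ≤ N := ((((le_max_left _ _).trans (le_max_right _ _)).trans (le_max_right _ _)).trans (le_max_right _ _)).trans hN
  have hND : N1D ≤ N :=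
    (((((le_max_left _ _).trans (le_max_right _ _)).trans (le_max_right _ _)).trans (le_max_right _ _)).trans (le_max_right _ _)).trans hN
  have hNE : N1E ≤ N :=
    (((((le_max_right _ _).trans (le_max_right _ _)).trans (le_max_right _ _)).trans (le_max_right _ _)).trans (le_max_right _ _)).trans hN
  have hχ : ∀ M0 : ℝ, M0 ≤ max M0A (max M0B (max M0C (max M0D M0E))) → W.χ0 ≤ N ^ (-M0) := fun M0 h =>
    hχ0.trans (k7w_rpow_le hN1 (neg_le_neg h))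
  have hχA := hχ M0A (le_max_left _ _)
  have hχB := hχ M0B ((le_max_left _ _).trans (le_max_right _ _))
  have hχC := hχ M0C (((le_max_left _ _).trans (le_max_right _ _)).trans (le_max_right _ _))
  have hχD := hχ M0D ((((le_max_left _ _).trans (le_max_right _ _)).trans (le_max_right _ _)).trans (le_max_right _ _))
  have hχE := hχ M0E ((((le_max_right _ _).trans (le_max_right _ _)).trans (le_max_right _ _)).trans (le_max_right _ _))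
  have hKpos : ∀ t : ℝ, 0 < N ^ t := fun t => Real.rpow_pos_of_pos hNpos t
  -- the standing hypotheses
  have H0 : K7wHyp (K7wExp.mk d S s u c2 eh eg B) Mχ N (N ^ τ0) (MsA ∪ (MsB ∪ (MsC ∪ (MsD ∪ MsE)))) (WsA ∪ (WsB ∪ (WsC ∪ (WsD ∪ WsE))))
      W P β E :=
    { w := hW
      βlo := fun i => by
        have h1 : N ^ (-B i) = N ^ τ0 * N ^ (-B i - τ0) := by
          rw [← Real.rpow_add hNpos]
          congr 1
          ring
        show N ^ (-B i) ≤ N ^ τ0 * β i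
        rw [h1]
        exact mul_le_mul_of_nonneg_left (hβ i).1 (hKpos _).le
      βhi := fun i => by
        have h1 : N ^ τ0 * N ^ (-B i) = N ^ (-B i + τ0) := by
          rw [← Real.rpow_add hNpos]
          congr 1
          ring
        show β i ≤ N ^ τ0 * N ^ (-B i)
        rw [h1]
        exact (hβ i).2
      lay := fun i => by
        have e0 : -(K7wExp.mk d S s u c2 eh eg B).st 0 = -s := by simp [K7wExp.st]
        have e1 : -(K7wExp.mk d S s u c2 eh eg B).st 1 = -s - u := by simp [K7wExp.st]; ring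
        have e2 : -(K7wExp.mk d S s u c2 eh eg B).st 2 = -s - c2 := by simp [K7wExp.st]; ring
        fin_cases i
        · show (P 0).Ok _ _ (N ^ (-(K7wExp.mk d S s u c2 eh eg B).st 0)) _ _
          rw [e0]
          exact hP0
        · show (P 1).Ok _ _ (N ^ (-(K7wExp.mk d S s u c2 eh eg B).st 1)) _ _
          rw [e1]
          exact hP1
        · show (P 2).Ok _ _ (N ^ (-(K7wExp.mk d S s u c2 eh eg B).st 2)) _ _
          rw [e2]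
          exact hP2
      mE := hmE
      sub := hsub
      lab := hlab
      mass := hmass
      lists := hlists }
  have sA : MsA ⊆ MsA ∪ (MsB ∪ (MsC ∪ (MsD ∪ MsE))) := Finset.subset_union_left
  have sB : MsB ⊆ MsA ∪ (MsB ∪ (MsC ∪ (MsD ∪ MsE))) := Finset.subset_union_left.trans Finset.subset_union_right
  have sC : MsC ⊆ MsA ∪ (MsB ∪ (MsC ∪ (MsD ∪ MsE))) := (Finset.subset_union_left.trans Finset.subset_union_right).trans Finset.subset_union_right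
  have sD : MsD ⊆ MsA ∪ (MsB ∪ (MsC ∪ (MsD ∪ MsE))) :=
    ((Finset.subset_union_left.trans Finset.subset_union_right).trans Finset.subset_union_right).trans Finset.subset_union_right
  have sE : MsE ⊆ MsA ∪ (MsB ∪ (MsC ∪ (MsD ∪ MsE))) :=
    ((Finset.subset_union_right.trans Finset.subset_union_right).trans Finset.subset_union_right).trans Finset.subset_union_right
  have wA : WsA ⊆ WsA ∪ (WsB ∪ (WsC ∪ (WsD ∪ WsE))) := Finset.subset_union_left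
  have wB : WsB ⊆ WsA ∪ (WsB ∪ (WsC ∪ (WsD ∪ WsE))) := Finset.subset_union_left.trans Finset.subset_union_right
  have wC : WsC ⊆ WsA ∪ (WsB ∪ (WsC ∪ (WsD ∪ WsE))) := (Finset.subset_union_left.trans Finset.subset_union_right).trans Finset.subset_union_right
  have wD : WsD ⊆ WsA ∪ (WsB ∪ (WsC ∪ (WsD ∪ WsE))) :=
    ((Finset.subset_union_left.trans Finset.subset_union_right).trans Finset.subset_union_right).trans Finset.subset_union_right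
  have wE : WsE ⊆ WsA ∪ (WsB ∪ (WsC ∪ (WsD ∪ WsE))) :=
    ((Finset.subset_union_right.trans Finset.subset_union_right).trans Finset.subset_union_right).trans Finset.subset_union_right
  have hr : ∀ i : Fin 3, 0 ≤ (fun i => N ^ (d * ((K7wExp.mk d S s u c2 eh eg B).st i - s))) i := fun i => (hKpos _).le
  -- stage A
  obtain ⟨E1, hS1, hV1⟩ := hA N hNA W P β E
    (k7w_hyp_mono H0 hNpos (hKpos _) (k7w_rpow_le hN1 h0A) sA wA ⟨subset_rfl, hmE, hmass.trans (mul_le_mul' (ENNReal.ofReal_le_ofReal (k7w_rpow_le hN1 h0A)) le_rfl)⟩) hχA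
  -- stage B
  obtain ⟨E2, hS2, hC2⟩ := hB N hNB W P β E1
    (k7w_hyp_mono H0 hNpos (hKpos _) (k7w_rpow_le hN1 h0B) sB wB (k7w_sel_mono hS1 (k7w_rpow_le hN1 (min_le_left _ _)))) hχB hV1
  have hE2 : E2 ⊆ E := hS2.1.trans hS1.1
  have hV2 := k7w_var_mono hV1 hS2.1
  -- stage C
  obtain ⟨E3, c1, c2', hS3, hF3⟩ := hC N hNC W P β E2
    (k7w_hyp_mono H0 hNpos (hKpos _) (k7w_rpow_le hN1 h0C) sC wC ⟨hE2, hS2.2.1, (k7w_sel_mono hS2 (k7w_rpow_le hN1 (min_le_left _ _))).2.2⟩) hχC hV2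
    (k7w_cnt_mono hC2 (k7w_rpow_le hN1 (min_le_left _ _)) hr subset_rfl)
  have hE3 : E3 ⊆ E := hS3.1.trans hE2
  have hV3 := k7w_var_mono hV2 hS3.1
  -- stage D
  obtain ⟨Q, γ0, γ1, γ2, C2, E4, hCm⟩ := hD N hND W P β E3 c1 c2'
    (k7w_hyp_mono H0 hNpos (hKpos _) (k7w_rpow_le hN1 h0D) sD wD ⟨hE3, hS3.2.1, (k7w_sel_mono hS3 (k7w_rpow_le hN1 (min_le_left _ _))).2.2⟩) hχD
    (k7w_field_mono hF3 (k7w_rpow_le hN1 (min_le_left _ _)) (hKpos _).le)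
  -- stage E
  obtain ⟨F, Cn, hF, hCnm, hCns, hfit, hm⟩ := hE N hNE W P β E3 Q γ0 γ1 γ2 C2 E4
    (k7w_hyp_mono H0 hNpos (hKpos _) (k7w_rpow_le hN1 h0E) sE wE ⟨hE3, hS3.2.1, (k7w_sel_mono hS3 (k7w_rpow_le hN1 (min_le_right _ _))).2.2⟩) hχE hV3
    (k7w_cnt_mono hC2 (k7w_rpow_le hN1 ((min_le_right _ _).trans (min_le_right _ _))) hr hS3.1) hCm
  exact ⟨Q, F, Cn, hCm.Qa, hF, hCnm, fun p hp => ⟨hE3 (hCm.sub (hCns hp)).1, (hCm.sub (hCns hp)).2⟩, hfit, hm⟩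

end

end Claimed.Agent.R252
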