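import Claimed.Agent.R252.S3c.MatchContract
import Claimed.Agent.R252.S3c.RadMvContract
import Claimed.Agent.R252.S3c.ExitsContract
import Claimed.Agent.R252.S7a.WideDefs
import Claimed.Agent.R252.S7a.ProjDefs
import Claimed.Agent.R252.S2s.Api
import Claimed.Agent.R252.S7a.WideGlue
import Claimed.Agent.R252.S7a.WideContract

/-!
# ROW 252 (S0492), unit S7a (architect helper26): `k7a_Match` FROM THE EXIT OF UNIT S3c.      leaf L-252-S7a-MATCH: PROVED (helper98).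

PLAN.  `k3c_class_poly 2` gives `C`;  `k3c_match 2 2 2 2 2 d0 hd` gives `ε₁, R₁`.   `ε := ε₁`, `R0 := max R₁ (max 1 (C ^ (1/ε₁)))`, so that `C ≤ R^ε` (monotonicity of `K3cClass` in the constant: fields `good₀`, `good₁`, `sh2_good1_mono` as in `S3c/HubsContract`).
Box `a = 0`, `b = 1` in `Fin 2 → ℝ` (`∏ (b i - a i) = 1`), class `S = k3cPolC 2 2`.   Transport by `e = MeasurableEquiv.finTwoArrow` (`volume_preserving_finTwoArrow`):
`f₁' i u := f1 i (u 0) (u 1)` (a member of `k3cPolC 2 2`: write the polynomial `C e0 + C e1 * X 0 + ..` from `K7aQuad`), `pr i j := (Pr i j).map e.symm`, `π' := (π i).toReal` (`π i ≤ 1 < ∞`; `ofReal (R^ε * π.toReal) = ofReal (R^ε) * π`).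
Marginals: `∑ j, Pr i j ≤ c • volume` and `Pr i j (Icc ×ˢ Icc)ᶜ = 0` give `≤ c • volume.restrict (Icc ×ˢ Icc)`; `e.symm '' (Icc 0 1 ×ˢ Icc 0 1) = Icc 0 1`.   a.e. statements: `ae_map_iff` / `MeasurableEquiv.ae_map_iff`.   Total masses are preserved by `map`.
-/

set_option autoImplicit false

namespace Claimed.Agent.R252

open MeasureTheory
open scoped ENNReal BigOperators

/-- a quadratic in two variables is a member of the polynomial class -/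
theorem k7a_mt_quad {F : ℝ → ℝ → ℝ} (hF : K7aQuad F) : (fun u : Fin 2 → ℝ => F (u 0) (u 1)) ∈ k3cPolC 2 2 := by
  obtain ⟨e0, e1, e2, e3, e4, e5, h⟩ := hF
  refine ⟨MvPolynomial.C e0 + MvPolynomial.C e1 * MvPolynomial.X 0 + MvPolynomial.C e2 * MvPolynomial.X 1
    + MvPolynomial.C e3 * MvPolynomial.X 0 ^ 2 + MvPolynomial.C e4 * (MvPolynomial.X 0 * MvPolynomial.X 1)
    + MvPolynomial.C e5 * MvPolynomial.X 1 ^ 2, ?_, ?_⟩
  · have hX : ∀ i : Fin 2, (MvPolynomial.X i : MvPolynomial (Fin 2) ℝ).totalDegree ≤ 1 := fun i => by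
      rw [MvPolynomial.totalDegree_X]
    have hC : ∀ e : ℝ, (MvPolynomial.C e : MvPolynomial (Fin 2) ℝ).totalDegree = 0 := fun e => MvPolynomial.totalDegree_C e
    have hCm : ∀ (e : ℝ) (P : MvPolynomial (Fin 2) ℝ), P.totalDegree ≤ 2 → (MvPolynomial.C e * P).totalDegree ≤ 2 := fun e P hP => by
      refine (MvPolynomial.totalDegree_mul _ _).trans ?_
      rw [hC]; omega
    have hsq : ∀ i : Fin 2, ((MvPolynomial.X i : MvPolynomial (Fin 2) ℝ) ^ 2).totalDegree ≤ 2 := fun i => by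
      refine (MvPolynomial.totalDegree_pow _ _).trans ?_
      have := hX i; omega
    have hmul : ((MvPolynomial.X 0 : MvPolynomial (Fin 2) ℝ) * MvPolynomial.X 1).totalDegree ≤ 2 := by
      refine (MvPolynomial.totalDegree_mul _ _).trans ?_
      have := hX 0; have := hX 1; omega
    have hadd : ∀ P Q : MvPolynomial (Fin 2) ℝ, P.totalDegree ≤ 2 → Q.totalDegree ≤ 2 → (P + Q).totalDegree ≤ 2 := fun P Q h1 h2 =>
      (MvPolynomial.totalDegree_add _ _).trans (max_le h1 h2)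
    refine hadd _ _ (hadd _ _ (hadd _ _ (hadd _ _ (hadd _ _ (by rw [hC]; omega) (hCm _ _ ((hX 0).trans (by omega))))
      (hCm _ _ ((hX 1).trans (by omega)))) (hCm _ _ (hsq 0))) (hCm _ _ hmul)) (hCm _ _ (hsq 1))
  · intro u
    simp only [map_add, map_mul, map_pow, MvPolynomial.eval_C, MvPolynomial.eval_X]
    rw [h]; ring

/-- the unit square in the two models -/
theorem k7a_mt_box : (MeasurableEquiv.finTwoArrow (α := ℝ)).symm ⁻¹' (Set.Icc (fun _ => 0 : Fin 2 → ℝ) (fun _ => 1))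
    = Set.Icc (0 : ℝ) 1 ×ˢ Set.Icc (0 : ℝ) 1 := by
  ext z
  simp only [Set.mem_preimage, Set.mem_Icc, Set.mem_prod, Pi.le_def, Fin.forall_fin_two]
  simp [MeasurableEquiv.finTwoArrow]
  tauto

/-- transport of a marginal ceiling -/
theorem k7a_mt_marg {J : Type} [Fintype J] (P : J → Measure (ℝ × ℝ)) (cst : ℝ≥0∞)
    (h0 : ∀ j, P j (Set.Icc (0 : ℝ) 1 ×ˢ Set.Icc (0 : ℝ) 1)ᶜ = 0) (h : ∑ j, P j ≤ cst • volume) :
    ∑ j, (P j).map (MeasurableEquiv.finTwoArrow (α := ℝ)).symm ≤ cst • volume.restrict (Set.Icc (fun _ => 0 : Fin 2 → ℝ) (fun _ => 1)) := by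
  set e := (MeasurableEquiv.finTwoArrow (α := ℝ)) with he
  refine Measure.le_iff.2 fun A hA => ?_
  set Q : Set (ℝ × ℝ) := Set.Icc (0 : ℝ) 1 ×ˢ Set.Icc (0 : ℝ) 1 with hQ
  have hQm : MeasurableSet Q := measurableSet_Icc.prod measurableSet_Icc
  have hmp : MeasurePreserving e.symm volume volume := (volume_preserving_finTwoArrow ℝ).symm e
  rw [Measure.finset_sum_apply, Measure.smul_apply, smul_eq_mul, Measure.restrict_apply hA]
  have h1 : ∀ j, (P j).map e.symm A = P j (e.symm ⁻¹' A ∩ Q) := fun j => by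
    rw [e.symm.map_apply]
    refine le_antisymm ?_ (measure_mono Set.inter_subset_left)
    calc P j (e.symm ⁻¹' A) ≤ P j (e.symm ⁻¹' A ∩ Q) + P j Qᶜ := by
          refine (measure_mono ?_).trans (measure_union_le _ _)
          intro z hz
          by_cases hzQ : z ∈ Q
          · exact Or.inl ⟨hz, hzQ⟩
          · exact Or.inr hzQ
      _ = P j (e.symm ⁻¹' A ∩ Q) := by rw [h0 j, add_zero]
  have h2 : volume (A ∩ Set.Icc (fun _ => 0 : Fin 2 → ℝ) (fun _ => 1)) = volume (e.symm ⁻¹' A ∩ Q) := by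
    rw [← hmp.measure_preimage (hA.inter measurableSet_Icc).nullMeasurableSet, Set.preimage_inter, k7a_mt_box]
  rw [Finset.sum_congr rfl (fun j _ => h1 j), h2]
  have h3 := h (e.symm ⁻¹' A ∩ Q)
  rwa [Measure.finset_sum_apply, Measure.smul_apply, smul_eq_mul] at h3

/-- **L-252-S7a-MATCH** -/
theorem k7a_match_pf : k7a_Match := by
  intro d0 hd
  obtain ⟨C, hC1, hcl⟩ := k3c_class_poly 2
  obtain ⟨ε, hε, R₁, hm⟩ := k3c_match 2 2 2 2 2 d0 hd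
  refine ⟨ε, hε, max R₁ (max 1 (C ^ (1 / ε))), ?_⟩
  intro R M Δ hR hΔ hM I1 I2 _ _ f1 f2 fs π1 π2 Pr hq1 hq2 _hqs hc1 _hc2 hn1 hn2 hs1 hs2 hsupp hm1 hm2 hev hgap
  have hRR : R₁ ≤ R := (le_max_left _ _).trans hR
  have hR1 : 1 ≤ R := ((le_max_left _ _).trans (le_max_right _ _)).trans hR
  have hRC : C ^ (1 / ε) ≤ R := ((le_max_right _ _).trans (le_max_right _ _)).trans hR
  have hR0 : 0 < R := by linarith
  have hC0 : 0 < C := by linarith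
  have hCR : C ≤ R ^ ε := by
    calc C = (C ^ (1 / ε)) ^ ε := by rw [← Real.rpow_mul hC0.le, one_div, inv_mul_cancel₀ hε.ne', Real.rpow_one]
      _ ≤ R ^ ε := Real.rpow_le_rpow (by positivity) hRC hε.le
  set e := (MeasurableEquiv.finTwoArrow (α := ℝ)) with he
  have hπ1 : ∀ i, π1 i ≠ ⊤ := fun i => ne_top_of_le_ne_top ENNReal.one_ne_top
    ((Finset.single_le_sum (fun _ _ => zero_le) (Finset.mem_univ i)).trans hs1)
  have hπ2 : ∀ i, π2 i ≠ ⊤ := fun i => ne_top_of_le_ne_top ENNReal.one_ne_top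
    ((Finset.single_le_sum (fun _ _ => zero_le) (Finset.mem_univ i)).trans hs2)
  have hRε : 0 ≤ R ^ ε := by positivity
  have hprod : ∏ i : Fin 2, ((fun _ => 1 : Fin 2 → ℝ) i - (fun _ => 0 : Fin 2 → ℝ) i) = 1 := by simp
  have hcst : ∀ p : ℝ≥0∞, p ≠ ⊤ → ENNReal.ofReal (R ^ ε * p.toReal / ∏ i : Fin 2, ((fun _ => 1 : Fin 2 → ℝ) i - (fun _ => 0 : Fin 2 → ℝ) i))
      = ENNReal.ofReal (R ^ ε) * p := fun p hp => by
    rw [hprod, div_one, ENNReal.ofReal_mul hRε, ENNReal.ofReal_toReal hp]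
  have hsum : ∀ {I : Type} [Fintype I] (π : I → ℝ≥0∞), (∀ i, π i ≠ ⊤) → ∑ i, π i ≤ 1 → ∑ i, (π i).toReal ≤ 1 := by
    intro I _ π h1 h2
    rw [← ENNReal.toReal_sum (fun i _ => h1 i)]
    exact ENNReal.toReal_le_of_le_ofReal zero_le_one (by simpa using h2)
  have hmem : ∀ u : Fin 2 → ℝ, u ∈ Set.Icc (fun _ => 0 : Fin 2 → ℝ) (fun _ => 1) → u 0 ∈ Set.Icc (0 : ℝ) 1 ∧ u 1 ∈ Set.Icc (0 : ℝ) 1 :=
    fun u hu => ⟨⟨hu.1 0, hu.2 0⟩, ⟨hu.1 1, hu.2 1⟩⟩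
  have key := hm R hRR (fun _ => 0) (fun _ => 1) (k3cPolC 2 2) M Δ I1 I2 (fun i u => f1 i (u 0) (u 1)) (fun j u => f2 j (u 0) (u 1))
    (fun u => fs (u 0) (u 1)) (fun i => (π1 i).toReal) (fun j => (π2 j).toReal) (fun i j => (Pr i j).map e.symm)
    (fun _ => zero_lt_one) hΔ hM (k3c_class_mono hCR (hcl 2 _ _)) (fun i => k7a_mt_quad (hq1 i)) (fun j => k7a_mt_quad (hq2 j)) hc1
    (fun i u hu => hn1 i _ (hmem u hu).1 _ (hmem u hu).2) (fun j u hu => hn2 j _ (hmem u hu).1 _ (hmem u hu).2)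
    (fun _ => ENNReal.toReal_nonneg) (fun _ => ENNReal.toReal_nonneg) (hsum π1 hπ1 hs1) (hsum π2 hπ2 hs2)
    (fun i => by rw [hcst _ (hπ1 i)]; exact k7a_mt_marg (fun j => Pr i j) _ (fun j => hsupp i j) (hm1 i))
    (fun j => by rw [hcst _ (hπ2 j)]; exact k7a_mt_marg (fun i => Pr i j) _ (fun i => hsupp i j) (hm2 j))
    (fun i j => by
      rw [e.symm.measurableEmbedding.ae_map_iff]
      filter_upwards [hev i j] with z hz
      simpa [he, MeasurableEquiv.finTwoArrow] using hz)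
    (fun i j hne => by
      have : Pr i j ≠ 0 := fun h0 => hne (by rw [h0, Measure.map_zero])
      obtain ⟨t, ht, y, hy, h⟩ := hgap i j this
      refine ⟨![t, y], ⟨fun k => ?_, fun k => ?_⟩, by simpa using h⟩
      · fin_cases k
        · exact ht.1
        · exact hy.1
      · fin_cases k
        · exact ht.2
        · exact hy.2)
  have hun : ∀ i j, (Pr i j).map e.symm Set.univ = Pr i j Set.univ := fun i j => by
    rw [e.symm.map_apply, Set.preimage_univ]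
  simpa only [hun] using key

end Claimed.Agent.R252

/-!
# ROW 252 (S0492), unit S7a (architect helper26), file 5b: PROOFS of the adaptor leaves `L-252-S7a-AD1, AD2, AD3` (`KsRef → K7aLn, K7aW`)      (helper226).   Paper-free, no sorry.
-/

set_option autoImplicit false

namespace Claimed.Agent.R252

open MeasureTheory
open scoped ENNReal BigOperators

noncomputable section

/-! ## 0. bins -/

theorem k7a_ad_bin_iff (χ x : ℝ) (m : ℤ) : kbBin χ x = m ↔ x ∈ k7aBinI χ m := k2s_bin_iff χ x m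

theorem k7a_ad_bin_zero (χ : ℝ) : kbBin χ 0 = 0 := by
  unfold kbBin
  simp

theorem k7a_ad_binI_meas (χ : ℝ) (m : ℤ) : MeasurableSet (k7aBinI χ m) := measurableSet_Ico

/-! ## 1. the observable is a quadratic polynomial in time (AD1) -/

theorem k7a_ad_quad (T : KbTest KbVer.two) (hT : KbIsQuad T) (l : KbTj KbVer.two) : ∃ α β γ : ℝ, ∀ t, kbX T l t = α + β * t + γ * t ^ 2 := by
  obtain ⟨Q, hQ⟩ := hT
  have hw : ∀ t, kbW l t = l.2.2 (0 : Fin 2) + l.2.2 (1 : Fin 2) * t := fun t => by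
    unfold kbW
    exact (Fin.sum_univ_two _).trans (by simp)
  refine ⟨Q.c0 + Q.cy ⬝ᵥ l.1 + Q.cw * l.2.2 (0 : Fin 2) + l.1 ⬝ᵥ Q.cyy.mulVec l.1 + l.2.2 (0 : Fin 2) * (Q.cyw ⬝ᵥ l.1) + Q.cww * l.2.2 (0 : Fin 2) ^ 2,
    Q.ct + Q.cy ⬝ᵥ l.2.1 + Q.cw * l.2.2 (1 : Fin 2) + Q.cty ⬝ᵥ l.1 + Q.ctw * l.2.2 (0 : Fin 2) + (l.1 ⬝ᵥ Q.cyy.mulVec l.2.1 + l.2.1 ⬝ᵥ Q.cyy.mulVec l.1)
      + l.2.2 (0 : Fin 2) * (Q.cyw ⬝ᵥ l.2.1) + l.2.2 (1 : Fin 2) * (Q.cyw ⬝ᵥ l.1) + 2 * Q.cww * l.2.2 (0 : Fin 2) * l.2.2 (1 : Fin 2),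
    Q.ctt + Q.cty ⬝ᵥ l.2.1 + Q.ctw * l.2.2 (1 : Fin 2) + l.2.1 ⬝ᵥ Q.cyy.mulVec l.2.1 + l.2.2 (1 : Fin 2) * (Q.cyw ⬝ᵥ l.2.1) + Q.cww * l.2.2 (1 : Fin 2) ^ 2, fun t => ?_⟩
  unfold kbX
  rw [hQ, hw]
  unfold KbQuad.ev kbY
  simp only [dotProduct_add, add_dotProduct, dotProduct_smul, smul_dotProduct, Matrix.mulVec_add, Matrix.mulVec_smul, smul_eq_mul]
  ring

theorem k7a_ad_toLn_X (R : KsRef KbVer.two) {K : ℝ} (hR : R.Ok K) (A : R.Par) (l : R.L) (t : ℝ) : (R.toLn A).X l t = R.X l t := by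
  obtain ⟨α, β, γ, h⟩ := k7a_ad_quad (R.nat (R.par l)) (hR.nat_adm _).1 (R.co l)
  have hX : ∀ t, R.X l t = α + β * t + γ * t ^ 2 := h
  show R.X l 0 + (4 * R.X l (1 / 2) - R.X l 1 - 3 * R.X l 0) * t + (2 * R.X l 1 - 4 * R.X l (1 / 2) + 2 * R.X l 0) * t ^ 2 = R.X l t
  rw [hX 0, hX (1 / 2), hX 1, hX t]
  ring

/-! ## 2. the prior, the prepared law -/

section law

variable (R : KsRef KbVer.two) {K : ℝ}

theorem k7a_ad_lam0_par (hR : R.Ok K) {A : R.Par} (hO : R.One A) (B : Set (R.L × ℝ)) : R.lam0 B = R.lam0 (B ∩ {p | R.par p.1 = A}) := by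
  show (R.prior.restrict R.Ev0) _ = (R.prior.restrict R.Ev0) _
  rw [Measure.restrict_apply' hR.m_Ev0, Measure.restrict_apply' hR.m_Ev0]
  congr 1
  ext p
  constructor
  · rintro ⟨a, b⟩
    exact ⟨⟨a, hO.par p b⟩, b⟩
  · rintro ⟨⟨a, -⟩, b⟩
    exact ⟨a, b⟩

theorem k7a_ad_lam0_apply (hR : R.Ok K) {A : R.Par} (hO : R.One A) (B : Set (R.L × ℝ)) : (R.toLn A).lam0 B = R.lam0 (B ∩ {p | R.par p.1 = A}) :=
  k7a_ad_lam0_par R hR hO B

/-! ### the palette -/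

theorem k7a_ad_m_ksZ : Measurable ksZ := measurable_pi_apply _

theorem k7a_ad_m_ksY : Measurable ksY := measurable_pi_apply _

theorem k7a_ad_pal_apply (A : R.Par) {B : Set ℝ} (hB : MeasurableSet B) :
    (R.toLn A).pal B = R.pal A {V | ksZ V ∈ B ∧ ksY V ∈ k7aBinI R.χ 0} := by
  show (((R.pal A).restrict {V | ksY V ∈ k7aBinI R.χ 0}).map ksZ) B = _
  rw [Measure.map_apply k7a_ad_m_ksZ hB, Measure.restrict_apply (k7a_ad_m_ksZ hB)]
  rfl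

theorem k7a_ad_pi (A : R.Par) (b : ℤ) : (R.toLn A).pi b = R.pi A ![b, 0] := by
  show (R.toLn A).pal (k7aBinI R.χ b) = R.pal A (kpCube R.χ ![b, 0])
  rw [k7a_ad_pal_apply R A (k7a_ad_binI_meas _ _)]
  congr 1
  ext V
  show (ksZ V ∈ k7aBinI R.χ b ∧ ksY V ∈ k7aBinI R.χ 0) ↔ ∀ i : Fin 2, kbBin R.χ (V i) = (![b, 0] : Fin 2 → ℤ) i
  rw [Fin.forall_fin_two, ← k7a_ad_bin_iff, ← k7a_ad_bin_iff]
  rfl

theorem k7a_ad_vbin (hl : 0 < R.ell) (l : R.L) : R.vbin l = ![kbBin R.χ (ksZ (R.co l).2.1), 0] := by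
  funext i
  have h1 : R.vel l = fun i : Fin 2 => if (i : ℕ) = 0 then kbV (R.co l) i else 0 := by
    show kpPv R.prm (kbV (R.co l)) = _
    unfold kpPv
    rw [if_pos hl]
    rfl
  show kbBin R.χ (R.vel l i) = _
  rw [h1]
  revert i
  show ∀ i : Fin 2, _
  rw [Fin.forall_fin_two]
  refine ⟨rfl, ?_⟩
  show kbBin R.χ 0 = 0
  exact k7a_ad_bin_zero _

theorem k7a_ad_vbin_iff (hl : 0 < R.ell) (A : R.Par) (l : R.L) (b : ℤ) : (R.toLn A).vbin l = b ↔ R.vbin l = ![b, 0] := by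
  rw [k7a_ad_vbin R hl]
  show kbBin R.χ (ksZ (R.co l).2.1) = b ↔ _
  constructor
  · intro h; rw [h]
  · intro h; exact congrFun h (0 : Fin 2)

theorem k7a_ad_Z (A : R.Par) (l : R.L) (t : ℝ) : (R.toLn A).Z l t = ksZ (R.y l t) := by
  show ksZ (R.co l).1 + ksZ (R.co l).2.1 * t = (R.co l).1 (0 : Fin 2) + t * (R.co l).2.1 (0 : Fin 2)
  unfold ksZ
  ring

theorem k7a_ad_Y (A : R.Par) (l : R.L) (t : ℝ) : (R.toLn A).Y l t = ksY (R.y l t) := by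
  show ksY (R.co l).1 + ksY (R.co l).2.1 * t = (R.co l).1 (1 : Fin 2) + t * (R.co l).2.1 (1 : Fin 2)
  unfold ksY
  ring

theorem k7a_ad_pt_iff (hR : R.Ok K) (A : R.Par) (M r : ℝ) (z : R.L × ℝ) (c : ℤ × ℤ × ℤ × ℤ) :
    (R.toLn A).pt (R.N ^ (-M)) (R.N ^ (-r)) z = c ↔ R.pt M r z = (c.1, ![c.2.1, c.2.2.1], c.2.2.2) := by
  show (kbBin (R.N ^ (-M)) z.2, kbBin (R.N ^ (-M)) ((R.toLn A).Z z.1 z.2), kbBin (R.N ^ (-M)) ((R.toLn A).Y z.1 z.2), kbBin (R.N ^ (-r)) ((R.toLn A).X z.1 z.2)) = c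
    ↔ (kbBin (R.N ^ (-M)) z.2, (fun i : Fin 2 => kbBin (R.N ^ (-M)) (R.y z.1 z.2 i)), kbBin (R.N ^ (-r)) (R.X z.1 z.2)) = (c.1, ![c.2.1, c.2.2.1], c.2.2.2)
  rw [k7a_ad_Z, k7a_ad_Y, k7a_ad_toLn_X R hR]
  obtain ⟨c1, c2, c3, c4⟩ := c
  simp only [Prod.mk.injEq]
  constructor
  · rintro ⟨h1, h2, h3, h4⟩
    refine ⟨h1, ?_, h4⟩
    funext i
    revert i
    rw [Fin.forall_fin_two]
    exact ⟨h2, h3⟩
  · rintro ⟨h1, h2, h4⟩
    exact ⟨h1, congrFun h2 (0 : Fin 2), congrFun h2 (1 : Fin 2), h4⟩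

/-! ### measurability -/

theorem k7a_ad_meas_lab {Ω S β : Type*} [MeasurableSpace Ω] [MeasurableSpace β] [Fintype S] (s : Ω → S) (hs : KsLab s) (F : S → Ω → β)
    (hF : ∀ a, Measurable (F a)) : Measurable fun ω => F (s ω) ω := by
  intro B hB
  have : (fun ω => F (s ω) ω) ⁻¹' B = ⋃ a, (s ⁻¹' {a} ∩ F a ⁻¹' B) := by
    ext ω
    simp
  rw [this]
  exact MeasurableSet.iUnion fun a => (hs a).inter (hF a hB)

theorem k7a_ad_m_kbX (T : KbTest KbVer.two) (hT : KbIsQuad T) (t : ℝ) : Measurable fun c : KbTj KbVer.two => kbX T c t := by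
  obtain ⟨Q, hQ⟩ := hT
  have : (fun c : KbTj KbVer.two => kbX T c t) = fun c => Q.ev t (kbY c t) (kbW c t) := by
    funext c
    exact hQ _ _ _
  rw [this]
  unfold KbQuad.ev kbY kbW dotProduct Matrix.mulVec dotProduct
  apply Continuous.measurable
  fun_prop

theorem k7a_ad_m_X (hR : R.Ok K) (t : ℝ) : Measurable fun l => R.X l t :=
  k7a_ad_meas_lab R.par hR.m_par (fun A l => kbX (R.nat A) (R.co l) t) fun A => (k7a_ad_m_kbX _ (hR.nat_adm A).1 t).comp hR.m_co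

/-! ### AD2 -/

theorem k7a_ad_abs_le_norm (y : KbB KbVer.two) (i : Fin 2) : |y i| ≤ ‖y‖ := by
  rw [← Real.norm_eq_abs]
  exact norm_le_pi_norm y i

theorem k7a_ad_y_zero (l : R.L) : R.y l 0 = (R.co l).1 := by
  show (R.co l).1 + (0 : ℝ) • (R.co l).2.1 = _
  rw [zero_smul, add_zero]

theorem k7a_ad_toLn_ok (hR : R.Ok K) (hl : 0 < R.ell) {A : R.Par} (hO : R.One A) {K' : ℝ} (h1 : K ≤ K') (h2 : K * 2 ^ R.S ≤ K') :
    (R.toLn A).Ok R.N K' R.d R.S R.meshes R.widths where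
  prob := hR.prob
  m_co := ⟨k7a_ad_m_ksZ.comp (measurable_fst.comp hR.m_co), k7a_ad_m_ksZ.comp (measurable_fst.comp (measurable_snd.comp hR.m_co)),
    k7a_ad_m_ksY.comp (measurable_fst.comp hR.m_co), k7a_ad_m_ksY.comp (measurable_fst.comp (measurable_snd.comp hR.m_co)),
    k7a_ad_m_X R hR 0, (((k7a_ad_m_X R hR (1 / 2)).const_mul 4).sub (k7a_ad_m_X R hR 1)).sub ((k7a_ad_m_X R hR 0).const_mul 3),
    (((k7a_ad_m_X R hR 1).const_mul 2).sub ((k7a_ad_m_X R hR (1 / 2)).const_mul 4)).add ((k7a_ad_m_X R hR 0).const_mul 2)⟩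
  m_Sp := hR.m_Sp
  m_Ev0 := hR.m_Ev0
  m_hist := hR.m_hist
  Sp_full := hR.Sp_full
  Ev0_sub := hR.Ev0_sub
  bd := by
    intro (l : R.L) hl'
    have h3 : l ∈ R.Sp := hl'
    have hy := hR.y_bd l h3 0 ⟨le_rfl, zero_le_one⟩
    rw [k7a_ad_y_zero] at hy
    have hV : ‖(R.co l).2.1‖ ≤ K := hR.V_bd l h3
    refine ⟨((k7a_ad_abs_le_norm _ 0).trans hy).trans h1, ((k7a_ad_abs_le_norm _ 0).trans hV).trans h1,
      ((k7a_ad_abs_le_norm _ 1).trans hy).trans h1, ((k7a_ad_abs_le_norm _ 1).trans hV).trans h1, fun t ht => ?_⟩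
    rw [k7a_ad_toLn_X R hR]
    exact (hR.X_bd l h3 t ht).trans h1
  χ0_pos := hR.χ_pos
  χ0_le := hR.χ_le
  pal_le := by
    rw [k7a_ad_pal_apply R A MeasurableSet.univ]
    exact (measure_mono (Set.subset_univ _)).trans (hR.pal_le A)
  pal_ball := by
    intro x p hp
    have hp' : R.χ ≤ p := hp
    have hp0 : 0 < p := hR.χ_pos.trans_le hp'
    rw [k7a_ad_pal_apply R A measurableSet_Icc]
    have hsub : {V : KbB KbVer.two | ksZ V ∈ Set.Icc (x - p) (x + p) ∧ ksY V ∈ k7aBinI R.χ 0} ⊆ Metric.closedBall (![x, 0] : KbB KbVer.two) (2 * p) := by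
      rintro V ⟨⟨h3, h4⟩, h5, h6⟩
      have h7 := k2s_dy_lt hR.χ_pos
      refine Metric.mem_closedBall.2 ?_
      refine (dist_pi_le_iff (by positivity)).2 ?_
      show ∀ i : Fin 2, _
      rw [Fin.forall_fin_two]
      constructor
      · show dist (ksZ V) x ≤ 2 * p
        rw [Real.dist_eq, abs_le]
        constructor <;> linarith
      · show dist (ksY V) 0 ≤ 2 * p
        rw [Real.dist_eq, abs_le]
        simp only [Int.cast_zero, zero_mul, zero_add, one_mul] at h5 h6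
        constructor <;> linarith
    refine (measure_mono hsub).trans ((hR.pal_ball A _ (2 * p) (by linarith)).trans (ENNReal.ofReal_le_ofReal ?_))
    rw [Real.mul_rpow (by norm_num) hp0.le, ← mul_assoc]
    exact mul_le_mul_of_nonneg_right h2 (Real.rpow_nonneg hp0.le _)
  joint := by
    intro M hM r hr c b
    have hK0 : 0 ≤ K := zero_le_one.trans hR.K_ge
    have hN0 : 0 ≤ R.N := by linarith [hR.N_ge]
    refine (k7a_ad_lam0_apply R hR hO _).le.trans ?_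
    have hset : {z : R.L × ℝ | (R.toLn A).pt (R.N ^ (-M)) (R.N ^ (-r)) z = c ∧ (R.toLn A).vbin z.1 = b} ∩ {p | R.par p.1 = A}
        = {p | R.par p.1 = A ∧ R.pt M r p = (c.1, ![c.2.1, c.2.2.1], c.2.2.2) ∧ R.vbin p.1 = ![b, 0]} := by
      ext z
      constructor
      · rintro ⟨⟨h3, h4⟩, h5⟩
        exact ⟨h5, (k7a_ad_pt_iff R hR A M r z c).1 h3, (k7a_ad_vbin_iff R hl A z.1 b).1 h4⟩
      · rintro ⟨h5, h3, h4⟩
        exact ⟨⟨(k7a_ad_pt_iff R hR A M r z c).2 h3, (k7a_ad_vbin_iff R hl A z.1 b).2 h4⟩, h5⟩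
    have hj := hR.joint M hM r hr A (c.1, ![c.2.1, c.2.2.1], c.2.2.2) ![b, 0]
    have e : ENNReal.ofReal K * ENNReal.ofReal (R.a r ^ R.d * R.a M ^ (KbVer.two.j + 1)) ≤ ENNReal.ofReal (K' * (R.N ^ (-r)) ^ R.d * (R.N ^ (-M)) ^ 3) := by
      rw [← ENNReal.ofReal_mul hK0]
      refine ENNReal.ofReal_le_ofReal ?_
      show K * ((R.N ^ (-r)) ^ R.d * (R.N ^ (-M)) ^ 3) ≤ K' * (R.N ^ (-r)) ^ R.d * (R.N ^ (-M)) ^ 3
      rw [mul_assoc K']
      exact mul_le_mul_of_nonneg_right h1 (by positivity)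
    refine (le_of_eq (congrArg R.lam0 hset)).trans (hj.trans ?_)
    rw [k7a_ad_pi, hO.pA, mul_one]
    gcongr
  dom := by
    intro e b
    have hset : (R.hist ⁻¹' {e} ∩ (R.toLn A).vT b) ∩ {p | R.par p.1 = A} = R.st ⁻¹' {(A, e)} ∩ R.vT ![b, 0] := by
      ext z
      constructor
      · rintro ⟨⟨h3, h4⟩, h5⟩
        exact ⟨Prod.ext h5 h3, (k7a_ad_vbin_iff R hl A z.1 b).1 h4⟩
      · rintro ⟨h3, h4⟩
        exact ⟨⟨congrArg Prod.snd h3, (k7a_ad_vbin_iff R hl A z.1 b).2 h4⟩, congrArg Prod.fst h3⟩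
    have hd := hR.dom (A, e) ![b, 0]
    refine (k7a_ad_lam0_apply R hR hO _).le.trans ?_
    show R.lam0 ((R.hist ⁻¹' {e} ∩ (R.toLn A).vT b) ∩ {p | R.par p.1 = A}) ≤ ENNReal.ofReal K' * (R.toLn A).pi b * R.ref (A, e)
    rw [hset, k7a_ad_pi]
    calc R.lam0 (R.st ⁻¹' {(A, e)} ∩ R.vT ![b, 0]) ≤ ENNReal.ofReal K * R.pi A ![b, 0] * R.ref (A, e) := hd
      _ ≤ ENNReal.ofReal K' * R.pi A ![b, 0] * R.ref (A, e) := by gcongr

end law

/-! ## 4. the geometry of one true label -/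

section lab

variable (R : KsRef KbVer.two) {K : ℝ}

theorem k7a_ad_q_pos (Q : R.Lab) : 0 < R.q Q := by
  unfold KsRef.q kbQ
  positivity

theorem k7a_ad_q_le_one (Q : R.Lab) : R.q Q ≤ 1 := by
  unfold KsRef.q kbQ
  exact pow_le_one₀ (by norm_num) (by norm_num)

/-- times of the block -/
theorem k7a_ad_t0_mem (Q : R.Lab) : R.t0 Q ∈ R.blk Q := by
  have hq := k7a_ad_q_pos R Q
  refine ⟨le_rfl, ?_⟩
  show (R.iv Q : ℝ) * R.q Q < ((R.iv Q : ℝ) + 1) * R.q Q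
  linarith

theorem k7a_ad_blk_sub (hR : R.Ok K) (Q : R.Lab) {t : ℝ} (ht : t ∈ R.blk Q) : t ∈ Set.Icc (0 : ℝ) 1 ∧ |t - R.t0 Q| ≤ R.q Q ∧ 0 ≤ R.t0 Q ∧ R.t0 Q ≤ 1 := by
  have hq := k7a_ad_q_pos R Q
  have h1 : (R.iv Q : ℝ) * R.q Q ≤ t := ht.1
  have h2 : t < ((R.iv Q : ℝ) + 1) * R.q Q := ht.2
  have h3 : ((R.iv Q : ℝ) + 1) * R.q Q ≤ 1 := by
    have h4 : ((R.iv Q : ℝ) + 1) ≤ 2 ^ R.lev Q := by exact_mod_cast hR.iv_lt Q
    have h5 : (2 : ℝ) ^ R.lev Q * R.q Q = 1 := by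
      unfold KsRef.q kbQ
      rw [← mul_pow]
      norm_num
    calc ((R.iv Q : ℝ) + 1) * R.q Q ≤ 2 ^ R.lev Q * R.q Q := by gcongr
      _ = 1 := h5
  have h0 : (0 : ℝ) ≤ (R.iv Q : ℝ) * R.q Q := by positivity
  have e : R.t0 Q = (R.iv Q : ℝ) * R.q Q := rfl
  refine ⟨⟨by linarith, by linarith⟩, ?_, by rw [e]; exact h0, by rw [e]; linarith⟩
  rw [e, abs_le]
  constructor <;> linarith

/-! ## 5. the record `R.toW A s` -/

variable {s : ℝ}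

theorem k7a_ad_lev (hR : R.Ok K) (hex : ∃ Q, R.dep Q = s) {Q : R.Lab} (hQ : R.dep Q = s) : R.levAt s = R.lev Q := by
  unfold KsRef.levAt
  rw [dif_pos hex]
  exact hR.lev_dep _ _ (hex.choose_spec.trans hQ.symm)

theorem k7a_ad_Wq (hR : R.Ok K) (hex : ∃ Q, R.dep Q = s) (A : R.Par) {Q : R.Lab} (hQ : R.dep Q = s) : (R.toW A s).q = R.q Q := by
  show (1 / 2 : ℝ) ^ R.levAt s = (1 / 2 : ℝ) ^ R.lev Q
  rw [k7a_ad_lev R hR hex hQ]

theorem k7a_ad_Wblk (hR : R.Ok K) (hex : ∃ Q, R.dep Q = s) (A : R.Par) {Q : R.Lab} (hQ : R.dep Q = s) : (R.toW A s).blk Q = R.blk Q := by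
  show Set.Ico ((R.iv Q : ℝ) * (R.toW A s).q) (((R.iv Q : ℝ) + 1) * (R.toW A s).q) = Set.Ico ((R.iv Q : ℝ) * R.q Q) (((R.iv Q : ℝ) + 1) * R.q Q)
  rw [k7a_ad_Wq R hR hex A hQ]

theorem k7a_ad_Winc (hR : R.Ok K) (hex : ∃ Q, R.dep Q = s) (A : R.Par) {Q : R.Lab} (hQ : R.dep Q = s) : (R.toW A s).inc Q = R.inc Q := by
  show R.asg Q ×ˢ (R.toW A s).blk Q = R.asg Q ×ˢ R.blk Q
  rw [k7a_ad_Wblk R hR hex A hQ]

theorem k7a_ad_YQ (A : R.Par) (Q : R.Lab) (t Z : ℝ) : (R.toW A s).YQ Q t Z = R.YQ Q t Z := by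
  show (ksY (R.ch Q).y0 - R.tl Q * ksZ (R.ch Q).y0) + (ksY (R.ch Q).y1 - R.tl Q * ksZ (R.ch Q).y1) * t + R.tl Q * Z
    = ((R.ch Q).y0 (1 : Fin 2) + t * (R.ch Q).y1 (1 : Fin 2)) + R.tl Q * (Z - ((R.ch Q).y0 (0 : Fin 2) + t * (R.ch Q).y1 (0 : Fin 2)))
  unfold ksY ksZ
  ring

theorem k7a_ad_row_bd (hR : R.Ok K) (hT : R.Tilt K) (A : R.Par) (Q : R.Lab) :
    |(R.toW A s).Zc Q| ≤ 2 * K ^ 3 ∧ |(R.toW A s).r0 Q| ≤ 2 * K ^ 3 ∧ |(R.toW A s).r1 Q| ≤ 2 * K ^ 3 ∧ |(R.toW A s).r2 Q| ≤ 2 * K ^ 3 := by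
  have hK := hR.K_ge
  obtain ⟨t1, t2, -, -⟩ := ks_tilt_size hR hT Q
  have hc := hT.cen Q
  have n0 := norm_nonneg (R.ch Q).y0
  have n1 := norm_nonneg (R.ch Q).y1
  obtain ⟨a1, a2⟩ := ksl8_abs_le_norm (R.ch Q).y0
  obtain ⟨b1, b2⟩ := ksl8_abs_le_norm (R.ch Q).y1
  obtain ⟨-, -, h00, h01⟩ := k7a_ad_blk_sub R hR Q (k7a_ad_t0_mem R Q)
  have hK3 : K ≤ K ^ 3 := by
    calc K = K ^ 1 := (pow_one K).symm
      _ ≤ K ^ 3 := pow_le_pow_right₀ hK (by norm_num)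
  have hK23 : K ^ 2 ≤ K ^ 3 := pow_le_pow_right₀ hK (by norm_num)
  refine ⟨?_, ?_, t2, ?_⟩
  · show |ksZ (R.ch Q).y0 + R.t0 Q * ksZ (R.ch Q).y1| ≤ _
    have h3 : |R.t0 Q * ksZ (R.ch Q).y1| ≤ ‖(R.ch Q).y1‖ := by
      rw [abs_mul, abs_of_nonneg h00]
      calc R.t0 Q * |ksZ (R.ch Q).y1| ≤ 1 * |ksZ (R.ch Q).y1| := by gcongr
        _ ≤ _ := by linarith
    have h4 := abs_add_le (ksZ (R.ch Q).y0) (R.t0 Q * ksZ (R.ch Q).y1)
    linarith
  · show |ksY (R.ch Q).y0 - R.tl Q * ksZ (R.ch Q).y0| ≤ _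
    have b3 : |R.tl Q * ksZ (R.ch Q).y0| ≤ K ^ 2 * K := by
      rw [abs_mul]
      exact mul_le_mul t1 (by linarith) (abs_nonneg _) (by positivity)
    have h4 := abs_sub (ksY (R.ch Q).y0) (R.tl Q * ksZ (R.ch Q).y0)
    nlinarith
  · show |R.tl Q| ≤ _
    nlinarith

theorem k7a_ad_box (hR : R.Ok K) (hT : R.Tilt K) (A : R.Par) (Q : R.Lab) {l : R.L} (hl : l ∈ R.asg Q) {t : ℝ} (ht : t ∈ R.blk Q) :
    |(R.toW A s).Z l t - (R.toW A s).Zc Q| ≤ 2 * K ^ 2 * R.q Q ∧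
      |(R.toW A s).Y l t - (R.toW A s).YQ Q t ((R.toW A s).Z l t)| ≤ K ^ 5 * (R.a (R.k * R.dep Q) * R.a (R.ell * R.dep Q)) := by
  obtain ⟨h1, h2⟩ := (ks_tilt_box hR hT Q l hl).1 t ht
  have e1 : (R.toW A s).Y l t = ksY (R.y l t) := k7a_ad_Y R A l t
  have e2 : (R.toW A s).Z l t = ksZ (R.y l t) := k7a_ad_Z R A l t
  rw [e1, e2, k7a_ad_YQ]
  refine ⟨?_, by rw [ksl8_b_eq hR Q] at h2; exact h2⟩
  have hK := hR.K_ge
  have hc := hT.cen Q
  have n0 := norm_nonneg (R.ch Q).y0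
  have a1 : |(R.ch Q).y1 (0 : Fin 2)| ≤ K := (ksl8_abs_le_norm (R.ch Q).y1).1.trans (by linarith)
  obtain ⟨-, h3, -, -⟩ := k7a_ad_blk_sub R hR Q ht
  have e : ksZ (R.y l t) - (R.toW A s).Zc Q = (ksZ (R.y l t) - ksZ ((R.ch Q).yc t)) + (t - R.t0 Q) * (R.ch Q).y1 (0 : Fin 2) := by
    show ksZ (R.y l t) - ((R.ch Q).y0 (0 : Fin 2) + R.t0 Q * (R.ch Q).y1 (0 : Fin 2))
      = (ksZ (R.y l t) - ((R.ch Q).y0 (0 : Fin 2) + t * (R.ch Q).y1 (0 : Fin 2))) + (t - R.t0 Q) * (R.ch Q).y1 (0 : Fin 2)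
    ring
  rw [e]
  have hq := k7a_ad_q_pos R Q
  have h4 : |(t - R.t0 Q) * (R.ch Q).y1 (0 : Fin 2)| ≤ R.q Q * K := by
    rw [abs_mul]
    exact mul_le_mul h3 a1 (abs_nonneg _) hq.le
  have h5 := abs_add_le (ksZ (R.y l t) - ksZ ((R.ch Q).yc t)) ((t - R.t0 Q) * (R.ch Q).y1 (0 : Fin 2))
  have h6 : R.q Q * K ≤ K ^ 2 * R.q Q := by
    have h7 : K ≤ K ^ 2 := by nlinarith
    nlinarith
  linarith

theorem k7a_ad_slopeQ (hR : R.Ok K) (hT : R.Tilt K) (A : R.Par) (Q : R.Lab) {l : R.L} (hl : l ∈ R.asg Q) :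
    |(R.toW A s).Y1 l - ((R.toW A s).r1 Q + (R.toW A s).r2 Q * (R.toW A s).v l)| ≤ 4 * K ^ 6 * R.a (R.ell * R.dep Q) :=
  (ks_tilt_box hR hT Q l hl).2

/-! ### masses -/

theorem k7a_ad_a_nonneg (hR : R.Ok K) (x : ℝ) : 0 ≤ R.a x := by
  unfold KsRef.a
  exact Real.rpow_nonneg (by linarith [hR.N_ge]) _

/-- comparison of the volume of the box with `h · h g` -/
theorem k7a_ad_vol (hR : R.Ok K) (Q : R.Lab) :
    R.a (R.k * R.dep Q) * (R.a (R.k * R.dep Q) * R.a (R.ell * R.dep Q)) ≤ K ^ 3 * R.J Q ∧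
      R.J Q ≤ K ^ 3 * (R.a (R.k * R.dep Q) * (R.a (R.k * R.dep Q) * R.a (R.ell * R.dep Q))) := by
  have hK := hR.K_ge
  have hK0 : 0 ≤ K := zero_le_one.trans hK
  have hq := k7a_ad_q_pos R Q
  have hh := k7a_ad_a_nonneg R hR (R.k * R.dep Q)
  have hg := k7a_ad_a_nonneg R hR (R.ell * R.dep Q)
  have h1 := hR.q_lo Q
  have h2 := hR.q_hi Q
  have h3 : R.q Q ^ 2 * R.a (R.ell * R.dep Q) ≤ K * R.J Q := hR.J_lo Q
  have h4 : R.J Q ≤ K * (R.q Q ^ 2 * R.a (R.ell * R.dep Q)) := hR.J_hi Q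
  constructor
  · calc R.a (R.k * R.dep Q) * (R.a (R.k * R.dep Q) * R.a (R.ell * R.dep Q))
        ≤ (K * R.q Q) * ((K * R.q Q) * R.a (R.ell * R.dep Q)) := by gcongr
      _ = K ^ 2 * (R.q Q ^ 2 * R.a (R.ell * R.dep Q)) := by ring
      _ ≤ K ^ 2 * (K * R.J Q) := by gcongr
      _ = K ^ 3 * R.J Q := by ring
  · calc R.J Q ≤ K * (R.q Q ^ 2 * R.a (R.ell * R.dep Q)) := h4
      _ ≤ K * ((K * R.a (R.k * R.dep Q)) ^ 2 * R.a (R.ell * R.dep Q)) := by gcongr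
      _ = K ^ 3 * (R.a (R.k * R.dep Q) * (R.a (R.k * R.dep Q) * R.a (R.ell * R.dep Q))) := by ring

theorem k7a_ad_nu_lo (hR : R.Ok K) (Q : R.Lab) (hA : R.pA (R.lpar Q) = 1) :
    ENNReal.ofReal (R.a (R.dep Q) ^ R.d * R.a (R.k * R.dep Q) * (R.a (R.k * R.dep Q) * R.a (R.ell * R.dep Q)))
      ≤ ENNReal.ofReal (K ^ 4) * R.νQ Q := by
  have hK0 : 0 ≤ K := zero_le_one.trans hR.K_ge
  have ha : 0 ≤ R.a (R.dep Q) ^ R.d := Real.rpow_nonneg (k7a_ad_a_nonneg R hR _) _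
  have h1 : ENNReal.ofReal (R.a (R.dep Q) ^ R.d * R.J Q) ≤ ENNReal.ofReal K * R.νQ Q := by
    have h := hR.ν_lo Q
    rwa [hA, one_mul] at h
  calc ENNReal.ofReal (R.a (R.dep Q) ^ R.d * R.a (R.k * R.dep Q) * (R.a (R.k * R.dep Q) * R.a (R.ell * R.dep Q)))
      ≤ ENNReal.ofReal (K ^ 3 * (R.a (R.dep Q) ^ R.d * R.J Q)) := by
        refine ENNReal.ofReal_le_ofReal ?_
        have := mul_le_mul_of_nonneg_left (k7a_ad_vol R hR Q).1 ha
        linarith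
    _ = ENNReal.ofReal (K ^ 3) * ENNReal.ofReal (R.a (R.dep Q) ^ R.d * R.J Q) := ENNReal.ofReal_mul (by positivity)
    _ ≤ ENNReal.ofReal (K ^ 3) * (ENNReal.ofReal K * R.νQ Q) := mul_le_mul_right h1 _
    _ = ENNReal.ofReal (K ^ 4) * R.νQ Q := by
        rw [← mul_assoc, ← ENNReal.ofReal_mul (by positivity)]
        congr 2

theorem k7a_ad_nu_hi (hR : R.Ok K) (Q : R.Lab) (hA : R.pA (R.lpar Q) = 1) :
    R.νQ Q ≤ ENNReal.ofReal (K ^ 4 * (R.a (R.dep Q) ^ R.d * R.a (R.k * R.dep Q) * (R.a (R.k * R.dep Q) * R.a (R.ell * R.dep Q)))) := by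
  have hK0 : 0 ≤ K := zero_le_one.trans hR.K_ge
  have ha : 0 ≤ R.a (R.dep Q) ^ R.d := Real.rpow_nonneg (k7a_ad_a_nonneg R hR _) _
  have h := hR.ν_hi Q
  rw [hA, one_mul, ← ENNReal.ofReal_mul hK0] at h
  refine h.trans (ENNReal.ofReal_le_ofReal ?_)
  have h1 := mul_le_mul_of_nonneg_left (k7a_ad_vol R hR Q).2 ha
  have h2 := mul_le_mul_of_nonneg_left h1 hK0
  calc K * (R.a (R.dep Q) ^ R.d * R.J Q)
      ≤ K * (R.a (R.dep Q) ^ R.d * (K ^ 3 * (R.a (R.k * R.dep Q) * (R.a (R.k * R.dep Q) * R.a (R.ell * R.dep Q))))) := h2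
    _ = _ := by ring

/-! ### the base cap -/

/-- base coordinates `(t, y) ↦ (t, Z, Y)` -/
def k7aAdPhi : ℝ × KbB KbVer.two → ℝ × ℝ × ℝ := fun z => (z.1, z.2 (0 : Fin 2), z.2 (1 : Fin 2))

theorem k7aAdPhi_eqns_cite : True := by have := @k7aAdPhi.eq_1; trivial

theorem k7a_ad_phi_mp : MeasurePreserving k7aAdPhi volume volume :=
  (MeasurePreserving.id (volume : Measure ℝ)).prod (volume_preserving_finTwoArrow ℝ)

theorem k7a_ad_base (A : R.Par) (p : R.L × ℝ) : (R.toLn A).base p = k7aAdPhi (R.base p) := by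
  show (p.2, (R.toLn A).Z p.1 p.2, (R.toLn A).Y p.1 p.2) = (p.2, ksZ (R.y p.1 p.2), ksY (R.y p.1 p.2))
  rw [k7a_ad_Z, k7a_ad_Y]

theorem k7a_ad_capQ (hR : R.Ok K) (A : R.Par) (Q : R.Lab) (U : Set (ℝ × ℝ × ℝ)) (hU : MeasurableSet U) :
    ENNReal.ofReal (R.a (R.k * R.dep Q) * (R.a (R.k * R.dep Q) * R.a (R.ell * R.dep Q))) * (R.toLn A).lam0 (R.inc Q ∩ (R.toLn A).base ⁻¹' U)
      ≤ ENNReal.ofReal (K ^ 4) * R.νQ Q * volume U := by
  have hK0 : 0 ≤ K := zero_le_one.trans hR.K_ge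
  have h1 : (R.toLn A).lam0 (R.inc Q ∩ (R.toLn A).base ⁻¹' U) ≤ R.lam0 (R.inc Q ∩ R.base ⁻¹' (k7aAdPhi ⁻¹' U)) := by
    show R.lam0 (R.inc Q ∩ (R.toLn A).base ⁻¹' U) ≤ _
    refine measure_mono ?_
    rintro p ⟨h2, h3⟩
    refine ⟨h2, ?_⟩
    show k7aAdPhi (R.base p) ∈ U
    rw [← k7a_ad_base R A p]
    exact h3
  have h2 := hR.capQ Q (k7aAdPhi ⁻¹' U) (k7a_ad_phi_mp.measurable hU)
  rw [k7a_ad_phi_mp.measure_preimage hU.nullMeasurableSet] at h2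
  have h3 : ENNReal.ofReal (R.a (R.k * R.dep Q) * (R.a (R.k * R.dep Q) * R.a (R.ell * R.dep Q))) ≤ ENNReal.ofReal (K ^ 3) * ENNReal.ofReal (R.J Q) := by
    rw [← ENNReal.ofReal_mul (by positivity)]
    exact ENNReal.ofReal_le_ofReal (k7a_ad_vol R hR Q).1
  calc ENNReal.ofReal (R.a (R.k * R.dep Q) * (R.a (R.k * R.dep Q) * R.a (R.ell * R.dep Q))) * (R.toLn A).lam0 (R.inc Q ∩ (R.toLn A).base ⁻¹' U)
      ≤ (ENNReal.ofReal (K ^ 3) * ENNReal.ofReal (R.J Q)) * R.lam0 (R.inc Q ∩ R.base ⁻¹' (k7aAdPhi ⁻¹' U)) := mul_le_mul' h3 h1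
    _ = ENNReal.ofReal (K ^ 3) * (ENNReal.ofReal (R.J Q) * R.lam0 (R.inc Q ∩ R.base ⁻¹' (k7aAdPhi ⁻¹' U))) := by ring
    _ ≤ ENNReal.ofReal (K ^ 3) * (ENNReal.ofReal K * R.νQ Q * volume U) := mul_le_mul_right h2 _
    _ = (ENNReal.ofReal (K ^ 3) * ENNReal.ofReal K) * R.νQ Q * volume U := by ring
    _ = ENNReal.ofReal (K ^ 4) * R.νQ Q * volume U := by
        rw [← ENNReal.ofReal_mul (by positivity)]
        congr 3

/-! ### labels, options, reference weights -/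

theorem k7a_ad_m_labAt (hR : R.Ok K) (s : ℝ) : KsLab (R.labAt s) := fun Q => by
  have : R.labAt s ⁻¹' {Q} = ⋃ e : R.Ent, ⋃ (_ : R.eLab e = Q), R.ent s ⁻¹' {e} := by
    ext p
    simp [KsRef.labAt]
  rw [this]
  exact MeasurableSet.iUnion fun e => MeasurableSet.iUnion fun _ => hR.m_ent s e

theorem k7a_ad_lab (hR : R.Ok K) (hs : s ∈ R.depths) {p : R.L × ℝ} (hp : p ∈ R.Ev0) :
    (R.dep (R.labAt s p) = s ∧ (R.Ev0 ∩ R.inc (R.labAt s p)).Nonempty) ∧ p ∈ R.inc (R.labAt s p) := by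
  obtain ⟨h1, h2⟩ := hR.lab s hs p hp
  exact ⟨⟨h1, ⟨p, hp, h2⟩⟩, h2⟩

/-- an occupied label belongs to THE parent -/
theorem k7a_ad_lpar (hR : R.Ok K) {A : R.Par} (hO : R.One A) {Q : R.Lab} (hQ : (R.Ev0 ∩ R.inc Q).Nonempty) : R.lpar Q = A := by
  obtain ⟨p, h1, h2⟩ := hQ
  exact (hR.asg_par Q h2.1).symm.trans (hO.par p h1)

theorem k7a_ad_opt (hR : R.Ok K) (hs : s ∈ R.depths) {A : R.Par} (hO : R.One A) {M r : ℝ} (hM : M ∈ R.meshes) (hr : r ∈ R.widths) :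
    ∃ n : ℕ, (n : ℝ) ≤ K ^ 2 ∧ KsOpt (R.toLn A).lam0 R.hist (fun z => (R.labAt s z, (R.toLn A).pt (R.N ^ (-M)) (R.N ^ (-r)) z)) n := by
  classical
  obtain ⟨n₁, hn₁, o₁⟩ := hR.opt_pt M hM r hr
  obtain ⟨n₂, hn₂, o₂⟩ := hR.opt_ent s hs
  refine ⟨n₂ * n₁, ?_, fun e => ?_⟩
  · push_cast
    have h0 : (0 : ℝ) ≤ n₁ := Nat.cast_nonneg _
    have hK0 : 0 ≤ K := zero_le_one.trans hR.K_ge
    calc (n₂ : ℝ) * n₁ ≤ K * K := mul_le_mul hn₂ hn₁ h0 hK0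
      _ = K ^ 2 := by ring
  obtain ⟨L₁, c₁, z₁⟩ := o₁ (A, e)
  obtain ⟨L₂, c₂, z₂⟩ := o₂ (A, e)
  refine ⟨(L₂ ×ˢ L₁).image (fun x => (R.eLab x.1, (x.2.1, x.2.2.1 (0 : Fin 2), x.2.2.1 (1 : Fin 2), x.2.2.2))), ?_, ?_⟩
  · refine Finset.card_image_le.trans ?_
    rw [Finset.card_product]
    exact Nat.mul_le_mul c₂ c₁
  rintro ⟨Q, c⟩ hd
  refine (k7a_ad_lam0_apply R hR hO _).trans ?_
  have h0 : R.lam0 ((ksPair R.hist (fun z => (R.labAt s z, (R.toLn A).pt (R.N ^ (-M)) (R.N ^ (-r)) z)) ⁻¹' {(e, (Q, c))}) ∩ {p | R.par p.1 = A}) = 0 := by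
    have hsub : (ksPair R.hist (fun z => (R.labAt s z, (R.toLn A).pt (R.N ^ (-M)) (R.N ^ (-r)) z)) ⁻¹' {(e, (Q, c))}) ∩ {p | R.par p.1 = A}
        ⊆ ⋃ e' : {e' : R.Ent // R.eLab e' = Q}, (ksPair R.st (R.ent s) ⁻¹' {((A, e), e'.1)}) ∩ (ksPair R.st (R.pt M r) ⁻¹' {((A, e), (c.1, ![c.2.1, c.2.2.1], c.2.2.2))}) := by
      rintro p ⟨h1, h2⟩
      have h3 : R.hist p = e := congrArg Prod.fst h1
      have h4 : R.labAt s p = Q := congrArg (fun x => x.2.1) h1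
      have h5 : (R.toLn A).pt (R.N ^ (-M)) (R.N ^ (-r)) p = c := congrArg (fun x => x.2.2) h1
      have h6 : R.st p = (A, e) := Prod.ext h2 h3
      refine Set.mem_iUnion.2 ⟨⟨R.ent s p, h4⟩, ?_, ?_⟩
      · exact Prod.ext h6 rfl
      · exact Prod.ext h6 ((k7a_ad_pt_iff R hR A M r p c).1 h5)
    refine measure_mono_null hsub (measure_iUnion_null fun e' => ?_)
    by_cases he : e'.1 ∈ L₂
    · have hc : (c.1, ![c.2.1, c.2.2.1], c.2.2.2) ∉ L₁ := fun hc => hd (Finset.mem_image.2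
        ⟨(e'.1, (c.1, ![c.2.1, c.2.2.1], c.2.2.2)), Finset.mem_product.2 ⟨he, hc⟩, by rw [e'.2]; rfl⟩)
      exact measure_mono_null Set.inter_subset_right (z₁ _ hc)
    · exact measure_mono_null Set.inter_subset_left (z₂ _ he)
  exact h0

theorem k7a_ad_ref_in (hR : R.Ok K) (h7 : R.RefIn K) (hs : s ∈ R.depths) {A : R.Par} (hO : R.One A) (Q : R.Lab) :
    (R.toW A s).refIn Q ≤ ENNReal.ofReal (K * R.q Q) * R.νQ Q := by
  classical
  have e1 : (R.toW A s).refIn Q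
      = ∑ e ∈ Finset.univ.filter (fun e : R.Hist => (R.toLn A).lam0 (R.hist ⁻¹' {e} ∩ R.labAt s ⁻¹' {Q}) ≠ 0), R.ref (A, e) := rfl
  rw [e1]
  have h1 : ∑ e ∈ Finset.univ.filter (fun e : R.Hist => (R.toLn A).lam0 (R.hist ⁻¹' {e} ∩ R.labAt s ⁻¹' {Q}) ≠ 0), R.ref (A, e)
      ≤ ∑ x ∈ Finset.univ.filter (fun x => R.lam0 (R.st ⁻¹' {x} ∩ R.inc Q) ≠ 0), R.ref x := by
    rw [← Finset.sum_image (f := R.ref) (g := fun e : R.Hist => (A, e)) (fun a _ b _ h => congrArg Prod.snd h)]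
    refine Finset.sum_le_sum_of_subset ?_
    intro x hx
    obtain ⟨e, he, rfl⟩ := Finset.mem_image.1 hx
    have he' := (Finset.mem_filter.1 he).2
    refine Finset.mem_filter.2 ⟨Finset.mem_univ _, fun h0 => he' ?_⟩
    refine (k7a_ad_lam0_apply R hR hO _).trans ?_
    have h3 : R.lam0 ((R.hist ⁻¹' {e} ∩ R.labAt s ⁻¹' {Q}) ∩ {p | R.par p.1 = A})
        ≤ R.lam0 (R.st ⁻¹' {(A, e)} ∩ R.inc Q) := by
      show (R.prior.restrict R.Ev0) _ ≤ (R.prior.restrict R.Ev0) _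
      rw [Measure.restrict_apply' hR.m_Ev0, Measure.restrict_apply' hR.m_Ev0]
      refine measure_mono ?_
      rintro p ⟨⟨⟨h4, h5⟩, h6⟩, h7'⟩
      have h8 : R.labAt s p = Q := h5
      refine ⟨⟨Prod.ext h6 h4, ?_⟩, h7'⟩
      rw [← h8]
      exact (hR.lab s hs p h7').2
    exact le_antisymm (h3.trans h0.le) bot_le
  exact h1.trans (by convert h7 Q)

/-! ### AD3 -/

theorem k7a_ad_pow_le (hK : 1 ≤ K) {K' c : ℝ} {n : ℕ} (h1 : 4 * K ^ 6 ≤ K') (hc : c ≤ 4) (hn : n ≤ 6) : c * K ^ n ≤ K' := by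
  have h2 : K ^ n ≤ K ^ 6 := pow_le_pow_right₀ hK hn
  have h3 : (0 : ℝ) ≤ K ^ n := by positivity
  calc c * K ^ n ≤ 4 * K ^ 6 := mul_le_mul hc h2 h3 (by norm_num)
    _ ≤ K' := h1

theorem k7a_ad_pow_le' (hK : 1 ≤ K) {K' : ℝ} (n : ℕ) (h1 : 4 * K ^ 6 ≤ K') (hn : n ≤ 6) : K ^ n ≤ K' := by
  simpa using k7a_ad_pow_le (c := 1) hK h1 (by norm_num) hn

theorem k7a_ad_toW_ok (hR : R.Ok K) (hT : R.Tilt K) (h7 : R.RefIn K) {A : R.Par} (hO : R.One A) (hs : s ∈ R.depths) (hex : ∃ Q, R.dep Q = s)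
    {K' : ℝ} (h1 : 4 * K ^ 6 ≤ K') (h2 : K * 2 ^ R.S ≤ K') :
    (R.toW A s).Ok R.N K' R.d R.S (R.a s) (R.a (R.k * s)) (R.a (R.ell * s)) R.meshes R.widths where
  ln := k7a_ad_toLn_ok R hR hT.ell_pos hO (by simpa using k7a_ad_pow_le' hR.K_ge 1 h1 (by norm_num)) h2
  m_labQ := k7a_ad_m_labAt R hR s
  m_asg := hR.m_asg
  q_lo := by
    obtain ⟨Q, hQ⟩ := hex
    have hKK : K ≤ K' := by simpa using k7a_ad_pow_le' hR.K_ge 1 h1 (by norm_num)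
    rw [k7a_ad_Wq R hR ⟨Q, hQ⟩ A hQ, ← hQ]
    exact (hR.q_lo Q).trans (mul_le_mul_of_nonneg_right hKK (k7a_ad_q_pos R Q).le)
  q_hi := by
    obtain ⟨Q, hQ⟩ := hex
    have hKK : K ≤ K' := by simpa using k7a_ad_pow_le' hR.K_ge 1 h1 (by norm_num)
    rw [k7a_ad_Wq R hR ⟨Q, hQ⟩ A hQ, ← hQ]
    exact (hR.q_hi Q).trans (mul_le_mul_of_nonneg_right hKK (k7a_ad_a_nonneg R hR _))
  iv_lt := by
    rintro Q ⟨hd, -⟩
    show R.iv Q < 2 ^ R.levAt s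
    rw [k7a_ad_lev R hR hex hd]
    exact hR.iv_lt Q
  asg_Sp := by
    rintro Q - l hl'
    exact hR.asg_Sp Q hl'
  disj := by
    rintro Q ⟨hd, -⟩ Q' ⟨hd', -⟩ hiv hne
    exact hR.disj Q Q' (hd.trans hd'.symm) hiv hne
  row_bd := by
    rintro Q -
    obtain ⟨a1, a2, a3, a4⟩ := k7a_ad_row_bd (s := s) R hR hT A Q
    have h3 : 2 * K ^ 3 ≤ K' := k7a_ad_pow_le hR.K_ge h1 (by norm_num) (by norm_num)
    exact ⟨a1.trans h3, a2.trans h3, a3.trans h3, a4.trans h3⟩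
  box := by
    rintro Q ⟨hd, -⟩ l hl' t ht
    rw [k7a_ad_Wblk R hR hex A hd] at ht
    obtain ⟨b1, b2⟩ := k7a_ad_box (s := s) R hR hT A Q hl' ht
    have hK0 : 0 ≤ K := zero_le_one.trans hR.K_ge
    have hq := hR.q_hi Q
    rw [hd] at hq b2
    have hh := k7a_ad_a_nonneg R hR (R.k * s)
    have hg := k7a_ad_a_nonneg R hR (R.ell * s)
    constructor
    · calc _ ≤ 2 * K ^ 2 * R.q Q := b1
        _ ≤ 2 * K ^ 2 * (K * R.a (R.k * s)) := by gcongr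
        _ = (2 * K ^ 3) * R.a (R.k * s) := by ring
        _ ≤ K' * R.a (R.k * s) := mul_le_mul_of_nonneg_right (k7a_ad_pow_le hR.K_ge h1 (by norm_num) (by norm_num)) hh
    · exact b2.trans (mul_le_mul_of_nonneg_right (k7a_ad_pow_le' hR.K_ge 5 h1 (by norm_num)) (by positivity))
  slope := by
    rintro Q ⟨hd, -⟩ l hl'
    have b := k7a_ad_slopeQ (s := s) R hR hT A Q hl'
    rw [hd] at b
    exact b.trans (mul_le_mul_of_nonneg_right h1 (k7a_ad_a_nonneg R hR _))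
  ν_lo := by
    rintro Q ⟨hd, hne⟩
    have b := k7a_ad_nu_lo R hR Q (by rw [k7a_ad_lpar R hR hO hne]; exact hO.pA)
    rw [hd] at b
    exact b.trans (mul_le_mul_left (ENNReal.ofReal_le_ofReal (k7a_ad_pow_le' hR.K_ge 4 h1 (by norm_num))) _)
  ν_hi := by
    rintro Q ⟨hd, hne⟩
    have b := k7a_ad_nu_hi R hR Q (by rw [k7a_ad_lpar R hR hO hne]; exact hO.pA)
    rw [hd] at b
    refine b.trans (ENNReal.ofReal_le_ofReal (mul_le_mul_of_nonneg_right (k7a_ad_pow_le' hR.K_ge 4 h1 (by norm_num)) ?_))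
    have hh := k7a_ad_a_nonneg R hR (R.k * s)
    have hg := k7a_ad_a_nonneg R hR (R.ell * s)
    have ha : 0 ≤ R.a s ^ R.d := Real.rpow_nonneg (k7a_ad_a_nonneg R hR _) _
    positivity
  lab := by
    intro p hp
    obtain ⟨b1, b2⟩ := k7a_ad_lab R hR hs hp
    exact ⟨b1, (Set.ext_iff.1 (k7a_ad_Winc R hR hex A b1.1) p).2 b2⟩
  capQ := by
    rintro Q ⟨hd, -⟩ U hU
    have b := k7a_ad_capQ R hR A Q U hU
    rw [hd] at b
    rw [k7a_ad_Winc R hR hex _ hd]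
    exact b.trans (mul_le_mul_left (mul_le_mul_left (ENNReal.ofReal_le_ofReal (k7a_ad_pow_le' hR.K_ge 4 h1 (by norm_num))) _) _)
  opt := by
    intro M hM r hr
    obtain ⟨n, hn, ho⟩ := k7a_ad_opt R hR hs hO hM hr
    exact ⟨n, hn.trans (k7a_ad_pow_le' hR.K_ge 2 h1 (by norm_num)), ho⟩
  ref_in := by
    rintro Q ⟨hd, -⟩
    refine (k7a_ad_ref_in R hR h7 hs hO Q).trans (mul_le_mul_left (ENNReal.ofReal_le_ofReal ?_) _)
    have hK0 : 0 ≤ K := zero_le_one.trans hR.K_ge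
    have hq := hR.q_hi Q
    rw [hd] at hq
    calc K * R.q Q ≤ K * (K * R.a (R.k * s)) := by gcongr
      _ = K ^ 2 * R.a (R.k * s) := by ring
      _ ≤ K' * R.a (R.k * s) := mul_le_mul_of_nonneg_right (k7a_ad_pow_le' hR.K_ge 2 h1 (by norm_num)) (k7a_ad_a_nonneg R hR _)

end lab

/-! ## 6. the constants -/

theorem k7a_ad_const (S0 : ℝ) : ∃ C : ℝ, 1 ≤ C ∧ ∀ K S : ℝ, 1 ≤ K → S ≤ S0 → 4 * K ^ 6 ≤ C * K ^ C ∧ K * 2 ^ S ≤ C * K ^ C ∧ K ≤ C * K ^ C := by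
  refine ⟨max 6 (2 ^ S0), le_trans (by norm_num) (le_max_left _ _), fun K S hK hS => ?_⟩
  set C := max 6 ((2 : ℝ) ^ S0) with hC
  have h6 : (6 : ℝ) ≤ C := le_max_left _ _
  have h2 : (2 : ℝ) ^ S0 ≤ C := le_max_right _ _
  have hK0 : 0 < K := by linarith
  have e6 : K ^ (6 : ℕ) ≤ K ^ C := by
    rw [← Real.rpow_natCast]
    exact Real.rpow_le_rpow_of_exponent_le hK (by exact_mod_cast h6)
  have e1 : K ≤ K ^ C := by
    calc K = K ^ (1 : ℝ) := (Real.rpow_one K).symm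
      _ ≤ K ^ C := Real.rpow_le_rpow_of_exponent_le hK (by linarith)
  have hKC : 0 ≤ K ^ C := by positivity
  refine ⟨?_, ?_, ?_⟩
  · exact mul_le_mul (by linarith) e6 (by positivity) (by linarith)
  · have h3 : (2 : ℝ) ^ S ≤ C := (Real.rpow_le_rpow_of_exponent_le (by norm_num) hS).trans h2
    calc K * 2 ^ S = 2 ^ S * K := mul_comm _ _
      _ ≤ C * K ^ C := mul_le_mul h3 e1 hK0.le (by linarith)
  · calc K = 1 * K := (one_mul K).symm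
      _ ≤ C * K ^ C := mul_le_mul (by linarith) e1 hK0.le (by linarith)

theorem k7a_ad_toLn_ok_C (S0 : ℝ) : ∃ C : ℝ, 1 ≤ C ∧ ∀ (R : KsRef KbVer.two) (K : ℝ) (A : R.Par), R.S ≤ S0 → R.Ok K → R.Tilt K → R.One A →
    (R.toLn A).Ok R.N (C * K ^ C) R.d R.S R.meshes R.widths := by
  obtain ⟨C, hC, h⟩ := k7a_ad_const S0
  refine ⟨C, hC, fun R K A hS hR hT hO => ?_⟩
  obtain ⟨-, h2, h3⟩ := h K R.S hR.K_ge hS
  exact k7a_ad_toLn_ok R hR hT.ell_pos hO h3 h2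

theorem k7a_ad_toW_ok_C (S0 : ℝ) : ∃ C : ℝ, 1 ≤ C ∧ ∀ (R : KsRef KbVer.two) (K : ℝ) (A : R.Par) (s : ℝ), R.S ≤ S0 → R.Ok K → R.Tilt K → R.RefIn K → R.One A →
    s ∈ R.depths → (∃ Q, R.dep Q = s) →
    (R.toW A s).Ok R.N (C * K ^ C) R.d R.S (R.a s) (R.a (R.k * s)) (R.a (R.ell * s)) R.meshes R.widths := by
  obtain ⟨C, hC, h⟩ := k7a_ad_const S0
  refine ⟨C, hC, fun R K A s hS hR hT h7 hO hs hex => ?_⟩
  obtain ⟨h1, h2, -⟩ := h K R.S hR.K_ge hS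
  exact k7a_ad_toW_ok R hR hT h7 hO hs hex h1 h2

end

end Claimed.Agent.R252

/-!
# ROW 252 (S0492), unit S7a (architect helper26), file 5c: PROOF of the leaf `L-252-S7a-AD4` (`k7a_P73` + adaptor ⟹ `k7a_WideK`)      (helper138).   Paper-free, no sorry.
-/

set_option autoImplicit false

namespace Claimed.Agent.R252

open MeasureTheory
open scoped ENNReal BigOperators

noncomputable section

/-! ## 1. from the lists on the fine domains to the lists on the whole block -/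

/-- the fine comparison domains inside one coarse comparison domain -/
theorem k7a_ad4_dom (W : K7aLn) (q g : ℝ) (j : ℕ) (hq : 0 < q) (hg : 0 < g) (D : ℤ × ℤ × ℤ) :
    ∃ T : Finset (ℤ × ℤ × ℤ), (T.card : ℝ) ≤ 2 * 4 ^ j ∧
      ∀ z : W.L × ℝ, W.sdom q g (q * g) z = D → W.sdom (q / 2 ^ j) g (q / 2 ^ j * g) z ∈ T := by
  classical
  obtain ⟨a, b, c⟩ := D
  refine ⟨(Finset.range (2 ^ j) ×ˢ Finset.range (2 * 2 ^ j)).image
    (fun x : ℕ × ℕ => ((2 ^ j : ℤ) * a + x.1, b, c * 2 ^ j + b * x.1 + x.2)), ?_, ?_⟩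
  · have h1 := Finset.card_image_le (s := Finset.range (2 ^ j) ×ˢ Finset.range (2 * 2 ^ j))
      (f := fun x : ℕ × ℕ => ((2 ^ j : ℤ) * a + x.1, b, c * 2 ^ j + b * x.1 + x.2))
    rw [Finset.card_product, Finset.card_range, Finset.card_range] at h1
    have h2 : (2 ^ j * (2 * 2 ^ j) : ℕ) = 2 * 4 ^ j := by
      have : (4 : ℕ) ^ j = 2 ^ j * 2 ^ j := by rw [← mul_pow]; norm_num
      rw [this]; ring
    rw [h2] at h1
    exact_mod_cast h1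
  · rintro ⟨l, t⟩ hz
    unfold K7aLn.sdom at hz ⊢
    simp only [Prod.mk.injEq] at hz
    obtain ⟨h1, h2, h3⟩ := hz
    rw [h1] at h3
    obtain ⟨n, hn⟩ : ∃ n : ℝ, n = 2 ^ j := ⟨_, rfl⟩
    have hn0 : 0 < n := by rw [hn]; positivity
    obtain ⟨ha1, ha2⟩ := Int.floor_eq_iff.1 h1
    obtain ⟨hb1, hb2⟩ := Int.floor_eq_iff.1 h2
    obtain ⟨hc1, hc2⟩ := Int.floor_eq_iff.1 h3
    rw [← hn]
    have et : t / (q / n) = t / q * n := by field_simp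
    have hlo : (2 ^ j : ℤ) * a ≤ ⌊t / (q / n)⌋ := by
      rw [Int.le_floor, et]
      push_cast
      rw [← hn]
      nlinarith
    have hhi : ⌊t / (q / n)⌋ < (2 ^ j : ℤ) * a + 2 ^ j := by
      rw [Int.floor_lt, et]
      push_cast
      rw [← hn]
      nlinarith
    obtain ⟨i, hi⟩ := Int.eq_ofNat_of_zero_le (sub_nonneg.2 hlo)
    have hi' : ⌊t / (q / n)⌋ = (2 ^ j : ℤ) * a + i := by omega
    have hin : i < 2 ^ j := by
      have : (i : ℤ) < 2 ^ j := by omega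
      exact_mod_cast this
    have hinR : (i : ℝ) < n := by rw [hn]; exact_mod_cast hin
    have hi0 : (0 : ℝ) ≤ i := Nat.cast_nonneg _
    rw [hi']
    have ey : W.Y l ((((2 ^ j : ℤ) * a + i : ℤ) : ℝ) * (q / n)) / (q / n * g) = W.Y l ((a : ℝ) * q) / (q * g) * n + W.Y1 l / g * i := by
      push_cast
      rw [← hn]
      unfold K7aLn.Y
      field_simp
      ring
    have hlo2 : c * 2 ^ j + b * i ≤ ⌊W.Y l ((((2 ^ j : ℤ) * a + i : ℤ) : ℝ) * (q / n)) / (q / n * g)⌋ := by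
      rw [Int.le_floor, ey]
      push_cast
      rw [← hn]
      nlinarith
    have hhi2 : ⌊W.Y l ((((2 ^ j : ℤ) * a + i : ℤ) : ℝ) * (q / n)) / (q / n * g)⌋ < c * 2 ^ j + b * i + 2 * 2 ^ j := by
      rw [Int.floor_lt, ey]
      push_cast
      rw [← hn]
      nlinarith
    obtain ⟨k, hk⟩ := Int.eq_ofNat_of_zero_le (sub_nonneg.2 hlo2)
    have hk' : ⌊W.Y l ((((2 ^ j : ℤ) * a + i : ℤ) : ℝ) * (q / n)) / (q / n * g)⌋ = c * 2 ^ j + b * i + k := by omega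
    have hkn : k < 2 * 2 ^ j := by
      have : (k : ℤ) < 2 * 2 ^ j := by omega
      exact_mod_cast this
    rw [hk', h2]
    exact Finset.mem_image.2 ⟨(i, k), Finset.mem_product.2 ⟨Finset.mem_range.2 hin, Finset.mem_range.2 hkn⟩, rfl⟩

/-- the comparison lists on the whole block -/
theorem k7a_ad4_lists {W : K7aW} {P : K7aLayer W.toK7aLn} {E : Set (W.L × ℝ)} {K χ g : ℝ} (j : ℕ) (hg : 0 < g) (hK : 0 ≤ K)
    (H : K7aLists W P E K χ (W.q / 2 ^ j) g (W.q / 2 ^ j * g)) : K7aLists W P E (2 * 4 ^ j * K) χ W.q g (W.q * g) := by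
  classical
  have hq : 0 < W.q := by unfold K7aW.q; positivity
  constructor
  · intro Q mv z D
    obtain ⟨T, hT, hT2⟩ := k7a_ad4_dom W.toK7aLn W.q g j hq hg D
    choose S hS1 hS2 using H.fwd Q mv z
    refine ⟨T.biUnion S, ?_, ?_⟩
    · calc ((T.biUnion S).card : ℝ) ≤ ∑ D' ∈ T, ((S D').card : ℝ) := by exact_mod_cast Finset.card_biUnion_le
        _ ≤ ∑ D' ∈ T, K := Finset.sum_le_sum fun D' _ => hS1 D'
        _ = T.card * K := by rw [Finset.sum_const, nsmul_eq_mul]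
        _ ≤ 2 * 4 ^ j * K := mul_le_mul_of_nonneg_right hT hK
    · intro p hp h1 h2 h3 h4 φ hφ
      exact Finset.mem_biUnion.2 ⟨_, hT2 p h4, hS2 _ p hp h1 h2 h3 rfl φ hφ⟩
  · intro φ D
    obtain ⟨T, hT, hT2⟩ := k7a_ad4_dom W.toK7aLn W.q g j hq hg D
    choose S hS1 hS2 using H.bwd φ
    refine ⟨T.biUnion S, ?_, ?_⟩
    · calc ((T.biUnion S).card : ℝ) ≤ ∑ D' ∈ T, ((S D').card : ℝ) := by exact_mod_cast Finset.card_biUnion_le
        _ ≤ ∑ D' ∈ T, K := Finset.sum_le_sum fun D' _ => hS1 D'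
        _ = T.card * K := by rw [Finset.sum_const, nsmul_eq_mul]
        _ ≤ 2 * 4 ^ j * K := mul_le_mul_of_nonneg_right hT hK
    · intro p hp h1 h4
      exact Finset.mem_biUnion.2 ⟨_, hT2 p h4, hS2 _ p hp h1 rfl⟩

/-! ## 2. the candidate test `nat - F (t, Z, Y)` -/

theorem k7a_ad4_sum_two (f : Fin (KbVer.j KbVer.two) → ℝ) : ∑ i, f i = f (0 : Fin 2) + f (1 : Fin 2) := Fin.sum_univ_two f

theorem k7a_ad4_quad (T : KbTest KbVer.two) (hT : KbIsQuad T) (F : ℝ → ℝ → ℝ → ℝ) (hF : K7aQuad3 F) :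
    KbIsQuad fun t y w => T t y w - F t (ksZ y) (ksY y) := by
  obtain ⟨Q, hQ⟩ := hT
  obtain ⟨e, he⟩ := hF
  refine ⟨{ c0 := Q.c0 - e 0
            ct := Q.ct - e 1
            cy := fun i => Q.cy i - (![e 2, e 3] : Fin 2 → ℝ) i
            cw := Q.cw
            ctt := Q.ctt - e 4
            cty := fun i => Q.cty i - (![e 5, e 6] : Fin 2 → ℝ) i
            ctw := Q.ctw
            cyy := fun i k => Q.cyy i k - (!![e 7, e 8; 0, e 9] : Matrix (Fin 2) (Fin 2) ℝ) i k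
            cyw := Q.cyw
            cww := Q.cww }, ?_⟩
  intro t y w
  simp only [hQ, he]
  simp only [KbQuad.ev, dotProduct, Matrix.mulVec, k7a_ad4_sum_two, ksZ, ksY]
  simp
  ring

theorem k7a_ad4_dw (T : KbTest KbVer.two) (F : ℝ → ℝ → ℝ → ℝ) : kbDw (fun t y w => T t y w - F t (ksZ y) (ksY y)) = kbDw T := by
  funext t y w
  simp only [kbDw]
  ring

theorem k7a_ad4_dww (T : KbTest KbVer.two) (F : ℝ → ℝ → ℝ → ℝ) : kbDww (fun t y w => T t y w - F t (ksZ y) (ksY y)) = kbDww T := by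
  funext t y w
  simp only [kbDww]
  ring

/-! ## 3. exponent bookkeeping -/

theorem k7a_ad4_pw {N c τ₁ x : ℝ} (hN : 1 ≤ N) (_hc0 : 0 ≤ c) (hc : c ≤ N ^ (τ₁ / 2)) (hx : x ≤ τ₁ / 2) : c * N ^ x ≤ N ^ τ₁ := by
  have hN0 : 0 < N := by linarith
  calc c * N ^ x ≤ N ^ (τ₁ / 2) * N ^ (τ₁ / 2) :=
        mul_le_mul hc (Real.rpow_le_rpow_of_exponent_le hN hx) (Real.rpow_nonneg hN0.le _) (Real.rpow_nonneg hN0.le _)
    _ = N ^ τ₁ := by rw [← Real.rpow_add hN0]; congr 1; ring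

/-- `KsRef.Ok.ref_Q` in the form `RefIn` (copy of `k7a_refIn_of_ok`, which lives downstream) -/
theorem k7a_ad4_refIn (R : KsRef KbVer.two) {K : ℝ} (hR : R.Ok K) : R.RefIn K := by
  classical
  have hK : 0 ≤ K := le_trans zero_le_one hR.K_ge
  intro Q
  have h1 := hR.ref_Q Q
  have h2 : ENNReal.ofReal (K * R.q Q) = ENNReal.ofReal K * ENNReal.ofReal (R.q Q) := ENNReal.ofReal_mul hK
  rw [h2, mul_assoc]
  refine le_trans (Finset.sum_le_sum_of_subset ?_) h1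
  intro x hx
  simp only [Finset.mem_filter, Finset.mem_univ, true_and] at hx
  simp only [KsRef.histIn, Finset.mem_filter, Finset.mem_univ, true_and]
  by_contra hne
  apply hx
  rw [Set.not_nonempty_iff_eq_empty] at hne
  have h3 : R.lam0 (R.st ⁻¹' {x} ∩ R.inc Q) = R.prior (R.st ⁻¹' {x} ∩ R.inc Q ∩ R.Ev0) := Measure.restrict_apply' hR.m_Ev0
  have h4 : R.st ⁻¹' {x} ∩ R.inc Q ∩ R.Ev0 = ∅ := by
    rw [← hne]
    ext z
    simp only [Set.mem_inter_iff]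
    tauto
  rw [h3, h4, measure_empty]

/-- the number of fine time intervals in the block is subpolynomial -/
theorem k7a_ad4_two_pow {N τ ks q β0 es : ℝ} {j : ℕ} (hN : 1 ≤ N) (hτ : 0 ≤ τ) (hks : 0 ≤ ks) (hq : q ≤ N ^ τ * N ^ (-ks))
    (hβ : N ^ (-es - τ) ≤ β0) (hlo : min (N ^ (-ks)) (β0 * N ^ es) ≤ N ^ τ * (q / 2 ^ j)) : (2 : ℝ) ^ j ≤ N ^ (3 * τ) := by
  have hN0 : 0 < N := by linarith
  have h1 : N ^ (-ks - τ) ≤ min (N ^ (-ks)) (β0 * N ^ es) := by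
    refine le_min (Real.rpow_le_rpow_of_exponent_le hN (by linarith)) ?_
    calc N ^ (-ks - τ) ≤ N ^ (-es - τ) * N ^ es := by
          rw [← Real.rpow_add hN0]
          exact Real.rpow_le_rpow_of_exponent_le hN (by linarith)
      _ ≤ β0 * N ^ es := mul_le_mul_of_nonneg_right hβ (Real.rpow_nonneg hN0.le _)
  have h2 : N ^ (-ks - τ) ≤ N ^ τ * (q / 2 ^ j) := h1.trans hlo
  have h2j : (0 : ℝ) < 2 ^ j := by positivity
  have h3 : N ^ (-ks - τ) * 2 ^ j ≤ N ^ τ * q := by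
    have : N ^ τ * (q / 2 ^ j) = N ^ τ * q / 2 ^ j := by ring
    rw [this, le_div_iff₀ h2j] at h2
    exact h2
  have h4 : N ^ (-ks - τ) * 2 ^ j ≤ N ^ (-ks - τ) * N ^ (3 * τ) := by
    calc N ^ (-ks - τ) * 2 ^ j ≤ N ^ τ * q := h3
      _ ≤ N ^ τ * (N ^ τ * N ^ (-ks)) := mul_le_mul_of_nonneg_left hq (Real.rpow_nonneg hN0.le _)
      _ = N ^ (-ks - τ) * N ^ (3 * τ) := by
          rw [← Real.rpow_add hN0, ← Real.rpow_add hN0, ← Real.rpow_add hN0]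
          congr 1
          ring
  exact le_of_mul_le_mul_left h4 (Real.rpow_pos_of_pos hN0 _)

/-! ## 4. the exit -/

/-- **L-252-S7a-AD4** -/
theorem k7a_ad4_WideK_of (h : k7a_P73) : k7a_WideK := by
  intro p s u c2 hp hell hs hu hc2 hc2u hku
  have hd0 := hp.d_nonneg
  have hd1 := hp.d_lt
  have h1d : 0 < 1 - p.d := by linarith
  have hcu : c2 ≤ u := by nlinarith
  have hx : ∀ i : Fin 3, 0 ≤ (![0, u, c2] : Fin 3 → ℝ) i ∧ (![0, u, c2] : Fin 3 → ℝ) i ≤ u := by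
    intro i
    fin_cases i
    · exact ⟨le_rfl, hu.le⟩
    · exact ⟨hu.le, le_rfl⟩
    · exact ⟨hc2.le, hcu⟩
  have hks : 0 < p.k * s := mul_pos hp.k_pos hs
  have hxl : ∀ i : Fin 3, 0 ≤ p.ell * (![0, u, c2] : Fin 3 → ℝ) i ∧ p.ell * (![0, u, c2] : Fin 3 → ℝ) i ≤ p.ell * u := fun i =>
    ⟨mul_nonneg hell.le (hx i).1, mul_le_mul_of_nonneg_left (hx i).2 hell.le⟩
  obtain ⟨Mχ0, h1⟩ := h p.d p.S s u c2 (p.k * s) (p.ell * s) (fun i => p.ell * (s + (![0, u, c2] : Fin 3 → ℝ) i)) hd0 hd1 hp.S_pos hs hu hc2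
    hc2u hks (mul_pos hell hs)
    (fun i => by
      have := (hxl i).1
      show p.ell * s ≤ p.ell * (s + (![0, u, c2] : Fin 3 → ℝ) i)
      linarith)
    (fun i => by
      have := (hxl i).2
      show (10 / (1 - p.d) + 3) * u ≤ p.k * s + p.ell * s - p.ell * (s + (![0, u, c2] : Fin 3 → ℝ) i)
      linarith)
    (fun i j => by
      have h1 := (hxl i).1
      have h2 := (hxl j).2
      show (10 / (1 - p.d) + 3) * u ≤ p.k * s + p.ell * (s + (![0, u, c2] : Fin 3 → ℝ) i) - p.ell * (s + (![0, u, c2] : Fin 3 → ℝ) j)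
      linarith)
  refine ⟨Mχ0, fun Mχ hMχ τ' hτ' => ?_⟩
  obtain ⟨M0, h2⟩ := h1 Mχ hMχ
  obtain ⟨τ₁, N₁, Ms, Ws, hτ₁, hMs, hWs, h3⟩ := h2 τ' hτ'
  refine ⟨min (τ₁ / 16) τ', max N₁ (max 2 ((max 4 (2 ^ p.S)) ^ (2 / τ₁))), ⟨{s, max M0 0 + 1}, Ws, Ms, 1, max M0 0⟩,
    lt_min (by positivity) hτ', ?_, ?_⟩
  · refine ⟨⟨s, by simp⟩, ?_, fun r hr => (hWs r hr).1, fun M hM => (hMs M hM).1, le_max_right _ _, ?_, le_rfl⟩
    · intro s' hs'
      simp only [Finset.mem_insert, Finset.mem_singleton] at hs'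
      rcases hs' with rfl | rfl
      · exact hs
      · have := le_max_right M0 0
        linarith
    · intro r hr
      exact ⟨max M0 0 + 1, by simp, by linarith [(hWs r hr).2, le_max_left M0 0]⟩
  · intro R A E' P β qd hprm hN hGd hGm hGw hχ hR hT hO hE hP hβ hlab hqd hqlo hqhi hL
    subst hprm
    obtain ⟨τ, hτdef⟩ : ∃ τ : ℝ, τ = min (τ₁ / 16) τ' := ⟨_, rfl⟩
    rw [← hτdef] at hR hT hE hP hβ hqlo hqhi hL
    have hτ0 : 0 < τ := by rw [hτdef]; exact lt_min (by positivity) hτ'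
    have hττ₁ : τ ≤ τ₁ / 16 := by rw [hτdef]; exact min_le_left _ _
    have hττ' : τ ≤ τ' := by rw [hτdef]; exact min_le_right _ _
    have hNN₁ : N₁ ≤ R.N := (le_max_left _ _).trans hN
    have hN2 : 2 ≤ R.N := ((le_max_left _ _).trans (le_max_right _ _)).trans hN
    have hNc : (max 4 (2 ^ R.prm.S)) ^ (2 / τ₁) ≤ R.N := ((le_max_right _ _).trans (le_max_right _ _)).trans hN
    have hN1 : 1 ≤ R.N := by linarith
    have hN0 : 0 < R.N := by linarith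
    have hcc : max 4 (2 ^ R.prm.S) ≤ R.N ^ (τ₁ / 2) := by
      have hc0 : (0 : ℝ) ≤ max 4 (2 ^ R.prm.S) := le_trans (by norm_num) (le_max_left _ _)
      calc max 4 (2 ^ R.prm.S) = ((max 4 (2 ^ R.prm.S)) ^ (2 / τ₁)) ^ (τ₁ / 2) := by
            rw [← Real.rpow_mul hc0]
            have : 2 / τ₁ * (τ₁ / 2) = 1 := by field_simp
            rw [this, Real.rpow_one]
        _ ≤ R.N ^ (τ₁ / 2) := Real.rpow_le_rpow (Real.rpow_nonneg hc0 _) hNc (by positivity)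
    have hmono : ∀ {x y : ℝ}, x ≤ y → R.N ^ x ≤ R.N ^ y := fun hxy => Real.rpow_le_rpow_of_exponent_le hN1 hxy
    have hpos : ∀ x : ℝ, 0 < R.N ^ x := fun x => Real.rpow_pos_of_pos hN0 x
    have hs_mem : s ∈ R.depths := hGd (by simp)
    -- a label of the depth `s`
    have hne : E'.Nonempty := by
      by_contra hcon
      rw [Set.not_nonempty_iff_eq_empty] at hcon
      have := hE.mass
      rw [hcon, measure_empty, mul_zero] at this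
      exact absurd this (by norm_num)
    obtain ⟨p0, hp0⟩ := hne
    have hex : ∃ Q, R.dep Q = s := ⟨R.labAt s p0, (hR.lab s hs_mem p0 (hE.sub hp0)).1⟩
    -- the record of Section 7
    have h4 : 4 * (R.N ^ τ) ^ 6 ≤ R.N ^ τ₁ := by
      have e : (R.N ^ τ) ^ 6 = R.N ^ (τ * 6) := by
        rw [Real.rpow_mul hN0.le]
        norm_cast
      rw [e]
      exact k7a_ad4_pw hN1 (by norm_num) ((le_max_left _ _).trans hcc) (by linarith)
    have h5 : R.N ^ τ * 2 ^ R.S ≤ R.N ^ τ₁ := by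
      rw [mul_comm]
      exact k7a_ad4_pw hN1 (by positivity) ((le_max_right _ _).trans hcc) (by linarith)
    have hWok : (R.toW A s).Ok R.N (R.N ^ τ₁) R.prm.d R.prm.S (R.N ^ (-s)) (R.N ^ (-(R.prm.k * s))) (R.N ^ (-(R.prm.ell * s))) Ms Ws :=
      k7w_w_mono (k7a_ad_toW_ok R hR hT (k7a_ad4_refIn R hR) hO hs_mem hex h4 h5) hN0.le le_rfl (hpos _).le (hpos _).le (hpos _).le hGm hGw
    have hχ0 : (R.toW A s).χ0 ≤ R.N ^ (-M0) := hχ.trans (hmono (neg_le_neg (le_max_left _ _)))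
    have hβ' : ∀ i, R.N ^ (-(R.prm.ell * (s + (![0, u, c2] : Fin 3 → ℝ) i)) - τ₁) ≤ β i ∧
        β i ≤ R.N ^ (-(R.prm.ell * (s + (![0, u, c2] : Fin 3 → ℝ) i)) + τ₁) := fun i =>
      ⟨(hmono (by linarith)).trans (hβ i).1, (hβ i).2.trans (hmono (by linarith))⟩
    have hβ0 : ∀ i, 0 ≤ β i := fun i => (hpos _).le.trans (hβ i).1
    have hKK : R.N ^ τ ≤ R.N ^ τ₁ := hmono (by linarith)
    have hP0 : (P 0).Ok (R.N ^ τ₁) (R.N ^ (-Mχ)) (R.N ^ (-s)) (β 0) R.prm.d := by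
      have := k7w_layer_mono (hP 0) hKK (hpos _).le (hβ0 0)
      have e : -(s + (![0, u, c2] : Fin 3 → ℝ) 0) = -s := by simp
      rwa [e] at this
    have hP1 : (P 1).Ok (R.N ^ τ₁) (R.N ^ (-Mχ)) (R.N ^ (-s - u)) (β 1) R.prm.d := by
      have := k7w_layer_mono (hP 1) hKK (hpos _).le (hβ0 1)
      have e : -(s + (![0, u, c2] : Fin 3 → ℝ) 1) = -s - u := by simp; ring
      rwa [e] at this
    have hP2 : (P 2).Ok (R.N ^ τ₁) (R.N ^ (-Mχ)) (R.N ^ (-s - c2)) (β 2) R.prm.d := by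
      have := k7w_layer_mono (hP 2) hKK (hpos _).le (hβ0 2)
      have e : -(s + (![0, u, c2] : Fin 3 → ℝ) 2) = -s - c2 := by simp; ring
      rwa [e] at this
    have hmass : 1 ≤ ENNReal.ofReal (R.N ^ τ₁) * (R.toW A s).prior E' :=
      hE.mass.trans (mul_le_mul' (ENNReal.ofReal_le_ofReal hKK) le_rfl)
    -- the lists
    obtain ⟨j, hj⟩ := hqd
    obtain ⟨Q0, hQ0⟩ := hex
    have hWq : (R.toW A s).q ≤ R.N ^ τ * R.N ^ (-(R.prm.k * s)) := by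
      rw [k7a_ad_Wq R hR ⟨Q0, hQ0⟩ A hQ0]
      have := hR.q_hi Q0
      rw [hQ0] at this
      exact this
    have h2j : (2 : ℝ) ^ j ≤ R.N ^ (3 * τ) := by
      refine k7a_ad4_two_pow (es := R.prm.ell * s) hN1 hτ0.le hks.le hWq ?_ (by rw [← hj]; exact hqlo)
      have := (hβ 0).1
      have e : -(R.prm.ell * (s + (![0, u, c2] : Fin 3 → ℝ) 0)) - τ = -(R.prm.ell * s) - τ := by simp
      rwa [e] at this
    have h4j : 2 * (4 : ℝ) ^ j * R.N ^ τ ≤ R.N ^ τ₁ := by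
      have e4 : (4 : ℝ) ^ j = 2 ^ j * 2 ^ j := by rw [← mul_pow]; norm_num
      have h6 : (4 : ℝ) ^ j ≤ R.N ^ (3 * τ) * R.N ^ (3 * τ) := by
        rw [e4]
        exact mul_le_mul h2j h2j (by positivity) (hpos _).le
      calc 2 * (4 : ℝ) ^ j * R.N ^ τ ≤ 2 * (R.N ^ (3 * τ) * R.N ^ (3 * τ)) * R.N ^ τ := by
            have := hpos τ
            gcongr
        _ = 2 * R.N ^ (7 * τ) := by
            rw [← Real.rpow_add hN0, mul_assoc, ← Real.rpow_add hN0]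
            congr 2
            ring
        _ ≤ R.N ^ τ₁ := k7a_ad4_pw hN1 (by norm_num) (le_trans (le_trans (by norm_num) (le_max_left _ _)) hcc) (by linarith)
    have hL' : K7aLists (R.toW A s) (P 0) E' (R.N ^ τ₁) (R.N ^ (-Mχ)) (R.toW A s).q (R.N ^ (-(R.prm.ell * s)))
        ((R.toW A s).q * R.N ^ (-(R.prm.ell * s))) := by
      rw [hj] at hL
      exact k7w_lists_mono (k7a_ad4_lists j (hpos _) (hpos _).le hL) h4j Set.Subset.rfl
    obtain ⟨Q, F, Cn, hQa, hF, hCm, hCs, hfit, hmassC⟩ := h3 R.N hNN₁ (R.toW A s) P β E' hWok hχ0 hβ' hP0 hP1 hP2 hE.meas hE.sub hlab hmass hL'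
    have hdQ : R.dep Q = s := hQa.1
    have hinc : (R.toW A s).inc Q = R.inc Q := k7a_ad_Winc R hR ⟨Q0, hQ0⟩ A hdQ
    have hblk : (R.toW A s).blk Q = R.blk Q := k7a_ad_Wblk R hR ⟨Q0, hQ0⟩ A hdQ
    have hEv : ∀ x ∈ Cn, x ∈ R.Ev0 := fun x hx => hE.sub (hCs hx).1
    have hKK' : R.N ^ τ ≤ R.N ^ τ' := hmono hττ'
    refine ⟨Q, fun t y w => R.nat A t y w - F t (ksZ y) (ksY y), Cn, hdQ, ?_⟩
    refine ⟨⟨k7a_ad4_quad _ (hR.nat_adm A).1 F hF, fun hv => by cases hv⟩, ?_, hCm, ?_, ?_, ?_, ?_, ?_, ?_⟩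
    · intro h0
      have h6 := hWok.ν_lo Q hQa
      have h7 : (R.toW A s).νQ Q = 0 := h0
      rw [h7, mul_zero, nonpos_iff_eq_zero, ENNReal.ofReal_eq_zero] at h6
      have h8 : 0 < (R.N ^ (-s)) ^ R.prm.d * R.N ^ (-(R.prm.k * s)) * (R.N ^ (-(R.prm.k * s)) * R.N ^ (-(R.prm.ell * s))) := by
        have := Real.rpow_pos_of_pos (hpos (-s)) R.prm.d
        have := hpos (-(R.prm.k * s))
        have := hpos (-(R.prm.ell * s))
        positivity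
      linarith
    · rw [← hinc]
      exact hCs
    · intro x hx t ht
      have h6 : |(R.toLn A).X x.1 t - F t ((R.toLn A).Z x.1 t) ((R.toLn A).Y x.1 t)| ≤ R.N ^ τ' * R.N ^ (-s - c2) :=
        hfit x hx t (by rw [hblk]; exact ht)
      rw [k7a_ad_toLn_X R hR A, k7a_ad_Z, k7a_ad_Y] at h6
      have e1 : R.X x.1 t = R.nat A t (R.y x.1 t) (kbW (R.co x.1) t) := by
        unfold KsRef.X kbX KsRef.y
        rw [hO.par x (hEv x hx)]
      have e2 : R.a (R.dep Q + c2) = R.N ^ (-s - c2) := by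
        unfold KsRef.a
        rw [hdQ]
        congr 1
        ring
      rw [e2]
      rw [e1] at h6
      exact h6
    · intro x hx t ht
      rw [k7a_ad4_dw]
      have h6 := hR.nat_w x.1 (hR.Ev0_sub (hEv x hx)).1 t (k7a_ad_blk_sub R hR Q ht).1
      rw [hO.par x (hEv x hx)] at h6
      exact h6.trans hKK'
    · intro t y w
      rw [k7a_ad4_dww]
      have h6 := hR.nat_ww A t y w
      have h7 : R.a (R.dep Q + c2) ≤ 1 := by
        unfold KsRef.a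
        exact Real.rpow_le_one_of_one_le_of_nonpos hN1 (by rw [hdQ]; linarith)
      have h8 : 0 ≤ R.a (R.dep Q + c2) := (hpos _).le
      calc |kbDww (R.nat A) t y w| * R.a (R.dep Q + c2) ≤ R.N ^ τ * 1 := mul_le_mul h6 h7 h8 (hpos _).le
        _ ≤ R.N ^ τ' := by rw [mul_one]; exact hKK'
    · intro x hx
      rw [k7a_ad4_dw]
      have h6 := hR.nat_lo x (hEv x hx)
      rw [hO.par x (hEv x hx)] at h6
      exact h6.trans (mul_le_mul_of_nonneg_right hKK' (abs_nonneg _))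
    · have h6 := hmassC
      rw [k7a_ad_Wq R hR ⟨Q0, hQ0⟩ A hdQ] at h6
      exact h6

end

end Claimed.Agent.R252

/-!
# ROW 252 (S0492), unit S7a (architect helper26), file 6: THE ADAPTOR `KsRef → K7aW` AND THE EXITS `k7a_WideK`, `k7a_RowK`.      CONTRACT file: the `sorry`s are the leaves `L-252-S7a-AD*`.

* `k7a_toLn_X`      the observable of `R.toLn A` is the native signal (a quadratic polynomial in `t`: `nat_adm`, `w` affine in version 2; Lagrange at `0, 1/2, 1`).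
* `k7a_toLn_ok`, `k7a_toW_ok`      `R.Ok K`, `R.Tilt K`, `R.RefIn K`, `R.One A` ⟹ `(R.toW A s).Ok` with slack `C K^C`.   Field by field:
    palette: `pal_W (k7aBinI χ b) = R.pi A ![b, 0]` (`vel = (Z', 0)`, `kbBin χ 0 = 0`), ball: `closedBall ![x, 0] (max p (2χ))`, constant `2^S`;      `pA A = 1`, `par = A` on `Ev0` (`R.One A`);
    `pt`, `joint`, `dom`: verbatim;    `opt`: product of `opt_pt` and `opt_ent`;    `capQ`: `volume_preserving_finTwoArrow`, `J ∼ q · q g`;    `ref_in`: `RefIn`, `labAt s p = Q → p ∈ inc Q` on `Ev0`;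
    tilted boxes: `ks_tilt_unit`, `ks_tilt_size`, `ks_tilt_box` of `State/KsLoc`;   slope: an affine function bounded by `K b` on a block of length `q`;   constant major centring: `|Z_c'| ≤ K` (`Tilt.cen`), block length `q`.
* `k7a_WideK_of`    P7.3 for `R.toW A s`; lists on `qd` ⟶ lists on the whole block (`≤ K⁴` fine domains per coarse domain); candidate test `T = nat A - F(t, Z, Y)` (`∂_w`, `∂_ww` are those of the native test).
* `k7a_RowK_pf`     (PROVED in `S7a/Row.lean`)  07 l.941-955, pure geometry + `K7aLists.fwd`:  the `ξ`-bins of `(t, Z, v)` leave `≤ 4` groups `α` and `≤ 2` time intervals; `Q_r` determines `Q_s` (`nested`, `disj`), `Y` to `K b_r ≤ K m`;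
                    `Q_s` and `v` determine `Y'` to `K g_s`; so `≤ K` domains `D`, `≤ K` labels `Φ`, each of which confines `Y'` to an interval of length `4Kβ`.
-/

set_option autoImplicit false

namespace Claimed.Agent.R252

open MeasureTheory
open scoped ENNReal BigOperators

noncomputable section

/-- **L-252-S7a-AD1** -/
theorem k7a_toLn_X (R : KsRef KbVer.two) {K : ℝ} (hR : R.Ok K) (A : R.Par) (l : R.L) (t : ℝ) : (R.toLn A).X l t = R.X l t :=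
  k7a_ad_toLn_X R hR A l t

/-- `KsRef.Ok.ref_Q` in the form used here -/
theorem k7a_refIn_of_ok (R : KsRef KbVer.two) {K : ℝ} (hR : R.Ok K) : R.RefIn K := by
  classical
  have hK : 0 ≤ K := le_trans zero_le_one hR.K_ge
  intro Q
  have h1 := hR.ref_Q Q
  have h2 : ENNReal.ofReal (K * R.q Q) = ENNReal.ofReal K * ENNReal.ofReal (R.q Q) := ENNReal.ofReal_mul hK
  rw [h2, mul_assoc]
  refine le_trans (Finset.sum_le_sum_of_subset ?_) h1
  intro x hx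
  simp only [Finset.mem_filter, Finset.mem_univ, true_and] at hx
  simp only [KsRef.histIn, Finset.mem_filter, Finset.mem_univ, true_and]
  by_contra hne
  apply hx
  rw [Set.not_nonempty_iff_eq_empty] at hne
  have h3 : R.lam0 (R.st ⁻¹' {x} ∩ R.inc Q) = R.prior (R.st ⁻¹' {x} ∩ R.inc Q ∩ R.Ev0) := Measure.restrict_apply' hR.m_Ev0
  have h4 : R.st ⁻¹' {x} ∩ R.inc Q ∩ R.Ev0 = ∅ := by
    rw [← hne]
    ext z
    simp only [Set.mem_inter_iff]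
    tauto
  rw [h3, h4, measure_empty]

/-- **L-252-S7a-AD2** the lines -/
theorem k7a_toLn_ok (S0 : ℝ) : ∃ C : ℝ, 1 ≤ C ∧ ∀ (R : KsRef KbVer.two) (K : ℝ) (A : R.Par), R.S ≤ S0 → R.Ok K → R.Tilt K → R.One A →
    (R.toLn A).Ok R.N (C * K ^ C) R.d R.S R.meshes R.widths :=
  k7a_ad_toLn_ok_C S0

/-- **L-252-S7a-AD3** the labels -/
theorem k7a_toW_ok (S0 : ℝ) : ∃ C : ℝ, 1 ≤ C ∧ ∀ (R : KsRef KbVer.two) (K : ℝ) (A : R.Par) (s : ℝ), R.S ≤ S0 → R.Ok K → R.Tilt K → R.One A →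
    s ∈ R.depths → (∃ Q, R.dep Q = s) →
    (R.toW A s).Ok R.N (C * K ^ C) R.d R.S (R.a s) (R.a (R.k * s)) (R.a (R.ell * s)) R.meshes R.widths := by
  obtain ⟨C, hC, h⟩ := k7a_ad_toW_ok_C S0
  exact ⟨C, hC, fun R K A s hS hR hT hO hs hex => h R K A s hS hR hT (k7a_refIn_of_ok R hR) hO hs hex⟩

/-- **L-252-S7a-AD4** the exit: time-improvement candidate from three wide layers -/
theorem k7a_WideK_of (h : k7a_P73) : k7a_WideK :=
  k7a_ad4_WideK_of h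

end

end Claimed.Agent.R252

/-!
# ROW 252 (S0492), unit S7a (helper26): FROM PROJECTED INTERVALS TO A ROW LIST (07 l.941-955) = `k7a_RowK`.      No sorry.
`k7a_row_core` : one scale, explicit slack.   Prefix `k7a_rw_`.
-/

set_option autoImplicit false

namespace Claimed.Agent.R252

open MeasureTheory
open scoped ENNReal BigOperators

noncomputable section

/-- the window of a floor -/
theorem k7a_rw_floor {w x x0 : ℝ} {n : ℕ} (hw : 0 < w) (h : |x - x0| ≤ n * w) :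
    ⌊x / w⌋ ∈ Finset.Icc (⌊x0 / w⌋ - n) (⌊x0 / w⌋ + n) := by
  rw [Finset.mem_Icc]
  have h1 := abs_le.mp h
  constructor
  · have h2 : x0 / w - n ≤ x / w := by
      have h3 : x0 - n * w ≤ x := by linarith [h1.1]
      calc x0 / w - n = (x0 - n * w) / w := by field_simp
        _ ≤ x / w := by gcongr
    have h4 : ⌊x0 / w - n⌋ ≤ ⌊x / w⌋ := Int.floor_le_floor h2
    rwa [Int.floor_sub_natCast] at h4
  · have h2 : x / w ≤ x0 / w + n := by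
      have h3 : x ≤ x0 + n * w := by linarith [h1.2]
      calc x / w ≤ (x0 + n * w) / w := by gcongr
        _ = x0 / w + n := by field_simp
    have h4 : ⌊x / w⌋ ≤ ⌊x0 / w + n⌋ := Int.floor_le_floor h2
    rwa [Int.floor_add_natCast] at h4

theorem k7a_rw_card (a : ℤ) (n : ℕ) : (Finset.Icc (a - n) (a + n)).card = 2 * n + 1 := by
  rw [Int.card_Icc]
  omega

/-- distance to the left end of the bin -/
theorem k7a_rw_bin {ξ x : ℝ} (hξ : 0 < ξ) : |x - (⌊x / ξ⌋ : ℝ) * ξ| ≤ ξ := by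
  have h1 : (⌊x / ξ⌋ : ℝ) ≤ x / ξ := Int.floor_le _
  have h2 : x / ξ < (⌊x / ξ⌋ : ℝ) + 1 := Int.lt_floor_add_one _
  rw [le_div_iff₀ hξ] at h1
  rw [div_lt_iff₀ hξ] at h2
  rw [abs_le]
  constructor <;> nlinarith

theorem k7a_rw_Y (R : KsRef KbVer.two) (l : R.L) (t : ℝ) : ksY (R.y l t) = ksY (R.co l).1 + ksY (R.V l) * t := by
  show (R.co l).1 (1 : Fin 2) + t * (R.co l).2.1 (1 : Fin 2) = (R.co l).1 (1 : Fin 2) + (R.co l).2.1 (1 : Fin 2) * t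
  ring

theorem k7a_rw_Z (R : KsRef KbVer.two) (l : R.L) (t : ℝ) : ksZ (R.y l t) = ksZ (R.co l).1 + ksZ (R.V l) * t := by
  show (R.co l).1 (0 : Fin 2) + t * (R.co l).2.1 (0 : Fin 2) = (R.co l).1 (0 : Fin 2) + (R.co l).2.1 (0 : Fin 2) * t
  ring

theorem k7a_rw_YQ (R : KsRef KbVer.two) (Q : R.Lab) (t t' Z Z' : ℝ) :
    R.YQ Q t Z - R.YQ Q t' Z' = R.row Q 0 * (t - t') + R.tl Q * (Z - Z') := by
  show ((R.ch Q).y0 (1 : Fin 2) + t * (R.ch Q).y1 (1 : Fin 2)) + R.tl Q * (Z - ((R.ch Q).y0 (0 : Fin 2) + t * (R.ch Q).y1 (0 : Fin 2)))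
      - (((R.ch Q).y0 (1 : Fin 2) + t' * (R.ch Q).y1 (1 : Fin 2)) + R.tl Q * (Z' - ((R.ch Q).y0 (0 : Fin 2) + t' * (R.ch Q).y1 (0 : Fin 2))))
    = ((R.ch Q).y1 (1 : Fin 2) - R.tl Q * (R.ch Q).y1 (0 : Fin 2)) * (t - t') + R.tl Q * (Z - Z')
  ring

/-- the ancestor at the depth `s` of the label of depth `r` is the label of depth `s` -/
theorem k7a_rw_anc {R : KsRef KbVer.two} {K s r : ℝ} (hR : R.Ok K) (hs : s ∈ R.depths) (hr : r ∈ R.depths) (hsr : s ≤ r)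
    {p : R.L × ℝ} (hp : p ∈ R.Ev0) {Q : R.Lab} (hQ : R.dep Q = s ∧ R.Desc (R.labAt r p) Q) : R.labAt s p = Q := by
  have h1 := hR.lab r hr p hp
  have h2 := hR.lab s hs p hp
  refine ks_lab_unique hR h2 ⟨hQ.1, ?_⟩
  exact ⟨hQ.2.2.1 h1.2.1, hQ.2.2.2 h1.2.2⟩

/-- the intercept of `Z` from the bins of `(t, Z, v)` -/
theorem k7a_rw_e2 {K ξ t tξ v vξ Zt Zξ : ℝ} (hξ0 : 0 < ξ) (hξ1 : ξ ≤ 1) (ht : t ∈ Set.Icc (0 : ℝ) 1) (hv : |v| ≤ K)
    (h1 : |Zt - Zξ| ≤ ξ) (h2 : |v - vξ| ≤ ξ) (h3 : |t - tξ| ≤ ξ) : |(Zt - v * t) - (Zξ - vξ * tξ)| ≤ (K + 3) * ξ := by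
  have e : (Zt - v * t) - (Zξ - vξ * tξ) = (Zt - Zξ) - vξ * (t - tξ) - (v - vξ) * t := by ring
  have hvξ : |vξ| ≤ K + 1 := by
    have : |vξ| ≤ |v| + |v - vξ| := by
      have := abs_sub_abs_le_abs_sub vξ v
      rw [abs_sub_comm vξ v] at this
      linarith
    linarith
  have a1 : |vξ * (t - tξ)| ≤ (K + 1) * ξ := by
    rw [abs_mul]
    exact mul_le_mul hvξ h3 (abs_nonneg _) (by linarith [abs_nonneg vξ])
  have a2 : |(v - vξ) * t| ≤ ξ * 1 := by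
    rw [abs_mul]
    exact mul_le_mul h2 (by rw [abs_of_nonneg ht.1]; exact ht.2) (abs_nonneg _) hξ0.le
  rw [e]
  calc |(Zt - Zξ) - vξ * (t - tξ) - (v - vξ) * t| ≤ |Zt - Zξ| + |vξ * (t - tξ)| + |(v - vξ) * t| := by
        refine (abs_sub _ _).trans ?_
        gcongr
        exact abs_sub _ _
    _ ≤ (K + 3) * ξ := by linarith

/-- the position at the left end of the comparison interval -/
theorem k7a_rw_e5 {K K4 ξ g qd br t tξ ti Yt YQt YQξ Y1 y10 : ℝ} (hK : 1 ≤ K) (hξ0 : 0 < ξ) (hg0 : 0 < g) (hg1 : g ≤ 1) (hqd : 0 < qd)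
    (hti : 0 ≤ t - ti) (hti' : t - ti ≤ qd) (h1 : |Yt - YQt| ≤ K ^ 5 * br) (h2 : |YQt - YQξ| ≤ 3 * K ^ 3 * ξ)
    (h3 : |Y1 - y10| ≤ (4 * K ^ 6 + 1) * g) (h4 : |t - tξ| ≤ ξ) (h5 : |Y1| ≤ K) (hb : br ≤ K4 * (qd * g)) (hξm : 9 * K ^ 6 * ξ ≤ qd * g) :
    |(Yt - Y1 * (t - ti)) - (YQξ - y10 * (tξ - ti))| ≤ (K ^ 5 * K4 + 4 * K ^ 6 + 2) * (qd * g) := by
  have e : (Yt - Y1 * (t - ti)) - (YQξ - y10 * (tξ - ti)) = (Yt - YQt) + (YQt - YQξ) - (Y1 - y10) * (t - ti) - y10 * (t - tξ) := by ring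
  have hK6 : 1 ≤ K ^ 6 := one_le_pow₀ hK
  have hK36 : K ^ 3 ≤ K ^ 6 := pow_le_pow_right₀ hK (by norm_num)
  have hK16 : K ≤ K ^ 6 := by
    calc K = K ^ 1 := (pow_one K).symm
      _ ≤ K ^ 6 := pow_le_pow_right₀ hK (by norm_num)
  have hy10 : |y10| ≤ 6 * K ^ 6 := by
    have : |y10| ≤ |Y1| + |Y1 - y10| := by
      have := abs_sub_abs_le_abs_sub y10 Y1
      rw [abs_sub_comm y10 Y1] at this
      linarith
    have h6 : (4 * K ^ 6 + 1) * g ≤ (4 * K ^ 6 + 1) * 1 := by gcongr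
    linarith
  have a1 : |(Y1 - y10) * (t - ti)| ≤ (4 * K ^ 6 + 1) * g * qd := by
    rw [abs_mul, abs_of_nonneg hti]
    exact mul_le_mul h3 hti' hti (by positivity)
  have a2 : |y10 * (t - tξ)| ≤ 6 * K ^ 6 * ξ := by
    rw [abs_mul]
    exact mul_le_mul hy10 h4 (abs_nonneg _) (by positivity)
  have a3 : K ^ 5 * br ≤ K ^ 5 * (K4 * (qd * g)) := by gcongr
  rw [e]
  calc |(Yt - YQt) + (YQt - YQξ) - (Y1 - y10) * (t - ti) - y10 * (t - tξ)|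
      ≤ |Yt - YQt| + |YQt - YQξ| + |(Y1 - y10) * (t - ti)| + |y10 * (t - tξ)| := by
        refine (abs_sub _ _).trans ?_
        gcongr
        refine (abs_sub _ _).trans ?_
        gcongr
        exact abs_add_le _ _
    _ ≤ (K ^ 5 * K4 + 4 * K ^ 6 + 2) * (qd * g) := by nlinarith

set_option maxHeartbeats 1000000 in
/-- **the row list, one scale, explicit slack** -/
theorem k7a_row_core (R : KsRef KbVer.two) (A : R.Par) (E' : Set (R.L × ℝ)) (P : K7aLayer (R.toLn A)) {K K4 s r χ th d β β0 qd ξ : ℝ}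
    (hR : R.Ok K) (hT : R.Tilt K) (hE : E' ⊆ R.Ev0) (hs : s ∈ R.depths) (hr : r ∈ R.depths) (hsr : s ≤ r)
    (hP : P.Ok K χ th β d) (hlab : ∀ x ∈ E', P.lab x.1 ≠ none)
    (hL : K7aLists (R.toW A s) P E' K χ qd (R.a (R.ell * s)) (qd * R.a (R.ell * s)))
    (hξ0 : 0 < ξ) (hξ1 : ξ ≤ 1) (hχ0 : 0 < χ) (hξχ : (K + 3) * ξ ≤ χ) (hqd : 0 < qd) (hξq : ξ ≤ qd) (hξg : K ^ 2 * ξ ≤ R.a (R.ell * s))
    (hξm : 9 * K ^ 6 * ξ ≤ qd * R.a (R.ell * s)) (hb : R.a ((R.k + R.ell) * r) ≤ K4 * (qd * R.a (R.ell * s))) (hK4 : 0 ≤ K4)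
    (hβ : 0 < β) (hβ0 : β ≤ β0) (hg1 : R.a (R.ell * s) ≤ 1) :
    K7bRowList R E' (27 * (2 * (K ^ 5 * K4 + 4 * K ^ 6 + 2) + 3) ^ 3 * K) β0 r ξ := by
  classical
  have hK1 := hR.K_ge
  have hK0 : 0 ≤ K := by linarith
  set g := R.a (R.ell * s) with hg
  have hg0 : 0 < g := ksl8_a_pos hR _
  set Λ := K ^ 5 * K4 + 4 * K ^ 6 + 2 with hΛ
  have hΛ0 : 0 ≤ Λ := by positivity
  set n := ⌈Λ⌉₊ with hn
  have hnΛ : Λ ≤ n := Nat.le_ceil Λ
  have hnΛ' : (n : ℝ) ≤ Λ + 1 := (Nat.ceil_lt_add_one hΛ0).le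
  have hχ' : χ ≤ kbDy χ := k7a_dy_ge hχ0
  have hχ'0 : 0 < kbDy χ := lt_of_lt_of_le hχ0 hχ'
  have hβ00 : 0 < β0 := lt_of_lt_of_le hβ hβ0
  have hm0 : 0 < qd * g := mul_pos hqd hg0
  choose S hS1 hS2 using hL.fwd
  let anc : R.Lab → R.Lab := fun Q => if h : ∃ Q', R.dep Q' = s ∧ R.Desc Q Q' then h.choose else Q
  let y10 : R.Lab → ℤ × ℤ × ℤ → ℝ := fun Q C => R.row (anc Q) 0 + R.row (anc Q) 1 * ((C.2.2 : ℝ) * ξ)
  let win : ℝ → ℝ → ℕ → Finset ℤ := fun x0 w k => Finset.Icc (⌊x0 / w⌋ - k) (⌊x0 / w⌋ + k)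
  let Lst : R.Lab → ℤ × ℤ × ℤ → Finset ℤ := fun Q C =>
    (win ((C.2.2 : ℝ) * ξ) (kbDy χ) 1).biUnion fun mv =>
      (win ((C.2.1 : ℝ) * ξ - (C.2.2 : ℝ) * ξ * ((C.1 : ℝ) * ξ)) (kbDy χ) 1).biUnion fun z =>
        (win ((C.1 : ℝ) * ξ) qd 1).biUnion fun i => (win (y10 Q C) g n).biUnion fun j =>
          (win (R.YQ Q ((C.1 : ℝ) * ξ) ((C.2.1 : ℝ) * ξ) - y10 Q C * ((C.1 : ℝ) * ξ - (i : ℝ) * qd)) (qd * g) n).biUnion fun k =>
            (S (anc Q) mv z (i, j, k)).biUnion fun φ => win (P.G φ).c1 β0 n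
  have hwin : ∀ x0 w k, (win x0 w k).card = 2 * k + 1 := fun x0 w k => k7a_rw_card _ k
  refine ⟨Lst, fun Q C => ?_, fun p hp => ?_⟩
  · have hSn : ∀ Q mv z D, (S Q mv z D).card ≤ ⌊K⌋₊ := fun Q mv z D => Nat.le_floor (hS1 Q mv z D)
    have h1 : (Lst Q C).card ≤ 3 * (3 * (3 * ((2 * n + 1) * ((2 * n + 1) * (⌊K⌋₊ * (2 * n + 1)))))) := by
      refine (Finset.card_biUnion_le_card_mul _ _ _ fun mv _ => ?_).trans (by rw [hwin])
      refine (Finset.card_biUnion_le_card_mul _ _ _ fun z _ => ?_).trans (by rw [hwin])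
      refine (Finset.card_biUnion_le_card_mul _ _ _ fun i _ => ?_).trans (by rw [hwin])
      refine (Finset.card_biUnion_le_card_mul _ _ _ fun j _ => ?_).trans (by rw [hwin])
      refine (Finset.card_biUnion_le_card_mul _ _ _ fun k _ => ?_).trans (by rw [hwin])
      refine (Finset.card_biUnion_le_card_mul _ _ _ fun φ _ => (hwin _ _ _).le).trans ?_
      exact Nat.mul_le_mul_right _ (hSn _ _ _ _)
    have h2 : ((Lst Q C).card : ℝ) ≤ 3 * (3 * (3 * ((2 * n + 1) * ((2 * n + 1) * (⌊K⌋₊ * (2 * n + 1)))))) := by exact_mod_cast h1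
    have h3 : ((⌊K⌋₊ : ℕ) : ℝ) ≤ K := Nat.floor_le hK0
    have h4 : (2 * (n : ℝ) + 1) ≤ 2 * Λ + 3 := by linarith
    have h5 : (0 : ℝ) ≤ 2 * (n : ℝ) + 1 := by positivity
    calc ((Lst Q C).card : ℝ) ≤ 27 * (2 * (n : ℝ) + 1) ^ 3 * (⌊K⌋₊ : ℝ) := by rw [show (27 : ℝ) * (2 * (n : ℝ) + 1) ^ 3 * (⌊K⌋₊ : ℝ) = 3 * (3 * (3 * ((2 * n + 1) * ((2 * n + 1) * (⌊K⌋₊ * (2 * n + 1)))))) by ring]; exact h2
      _ ≤ 27 * (2 * Λ + 3) ^ 3 * K := by gcongr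
  · obtain ⟨l, t⟩ := p
    have hp0 : (l, t) ∈ R.Ev0 := hE hp
    have hSp := hR.Ev0_sub hp0
    have hl : l ∈ R.Sp := hSp.1
    have ht : t ∈ Set.Icc (0 : ℝ) 1 := hSp.2
    have hLr := hR.lab r hr _ hp0
    have hLs := hR.lab s hs _ hp0
    set Qr := R.labAt r (l, t) with hQr
    set Qs := R.labAt s (l, t) with hQs
    have hanc : anc Qr = Qs := by
      have hex : ∃ Q', R.dep Q' = s ∧ R.Desc Qr Q' := hR.nested Qr s hs (by rw [hLr.1]; exact hsr)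
      have : anc Qr = hex.choose := dif_pos hex
      rw [this]
      exact (k7a_rw_anc hR hs hr hsr hp0 hex.choose_spec).symm
    set v := ksZ (R.V l) with hv
    set Y1 := ksY (R.V l) with hY1
    have hVb := hR.V_bd l hl
    have hvK : |v| ≤ K := (ksl8_abs_le_norm _).1.trans hVb
    have hY1K : |Y1| ≤ K := (ksl8_abs_le_norm _).2.trans hVb
    set ct : ℤ := ⌊t / ξ⌋ with hct
    set cZ : ℤ := ⌊ksZ (R.y l t) / ξ⌋ with hcZ
    set cv : ℤ := ⌊v / ξ⌋ with hcv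
    have b1 : |t - (ct : ℝ) * ξ| ≤ ξ := k7a_rw_bin hξ0
    have b2 : |ksZ (R.y l t) - (cZ : ℝ) * ξ| ≤ ξ := k7a_rw_bin hξ0
    have b3 : |v - (cv : ℝ) * ξ| ≤ ξ := k7a_rw_bin hξ0
    have hξχ' : ξ ≤ kbDy χ := by nlinarith
    obtain ⟨φ, hφ⟩ := Option.ne_none_iff_exists'.mp (hlab _ hp)
    have hK6 : 1 ≤ K ^ 6 := one_le_pow₀ hK1
    have hK54 : 0 ≤ K ^ 5 * K4 := by positivity
    -- the slope from `Q_s`
    have hbs := ks_tilt_box hR hT Qs l hLs.2.1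
    have hss := ks_tilt_size hR hT Qs
    have hgs : R.g Qs = g := by rw [KsRef.g, hLs.1]
    have hrow1 : R.row Qs 1 = R.tl Qs := rfl
    have e4 : |Y1 - (R.row Qs 0 + R.row Qs 1 * ((cv : ℝ) * ξ))| ≤ (4 * K ^ 6 + 1) * g := by
      have h1 := hbs.2
      rw [hgs] at h1
      have h2 : |R.row Qs 1 * (v - (cv : ℝ) * ξ)| ≤ K ^ 2 * ξ := by
        rw [abs_mul, hrow1]
        exact mul_le_mul hss.1 b3 (abs_nonneg _) (by positivity)
      have e : Y1 - (R.row Qs 0 + R.row Qs 1 * ((cv : ℝ) * ξ)) = (Y1 - (R.row Qs 0 + R.row Qs 1 * v)) + R.row Qs 1 * (v - (cv : ℝ) * ξ) := by ring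
      rw [e]
      refine (abs_add_le _ _).trans ?_
      linarith
    -- the position from `Q_r`
    have hbr := (ks_tilt_box hR hT Qr l hLr.2.1).1 t hLr.2.2
    have hsr' := ks_tilt_size hR hT Qr
    have hbrr : R.b Qr = R.a ((R.k + R.ell) * r) := by rw [KsRef.b, hLr.1]
    have e5b : |R.YQ Qr t (ksZ (R.y l t)) - R.YQ Qr ((ct : ℝ) * ξ) ((cZ : ℝ) * ξ)| ≤ 3 * K ^ 3 * ξ := by
      rw [k7a_rw_YQ]
      have h1 : |R.row Qr 0 * (t - (ct : ℝ) * ξ)| ≤ 2 * K ^ 3 * ξ := by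
        rw [abs_mul]
        exact mul_le_mul hsr'.2.1 b1 (abs_nonneg _) (by positivity)
      have h2 : |R.tl Qr * (ksZ (R.y l t) - (cZ : ℝ) * ξ)| ≤ K ^ 2 * ξ := by
        rw [abs_mul]
        exact mul_le_mul hsr'.1 b2 (abs_nonneg _) (by positivity)
      have h3 : K ^ 2 ≤ K ^ 3 := pow_le_pow_right₀ hK1 (by norm_num)
      refine (abs_add_le _ _).trans ?_
      nlinarith
    set i : ℤ := ⌊t / qd⌋ with hi
    have hi1 : 0 ≤ t - (i : ℝ) * qd := by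
      have : (i : ℝ) ≤ t / qd := Int.floor_le _
      rw [le_div_iff₀ hqd] at this
      linarith
    have hi2 : t - (i : ℝ) * qd ≤ qd := by
      have : t / qd < (i : ℝ) + 1 := Int.lt_floor_add_one _
      rw [div_lt_iff₀ hqd] at this
      linarith
    have hYW : (R.toW A s).Y l ((i : ℝ) * qd) = ksY (R.y l t) - Y1 * (t - (i : ℝ) * qd) := by
      rw [k7a_rw_Y]
      show ksY (R.co l).1 + ksY (R.V l) * ((i : ℝ) * qd) = _
      ring
    have e5 := k7a_rw_e5 (K4 := K4) (ti := (i : ℝ) * qd) hK1 hξ0 hg0 hg1 hqd hi1 hi2 (by rw [← hbrr]; exact hbr.2) e5b e4 b1 hY1K hb hξm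
    -- the slope from the projected label
    have e7 : |Y1 - (P.G φ).c1| ≤ 2 * K * β0 := by
      have f0 := (hP.fit l φ hφ 0 ⟨le_rfl, zero_le_one⟩).1
      have f1 := (hP.fit l φ hφ 1 ⟨zero_le_one, le_rfl⟩).1
      have e : Y1 - (P.G φ).c1 = ((R.toLn A).Y l 1 - (P.G φ).cen 1) - ((R.toLn A).Y l 0 - (P.G φ).cen 0) := by
        show Y1 - (P.G φ).c1 = ((ksY (R.co l).1 + ksY (R.V l) * 1) - ((P.G φ).c0 + (P.G φ).c1 * 1)) - ((ksY (R.co l).1 + ksY (R.V l) * 0) - ((P.G φ).c0 + (P.G φ).c1 * 0))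
        ring
      rw [e]
      refine (abs_sub _ _).trans ?_
      have : K * β ≤ K * β0 := by gcongr
      linarith
    have e2 := k7a_rw_e2 hξ0 hξ1 ht hvK b2 b3 b1
    have hZ0 : ksZ (R.co l).1 = ksZ (R.y l t) - v * t := by rw [k7a_rw_Z]; ring
    show ⌊Y1 / β0⌋ ∈ Lst Qr (ct, cZ, cv)
    simp only [Lst, Finset.mem_biUnion]
    refine ⟨⌊v / kbDy χ⌋, k7a_rw_floor hχ'0 ?_, ⌊ksZ (R.co l).1 / kbDy χ⌋, k7a_rw_floor hχ'0 ?_, i, k7a_rw_floor hqd ?_, ⌊Y1 / g⌋, k7a_rw_floor hg0 ?_,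
      ⌊(R.toW A s).Y l ((i : ℝ) * qd) / (qd * g)⌋, k7a_rw_floor hm0 ?_, φ, ?_, k7a_rw_floor hβ00 ?_⟩
    · push_cast; linarith
    · rw [hZ0]; push_cast; linarith
    · push_cast; linarith
    · show |Y1 - (R.row (anc Qr) 0 + R.row (anc Qr) 1 * ((cv : ℝ) * ξ))| ≤ n * g
      rw [hanc]
      refine e4.trans ?_
      gcongr
      linarith
    · show |(R.toW A s).Y l ((i : ℝ) * qd) - (R.YQ Qr ((ct : ℝ) * ξ) ((cZ : ℝ) * ξ) - (R.row (anc Qr) 0 + R.row (anc Qr) 1 * ((cv : ℝ) * ξ)) * ((ct : ℝ) * ξ - (i : ℝ) * qd))| ≤ n * (qd * g)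
      rw [hanc, hYW]
      refine e5.trans ?_
      gcongr
    · rw [hanc]
      exact hS2 Qs _ _ _ (l, t) hp rfl rfl rfl rfl φ hφ
    · refine e7.trans ?_
      gcongr
      have : K ≤ K ^ 6 := by
        calc K = K ^ 1 := (pow_one K).symm
          _ ≤ K ^ 6 := pow_le_pow_right₀ hK1 (by norm_num)
      linarith

theorem k7a_rw_mono {R : KsRef KbVer.two} {E : Set (R.L × ℝ)} {K K' β r ξ : ℝ} (h : K7bRowList R E K β r ξ) (hK : K ≤ K') :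
    K7bRowList R E K' β r ξ := by
  obtain ⟨Lst, h1, h2⟩ := h
  exact ⟨Lst, fun Q C => (h1 Q C).trans hK, h2⟩

set_option maxHeartbeats 1000000 in
/-- **L-252-S7a-ROW** the row list (07 l.941-955) -/
theorem k7a_RowK_pf : k7a_RowK := by
  intro p s r B0 B1 Mχ hp hell hs hsr hB0 hB01 hB1 hMχ
  have hk0 : 0 < p.k := hp.k_pos
  have hB1pos : 0 < B1 := by
    have : 0 < p.ell * r := mul_pos hell (hs.trans hsr)
    linarith
  have hkls : 0 < (p.k + p.ell) * s := mul_pos (by linarith) hs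
  refine ⟨Mχ + B1 + (p.k + p.ell) * s + 2, fun Mξ hMξ τ' hτ' => ?_⟩
  have hτ : 0 < min (τ' / 40) (1 / 16) := lt_min (by positivity) (by norm_num)
  refine ⟨min (τ' / 40) (1 / 16), max 6561 ((132651 : ℝ) ^ (2 / τ')), hτ, ?_⟩
  set τ := min (τ' / 40) (1 / 16) with hτd
  have hτ1 : τ ≤ τ' / 40 := min_le_left _ _
  have hτ2 : τ ≤ 1 / 16 := min_le_right _ _
  intro R A E' P β qd hprm hN hsd hrd hR hT _ hCur hP hβ1 hβ0 hlab _ hq1 _ hL
  subst hprm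
  set N := R.N with hNd
  have hN1 : (6561 : ℝ) ≤ N := (le_max_left _ _).trans hN
  have hN2 : (132651 : ℝ) ^ (2 / τ') ≤ N := (le_max_right _ _).trans hN
  have hN0 : 0 < N := by linarith
  have hN1' : 1 ≤ N := by linarith
  have hpos : ∀ x : ℝ, 0 < N ^ x := fun x => Real.rpow_pos_of_pos hN0 x
  have hmono : ∀ {x y : ℝ}, x ≤ y → N ^ x ≤ N ^ y := fun h => Real.rpow_le_rpow_of_exponent_le hN1' h
  have hadd : ∀ x y : ℝ, N ^ x * N ^ y = N ^ (x + y) := fun x y => (Real.rpow_add hN0 x y).symm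
  have hpw : ∀ (x : ℝ) (k : ℕ), (N ^ x) ^ k = N ^ (x * k) := fun x k => by rw [← Real.rpow_natCast, ← Real.rpow_mul hN0.le]
  have h9 : (9 : ℝ) ≤ N ^ (1 / 4 : ℝ) := by
    have : (9 : ℝ) = (6561 : ℝ) ^ (1 / 4 : ℝ) := by
      rw [show (6561 : ℝ) = 9 ^ (4 : ℝ) by norm_num, ← Real.rpow_mul (by norm_num)]
      norm_num
    rw [this]
    exact Real.rpow_le_rpow (by norm_num) hN1 (by norm_num)
  have hC : (132651 : ℝ) ≤ N ^ (τ' / 2) := by
    have h1 : ((132651 : ℝ) ^ (2 / τ')) ^ (τ' / 2) ≤ N ^ (τ' / 2) := Real.rpow_le_rpow (by positivity) hN2 (by positivity)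
    rwa [← Real.rpow_mul (by norm_num), show 2 / τ' * (τ' / 2) = 1 by field_simp, Real.rpow_one] at h1
  set K := N ^ τ with hK
  have hK1 : 1 ≤ K := Real.one_le_rpow hN1' hτ.le
  set g := N ^ (-(R.prm.ell * s)) with hg
  have hβpos : 0 < β := lt_of_lt_of_le (hpos _) hβ1
  -- lower bound for `qd`
  have hmin : N ^ (-((R.prm.k + R.prm.ell) * s) - B1) ≤ min (N ^ (-(R.prm.k * s))) (β * N ^ (R.prm.ell * s)) := by
    refine le_min (hmono ?_) ?_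
    · nlinarith
    · calc N ^ (-((R.prm.k + R.prm.ell) * s) - B1) ≤ N ^ (-B1 + R.prm.ell * s) := hmono (by nlinarith)
        _ = N ^ (-B1) * N ^ (R.prm.ell * s) := (hadd _ _).symm
        _ ≤ β * N ^ (R.prm.ell * s) := by gcongr
  have hqd0 : 0 < qd := by
    have h1 : 0 < K * qd := lt_of_lt_of_le (hpos _) (hmin.trans hq1)
    exact (pos_iff_pos_of_mul_pos h1).mp (by linarith)
  have hqlow : N ^ (-τ - (R.prm.k + R.prm.ell) * s - B1) ≤ qd := by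
    have h1 : N ^ (-((R.prm.k + R.prm.ell) * s) - B1) ≤ K * qd := hmin.trans hq1
    have h2 : N ^ (-τ) * (K * qd) = qd := by
      rw [← mul_assoc, hK, hadd]
      simp
    calc N ^ (-τ - (R.prm.k + R.prm.ell) * s - B1) = N ^ (-τ) * N ^ (-((R.prm.k + R.prm.ell) * s) - B1) := by rw [hadd]; congr 1; ring
      _ ≤ N ^ (-τ) * (K * qd) := by gcongr
      _ = qd := h2
  -- lower bound for `m = qd g`
  have hmg : min (N ^ (-((R.prm.k + R.prm.ell) * s))) β ≤ K * (qd * g) := by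
    have h1 : min (N ^ (-((R.prm.k + R.prm.ell) * s))) β = min (N ^ (-(R.prm.k * s))) (β * N ^ (R.prm.ell * s)) * g := by
      rw [min_mul_of_nonneg _ _ (hpos _).le, hadd, mul_assoc, hadd]
      congr 1
      · congr 1; ring
      · simp
    rw [h1, ← mul_assoc]
    gcongr
  have hmlow : N ^ (-τ - (R.prm.k + R.prm.ell) * s - B1) ≤ qd * g := by
    have h1 : N ^ (-((R.prm.k + R.prm.ell) * s) - B1) ≤ min (N ^ (-((R.prm.k + R.prm.ell) * s))) β :=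
      le_min (hmono (by linarith)) ((hmono (by linarith)).trans hβ1)
    have h2 : N ^ (-τ) * (K * (qd * g)) = qd * g := by
      rw [← mul_assoc, hK, hadd]
      simp
    calc N ^ (-τ - (R.prm.k + R.prm.ell) * s - B1) = N ^ (-τ) * N ^ (-((R.prm.k + R.prm.ell) * s) - B1) := by rw [hadd]; congr 1; ring
      _ ≤ N ^ (-τ) * (K * (qd * g)) := by gcongr; exact h1.trans hmg
      _ = qd * g := h2
  have hks : 0 < R.prm.k * s := mul_pos hk0 hs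
  have hls : 0 < R.prm.ell * s := mul_pos hell hs
  have hcore := k7a_row_core R A E' P (K := K) (K4 := K) (s := s) (r := r) (χ := N ^ (-Mχ)) (β := β) (β0 := N ^ (-B0)) (qd := qd) (ξ := N ^ (-Mξ))
    hR hT hCur.sub hsd hrd hsr.le hP hlab hL (hpos _) (Real.rpow_le_one_of_one_le_of_nonpos hN1' (by linarith)) (hpos _) ?_ hqd0 ?_ ?_ ?_ ?_
    (by linarith) hβpos hβ0 (Real.rpow_le_one_of_one_le_of_nonpos hN1' (by linarith))
  · refine k7a_rw_mono hcore ?_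
    have h1 : K ^ 5 * K + 4 * K ^ 6 + 2 ≤ 7 * K ^ 6 := by
      have : 1 ≤ K ^ 6 := one_le_pow₀ hK1
      nlinarith
    have h2 : 2 * (K ^ 5 * K + 4 * K ^ 6 + 2) + 3 ≤ 17 * K ^ 6 := by
      have : 1 ≤ K ^ 6 := one_le_pow₀ hK1
      nlinarith
    have h3 : 0 ≤ 2 * (K ^ 5 * K + 4 * K ^ 6 + 2) + 3 := by positivity
    calc 27 * (2 * (K ^ 5 * K + 4 * K ^ 6 + 2) + 3) ^ 3 * K ≤ 27 * (17 * K ^ 6) ^ 3 * K := by gcongr
      _ = 132651 * K ^ 19 := by ring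
      _ = 132651 * N ^ (τ * 19) := by rw [hK, hpw]; norm_num
      _ ≤ N ^ (τ' / 2) * N ^ (τ' / 2) := mul_le_mul hC (hmono (by linarith)) (hpos _).le (hpos _).le
      _ = N ^ τ' := by rw [hadd]; congr 1; ring
  · -- `(K + 3) ξ ≤ χ`
    calc (K + 3) * N ^ (-Mξ) ≤ (N ^ (1 / 4 : ℝ) * K) * N ^ (-Mξ) := by
          gcongr
          nlinarith
      _ = N ^ (1 / 4 + τ + -Mξ) := by rw [hK, hadd, hadd]
      _ ≤ N ^ (-Mχ) := hmono (by linarith)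
  · -- `ξ ≤ qd`
    exact (hmono (by linarith)).trans hqlow
  · -- `K² ξ ≤ g`
    show K ^ 2 * N ^ (-Mξ) ≤ N ^ (-(R.prm.ell * s))
    rw [hK, hpw, hadd]
    refine hmono ?_
    push_cast
    nlinarith
  · -- `9 K⁶ ξ ≤ m`
    show 9 * K ^ 6 * N ^ (-Mξ) ≤ qd * g
    refine le_trans ?_ hmlow
    calc 9 * K ^ 6 * N ^ (-Mξ) ≤ N ^ (1 / 4 : ℝ) * K ^ 6 * N ^ (-Mξ) := by gcongr
      _ = N ^ (1 / 4 + τ * 6 + -Mξ) := by rw [hK, hpw, hadd, hadd]; norm_num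
      _ ≤ N ^ (-τ - (R.prm.k + R.prm.ell) * s - B1) := hmono (by linarith)
  · -- `b_r ≤ K m`
    show N ^ (-((R.prm.k + R.prm.ell) * r)) ≤ K * (qd * g)
    refine le_trans (le_min (hmono ?_) ((hmono ?_).trans hβ1)) hmg
    · have : (R.prm.k + R.prm.ell) * s ≤ (R.prm.k + R.prm.ell) * r := by
        apply mul_le_mul_of_nonneg_left hsr.le
        linarith
      linarith
    · linarith

end

end Claimed.Agent.R252
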