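import Claimed.Agent.R252.S7a.Defs
import Claimed.Agent.R252.Remez.One

/-!
# ROW 252 (S0492), unit S7a, post BP-252-S7a-RET (sub-architect helper64), file A: MEASURE KIT of the return step.      PAPER-FREE, Mathlib + `S7a/Defs`.

The chain of the post:   RetA (moving bins, strips, slicing) + RetB (quadratics: Remez, extrapolation) + RetC (jitter = Fubini, marks) + RetD (finite: pigeonhole, reindexing)
  ⟹ RetE (one active label: floor ≤ ceiling, width, norm, full time) ⟹ RetMain (`k7a_r_return`, `k7a_r_return_ang` = the two statements of `T71Contract.lean`).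
Every `sorry` is a leaf `L-252-S7a-R*`: prove IN PLACE, statement verbatim, helpers directly above with prefix `k7a_r`.
-/

set_option autoImplicit false

namespace Claimed.Agent.R252

open MeasureTheory
open scoped ENNReal BigOperators

noncomputable section

/-- **L-252-S7a-RA1: moving bins** (R1).   A ceiling for the fixed bins `X ∈ [xs, xs + a)` over every measurable base set gives the ceiling for the moving bin `|X - F(b)| ≤ K a`, constant `× (2K + 2)`.   NO measurability of `b, X, S` is needed (outer measure).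
PLAN.  `B k = B ∩ {p | ⌊F p / a⌋ = k}` (`k : ℤ`; measurable, disjoint, union `B`: `∑' k, volume (B k) = volume B` by `measure_iUnion`).   On `B k`: `k a ≤ F < (k+1) a`, so `|X - F| ≤ K a` gives `X ∈ [lo, lo + (2K+1) a)`, `lo = k a - K a`;
with `m = ⌊(X - lo)/a⌋₊ < ⌈2K+1⌉₊ =: M` one has `X ∈ Ico (lo + m a) (lo + m a + a)`.   So the set is inside `⋃ k, ⋃ m ∈ range M, {S, b ∈ B k, X ∈ Ico ..}`: `measure_iUnion_le`, `measure_biUnion_finset_le`, `hcap`, `ENNReal.tsum_mul_left`; `M ≤ 2K+2` (`Nat.ceil_lt_add_one`). -/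
theorem k7a_r_moving {Ω : Type} [MeasurableSpace Ω] (μ : Measure Ω) (b : Ω → ℝ × ℝ) (X : Ω → ℝ) (S : Set Ω) (κ : ℝ≥0∞) {a K : ℝ}
    (ha : 0 < a) (hK : 0 ≤ K)
    (hcap : ∀ (B : Set (ℝ × ℝ)) (xs : ℝ), MeasurableSet B → μ {ω | ω ∈ S ∧ b ω ∈ B ∧ X ω ∈ Set.Ico xs (xs + a)} ≤ κ * volume B)
    (F : ℝ × ℝ → ℝ) (hF : Measurable F) (B : Set (ℝ × ℝ)) (hB : MeasurableSet B) :
    μ {ω | ω ∈ S ∧ b ω ∈ B ∧ |X ω - F (b ω)| ≤ K * a} ≤ ENNReal.ofReal (2 * K + 2) * κ * volume B := by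
  obtain ⟨Bk, hBk⟩ : ∃ Bk : ℤ → Set (ℝ × ℝ), Bk = fun k => B ∩ {p | ⌊F p / a⌋ = k} := ⟨_, rfl⟩
  have hBkm : ∀ k, MeasurableSet (Bk k) := fun k => by
    rw [hBk]
    exact hB.inter ((Int.measurable_floor.comp (hF.div_const a)) (measurableSet_singleton k))
  have hdisj : Pairwise (Function.onFun Disjoint Bk) := by
    intro i j hij
    rw [Function.onFun, Set.disjoint_left, hBk]
    rintro p ⟨-, h1⟩ ⟨-, h2⟩
    exact hij (h1.symm.trans h2)
  have hun : ⋃ k, Bk k = B := by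
    ext p
    rw [hBk]
    simp only [Set.mem_iUnion, Set.mem_inter_iff, Set.mem_ofPred_eq]
    constructor
    · rintro ⟨k, h, -⟩
      exact h
    · intro h
      exact ⟨_, h, rfl⟩
  have hsum : ∑' k, volume (Bk k) = volume B := by
    rw [← measure_iUnion hdisj hBkm, hun]
  obtain ⟨M, hM⟩ : ∃ M : ℕ, M = ⌈2 * K + 1⌉₊ := ⟨_, rfl⟩
  have hsub : {ω | ω ∈ S ∧ b ω ∈ B ∧ |X ω - F (b ω)| ≤ K * a} ⊆
      ⋃ k : ℤ, ⋃ m ∈ Finset.range M,
        {ω | ω ∈ S ∧ b ω ∈ Bk k ∧ X ω ∈ Set.Ico ((k : ℝ) * a - K * a + m * a) ((k : ℝ) * a - K * a + m * a + a)} := by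
    rintro ω ⟨hS, hb, hX⟩
    rw [abs_le] at hX
    have f1 := Int.floor_le (F (b ω) / a)
    have f2 := Int.lt_floor_add_one (F (b ω) / a)
    rw [le_div_iff₀ ha] at f1
    rw [div_lt_iff₀ ha] at f2
    obtain ⟨k, hk⟩ : ∃ k : ℤ, k = ⌊F (b ω) / a⌋ := ⟨_, rfl⟩
    rw [← hk] at f1 f2
    obtain ⟨y, hy⟩ : ∃ y : ℝ, y = (X ω - ((k : ℝ) * a - K * a)) / a := ⟨_, rfl⟩
    have hya : y * a = X ω - ((k : ℝ) * a - K * a) := by
      rw [hy]
      field_simp
    have hy0 : 0 ≤ y := by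
      rw [hy]
      apply div_nonneg _ ha.le
      linarith [hX.1]
    have hy1 : y < 2 * K + 1 := by
      rw [hy, div_lt_iff₀ ha]
      linarith [hX.2]
    have g1 := Nat.floor_le hy0
    have g2 := Nat.lt_floor_add_one y
    have hm : ⌊y⌋₊ < M := by
      rw [Nat.floor_lt hy0, hM]
      exact hy1.trans_le (Nat.le_ceil _)
    refine Set.mem_iUnion.2 ⟨k, Set.mem_iUnion₂.2 ⟨⌊y⌋₊, Finset.mem_range.2 hm, hS, ?_, ?_, ?_⟩⟩
    · rw [hBk]
      exact ⟨hb, hk.symm⟩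
    · have := mul_le_mul_of_nonneg_right g1 ha.le
      linarith
    · have := mul_lt_mul_of_pos_right g2 ha
      linarith
  have hMle : (M : ℝ≥0∞) ≤ ENNReal.ofReal (2 * K + 2) := by
    rw [← ENNReal.ofReal_natCast M]
    refine ENNReal.ofReal_le_ofReal ?_
    rw [hM]
    have := (Nat.ceil_lt_add_one (by positivity : 0 ≤ 2 * K + 1)).le
    linarith
  calc μ {ω | ω ∈ S ∧ b ω ∈ B ∧ |X ω - F (b ω)| ≤ K * a}
      ≤ μ (⋃ k : ℤ, ⋃ m ∈ Finset.range M,
        {ω | ω ∈ S ∧ b ω ∈ Bk k ∧ X ω ∈ Set.Ico ((k : ℝ) * a - K * a + m * a) ((k : ℝ) * a - K * a + m * a + a)}) :=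
        measure_mono hsub
    _ ≤ ∑' k : ℤ, μ (⋃ m ∈ Finset.range M,
        {ω | ω ∈ S ∧ b ω ∈ Bk k ∧ X ω ∈ Set.Ico ((k : ℝ) * a - K * a + m * a) ((k : ℝ) * a - K * a + m * a + a)}) :=
        measure_iUnion_le _
    _ ≤ ∑' k : ℤ, ∑ _m ∈ Finset.range M, κ * volume (Bk k) :=
        ENNReal.tsum_le_tsum fun k => (measure_biUnion_finset_le _ _).trans
          (Finset.sum_le_sum fun m _ => hcap _ _ (hBkm k))
    _ = ∑' k : ℤ, (M : ℝ≥0∞) * κ * volume (Bk k) := by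
        congr 1
        ext k
        rw [Finset.sum_const, Finset.card_range, nsmul_eq_mul, mul_assoc]
    _ = M * κ * volume B := by rw [ENNReal.tsum_mul_left, hsum]
    _ ≤ ENNReal.ofReal (2 * K + 2) * κ * volume B := by gcongr

/-- the strip `t ∈ [t0, t0 + q)`, `|y - (c0 + c1 t)| ≤ W` of the `(t, y)` plane -/
def k7aStrip (t0 q c0 c1 W : ℝ) : Set (ℝ × ℝ) := {p | p.1 ∈ Set.Ico t0 (t0 + q) ∧ |p.2 - (c0 + c1 * p.1)| ≤ W}

/-- **L-252-S7a-RA2 (1)** -/
theorem k7a_r_strip_meas (t0 q c0 c1 W : ℝ) : MeasurableSet (k7aStrip t0 q c0 c1 W) := by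
  unfold k7aStrip
  refine MeasurableSet.inter (measurableSet_Ico.preimage measurable_fst) ?_
  have h1 : Measurable fun p : ℝ × ℝ => |p.2 - (c0 + c1 * p.1)| := by fun_prop
  exact measurableSet_le h1 measurable_const

theorem k7a_r_strip_sec (t0 q c0 c1 W t : ℝ) :
    Prod.mk t ⁻¹' (k7aStrip t0 q c0 c1 W) = if t ∈ Set.Ico t0 (t0 + q) then Set.Icc (c0 + c1 * t - W) (c0 + c1 * t + W) else ∅ := by
  ext y
  by_cases ht : t ∈ Set.Ico t0 (t0 + q)
  · rw [if_pos ht]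
    simp only [k7aStrip, Set.mem_preimage, Set.mem_ofPred_eq, Set.mem_Icc, abs_le]
    constructor
    · rintro ⟨-, h1, h2⟩
      constructor <;> linarith
    · rintro ⟨h1, h2⟩
      exact ⟨ht, by linarith, by linarith⟩
  · rw [if_neg ht]
    simp only [k7aStrip, Set.mem_preimage, Set.mem_ofPred_eq, Set.mem_empty_iff_false, iff_false, not_and]
    intro h
    exact absurd h ht

/-- **L-252-S7a-RA2 (2)**   `Measure.volume_eq_prod`, `Measure.prod_apply`; the section at `t ∈ Ico` is `Icc (c0 + c1 t - W) (c0 + c1 t + W)`, otherwise empty; `lintegral_indicator_const`. -/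
theorem k7a_r_strip_vol (t0 q c0 c1 W : ℝ) (hq : 0 ≤ q) (hW : 0 ≤ W) :
    volume (k7aStrip t0 q c0 c1 W) = ENNReal.ofReal (2 * W * q) := by
  rw [Measure.volume_eq_prod, Measure.prod_apply (k7a_r_strip_meas t0 q c0 c1 W)]
  have e : ∀ t : ℝ, volume (Prod.mk t ⁻¹' (k7aStrip t0 q c0 c1 W)) = (Set.Ico t0 (t0 + q)).indicator (fun _ => ENNReal.ofReal (2 * W)) t := by
    intro t
    rw [k7a_r_strip_sec]
    by_cases ht : t ∈ Set.Ico t0 (t0 + q)
    · rw [if_pos ht, Set.indicator_of_mem ht, Real.volume_Icc]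
      congr 1
      ring
    · rw [if_neg ht, Set.indicator_of_notMem ht, measure_empty]
  simp only [e]
  rw [lintegral_indicator_const measurableSet_Ico, Real.volume_Ico, add_sub_cancel_left, ← ENNReal.ofReal_mul (by positivity)]

/-- **L-252-S7a-RA3: slicing.**   `G` of relative measure `≥ θ` in the strip: the times whose section has relative measure `≥ θ/2` have relative measure `≥ θ/2`.
PLAN.  `v t = volume {y | (t,y) ∈ G}` is measurable (`measurable_measure_prodMk_left`), `volume G = ∫⁻ t, v t` (`Measure.prod_apply`), `v t = 0` off `Ico`, `v t ≤ ofReal (2W)` (section inside an `Icc`).   `T = {t ∈ Ico | ofReal (θ/2 · 2W) ≤ v t}`: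
`∫⁻ v ≤ ∫⁻_T ofReal (2W) + ∫⁻_{Ico \ T} ofReal (θ W) ≤ ofReal (2W) * volume T + ofReal (θ W q)`.   All numbers finite (`volume T ≤ ofReal q`): pass to `toReal`, `θ 2 W q ≤ 2 W |T| + θ W q`. -/
theorem k7a_r_slice (t0 q c0 c1 W θ : ℝ) (hq : 0 < q) (hW : 0 < W) (hθ : 0 < θ) (G : Set (ℝ × ℝ)) (hG : MeasurableSet G)
    (hsub : G ⊆ k7aStrip t0 q c0 c1 W) (hvol : ENNReal.ofReal (θ * (2 * W * q)) ≤ volume G) :
    ENNReal.ofReal (θ / 2 * q) ≤
      volume {t | t ∈ Set.Ico t0 (t0 + q) ∧ ENNReal.ofReal (θ / 2 * (2 * W)) ≤ volume {y | (t, y) ∈ G}} := by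
  obtain ⟨v, hv⟩ : ∃ v : ℝ → ℝ≥0∞, v = fun t => volume (Prod.mk t ⁻¹' G) := ⟨_, rfl⟩
  have hvm : Measurable v := by
    rw [hv]
    exact measurable_measure_prodMk_left hG
  have hGv : volume G = ∫⁻ t, v t := by
    rw [Measure.volume_eq_prod, Measure.prod_apply hG, hv]
  have hvle : ∀ t, v t ≤ (Set.Ico t0 (t0 + q)).indicator (fun _ => ENNReal.ofReal (2 * W)) t := by
    intro t
    have h1 : v t ≤ volume (Prod.mk t ⁻¹' (k7aStrip t0 q c0 c1 W)) := by
      rw [hv]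
      exact measure_mono (Set.preimage_mono hsub)
    refine h1.trans (le_of_eq ?_)
    rw [k7a_r_strip_sec]
    by_cases ht : t ∈ Set.Ico t0 (t0 + q)
    · rw [if_pos ht, Set.indicator_of_mem ht, Real.volume_Icc]
      congr 1
      ring
    · rw [if_neg ht, Set.indicator_of_notMem ht, measure_empty]
  obtain ⟨T, hT⟩ : ∃ T : Set ℝ, T = {t | t ∈ Set.Ico t0 (t0 + q) ∧ ENNReal.ofReal (θ / 2 * (2 * W)) ≤ v t} := ⟨_, rfl⟩
  have hTm : MeasurableSet T := by
    rw [hT]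
    exact measurableSet_Ico.inter (measurableSet_le measurable_const hvm)
  have hgoal : {t | t ∈ Set.Ico t0 (t0 + q) ∧ ENNReal.ofReal (θ / 2 * (2 * W)) ≤ volume {y | (t, y) ∈ G}} = T := by
    rw [hT, hv]
    rfl
  rw [hgoal]
  have hTsub : T ⊆ Set.Ico t0 (t0 + q) := by
    rw [hT]
    exact fun t ht => ht.1
  have hTfin : volume T ≤ ENNReal.ofReal q := by
    refine (measure_mono hTsub).trans ?_
    rw [Real.volume_Ico, add_sub_cancel_left]
  have hpt : ∀ t, v t ≤ T.indicator (fun _ => ENNReal.ofReal (2 * W)) t + (Set.Ico t0 (t0 + q)).indicator (fun _ => ENNReal.ofReal (θ / 2 * (2 * W))) t := by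
    intro t
    by_cases htT : t ∈ T
    · rw [Set.indicator_of_mem htT]
      refine le_trans ?_ le_self_add
      have := hvle t
      rwa [Set.indicator_of_mem (hTsub htT)] at this
    · rw [Set.indicator_of_notMem htT, zero_add]
      by_cases ht : t ∈ Set.Ico t0 (t0 + q)
      · rw [Set.indicator_of_mem ht]
        by_contra hcon
        push Not at hcon
        exact htT (by rw [hT]; exact ⟨ht, hcon.le⟩)
      · have := hvle t
        rw [Set.indicator_of_notMem ht] at this ⊢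
        exact this
  have hint : ∫⁻ t, v t ≤ ENNReal.ofReal (2 * W) * volume T + ENNReal.ofReal (θ / 2 * (2 * W)) * ENNReal.ofReal q := by
    refine (lintegral_mono hpt).trans ?_
    rw [lintegral_add_left (measurable_const.indicator hTm), lintegral_indicator_const hTm, lintegral_indicator_const measurableSet_Ico,
      Real.volume_Ico, add_sub_cancel_left]
  obtain ⟨x, hx0, hx⟩ : ∃ x : ℝ, 0 ≤ x ∧ volume T = ENNReal.ofReal x :=
    ⟨(volume T).toReal, ENNReal.toReal_nonneg, (ENNReal.ofReal_toReal (ne_top_of_le_ne_top ENNReal.ofReal_ne_top hTfin)).symm⟩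
  rw [hx] at hint ⊢
  rw [← hGv, ← ENNReal.ofReal_mul (by positivity), ← ENNReal.ofReal_mul (by positivity), ← ENNReal.ofReal_add (by positivity) (by positivity)] at hint
  have h3 := hvol.trans hint
  rw [ENNReal.ofReal_le_ofReal_iff (by positivity)] at h3
  refine ENNReal.ofReal_le_ofReal ?_
  have h4 : θ * q * W ≤ 2 * x * W := by nlinarith
  have h5 : θ * q ≤ 2 * x := le_of_mul_le_mul_right h4 hW
  linarith

end

end Claimed.Agent.R252

/-!
# ROW 252 (S0492), unit S7a, post BP-252-S7a-RET (sub-architect helper64), file B: QUADRATICS (Remez at the level of functions, extrapolation from a block).      PAPER-FREE, Mathlib + `R252/Remez/One` + `S7a/RetA`.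
Every `sorry` is a leaf `L-252-S7a-R*`: prove IN PLACE, statement verbatim, helpers directly above with prefix `k7a_r`.
-/

set_option autoImplicit false

namespace Claimed.Agent.R252

open MeasureTheory
open scoped ENNReal BigOperators

noncomputable section

/-- **L-252-S7a-RB1: Remez for one real quadratic, values.**   `p = C A2 * X ^ 2 + C A1 * X + C A0` (`Polynomial.natDegree_quadratic_le`), `rmz_interval` (`d = 2`), `rmz_interval_eval` (`k = 0`), `rmzC 2 θ = 3 (12/θ)² = 432/θ²`. -/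
theorem k7a_r_quad1 (A0 A1 A2 a b θ M : ℝ) (hab : a < b) (hθ : 0 < θ) (E : Set ℝ) (hE : E ⊆ Set.Icc a b)
    (hvol : ENNReal.ofReal (θ * (b - a)) ≤ volume E) (hM : ∀ x ∈ E, |A0 + A1 * x + A2 * x ^ 2| ≤ M)
    (lam x : ℝ) (hlam : 1 ≤ lam) (hx : |x - a| ≤ lam * (b - a)) :
    |A0 + A1 * x + A2 * x ^ 2| ≤ 432 / θ ^ 2 * M * lam ^ 2 := by
  obtain ⟨p, hp⟩ : ∃ p : Polynomial ℝ, p = Polynomial.C A2 * Polynomial.X ^ 2 + Polynomial.C A1 * Polynomial.X + Polynomial.C A0 := ⟨_, rfl⟩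
  have hdeg : p.natDegree ≤ 2 := by
    rw [hp]
    exact Polynomial.natDegree_quadratic_le
  have hev : ∀ z : ℝ, p.eval z = A0 + A1 * z + A2 * z ^ 2 := by
    intro z
    rw [hp]
    simp
    ring
  have h1 := rmz_interval 2 p hdeg a b θ M hab hθ E hE hvol (fun z hz => by rw [hev]; exact hM z hz)
  have h2 := rmz_interval_eval 2 p hdeg a b hab 0 lam x hlam hx
  simp only [Function.iterate_zero, id_eq, pow_zero, one_mul, div_one] at h2
  rw [hev] at h2
  have hC : rmzC 2 θ = 432 / θ ^ 2 := by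
    unfold rmzC
    push_cast
    field_simp
    norm_num
  rw [hC] at h1
  exact h2.trans (mul_le_mul_of_nonneg_right h1 (by positivity))

/-- **L-252-S7a-RB2: extrapolation of a quadratic from a block of length `q ≥ 1/K` to `[0,1]`.**   `k7a_r_quad1` with `E = Ico t0 (t0+q)`, `θ = 1`, `lam = K` (`|t - t0| ≤ 1 ≤ K q`). -/
theorem k7a_r_ext2 (A0 A1 A2 t0 q K m : ℝ) (ht0 : 0 ≤ t0) (htq : t0 + q ≤ 1) (hK : 1 ≤ K) (hKq : 1 ≤ K * q)
    (h : ∀ t ∈ Set.Ico t0 (t0 + q), |A0 + A1 * t + A2 * t ^ 2| ≤ m) :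
    ∀ t ∈ Set.Icc (0 : ℝ) 1, |A0 + A1 * t + A2 * t ^ 2| ≤ 432 * K ^ 2 * m := by
  intro t ht
  have hq : 0 < q := by
    by_contra hcon
    push Not at hcon
    nlinarith
  have := k7a_r_quad1 A0 A1 A2 t0 (t0 + q) 1 m (by linarith) one_pos (Set.Ico t0 (t0 + q)) Set.Ico_subset_Icc_self
    (by rw [Real.volume_Ico, one_mul]) h K t hK (by
      rw [add_sub_cancel_left]
      refine le_trans ?_ hKq
      rw [abs_le]
      constructor <;> linarith [ht.1, ht.2])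
  calc |A0 + A1 * t + A2 * t ^ 2| ≤ 432 / 1 ^ 2 * m * K ^ 2 := this
    _ = 432 * K ^ 2 * m := by ring

/-- **L-252-S7a-RB2 (2): slope of an affine function bounded on a block.**   Times `t0` and `t0 + 8q/9`. -/
theorem k7a_r_slope (g0 g1 t0 q K m : ℝ) (hK : 0 < K) (hq : 0 < q) (hKq : 1 ≤ K * q)
    (h : ∀ t ∈ Set.Ico t0 (t0 + q), |g0 + g1 * t| ≤ m) : |g1| ≤ 9 / 4 * K * m := by
  have h1 := h t0 ⟨le_rfl, by linarith⟩
  have h2 := h (t0 + 8 * q / 9) ⟨by linarith, by linarith⟩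
  have hm : 0 ≤ m := (abs_nonneg _).trans h1
  have e : g1 * (8 * q / 9) = (g0 + g1 * (t0 + 8 * q / 9)) - (g0 + g1 * t0) := by ring
  have h3 : |g1| * (8 * q / 9) ≤ 2 * m := by
    rw [← abs_of_pos (show (0 : ℝ) < 8 * q / 9 by positivity), ← abs_mul, e]
    refine (abs_sub _ _).trans ?_
    linarith
  have h4 : |g1| ≤ |g1| * (K * q) := by nlinarith [abs_nonneg g1]
  have h5 : |g1| * (K * q) = 9 / 8 * K * (|g1| * (8 * q / 9)) := by ring
  rw [h5] at h4
  refine h4.trans ?_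
  have : 9 / 8 * K * (|g1| * (8 * q / 9)) ≤ 9 / 8 * K * (2 * m) := mul_le_mul_of_nonneg_left h3 (by positivity)
  linarith

/-- **L-252-S7a-RB3: the norm of a quadratic predictor in a strip** (R3 + R4).   `F` of total degree `≤ 2`, `|F| ≤ M` on a measurable subset `G` of relative measure `≥ θ` of the strip.   Then `|F| ≤ (1728/θ²)² M lam²` on the strip over `|t - t0| ≤ lam q`.
PLAN.  `T` from `k7a_r_slice`.   (1) `t ∈ T`: `y ↦ F t y = (e0 + e1 t + e3 t²) + (e2 + e4 t) y + e5 y²`; `k7a_r_quad1` on `[cen t - W, cen t + W]`, `E = {y | (t,y) ∈ G}`, `θ/2`, `lam = 1`: `|F t y| ≤ 1728/θ² M` for `|y - cen t| ≤ W`.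
(2) fix `r ∈ [-W, W]`: `t ↦ F t (c0 + r + c1 t) = A0 + A1 t + A2 t²` with `A0 = e0 + e2 (c0+r) + e5 (c0+r)²`, `A1 = e1 + e2 c1 + e4 (c0+r) + 2 e5 (c0+r) c1`, `A2 = e3 + e4 c1 + e5 c1²` (`ring`); `k7a_r_quad1` on `[t0, t0+q]`, `E = T`, `θ/2`, `lam`.   Take `r = y - (c0 + c1 t)`. -/
theorem k7a_r_norm (F : ℝ → ℝ → ℝ) (hF : K7aQuad F) (t0 q c0 c1 W θ M : ℝ) (hq : 0 < q) (hW : 0 < W) (hθ : 0 < θ)
    (G : Set (ℝ × ℝ)) (hG : MeasurableSet G) (hsub : G ⊆ k7aStrip t0 q c0 c1 W)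
    (hvol : ENNReal.ofReal (θ * (2 * W * q)) ≤ volume G) (hM : ∀ p ∈ G, |F p.1 p.2| ≤ M)
    (lam t y : ℝ) (hlam : 1 ≤ lam) (ht : |t - t0| ≤ lam * q) (hy : |y - (c0 + c1 * t)| ≤ W) :
    |F t y| ≤ (1728 / θ ^ 2) ^ 2 * M * lam ^ 2 := by
  obtain ⟨e0, e1, e2, e3, e4, e5, hFe⟩ := hF
  have hT := k7a_r_slice t0 q c0 c1 W θ hq hW hθ G hG hsub hvol
  obtain ⟨T, hTdef⟩ : ∃ T : Set ℝ, T = {t | t ∈ Set.Ico t0 (t0 + q) ∧ ENNReal.ofReal (θ / 2 * (2 * W)) ≤ volume {y | (t, y) ∈ G}} := ⟨_, rfl⟩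
  rw [← hTdef] at hT
  -- step 1
  have step1 : ∀ s ∈ T, ∀ z : ℝ, |z - (c0 + c1 * s)| ≤ W → |F s z| ≤ 1728 / θ ^ 2 * M := by
    intro s hs z hz
    rw [hTdef] at hs
    have := k7a_r_quad1 (e0 + e1 * s + e3 * s ^ 2) (e2 + e4 * s) e5 (c0 + c1 * s - W) (c0 + c1 * s + W) (θ / 2) M (by linarith) (by positivity)
      {y | (s, y) ∈ G}
      (by
        intro w hw
        have h1 := (hsub hw).2
        simp only at h1
        rw [abs_le] at h1
        constructor <;> linarith [h1.1, h1.2])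
      (by
        rw [show c0 + c1 * s + W - (c0 + c1 * s - W) = 2 * W by ring]
        exact hs.2)
      (by
        intro w hw
        have h1 := hM _ hw
        simp only at h1
        rw [hFe] at h1
        rw [show e0 + e1 * s + e3 * s ^ 2 + (e2 + e4 * s) * w + e5 * w ^ 2 = e0 + e1 * s + e2 * w + e3 * s ^ 2 + e4 * s * w + e5 * w ^ 2 by ring]
        exact h1)
      1 z le_rfl
      (by
        rw [abs_le] at hz ⊢
        constructor <;> linarith [hz.1, hz.2])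
    rw [hFe, show e0 + e1 * s + e2 * z + e3 * s ^ 2 + e4 * s * z + e5 * z ^ 2 = e0 + e1 * s + e3 * s ^ 2 + (e2 + e4 * s) * z + e5 * z ^ 2 by ring]
    refine this.trans (le_of_eq ?_)
    field_simp
    ring
  -- step 2
  obtain ⟨r, hr⟩ : ∃ r, r = y - (c0 + c1 * t) := ⟨_, rfl⟩
  have hline : ∀ s : ℝ, F s (c0 + r + c1 * s) = (e0 + e2 * (c0 + r) + e5 * (c0 + r) ^ 2) + (e1 + e2 * c1 + e4 * (c0 + r) + 2 * e5 * (c0 + r) * c1) * s
      + (e3 + e4 * c1 + e5 * c1 ^ 2) * s ^ 2 := by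
    intro s
    rw [hFe]
    ring
  have := k7a_r_quad1 (e0 + e2 * (c0 + r) + e5 * (c0 + r) ^ 2) (e1 + e2 * c1 + e4 * (c0 + r) + 2 * e5 * (c0 + r) * c1) (e3 + e4 * c1 + e5 * c1 ^ 2)
    t0 (t0 + q) (θ / 2) (1728 / θ ^ 2 * M) (by linarith) (by positivity) T
    (by
      intro s hs
      rw [hTdef] at hs
      exact Set.Ico_subset_Icc_self hs.1)
    (by
      rw [add_sub_cancel_left]
      exact hT)
    (by
      intro s hs
      rw [← hline]
      refine step1 s hs _ ?_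
      rw [show c0 + r + c1 * s - (c0 + c1 * s) = r by ring, hr]
      exact hy)
    lam t hlam (by rw [add_sub_cancel_left]; exact ht)
  rw [← hline, show c0 + r + c1 * t = y by rw [hr]; ring] at this
  refine this.trans (le_of_eq ?_)
  field_simp
  ring

end

end Claimed.Agent.R252

/-!
# ROW 252 (S0492), unit S7a, post BP-252-S7a-RET (sub-architect helper64), file C: THE JITTER IS AN AVERAGE (R5), THE MARKS (R7).      PAPER-FREE, Mathlib + `S7a/Defs`.
Every `sorry` is a leaf `L-252-S7a-R*`: prove IN PLACE, statement verbatim, helpers directly above with prefix `k7a_r`.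
-/

set_option autoImplicit false

namespace Claimed.Agent.R252

open MeasureTheory
open scoped ENNReal BigOperators

noncomputable section

variable {Λ : Type} [MeasurableSpace Λ]

theorem k7a_r_un_prob {σ : ℝ} (hσ : 0 < σ) : IsProbabilityMeasure (k7aUn σ) := by
  constructor
  unfold k7aUn
  rw [Measure.smul_apply, Measure.restrict_apply MeasurableSet.univ, Set.univ_inter, Real.volume_Icc, sub_zero, smul_eq_mul,
    ← ENNReal.ofReal_mul (by positivity), inv_mul_cancel₀ hσ.ne', ENNReal.ofReal_one]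

/-- **L-252-S7a-RC1 (1)**   `k7aUn σ univ = ofReal σ⁻¹ * ofReal σ = 1`; products of probability measures. -/
theorem k7a_r_noise_prob {σ : ℝ} (hσ : 0 < σ) : IsProbabilityMeasure (k7aNoise σ) := by
  have := k7a_r_un_prob hσ
  unfold k7aNoise
  infer_instance

/-- **L-252-S7a-RC1 (2)** -/
theorem k7a_r_tm_prob : IsProbabilityMeasure k7aTm := by
  constructor
  unfold k7aTm
  rw [Measure.restrict_apply MeasurableSet.univ, Set.univ_inter, Real.volume_Icc, sub_zero, ENNReal.ofReal_one]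

/-- **L-252-S7a-RC2: the jittered marked law is the average over the noise `u` of `(nu × dt)|Mk`** (R5).
PLAN.  `S' = S ∩ {z | (z.1.1, z.2) ∈ Mk}` measurable; `Measure.restrict_apply hS`; `Measure.prod_apply` (outer product with `k7aTm`), `lintegral_prod` for `nu.prod noise`, `lintegral_lintegral_swap`, `Measure.prod_apply` backwards for `nu.prod k7aTm` at fixed `u`
(the set `{p | p ∈ Mk ∧ ((p.1, u), p.2) ∈ S}` is the preimage of `S'` under the measurable map `p ↦ ((p.1, u), p.2)`).   Instances: `k7a_r_noise_prob`, `k7a_r_tm_prob`. -/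
theorem k7a_r_jit_mu (D : K7aData Λ) [SFinite D.nu] {σ : ℝ} (hσ : 0 < σ) {Mk : Set (Λ × ℝ)} (hMk : MeasurableSet Mk)
    (S : Set ((Λ × K7aU) × ℝ)) (hS : MeasurableSet S) :
    (D.jit σ Mk).mu S = ∫⁻ u, (D.nu.prod k7aTm) {p | p ∈ Mk ∧ ((p.1, u), p.2) ∈ S} ∂(k7aNoise σ) := by
  have := k7a_r_noise_prob hσ
  have := k7a_r_tm_prob
  have hM' : MeasurableSet {z : (Λ × K7aU) × ℝ | (z.1.1, z.2) ∈ Mk} :=
    (measurable_fst.fst.prodMk measurable_snd : Measurable fun z : (Λ × K7aU) × ℝ => (z.1.1, z.2)) hMk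
  have hS' := hS.inter hM'
  show (((D.nu.prod (k7aNoise σ)).prod k7aTm).restrict {z | (z.1.1, z.2) ∈ Mk}) S = _
  rw [Measure.restrict_apply hS, Measure.prod_apply hS', lintegral_prod _ (measurable_measure_prodMk_left hS').aemeasurable,
    lintegral_lintegral_swap]
  · refine lintegral_congr fun u => ?_
    have hP : MeasurableSet {p : Λ × ℝ | p ∈ Mk ∧ ((p.1, u), p.2) ∈ S} :=
      hMk.inter (((measurable_fst.prodMk measurable_const).prodMk measurable_snd : Measurable fun p : Λ × ℝ => ((p.1, u), p.2)) hS)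
    rw [Measure.prod_apply hP]
    refine lintegral_congr fun l => ?_
    congr 1
    ext t
    exact ⟨fun h => ⟨h.2, h.1⟩, fun h => ⟨h.2, h.1⟩⟩
  · exact (measurable_measure_prodMk_left hS').aemeasurable

theorem k7a_r_bin {σ t : ℝ} (hσ : 0 < σ) {j : ℤ} (ht : t ∈ Set.Ico ((j : ℝ) * σ) (((j : ℝ) + 1) * σ)) : ⌊t / σ⌋ = j := by
  rw [Int.floor_eq_iff]
  exact ⟨(le_div_iff₀ hσ).2 ht.1, (div_lt_iff₀ hσ).2 ht.2⟩

/-- **L-252-S7a-RC3: the marks give back the active mass** (R7).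
PLAN.  `I j = Ico (j σ) ((j+1) σ)`, `A j = {l ∈ A | (l, j σ) ∈ Mk}` (measurable: section of `Mk`).   By `hM.bins` (`⌊(j σ)/σ⌋ = j`, `t ∈ I j ↔ ⌊t/σ⌋ = j`): `{p ∈ Mk | p.1 ∈ A} = ⋃ j, A j ×ˢ I j`.
`(nu.prod k7aTm) (A j ×ˢ I j) = nu (A j) * k7aTm (I j) ≤ nu (A j) * ofReal σ ≤ ofReal K1 * mu (A j ×ˢ I j)` (`hM.floor`);  `measure_iUnion_le` on the left; on the right the sets are disjoint and measurable: `∑' j, mu (A j ×ˢ I j) = mu (⋃ ..) ≤ mu {z | z.1 ∈ A}`. -/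
theorem k7a_r_marks (D : K7aData Λ) [SFinite D.nu] {σ K1 : ℝ} {Mk : Set (Λ × ℝ)} (hM : K7aMarks D σ K1 Mk) (hσ : 0 < σ)
    (A : Set Λ) (hA : MeasurableSet A) :
    (D.nu.prod k7aTm) {p | p ∈ Mk ∧ p.1 ∈ A} ≤ ENNReal.ofReal K1 * D.mu {z | z.1 ∈ A} := by
  have := k7a_r_tm_prob
  have hAj : ∀ j : ℤ, MeasurableSet {l | l ∈ A ∧ (l, (j : ℝ) * σ) ∈ Mk} := fun j =>
    hA.inter ((measurable_id.prodMk measurable_const : Measurable fun l : Λ => (l, (j : ℝ) * σ)) hM.meas)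
  have hsub : {p : Λ × ℝ | p ∈ Mk ∧ p.1 ∈ A}
      ⊆ ⋃ j : ℤ, {l | l ∈ A ∧ (l, (j : ℝ) * σ) ∈ Mk} ×ˢ Set.Ico ((j : ℝ) * σ) (((j : ℝ) + 1) * σ) := by
    rintro ⟨l, t⟩ ⟨h1, h2⟩
    refine Set.mem_iUnion.2 ⟨⌊t / σ⌋, ⟨h2, ?_⟩, ?_⟩
    · exact (hM.bins l t ((⌊t / σ⌋ : ℝ) * σ) (by rw [mul_div_cancel_right₀ _ hσ.ne', Int.floor_intCast])).1 h1
    · exact ⟨(le_div_iff₀ hσ).1 (Int.floor_le (t / σ)), (div_lt_iff₀ hσ).1 (Int.lt_floor_add_one (t / σ))⟩
  have hterm : ∀ j : ℤ, (D.nu.prod k7aTm) ({l | l ∈ A ∧ (l, (j : ℝ) * σ) ∈ Mk} ×ˢ Set.Ico ((j : ℝ) * σ) (((j : ℝ) + 1) * σ))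
      ≤ ENNReal.ofReal K1 * D.mu ({l | l ∈ A ∧ (l, (j : ℝ) * σ) ∈ Mk} ×ˢ Set.Ico ((j : ℝ) * σ) (((j : ℝ) + 1) * σ)) := by
    intro j
    rw [Measure.prod_prod]
    have h1 : k7aTm (Set.Ico ((j : ℝ) * σ) (((j : ℝ) + 1) * σ)) ≤ ENNReal.ofReal σ := by
      unfold k7aTm
      refine (Measure.restrict_le_self _).trans ?_
      rw [Real.volume_Ico]
      exact ENNReal.ofReal_le_ofReal (by linarith)
    calc D.nu {l | l ∈ A ∧ (l, (j : ℝ) * σ) ∈ Mk} * k7aTm (Set.Ico ((j : ℝ) * σ) (((j : ℝ) + 1) * σ))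
        ≤ D.nu {l | l ∈ A ∧ (l, (j : ℝ) * σ) ∈ Mk} * ENNReal.ofReal σ := mul_le_mul_right h1 _
      _ = ENNReal.ofReal σ * D.nu {l | l ∈ A ∧ (l, (j : ℝ) * σ) ∈ Mk} := mul_comm _ _
      _ ≤ _ := hM.floor _ j (hAj j) fun l hl => hl.2
  have hdisj : Pairwise (Function.onFun Disjoint fun j : ℤ =>
      ({l | l ∈ A ∧ (l, (j : ℝ) * σ) ∈ Mk} ×ˢ Set.Ico ((j : ℝ) * σ) (((j : ℝ) + 1) * σ) : Set (Λ × ℝ))) := by
    intro i j hij
    refine Set.disjoint_left.2 fun z hz1 hz2 => hij ?_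
    rw [← k7a_r_bin hσ hz1.2, ← k7a_r_bin hσ hz2.2]
  calc (D.nu.prod k7aTm) {p | p ∈ Mk ∧ p.1 ∈ A}
      ≤ (D.nu.prod k7aTm) (⋃ j : ℤ, {l | l ∈ A ∧ (l, (j : ℝ) * σ) ∈ Mk} ×ˢ Set.Ico ((j : ℝ) * σ) (((j : ℝ) + 1) * σ)) := measure_mono hsub
    _ ≤ ∑' j : ℤ, (D.nu.prod k7aTm) ({l | l ∈ A ∧ (l, (j : ℝ) * σ) ∈ Mk} ×ˢ Set.Ico ((j : ℝ) * σ) (((j : ℝ) + 1) * σ)) := measure_iUnion_le _
    _ ≤ ∑' j : ℤ, ENNReal.ofReal K1 * D.mu ({l | l ∈ A ∧ (l, (j : ℝ) * σ) ∈ Mk} ×ˢ Set.Ico ((j : ℝ) * σ) (((j : ℝ) + 1) * σ)) :=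
        ENNReal.tsum_le_tsum hterm
    _ = ENNReal.ofReal K1 * D.mu (⋃ j : ℤ, {l | l ∈ A ∧ (l, (j : ℝ) * σ) ∈ Mk} ×ˢ Set.Ico ((j : ℝ) * σ) (((j : ℝ) + 1) * σ)) := by
        rw [ENNReal.tsum_mul_left, measure_iUnion hdisj fun j => (hAj j).prod measurableSet_Ico]
    _ ≤ ENNReal.ofReal K1 * D.mu {z | z.1 ∈ A} := by
        refine mul_le_mul_right (measure_mono ?_) _
        intro z hz
        obtain ⟨j, hj⟩ := Set.mem_iUnion.1 hz
        exact hj.1.1

end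

end Claimed.Agent.R252

/-!
# ROW 252 (S0492), unit S7a, post BP-252-S7a-RET (sub-architect helper64), file D: FINITE PART (R8 dyadic pigeonhole, reindexing of the selected labels).      PAPER-FREE, Mathlib + `S7a/Defs`.
Every `sorry` is a leaf `L-252-S7a-R*`: prove IN PLACE, statement verbatim, helpers directly above with prefix `k7a_r`.
-/

set_option autoImplicit false

namespace Claimed.Agent.R252

open MeasureTheory
open scoped ENNReal BigOperators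

noncomputable section

variable {Λ : Type} [MeasurableSpace Λ]

/-- **L-252-S7a-RD1: dyadic pigeonhole of the widths** (R8).
PLAN.  `I = ∅`: `β0 = lo`, `Sel = ∅`.   Otherwise `lo ≤ hi`.   `k i = ⌊Real.logb 2 (β i / lo)⌋₊ < Ncl := ⌊Real.logb 2 (hi / lo)⌋₊ + 1`; `lo 2^(k i) ≤ β i < lo 2^(k i + 1)` (`Real.rpow_logb`, `Nat.floor_le`, `Nat.lt_floor_add_one`, `Real.rpow_natCast`).
`∑ i ∈ I, m i = ∑ k ∈ range Ncl, ∑ i ∈ I with k i = k, m i` (`Finset.sum_fiberwise_of_maps_to`) `≤ Ncl * max`: take `k*` with the largest inner sum (`Finset.exists_max_image`), `β0 = lo 2^(k*)`, `Sel = I.filter (k · = k*)`. -/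
theorem k7a_r_pigeon {n : ℕ} (m : Fin n → ℝ≥0∞) (β : Fin n → ℝ) (I : Finset (Fin n)) {lo hi : ℝ} (hlo : 0 < lo)
    (hβ : ∀ i ∈ I, lo ≤ β i ∧ β i ≤ hi) :
    ∃ (β0 : ℝ) (Sel : Finset (Fin n)), Sel ⊆ I ∧ 0 < β0 ∧ (∀ i ∈ Sel, β0 ≤ β i ∧ β i ≤ 2 * β0) ∧
      ∑ i ∈ I, m i ≤ ENNReal.ofReal (1 + Real.logb 2 (hi / lo)) * ∑ i ∈ Sel, m i := by
  classical
  rcases I.eq_empty_or_nonempty with rfl | ⟨i0, hi0⟩
  · exact ⟨lo, ∅, Finset.Subset.refl _, hlo, by simp, by simp⟩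
  have hlh : lo ≤ hi := (hβ i0 hi0).1.trans (hβ i0 hi0).2
  obtain ⟨k, hk⟩ : ∃ k : Fin n → ℕ, ∀ i, k i = ⌊Real.logb 2 (β i / lo)⌋₊ := ⟨_, fun _ => rfl⟩
  obtain ⟨Ncl, hN⟩ : ∃ N : ℕ, N = ⌊Real.logb 2 (hi / lo)⌋₊ + 1 := ⟨_, rfl⟩
  have h1 : ∀ i ∈ I, 1 ≤ β i / lo := fun i hi => by
    rw [le_div_iff₀ hlo, one_mul]; exact (hβ i hi).1
  have hlog0 : ∀ i ∈ I, 0 ≤ Real.logb 2 (β i / lo) := fun i hi => Real.logb_nonneg (by norm_num) (h1 i hi)
  have hkN : ∀ i ∈ I, k i ∈ Finset.range Ncl := fun i hi => by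
    rw [Finset.mem_range, hN, hk, Nat.lt_succ_iff]
    apply Nat.floor_le_floor
    apply Real.logb_le_logb_of_le (by norm_num) (by linarith [h1 i hi])
    exact div_le_div_of_nonneg_right (hβ i hi).2 hlo.le
  have hlow : ∀ i ∈ I, lo * 2 ^ (k i) ≤ β i := fun i hi => by
    have hpos : 0 < β i / lo := by linarith [h1 i hi]
    have e1 : (k i : ℝ) ≤ Real.logb 2 (β i / lo) := by rw [hk]; exact Nat.floor_le (hlog0 i hi)
    have e2 : (2 : ℝ) ^ (k i : ℝ) ≤ β i / lo := (Real.le_logb_iff_rpow_le (by norm_num) hpos).1 e1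
    rw [Real.rpow_natCast, le_div_iff₀ hlo] at e2
    linarith
  have hup : ∀ i ∈ I, β i ≤ 2 * (lo * 2 ^ (k i)) := fun i hi => by
    have hpos : 0 < β i / lo := by linarith [h1 i hi]
    have e1 : Real.logb 2 (β i / lo) < (k i : ℝ) + 1 := by rw [hk]; exact Nat.lt_floor_add_one _
    have e2 : β i / lo < (2 : ℝ) ^ ((k i : ℝ) + 1) := (Real.logb_lt_iff_lt_rpow (by norm_num) hpos).1 e1
    rw [Real.rpow_add_one (by norm_num), Real.rpow_natCast, div_lt_iff₀ hlo] at e2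
    linarith
  have hne : (Finset.range Ncl).Nonempty := ⟨0, by rw [Finset.mem_range, hN]; omega⟩
  obtain ⟨ks, -, hks⟩ := Finset.exists_max_image (Finset.range Ncl) (fun κ => ∑ i ∈ I with k i = κ, m i) hne
  refine ⟨lo * 2 ^ ks, I.filter fun i => k i = ks, Finset.filter_subset _ _, by positivity, fun i hi => ?_, ?_⟩
  · obtain ⟨hiI, hik⟩ := Finset.mem_filter.1 hi
    rw [← hik]
    exact ⟨hlow i hiI, hup i hiI⟩
  · rw [← Finset.sum_fiberwise_of_maps_to hkN]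
    refine (Finset.sum_le_card_nsmul _ _ _ hks).trans ?_
    rw [Finset.card_range, nsmul_eq_mul]
    refine mul_le_mul_left ?_ _
    rw [← ENNReal.ofReal_natCast]
    apply ENNReal.ofReal_le_ofReal
    rw [hN]
    push_cast
    have : (⌊Real.logb 2 (hi / lo)⌋₊ : ℝ) ≤ Real.logb 2 (hi / lo) :=
      Nat.floor_le (Real.logb_nonneg (by norm_num) (by rw [le_div_iff₀ hlo, one_mul]; exact hlh))
    linarith

/-- **L-252-S7a-RD2: additivity over labels.**   The sets `{z | lab z.1 = some i}` are measurable (preimage under `Prod.fst` of `lab ⁻¹' {some i}`) and disjoint: `measure_biUnion_finset`. -/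
theorem k7a_r_sum_lab {Ξ : Type} [MeasurableSpace Ξ] (μ : Measure (Ξ × ℝ)) {n : ℕ} (lab : Ξ → Option (Fin n))
    (hm : ∀ o, MeasurableSet (lab ⁻¹' {o})) (T : Set ℝ) (hT : MeasurableSet T) (Sel : Finset (Fin n)) :
    μ {z | (∃ i ∈ Sel, lab z.1 = some i) ∧ z.2 ∈ T} = ∑ i ∈ Sel, μ {z | lab z.1 = some i ∧ z.2 ∈ T} := by
  have e : {z : Ξ × ℝ | (∃ i ∈ Sel, lab z.1 = some i) ∧ z.2 ∈ T} = ⋃ i ∈ Sel, {z | lab z.1 = some i ∧ z.2 ∈ T} := by
    ext z
    simp only [Set.mem_ofPred_eq, Set.mem_iUnion, exists_prop]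
    constructor
    · rintro ⟨⟨i, hi, h⟩, hT⟩
      exact ⟨i, hi, h, hT⟩
    · rintro ⟨i, hi, h, hT⟩
      exact ⟨⟨i, hi, h⟩, hT⟩
  rw [e, measure_biUnion_finset]
  · intro i _ j _ hij
    refine Set.disjoint_left.2 fun z hz hz' => hij ?_
    exact Option.some_injective _ (hz.1.symm.trans hz'.1)
  · intro i _
    exact (measurable_fst (hm (some i))).inter (measurable_snd hT)

/-- **L-252-S7a-RD3: reindexing.**   The conclusion `Out` from a labelling of which only the labels in `Sel` are kept.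
PLAN.  `e : Sel ≃ Fin Sel.card := Sel.equivFin`;  `lab' l = (lab l).bind fun i => if h : i ∈ Sel then some (e ⟨i, h⟩) else none`;  `L' j = L (e.symm j)`.   `lab' l = some j ↔ lab l = some (e.symm j)`; `lab' l ≠ none ↔ ∃ i ∈ Sel, lab l = some i`.
Fibres: `lab' ⁻¹' {some j} = lab ⁻¹' {some ↑(e.symm j)}`;  `lab' ⁻¹' {none} = (⋃ j, lab' ⁻¹' {some j})ᶜ`. -/
theorem k7a_r_reindex (D : K7aData Λ) {K β c d a : ℝ} {n : ℕ} (lab : Λ → Option (Fin n)) (L : Fin n → K7aLab) (Sel : Finset (Fin n))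
    (hm : ∀ o, MeasurableSet (lab ⁻¹' {o}))
    (hmass : 1 ≤ ENNReal.ofReal K * D.mu {z | ∃ i ∈ Sel, lab z.1 = some i})
    (h : ∀ i ∈ Sel, K7aQuad (L i).F ∧ |(L i).c0| ≤ K ∧ |(L i).c1| ≤ K ∧
      (∀ t ∈ Set.Icc (0 : ℝ) 1, ∀ u ∈ Set.Icc (-1 : ℝ) 1, |(L i).F t ((L i).cen t + β * u)| ≤ K) ∧
      (∀ l, lab l = some i → ∀ t ∈ Set.Icc (0 : ℝ) 1,
        |D.y l t - (L i).cen t| ≤ K * β ∧ |D.x l t - (L i).F t (D.y l t)| ≤ K * a) ∧
      ENNReal.ofReal (c * a ^ d * β) ≤ ENNReal.ofReal K * D.mu {z | lab z.1 = some i}) :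
    D.Out K β c d a := by
  classical
  set e : Sel ≃ Fin Sel.card := Sel.equivFin with he
  set lab' : Λ → Option (Fin Sel.card) := fun l => (lab l).bind fun i => if h : i ∈ Sel then some (e ⟨i, h⟩) else none with hlab'
  have hiff : ∀ l j, lab' l = some j ↔ lab l = some ((e.symm j : Sel) : Fin n) := by
    intro l j
    simp only [hlab']
    cases hl : lab l with
    | none => simp
    | some i =>
      simp only [Option.bind_some]
      by_cases hi : i ∈ Sel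
      · rw [dif_pos hi]
        constructor
        · intro h1
          have h2 : e ⟨i, hi⟩ = j := Option.some_injective _ h1
          rw [← h2, Equiv.symm_apply_apply]
        · intro h1
          have h2 : i = ((e.symm j : Sel) : Fin n) := Option.some_injective _ h1
          have h3 : (⟨i, hi⟩ : Sel) = e.symm j := Subtype.ext h2
          rw [h3, Equiv.apply_symm_apply]
      · rw [dif_neg hi]
        constructor
        · intro h1
          exact absurd h1 (by simp)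
        · intro h1
          have h2 : i = ((e.symm j : Sel) : Fin n) := Option.some_injective _ h1
          exact absurd (h2 ▸ (e.symm j).2) hi
  have hfib : ∀ j, lab' ⁻¹' {some j} = lab ⁻¹' {some ((e.symm j : Sel) : Fin n)} := by
    intro j
    ext l
    exact hiff l j
  have hset : ∀ j, {z : Λ × ℝ | lab' z.1 = some j} = {z | lab z.1 = some ((e.symm j : Sel) : Fin n)} := by
    intro j
    ext z
    exact hiff z.1 j
  refine ⟨Sel.card, lab', fun j => L (e.symm j), ?_, ?_, ?_⟩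
  · intro o
    cases o with
    | some j =>
      rw [hfib]
      exact hm _
    | none =>
      have : lab' ⁻¹' {none} = (⋃ j, lab' ⁻¹' {some j})ᶜ := by
        ext l
        simp only [Set.mem_preimage, Set.mem_singleton_iff, Set.mem_compl_iff, Set.mem_iUnion, not_exists]
        constructor
        · intro h1 j h2
          rw [h1] at h2
          exact absurd h2 (by simp)
        · intro h1
          cases h2 : lab' l with
          | none => rfl
          | some j => exact absurd h2 (h1 j)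
      rw [this]
      refine (MeasurableSet.iUnion fun j => ?_).compl
      rw [hfib]
      exact hm _
  · refine hmass.trans (mul_le_mul_right (measure_mono ?_) _)
    rintro z ⟨i, hi, hz⟩
    show lab' z.1 ≠ none
    have h1 : lab' z.1 = some (e ⟨i, hi⟩) := by
      rw [hiff, Equiv.symm_apply_apply]
      exact hz
    rw [h1]
    simp
  · intro j
    obtain ⟨h1, h2, h3, h4, h5, h6⟩ := h (e.symm j) (e.symm j).2
    refine ⟨h1, h2, h3, h4, fun l hl => h5 l ((hiff l j).1 hl), ?_⟩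
    rw [hset]
    exact h6

end

end Claimed.Agent.R252

/-!
# ROW 252 (S0492), unit S7a, post BP-252-S7a-RET (sub-architect helper64), file E: ONE ACTIVE LABEL OF A BLOCK (R2, R3, R4).      PAPER-FREE, Mathlib + `S7a/RetA`, `S7a/RetB`.

`K7aAct D K c d a t0 q A L β` : the trajectories of `A` carry the label `(L, β)` on the block `[t0, t0 + q)`, with the true floor (one world of weight `1`).
* `k7a_r_fc`        floor `≤` ceiling over any measurable base set containing the base points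
* `k7a_r_width`     `σ ≤ 40 K⁶ β` from the slope-noise factor;      `k7a_r_width_ang`   `N^{-u} ≤ 5 K² β` from the angular ceiling
* `k7a_r_Fnorm`     the norm of the predictor on the full-time strip;      `k7a_r_full`  position and fit at full time;      `k7a_r_cen`  the centre is bounded
-/

set_option autoImplicit false

namespace Claimed.Agent.R252

open MeasureTheory
open scoped ENNReal BigOperators

noncomputable section

variable {Λ : Type} [MeasurableSpace Λ]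

/-- one active label of a block (one world of weight one) -/
structure K7aAct (D : K7aData Λ) (K c d a t0 q : ℝ) (A : Set Λ) (L : K7aLab) (β : ℝ) : Prop where
  quad : K7aQuad L.F
  pos : 0 < β
  le : β ≤ K
  fit : ∀ l ∈ A, ∀ t ∈ Set.Ico t0 (t0 + q), |D.y l t - L.cen t| ≤ K * β ∧ |D.x l t - L.F t (D.y l t)| ≤ K * a
  floor : ENNReal.ofReal (q * c * a ^ d * β) ≤ ENNReal.ofReal K * D.mu {z | z.1 ∈ A ∧ z.2 ∈ Set.Ico t0 (t0 + q)}

theorem k7a_r_quad_meas {F : ℝ → ℝ → ℝ} (hF : K7aQuad F) : Measurable fun p : ℝ × ℝ => F p.1 p.2 := by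
  obtain ⟨e0, e1, e2, e3, e4, e5, h⟩ := hF
  simp only [h]
  fun_prop

/-- floor `≤` ceiling -/
theorem k7a_r_fc (D : K7aData Λ) {K c d a t0 q β : ℝ} {A : Set Λ} {L : K7aLab} (hA : K7aAct D K c d a t0 q A L β) (ha : 0 < a)
    (hK : 0 ≤ K) (κ : ℝ≥0∞) (S : Set (Λ × ℝ))
    (hceil : ∀ (B : Set (ℝ × ℝ)) (xs : ℝ), MeasurableSet B →
      D.mu {z | z ∈ S ∧ D.bs z ∈ B ∧ D.x z.1 z.2 ∈ Set.Ico xs (xs + a)} ≤ κ * volume B)
    (G : Set (ℝ × ℝ)) (hG : MeasurableSet G) (hS : ∀ l ∈ A, ∀ t ∈ Set.Ico t0 (t0 + q), (l, t) ∈ S ∧ D.bs (l, t) ∈ G) :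
    ENNReal.ofReal (q * c * a ^ d * β) ≤ ENNReal.ofReal K * (ENNReal.ofReal (2 * K + 2) * κ * volume G) := by
  have h := k7a_r_moving D.mu D.bs (fun z => D.x z.1 z.2) S κ ha hK hceil (fun p => L.F p.1 p.2)
    (k7a_r_quad_meas hA.quad) G hG
  refine hA.floor.trans (mul_le_mul_right ((measure_mono ?_).trans h) _)
  rintro ⟨l, t⟩ ⟨hl, ht⟩
  exact ⟨(hS l hl t ht).1, (hS l hl t ht).2, (hA.fit l hl t ht).2⟩

theorem k7a_r_om (D : K7aData Λ) [IsProbabilityMeasure D.nu] : D.om (fun _ => 0) 0 = 1 := by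
  unfold K7aData.om
  have : ((fun _ : Λ => (0 : ℕ)) ⁻¹' {0}) = Set.univ := by
    ext l; simp
  rw [this, measure_univ]

/-- the slope of an assigned trajectory -/
theorem k7a_r_act_slope (D : K7aData Λ) {K c d a t0 q β : ℝ} {A : Set Λ} {L : K7aLab} (hA : K7aAct D K c d a t0 q A L β)
    (hK : 0 < K) (hq : 0 < q) (hKq : 1 ≤ K * q) (l : Λ) (hl : l ∈ A) : |D.y1 l - L.c1| ≤ 9 / 4 * K * (K * β) := by
  refine k7a_r_slope (D.y0 l - L.c0) (D.y1 l - L.c1) t0 q K (K * β) hK hq hKq fun t ht => ?_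
  have := (hA.fit l hl t ht).1
  have e : D.y l t - L.cen t = D.y0 l - L.c0 + (D.y1 l - L.c1) * t := by
    unfold K7aData.y K7aLab.cen; ring
  rwa [e] at this

theorem k7a_r_act_strip (D : K7aData Λ) {K c d a t0 q β : ℝ} {A : Set Λ} {L : K7aLab} (hA : K7aAct D K c d a t0 q A L β)
    (l : Λ) (hl : l ∈ A) (t : ℝ) (ht : t ∈ Set.Ico t0 (t0 + q)) : D.bs (l, t) ∈ k7aStrip t0 q L.c0 L.c1 (K * β) :=
  ⟨ht, (hA.fit l hl t ht).1⟩

/-- **R2**: the width of an active label is at least `σ / (40 K⁶)` -/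
theorem k7a_r_width (D : K7aData Λ) [IsProbabilityMeasure D.nu] {K c d a σ t0 q β : ℝ} {A : Set Λ} {L : K7aLab}
    (hsl : D.ESl (fun _ => 0) K c d a σ) (hA : K7aAct D K c d a t0 q A L β) (hK : 1 ≤ K) (ha0 : 0 < a) (ha1 : a ≤ 1) (hc : 0 < c)
    (hσ : 0 < σ) (hq : 0 < q) (hKq : 1 ≤ K * q) : σ ≤ 40 * K ^ 6 * β := by
  by_contra hcon
  push Not at hcon
  have hK0 : 0 < K := by linarith
  have hβ := hA.pos
  have hρ0 : 0 < 5 * K ^ 2 * β := by positivity
  have hρσ : 5 * K ^ 2 * β ≤ σ := by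
    have h1 : K ^ 2 ≤ K ^ 6 := pow_le_pow_right₀ hK (by norm_num)
    nlinarith
  have h := k7a_r_fc D hA ha0 hK0.le (ENNReal.ofReal (K * c * a ^ d * (5 * K ^ 2 * β / σ)))
    {z | D.y1 z.1 ∈ Set.Ico (L.c1 - 5 / 2 * K ^ 2 * β) (L.c1 - 5 / 2 * K ^ 2 * β + 5 * K ^ 2 * β)} (fun B xs hB => by
      have h1 := hsl 0 B a xs (5 * K ^ 2 * β) (L.c1 - 5 / 2 * K ^ 2 * β) hB le_rfl ha1 hρ0 hρσ
      rw [k7a_r_om, mul_one] at h1
      refine (measure_mono ?_).trans h1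
      rintro z ⟨h1, h2, h3⟩
      exact ⟨rfl, h2, h3, h1⟩) (k7aStrip t0 q L.c0 L.c1 (K * β)) (k7a_r_strip_meas _ _ _ _ _) (fun l hl t ht => by
      refine ⟨?_, k7a_r_act_strip D hA l hl t ht⟩
      have h1 := abs_le.1 (k7a_r_act_slope D hA hK0 hq hKq l hl)
      have h2 : 0 < K ^ 2 * β := by positivity
      constructor
      · show L.c1 - 5 / 2 * K ^ 2 * β ≤ D.y1 l
        nlinarith [h1.1]
      · show D.y1 l < L.c1 - 5 / 2 * K ^ 2 * β + 5 * K ^ 2 * β
        nlinarith [h1.2])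
  have had : 0 < a ^ d := Real.rpow_pos_of_pos ha0 d
  rw [k7a_r_strip_vol _ _ _ _ _ hq.le (by positivity), ← ENNReal.ofReal_mul (by positivity),
    ← ENNReal.ofReal_mul (by positivity), ← ENNReal.ofReal_mul (by positivity),
    ENNReal.ofReal_le_ofReal_iff (by positivity)] at h
  have hP : 0 < q * c * a ^ d * β := by positivity
  have e : K * ((2 * K + 2) * (K * c * a ^ d * (5 * K ^ 2 * β / σ)) * (2 * (K * β) * q))
      = q * c * a ^ d * β * (10 * K ^ 5 * (2 * K + 2) * β / σ) := by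
    field_simp
    ring
  rw [e] at h
  have h1 : 1 ≤ 10 * K ^ 5 * (2 * K + 2) * β / σ := by
    by_contra h2
    push Not at h2
    nlinarith
  rw [le_div_iff₀ hσ, one_mul] at h1
  have h2 : 10 * K ^ 5 * (2 * K + 2) * β ≤ 40 * K ^ 6 * β := by
    have h3 : 10 * K ^ 5 * (2 * K + 2) ≤ 40 * K ^ 6 := by
      have : 0 < K ^ 5 := by positivity
      nlinarith
    exact mul_le_mul_of_nonneg_right h3 hβ.le
  linarith

/-- **R2, angular case** -/
theorem k7a_r_width_ang (D : K7aData Λ) [IsProbabilityMeasure D.nu] {K c d a N S1 u1 u t0 q β : ℝ} {A : Set Λ} {L : K7aLab}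
    (hang : D.EAng (fun _ => 0) K c d a N S1 u1) (hA : K7aAct D K c d a t0 q A L β) (hK : 1 ≤ K) (ha0 : 0 < a) (hc : 0 < c)
    (hN : 1 ≤ N) (hu0 : 0 < u) (hu1 : u ≤ u1) (hbig : 8 * K ^ 4 < N ^ (S1 * u)) (hq : 0 < q) (hKq : 1 ≤ K * q) :
    N ^ (-u) ≤ 5 * K ^ 2 * β := by
  by_contra hcon
  push Not at hcon
  have hK0 : 0 < K := by linarith
  have hN0 : 0 < N := by linarith
  have hβ := hA.pos
  have h := k7a_r_fc D hA ha0 hK0.le (ENNReal.ofReal (K * c * a ^ d * N ^ (-(S1 * u))))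
    {z | D.y1 z.1 ∈ Set.Ico (L.c1 - 5 / 2 * K ^ 2 * β) (L.c1 - 5 / 2 * K ^ 2 * β + N ^ (-u))} (fun B xs hB => by
      have h1 := hang 0 B xs (L.c1 - 5 / 2 * K ^ 2 * β) u hB hu0 hu1
      rw [k7a_r_om, mul_one] at h1
      refine (measure_mono ?_).trans h1
      rintro z ⟨h1, h2, h3⟩
      exact ⟨rfl, h2, h3, h1⟩) (k7aStrip t0 q L.c0 L.c1 (K * β)) (k7a_r_strip_meas _ _ _ _ _) (fun l hl t ht => by
      refine ⟨?_, k7a_r_act_strip D hA l hl t ht⟩
      have h1 := abs_le.1 (k7a_r_act_slope D hA hK0 hq hKq l hl)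
      have h2 : 0 < K ^ 2 * β := by positivity
      constructor
      · show L.c1 - 5 / 2 * K ^ 2 * β ≤ D.y1 l
        nlinarith [h1.1]
      · show D.y1 l < L.c1 - 5 / 2 * K ^ 2 * β + N ^ (-u)
        nlinarith [h1.2])
  have had : 0 < a ^ d := Real.rpow_pos_of_pos ha0 d
  have hNp : 0 < N ^ (-(S1 * u)) := Real.rpow_pos_of_pos hN0 _
  rw [k7a_r_strip_vol _ _ _ _ _ hq.le (by positivity), ← ENNReal.ofReal_mul (by positivity),
    ← ENNReal.ofReal_mul (by positivity), ← ENNReal.ofReal_mul (by positivity),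
    ENNReal.ofReal_le_ofReal_iff (by positivity)] at h
  have hP : 0 < q * c * a ^ d * β := by positivity
  have e : K * ((2 * K + 2) * (K * c * a ^ d * N ^ (-(S1 * u))) * (2 * (K * β) * q))
      = q * c * a ^ d * β * (2 * K ^ 3 * (2 * K + 2) * N ^ (-(S1 * u))) := by
    ring
  rw [e] at h
  have h1 : 1 ≤ 2 * K ^ 3 * (2 * K + 2) * N ^ (-(S1 * u)) := by
    by_contra h2
    push Not at h2
    nlinarith
  rw [Real.rpow_neg hN0.le] at h1
  have hNq : 0 < N ^ (S1 * u) := Real.rpow_pos_of_pos hN0 _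
  rw [← div_eq_mul_inv, le_div_iff₀ hNq, one_mul] at h1
  have h3 : 2 * K ^ 3 * (2 * K + 2) ≤ 8 * K ^ 4 := by
    have : 0 < K ^ 3 := by positivity
    nlinarith
  linarith

theorem k7a_r_x_le (D : K7aData Λ) {K : ℝ} (hD : D.Adm K) (l : Λ) (t : ℝ) (ht : t ∈ Set.Icc (0 : ℝ) 1) : |D.x l t| ≤ 3 * K := by
  obtain ⟨-, -, h0, h1, h2⟩ := hD.bd l
  have hK : 0 ≤ K := (abs_nonneg _).trans h0
  unfold K7aData.x
  have e1 : |D.x1 l * t| ≤ K := by
    rw [abs_mul, abs_of_nonneg ht.1]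
    nlinarith [abs_nonneg (D.x1 l), ht.1, ht.2]
  have e2 : |D.x2 l * t ^ 2| ≤ K := by
    rw [abs_mul, abs_of_nonneg (sq_nonneg t)]
    have : t ^ 2 ≤ 1 := by nlinarith [ht.1, ht.2]
    nlinarith [abs_nonneg (D.x2 l), sq_nonneg t]
  calc |D.x0 l + D.x1 l * t + D.x2 l * t ^ 2| ≤ |D.x0 l + D.x1 l * t| + |D.x2 l * t ^ 2| := abs_add_le _ _
    _ ≤ |D.x0 l| + |D.x1 l * t| + |D.x2 l * t ^ 2| := by gcongr; exact abs_add_le _ _
    _ ≤ 3 * K := by linarith

theorem k7a_r_y_le (D : K7aData Λ) {K : ℝ} (hD : D.Adm K) (l : Λ) (t : ℝ) (ht : t ∈ Set.Icc (0 : ℝ) 1) : |D.y l t| ≤ 2 * K := by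
  obtain ⟨h0, h1, -⟩ := hD.bd l
  have hK : 0 ≤ K := (abs_nonneg _).trans h0
  unfold K7aData.y
  have e1 : |D.y1 l * t| ≤ K := by
    rw [abs_mul, abs_of_nonneg ht.1]
    nlinarith [abs_nonneg (D.y1 l), ht.1, ht.2]
  calc |D.y0 l + D.y1 l * t| ≤ |D.y0 l| + |D.y1 l * t| := abs_add_le _ _
    _ ≤ 2 * K := by linarith

/-- **R3 + R4**: the norm of the predictor of an active label on the full-time strip of half width `K β` -/
theorem k7a_r_Fnorm (D : K7aData Λ) {K c d a t0 q β : ℝ} {A : Set Λ} {L : K7aLab} (hD : D.Adm K)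
    (hcap : D.ECap (fun _ => 0) K c d a) (hA : K7aAct D K c d a t0 q A L β) (hK : 1 ≤ K) (ha0 : 0 < a) (ha1 : a ≤ 1) (hc : 0 < c)
    (ht0 : 0 ≤ t0) (htq : t0 + q ≤ 1) (hq : 0 < q) (hKq : 1 ≤ K * q) :
    ∀ t ∈ Set.Icc (0 : ℝ) 1, ∀ y, |y - L.cen t| ≤ K * β → |L.F t y| ≤ (1728 * (8 * K ^ 4) ^ 2) ^ 2 * (4 * K) * K ^ 2 := by
  have := hD.prob
  have hK0 : 0 < K := by linarith
  have hβ := hA.pos
  have had : 0 < a ^ d := Real.rpow_pos_of_pos ha0 d
  set G : Set (ℝ × ℝ) := k7aStrip t0 q L.c0 L.c1 (K * β) ∩ {p | |L.F p.1 p.2| ≤ 4 * K} with hGdef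
  have hG : MeasurableSet G :=
    (k7a_r_strip_meas _ _ _ _ _).inter (measurableSet_le (k7a_r_quad_meas hA.quad).abs measurable_const)
  have h := k7a_r_fc D hA ha0 hK0.le (ENNReal.ofReal (K * c * a ^ d)) Set.univ (fun B xs hB => by
      have h1 := hcap 0 B a xs hB le_rfl ha1
      rw [k7a_r_om, mul_one] at h1
      refine (measure_mono ?_).trans h1
      rintro z ⟨-, h2, h3⟩
      exact ⟨rfl, h2, h3⟩) G hG (fun l hl t ht => by
      refine ⟨trivial, k7a_r_act_strip D hA l hl t ht, ?_⟩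
      have h1 := (hA.fit l hl t ht).2
      have h2 := k7a_r_x_le D hD l t ⟨ht0.trans ht.1, by linarith [ht.2]⟩
      show |L.F t (D.y l t)| ≤ 4 * K
      have h3 : |L.F t (D.y l t)| ≤ |D.x l t| + |D.x l t - L.F t (D.y l t)| := by
        have := abs_sub_abs_le_abs_sub (L.F t (D.y l t)) (D.x l t)
        rw [abs_sub_comm] at this
        linarith
      have h4 : K * a ≤ K := by nlinarith
      linarith)
  have hvol : ENNReal.ofReal (1 / (8 * K ^ 4) * (2 * (K * β) * q)) ≤ volume G := by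
    rw [← mul_assoc, ← mul_assoc, ← ENNReal.ofReal_mul (by positivity), ← ENNReal.ofReal_mul (by positivity)] at h
    have hY0 : ENNReal.ofReal (K * (2 * K + 2) * (K * c * a ^ d)) ≠ 0 := by
      rw [Ne, ENNReal.ofReal_eq_zero, not_le]
      positivity
    refine (ENNReal.mul_le_mul_iff_right hY0 ENNReal.ofReal_ne_top).1 (le_trans ?_ h)
    rw [← ENNReal.ofReal_mul (by positivity)]
    refine ENNReal.ofReal_le_ofReal ?_
    have e : K * (2 * K + 2) * (K * c * a ^ d) * (1 / (8 * K ^ 4) * (2 * (K * β) * q))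
        = q * c * a ^ d * β * ((2 * K + 2) / (4 * K)) := by
      field_simp
      ring
    rw [e]
    have h5 : (2 * K + 2) / (4 * K) ≤ 1 := by
      rw [div_le_one (by positivity)]
      linarith
    have hP : 0 < q * c * a ^ d * β := by positivity
    nlinarith
  intro t ht y hy
  have h6 := k7a_r_norm L.F hA.quad t0 q L.c0 L.c1 (K * β) (1 / (8 * K ^ 4)) (4 * K) hq (by positivity) (by positivity) G hG
    Set.inter_subset_left hvol (fun p hp => hp.2) K t y hK (by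
      have : |t - t0| ≤ 1 := by
        rw [abs_le]
        constructor <;> linarith [ht.1, ht.2]
      linarith) hy
  have e2 : 1728 / (1 / (8 * K ^ 4)) ^ 2 = 1728 * (8 * K ^ 4) ^ 2 := by
    field_simp
  rwa [e2] at h6

/-- **R4**: position and fit of the assigned trajectories at full time -/
theorem k7a_r_full (D : K7aData Λ) {K c d a t0 q β : ℝ} {A : Set Λ} {L : K7aLab} (hA : K7aAct D K c d a t0 q A L β) (hK : 1 ≤ K)
    (ht0 : 0 ≤ t0) (htq : t0 + q ≤ 1) (hKq : 1 ≤ K * q) (l : Λ) (hl : l ∈ A) :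
    ∀ t ∈ Set.Icc (0 : ℝ) 1, |D.y l t - L.cen t| ≤ 432 * K ^ 2 * (K * β) ∧ |D.x l t - L.F t (D.y l t)| ≤ 432 * K ^ 2 * (K * a) := by
  obtain ⟨e0, e1, e2, e3, e4, e5, hF⟩ := hA.quad
  have ey : ∀ t, D.y l t - L.cen t = D.y0 l - L.c0 + (D.y1 l - L.c1) * t + 0 * t ^ 2 := fun t => by
    unfold K7aData.y K7aLab.cen; ring
  have ex : ∀ t, D.x l t - L.F t (D.y l t) = (D.x0 l - e0 - e2 * D.y0 l - e5 * D.y0 l ^ 2)
      + (D.x1 l - e1 - e2 * D.y1 l - e4 * D.y0 l - 2 * e5 * D.y0 l * D.y1 l) * t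
      + (D.x2 l - e3 - e4 * D.y1 l - e5 * D.y1 l ^ 2) * t ^ 2 := fun t => by
    rw [hF]
    unfold K7aData.x K7aData.y; ring
  intro t ht
  constructor
  · rw [ey]
    refine k7a_r_ext2 _ _ _ t0 q K (K * β) ht0 htq hK hKq (fun s hs => ?_) t ht
    rw [← ey]
    exact (hA.fit l hl s hs).1
  · rw [ex]
    refine k7a_r_ext2 _ _ _ t0 q K (K * a) ht0 htq hK hKq (fun s hs => ?_) t ht
    rw [← ex]
    exact (hA.fit l hl s hs).2

/-- the centre of a nonempty active label is bounded -/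
theorem k7a_r_cen (D : K7aData Λ) {K c d a t0 q β : ℝ} {A : Set Λ} {L : K7aLab} (hD : D.Adm K) (hA : K7aAct D K c d a t0 q A L β)
    (hK : 1 ≤ K) (ht0 : 0 ≤ t0) (htq : t0 + q ≤ 1) (hKq : 1 ≤ K * q) (hne : A.Nonempty) :
    |L.c0| ≤ 1296 * K ^ 4 ∧ |L.c1| ≤ 2592 * K ^ 4 := by
  obtain ⟨l, hl⟩ := hne
  have h := k7a_r_ext2 L.c0 L.c1 0 t0 q K (3 * K ^ 2) ht0 htq hK hKq (fun t ht => by
    have h1 := (hA.fit l hl t ht).1
    have h2 := k7a_r_y_le D hD l t ⟨ht0.trans ht.1, by linarith [ht.2]⟩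
    have h3 : |L.cen t| ≤ |D.y l t| + |D.y l t - L.cen t| := by
      have := abs_sub_abs_le_abs_sub (L.cen t) (D.y l t)
      rw [abs_sub_comm] at this
      linarith
    have h4 : K * β ≤ K * K := mul_le_mul_of_nonneg_left hA.le (by linarith)
    have e : L.c0 + L.c1 * t + 0 * t ^ 2 = L.cen t := by unfold K7aLab.cen; ring
    rw [e]
    nlinarith)
  have h0 := h 0 ⟨le_rfl, zero_le_one⟩
  have h1 := h 1 ⟨zero_le_one, le_rfl⟩
  simp only [mul_zero, add_zero, mul_one, one_pow, zero_mul] at h0 h1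
  have e : 432 * K ^ 2 * (3 * K ^ 2) = 1296 * K ^ 4 := by ring
  rw [e] at h0 h1
  refine ⟨h0, ?_⟩
  have : L.c1 = (L.c0 + L.c1) - L.c0 := by ring
  rw [this]
  calc |(L.c0 + L.c1) - L.c0| ≤ |L.c0 + L.c1| + |L.c0| := abs_sub _ _
    _ ≤ 2592 * K ^ 4 := by linarith

end

end Claimed.Agent.R252

/-!
# ROW 252 (S0492), unit S7a, post BP-252-S7a-RET (sub-architect helper64), file Main: THE RETURN STEP (07 l.228-292).      PAPER-FREE.

`k7a_r_return`, `k7a_r_return_ang` = the statements `k7a_return`, `k7a_return_ang` of `T71Contract.lean` with `k7aRet` written out.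
Assembly: R5 common jitter (`k7a_r_jit_mu` + `exists_lintegral_le`), R6 undo (`k7aUndo`), R7 marks + deletion of the light labels (budget), R8 pigeonhole, reindexing.
-/

set_option autoImplicit false

namespace Claimed.Agent.R252

open MeasureTheory
open scoped ENNReal BigOperators

noncomputable section

variable {Λ : Type} [MeasurableSpace Λ]

/-! ## the constant -/

theorem k7a_r_ret_ge {K K1 σ : ℝ} (hK : 1 ≤ K) (hK1 : 1 ≤ K1) (hσ0 : 0 < σ) (hσ1 : σ ≤ 1) (C : ℝ) (hC : C ≤ 10 ^ 20) (p : ℕ)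
    (hp : p ≤ 40) : C * (K * K1) ^ p ≤ 10 ^ 20 * (K * K1) ^ 40 * (1 + Real.log (1 / σ)) := by
  have hZ : 1 ≤ K * K1 := by nlinarith
  have hlog : 0 ≤ Real.log (1 / σ) := Real.log_nonneg (by rw [le_div_iff₀ hσ0]; linarith)
  have h1 : (K * K1) ^ p ≤ (K * K1) ^ 40 := pow_le_pow_right₀ hZ hp
  have h2 : 0 < (K * K1) ^ p := by positivity
  calc C * (K * K1) ^ p ≤ 10 ^ 20 * (K * K1) ^ p := mul_le_mul_of_nonneg_right hC h2.le
    _ ≤ 10 ^ 20 * (K * K1) ^ 40 := by gcongr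
    _ ≤ 10 ^ 20 * (K * K1) ^ 40 * (1 + Real.log (1 / σ)) := by
        have : 0 < (10 : ℝ) ^ 20 * (K * K1) ^ 40 := by positivity
        nlinarith

theorem k7a_r_ret_mass {K K1 σ : ℝ} (hK : 1 ≤ K) (hK1 : 1 ≤ K1) (hσ0 : 0 < σ) (hσ1 : σ ≤ 1) :
    2 * K * K1 * (1 + Real.logb 2 (K / (σ / (40 * K ^ 6)))) ≤ 10 ^ 20 * (K * K1) ^ 40 * (1 + Real.log (1 / σ)) := by
  have hK0 : 0 < K := by linarith
  have hZ : 1 ≤ K * K1 := by nlinarith
  have hlog : 0 ≤ Real.log (1 / σ) := Real.log_nonneg (by rw [le_div_iff₀ hσ0]; linarith)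
  have e : K / (σ / (40 * K ^ 6)) = 40 * K ^ 7 * (1 / σ) := by
    field_simp
  have h7 : 1 ≤ K ^ 7 := one_le_pow₀ hK
  have h1 : Real.log (K / (σ / (40 * K ^ 6))) ≤ 40 * K ^ 7 + Real.log (1 / σ) := by
    rw [e, Real.log_mul (by positivity) (by positivity)]
    have := Real.log_le_sub_one_of_pos (show 0 < 40 * K ^ 7 by positivity)
    linarith
  have h0 : 0 ≤ Real.log (K / (σ / (40 * K ^ 6))) := by
    rw [e]
    refine Real.log_nonneg ?_
    have : 1 ≤ 1 / σ := by rw [le_div_iff₀ hσ0]; linarith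
    nlinarith
  have h2 : Real.logb 2 (K / (σ / (40 * K ^ 6))) ≤ 2 * Real.log (K / (σ / (40 * K ^ 6))) := by
    unfold Real.logb
    have hl2 : (1 : ℝ) / 2 < Real.log 2 := by
      have := Real.log_two_gt_d9
      linarith
    rw [div_le_iff₀ (by linarith)]
    nlinarith
  have h3 : 1 + Real.logb 2 (K / (σ / (40 * K ^ 6))) ≤ 81 * K ^ 7 * (1 + Real.log (1 / σ)) := by
    nlinarith
  have h4 : K ^ 8 * K1 ≤ (K * K1) ^ 8 := by
    rw [mul_pow]
    have h5 : K1 ≤ K1 ^ 8 := by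
      calc K1 = K1 ^ 1 := (pow_one _).symm
        _ ≤ K1 ^ 8 := pow_le_pow_right₀ hK1 (by norm_num)
    have : 0 < K ^ 8 := by positivity
    nlinarith
  have h6 : (K * K1) ^ 8 ≤ (K * K1) ^ 40 := pow_le_pow_right₀ hZ (by norm_num)
  have h8 : 0 < (K * K1) ^ 40 := by positivity
  calc 2 * K * K1 * (1 + Real.logb 2 (K / (σ / (40 * K ^ 6)))) ≤ 2 * K * K1 * (81 * K ^ 7 * (1 + Real.log (1 / σ))) := by
        have : 0 < 2 * K * K1 := by positivity
        exact mul_le_mul_of_nonneg_left h3 this.le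
    _ = 162 * (K ^ 8 * K1) * (1 + Real.log (1 / σ)) := by ring
    _ ≤ 10 ^ 20 * (K * K1) ^ 40 * (1 + Real.log (1 / σ)) := by
        refine mul_le_mul_of_nonneg_right ?_ (by linarith)
        nlinarith

/-! ## R6: undoing the jitter -/

theorem k7a_r_cl_mem {σ : ℝ} (hσ : 0 ≤ σ) (u : ℝ) : 0 ≤ k7aCl σ u ∧ k7aCl σ u ≤ σ := by
  unfold k7aCl
  exact ⟨le_max_left _ _, max_le hσ (min_le_left _ _)⟩

/-- the label seen from the original trajectories when the jitter is `u` -/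
def k7aUndo (σ : ℝ) (u : K7aU) (L : K7aLab) : K7aLab where
  c0 := L.c0 - k7aCl σ u.1
  c1 := L.c1 - k7aCl σ u.2.1
  F := fun t y => L.F t (y + (k7aCl σ u.1 + k7aCl σ u.2.1 * t))
    - (k7aCl σ u.2.2.1 + k7aCl σ u.2.2.2.1 * t + k7aCl σ u.2.2.2.2 * t ^ 2)

theorem k7a_r_undo_quad (σ : ℝ) (u : K7aU) (L : K7aLab) (h : K7aQuad L.F) : K7aQuad (k7aUndo σ u L).F := by
  obtain ⟨e0, e1, e2, e3, e4, e5, hF⟩ := h
  set a0 := k7aCl σ u.1
  set a1 := k7aCl σ u.2.1
  refine ⟨e0 + e2 * a0 + e5 * a0 ^ 2 - k7aCl σ u.2.2.1, e1 + e2 * a1 + e4 * a0 + 2 * e5 * a0 * a1 - k7aCl σ u.2.2.2.1,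
    e2 + 2 * e5 * a0, e3 + e4 * a1 + e5 * a1 ^ 2 - k7aCl σ u.2.2.2.2, e4 + 2 * e5 * a1, e5, fun t y => ?_⟩
  show L.F t (y + (a0 + a1 * t)) - _ = _
  rw [hF]
  ring

theorem k7a_r_undo_y (D : K7aData Λ) (σ : ℝ) (Mk : Set (Λ × ℝ)) (u : K7aU) (L : K7aLab) (l : Λ) (t : ℝ) :
    D.y l t - (k7aUndo σ u L).cen t = (D.jit σ Mk).y (l, u) t - L.cen t := by
  simp only [K7aData.y, K7aLab.cen, k7aUndo, K7aData.jit]
  ring

theorem k7a_r_undo_x (D : K7aData Λ) (σ : ℝ) (Mk : Set (Λ × ℝ)) (u : K7aU) (L : K7aLab) (l : Λ) (t : ℝ) :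
    D.x l t - (k7aUndo σ u L).F t (D.y l t) = (D.jit σ Mk).x (l, u) t - L.F t ((D.jit σ Mk).y (l, u) t) := by
  simp only [K7aData.y, K7aData.x, k7aUndo, K7aData.jit]
  have e : D.y0 l + D.y1 l * t + (k7aCl σ u.1 + k7aCl σ u.2.1 * t) = D.y0 l + k7aCl σ u.1 + (D.y1 l + k7aCl σ u.2.1) * t := by ring
  rw [e]
  ring

/-! ## R7: deletion of the light labels -/

open Classical in
theorem k7a_r_delete {n : ℕ} (M cw : Fin n → ℝ≥0∞) (T X : ℝ≥0∞) (hX : X ≠ ⊤) (h1 : X + X ≤ T * ∑ i, M i)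
    (h2 : ∑ i with M i ≠ 0, cw i ≤ X) : X ≤ T * ∑ i with cw i ≤ T * M i, M i := by
  have h3 : T * ∑ i with ¬ cw i ≤ T * M i, M i ≤ X := by
    rw [Finset.mul_sum]
    refine le_trans ?_ h2
    calc ∑ i with ¬ cw i ≤ T * M i, T * M i ≤ ∑ i with ¬ cw i ≤ T * M i, if M i ≠ 0 then cw i else 0 := by
          refine Finset.sum_le_sum fun i hi => ?_
          by_cases h0 : M i = 0
          · simp [h0]
          · rw [if_pos h0]
            exact (not_le.1 (Finset.mem_filter.1 hi).2).le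
      _ ≤ ∑ i, if M i ≠ 0 then cw i else 0 :=
          Finset.sum_le_sum_of_subset (Finset.filter_subset _ _)
      _ = ∑ i with M i ≠ 0, cw i := (Finset.sum_filter _ _).symm
  have h4 : ∑ i, M i = ∑ i with cw i ≤ T * M i, M i + ∑ i with ¬ cw i ≤ T * M i, M i :=
    (Finset.sum_filter_add_sum_filter_not _ _ _).symm
  rw [h4, mul_add] at h1
  have h5 := h1.trans (add_le_add_right h3 _)
  exact (ENNReal.add_le_add_iff_right hX).1 h5

/-! ## the core -/

theorem k7a_r_jit_mu_univ (D : K7aData Λ) [IsProbabilityMeasure D.nu] {σ : ℝ} (hσ : 0 < σ) (Mk : Set (Λ × ℝ))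
    (S : Set ((Λ × K7aU) × ℝ)) : (D.jit σ Mk).mu S ≤ 1 := by
  have := k7a_r_noise_prob hσ
  have := k7a_r_tm_prob
  calc (D.jit σ Mk).mu S ≤ ((D.nu.prod (k7aNoise σ)).prod k7aTm) S := Measure.restrict_le_self _
    _ ≤ 1 := prob_le_one

open Classical in
/-- **the core of the return step**: `Out` at a scale `β0` comparable with the width `β1` of an active label of the block -/
theorem k7a_r_core (D : K7aData Λ) {K K1 σ c d a : ℝ} {Mk : Set (Λ × ℝ)} (hD : D.Adm K) (hM : K7aMarks D σ K1 Mk) (hK : 1 ≤ K)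
    (hK1 : 1 ≤ K1) (hσ0 : 0 < σ) (hσa : σ ≤ a) (ha : a ≤ 1) (hc : 0 < c)
    (hJ : (D.jit σ Mk).Adm K) (hcap : (D.jit σ Mk).ECap (fun _ => 0) K c d a) (hsl : (D.jit σ Mk).ESl (fun _ => 0) K c d a σ)
    (hB : (D.jit σ Mk).Block (fun _ => 0) K c d a) :
    ∃ (β0 β1 t0 q : ℝ) (A : Set (Λ × K7aU)) (L1 : K7aLab), 0 < q ∧ 1 ≤ K * q ∧ K7aAct (D.jit σ Mk) K c d a t0 q A L1 β1 ∧
      0 < β0 ∧ β0 ≤ β1 ∧ β1 ≤ 2 * β0 ∧ D.Out (10 ^ 20 * (K * K1) ^ 40 * (1 + Real.log (1 / σ))) β0 c d a := by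
  obtain ⟨t0, q, n, lab', L, β, w, ht0, htq, hKq, hlabm, hmass, hlab⟩ := hB
  have hK0 : 0 < K := by linarith
  have hK10 : 0 < K1 := by linarith
  have hq : 0 < q := by
    by_contra h
    push Not at h
    nlinarith
  have ha0 : 0 < a := lt_of_lt_of_le hσ0 hσa
  have hσ1 : σ ≤ 1 := hσa.trans ha
  have had : 0 < a ^ d := Real.rpow_pos_of_pos ha0 d
  have hprob := hD.prob
  have hprob' := hJ.prob
  have hnoise := k7a_r_noise_prob hσ0
  have htm := k7a_r_tm_prob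
  -- R5: the common jitter
  have hS0 : MeasurableSet {z : (Λ × K7aU) × ℝ | lab' z.1 ≠ none ∧ z.2 ∈ Set.Ico t0 (t0 + q)} :=
    (measurable_fst (hlabm none).compl).inter (measurable_snd measurableSet_Ico)
  obtain ⟨us, hus⟩ : ∃ us : K7aU, (D.jit σ Mk).mu {z | lab' z.1 ≠ none ∧ z.2 ∈ Set.Ico t0 (t0 + q)} ≤
      (D.nu.prod k7aTm) {p | p ∈ Mk ∧ ((p.1, us), p.2) ∈ {z : (Λ × K7aU) × ℝ | lab' z.1 ≠ none ∧ z.2 ∈ Set.Ico t0 (t0 + q)}} := by
    have hint := k7a_r_jit_mu D hσ0 hM.meas _ hS0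
    rw [hint]
    refine exists_lintegral_le ?_
    rw [← hint]
    exact ne_of_lt (lt_of_le_of_lt (k7a_r_jit_mu_univ D hσ0 Mk _) ENNReal.one_lt_top)
  set lab : Λ → Option (Fin n) := fun l => lab' (l, us) with hlabdef
  have hlabm2 : ∀ o, MeasurableSet (lab ⁻¹' {o}) := fun o => measurable_prodMk_right (hlabm o)
  -- R7: the marks
  have htot : 1 ≤ ENNReal.ofReal (K * K1) * D.mu {z | lab z.1 ≠ none} := by
    have h1 := k7a_r_marks D hM hσ0 {l | lab l ≠ none} (hlabm2 none).compl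
    calc (1 : ℝ≥0∞) ≤ ENNReal.ofReal K * (D.jit σ Mk).mu {z | lab' z.1 ≠ none ∧ z.2 ∈ Set.Ico t0 (t0 + q)} := hmass
      _ ≤ ENNReal.ofReal K * (D.nu.prod k7aTm) {p | p ∈ Mk ∧ p.1 ∈ {l | lab l ≠ none}} := by
          refine mul_le_mul_right (hus.trans (measure_mono ?_)) _
          rintro p ⟨h1, h2, -⟩
          exact ⟨h1, h2⟩
      _ ≤ ENNReal.ofReal K * (ENNReal.ofReal K1 * D.mu {z | z.1 ∈ {l | lab l ≠ none}}) := mul_le_mul_right h1 _
      _ = _ := by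
          rw [← mul_assoc, ← ENNReal.ofReal_mul hK0.le]
          rfl
  -- the labels which occur are active
  have hw : ∀ i, (∃ l, lab l = some i) → w i = 0 := by
    rintro i ⟨l, hl⟩
    exact (((hlab i).2.2.2.1 (l, us) hl).1).symm
  have hact : ∀ i, w i = 0 → K7aAct (D.jit σ Mk) K c d a t0 q (lab' ⁻¹' {some i}) (L i) (β i) := by
    intro i hi
    obtain ⟨h1, h2, h3, h4, h5⟩ := hlab i
    refine ⟨h1, h2, h3, fun l hl => (h4 l hl).2, ?_⟩
    rw [hi, k7a_r_om, mul_one] at h5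
    exact h5
  set M : Fin n → ℝ≥0∞ := fun i => D.mu {z | lab z.1 = some i} with hMdef
  have hM0 : ∀ i, M i ≠ 0 → ∃ l, lab l = some i := by
    intro i hi
    by_contra hcon
    push Not at hcon
    apply hi
    have : {z : Λ × ℝ | lab z.1 = some i} = ∅ := by
      ext z
      simp [hcon z.1]
    rw [hMdef]
    simp only [this, measure_empty]
  have hsumM : ∀ Sel : Finset (Fin n), D.mu {z | ∃ i ∈ Sel, lab z.1 = some i} = ∑ i ∈ Sel, M i := by
    intro Sel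
    have h := k7a_r_sum_lab D.mu lab hlabm2 Set.univ MeasurableSet.univ Sel
    simpa only [Set.mem_univ, and_true] using h
  -- the budget
  have hbud : ∑ i with M i ≠ 0, ENNReal.ofReal (c * a ^ d * β i) ≤ ENNReal.ofReal (K ^ 2) := by
    have h1 : ENNReal.ofReal q * ∑ i with M i ≠ 0, ENNReal.ofReal (c * a ^ d * β i) ≤ ENNReal.ofReal K * 1 := by
      rw [Finset.mul_sum]
      calc ∑ i with M i ≠ 0, ENNReal.ofReal q * ENNReal.ofReal (c * a ^ d * β i)
          ≤ ∑ i with M i ≠ 0, ENNReal.ofReal K * (D.jit σ Mk).mu {z | lab' z.1 = some i ∧ z.2 ∈ Set.Ico t0 (t0 + q)} := by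
            refine Finset.sum_le_sum fun i hi => ?_
            have h2 := (hact i (hw i (hM0 i (Finset.mem_filter.1 hi).2))).floor
            rw [← ENNReal.ofReal_mul hq.le]
            refine le_trans (le_of_eq ?_) h2
            congr 1
            ring
        _ = ENNReal.ofReal K * (D.jit σ Mk).mu {z | (∃ i ∈ Finset.univ.filter (fun i => M i ≠ 0), lab' z.1 = some i) ∧
              z.2 ∈ Set.Ico t0 (t0 + q)} := by
            rw [k7a_r_sum_lab (D.jit σ Mk).mu lab' hlabm _ measurableSet_Ico, Finset.mul_sum]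
        _ ≤ ENNReal.ofReal K * 1 := mul_le_mul_right (k7a_r_jit_mu_univ D hσ0 Mk _) _
    have hq0 : ENNReal.ofReal q ≠ 0 := by
      rw [Ne, ENNReal.ofReal_eq_zero, not_le]
      exact hq
    refine (ENNReal.mul_le_mul_iff_right hq0 ENNReal.ofReal_ne_top).1 (h1.trans ?_)
    rw [mul_one, ← ENNReal.ofReal_mul hq.le]
    refine ENNReal.ofReal_le_ofReal ?_
    nlinarith
  -- deletion of the light labels
  set Ig : Finset (Fin n) := Finset.univ.filter fun i => ENNReal.ofReal (c * a ^ d * β i) ≤ ENNReal.ofReal (2 * K ^ 3 * K1) * M i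
    with hIg
  have hgood : 1 ≤ ENNReal.ofReal (2 * K * K1) * ∑ i ∈ Ig, M i := by
    have h1 : ENNReal.ofReal (K ^ 2) + ENNReal.ofReal (K ^ 2) ≤ ENNReal.ofReal (2 * K ^ 3 * K1) * ∑ i, M i := by
      have e1 : {z : Λ × ℝ | lab z.1 ≠ none} = {z | ∃ i ∈ (Finset.univ : Finset (Fin n)), lab z.1 = some i} := by
        ext z
        simp only [Set.mem_ofPred_eq, Finset.mem_univ, true_and, ne_eq]
        exact Option.ne_none_iff_exists'
      rw [e1, hsumM] at htot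
      have e2 : ENNReal.ofReal (2 * K ^ 3 * K1) = ENNReal.ofReal (2 * K ^ 2) * ENNReal.ofReal (K * K1) := by
        rw [← ENNReal.ofReal_mul (by positivity)]
        congr 1
        ring
      rw [e2, mul_assoc, ← ENNReal.ofReal_add (by positivity) (by positivity)]
      calc ENNReal.ofReal (K ^ 2 + K ^ 2) = ENNReal.ofReal (2 * K ^ 2) * 1 := by rw [mul_one]; congr 1; ring
        _ ≤ _ := mul_le_mul_right htot _
    have h2 := k7a_r_delete M (fun i => ENNReal.ofReal (c * a ^ d * β i)) (ENNReal.ofReal (2 * K ^ 3 * K1)) (ENNReal.ofReal (K ^ 2))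
      ENNReal.ofReal_ne_top h1 hbud
    have e3 : ENNReal.ofReal (2 * K ^ 3 * K1) = ENNReal.ofReal (K ^ 2) * ENNReal.ofReal (2 * K * K1) := by
      rw [← ENNReal.ofReal_mul (by positivity)]
      congr 1
      ring
    have hK2 : ENNReal.ofReal (K ^ 2) ≠ 0 := by
      rw [Ne, ENNReal.ofReal_eq_zero, not_le]
      positivity
    refine (ENNReal.mul_le_mul_iff_right hK2 ENNReal.ofReal_ne_top).1 ?_
    rw [mul_one, ← mul_assoc, ← e3]
    exact h2
  -- the good labels are active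
  have hgact : ∀ i ∈ Ig, (∃ l, lab l = some i) ∧ K7aAct (D.jit σ Mk) K c d a t0 q (lab' ⁻¹' {some i}) (L i) (β i) := by
    intro i hi
    have h1 : M i ≠ 0 := by
      intro h0
      have h2 := (Finset.mem_filter.1 hi).2
      rw [h0, mul_zero] at h2
      have h3 : 0 < ENNReal.ofReal (c * a ^ d * β i) := ENNReal.ofReal_pos.2 (by
        have := (hlab i).2.1
        positivity)
      exact absurd h2 (not_le.2 h3)
    exact ⟨hM0 i h1, hact i (hw i (hM0 i h1))⟩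
  have hwidth : ∀ i ∈ Ig, σ / (40 * K ^ 6) ≤ β i ∧ β i ≤ K := by
    intro i hi
    have h1 := k7a_r_width (D.jit σ Mk) hsl (hgact i hi).2 hK ha0 ha hc hσ0 hq hKq
    refine ⟨?_, (hgact i hi).2.le⟩
    rw [div_le_iff₀ (by positivity)]
    linarith
  -- R8: the pigeonhole
  obtain ⟨β0, Sel, hSel, hβ0, hcomp, hpig⟩ := k7a_r_pigeon M β Ig (lo := σ / (40 * K ^ 6)) (hi := K) (by positivity) hwidth
  have hne : Sel.Nonempty := by
    by_contra hcon
    rw [Finset.not_nonempty_iff_eq_empty] at hcon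
    rw [hcon, Finset.sum_empty, mul_zero, nonpos_iff_eq_zero] at hpig
    rw [hpig, mul_zero] at hgood
    exact absurd hgood (by norm_num)
  obtain ⟨i1, hi1⟩ := hne
  refine ⟨β0, β i1, t0, q, lab' ⁻¹' {some i1}, L i1, hq, hKq, (hgact i1 (hSel hi1)).2, hβ0, (hcomp i1 hi1).1, (hcomp i1 hi1).2, ?_⟩
  set R : ℝ := 10 ^ 20 * (K * K1) ^ 40 * (1 + Real.log (1 / σ)) with hR
  have hRge : ∀ (C : ℝ) (p : ℕ), C ≤ 10 ^ 20 → p ≤ 40 → C * (K * K1) ^ p ≤ R :=
    fun C p hC hp => k7a_r_ret_ge hK hK1 hσ0 hσ1 C hC p hp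
  have hKZ : K ≤ K * K1 := by nlinarith
  have hKp : ∀ p : ℕ, K ^ p ≤ (K * K1) ^ p := fun p => pow_le_pow_left₀ hK0.le hKZ p
  have hKp1 : ∀ p : ℕ, 1 ≤ K ^ p := fun p => one_le_pow₀ hK
  refine k7a_r_reindex D lab (fun i => k7aUndo σ us (L i)) Sel hlabm2 ?_ ?_
  · rw [hsumM]
    calc (1 : ℝ≥0∞) ≤ ENNReal.ofReal (2 * K * K1) * ∑ i ∈ Ig, M i := hgood
      _ ≤ ENNReal.ofReal (2 * K * K1) * (ENNReal.ofReal (1 + Real.logb 2 (K / (σ / (40 * K ^ 6)))) * ∑ i ∈ Sel, M i) :=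
          mul_le_mul_right hpig _
      _ = ENNReal.ofReal (2 * K * K1 * (1 + Real.logb 2 (K / (σ / (40 * K ^ 6))))) * ∑ i ∈ Sel, M i := by
          rw [← mul_assoc, ← ENNReal.ofReal_mul (by positivity)]
      _ ≤ ENNReal.ofReal R * ∑ i ∈ Sel, M i :=
          mul_le_mul_left (ENNReal.ofReal_le_ofReal (k7a_r_ret_mass hK hK1 hσ0 hσ1)) _
  · intro i hi
    have hA := (hgact i (hSel hi)).2
    obtain ⟨l0, hl0⟩ := (hgact i (hSel hi)).1
    have hcen := k7a_r_cen (D.jit σ Mk) hJ hA hK ht0 htq hKq ⟨(l0, us), hl0⟩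
    have hcl := k7a_r_cl_mem hσ0.le
    refine ⟨k7a_r_undo_quad σ us (L i) hA.quad, ?_, ?_, ?_, ?_, ?_⟩
    · show |(L i).c0 - k7aCl σ us.1| ≤ R
      have h1 := hRge 1297 4 (by norm_num) (by norm_num)
      have h2 := hKp 4
      have h3 := hKp1 4
      have h4 : |(L i).c0 - k7aCl σ us.1| ≤ |(L i).c0| + |k7aCl σ us.1| := abs_sub _ _
      rw [abs_of_nonneg (hcl us.1).1] at h4
      linarith [hcen.1, (hcl us.1).2]
    · show |(L i).c1 - k7aCl σ us.2.1| ≤ R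
      have h1 := hRge 2593 4 (by norm_num) (by norm_num)
      have h2 := hKp 4
      have h3 := hKp1 4
      have h4 : |(L i).c1 - k7aCl σ us.2.1| ≤ |(L i).c1| + |k7aCl σ us.2.1| := abs_sub _ _
      rw [abs_of_nonneg (hcl us.2.1).1] at h4
      linarith [hcen.2, (hcl us.2.1).2]
    · intro t ht u hu
      have hF := k7a_r_Fnorm (D.jit σ Mk) hJ hcap hA hK ha0 ha hc ht0 htq hq hKq t ht ((L i).cen t + β0 * u) (by
        have e : (L i).cen t + β0 * u - (L i).cen t = β0 * u := by ring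
        rw [e, abs_mul, abs_of_pos hβ0]
        have h1 : |u| ≤ 1 := abs_le.2 hu
        have h2 := (hcomp i hi).1
        have h3 := hA.pos
        nlinarith [abs_nonneg u])
      have e : (k7aUndo σ us (L i)).F t ((k7aUndo σ us (L i)).cen t + β0 * u) = (L i).F t ((L i).cen t + β0 * u)
          - (k7aCl σ us.2.2.1 + k7aCl σ us.2.2.2.1 * t + k7aCl σ us.2.2.2.2 * t ^ 2) := by
        simp only [k7aUndo, K7aLab.cen]
        congr 2
        ring
      rw [e]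
      have h5 : |k7aCl σ us.2.2.1 + k7aCl σ us.2.2.2.1 * t + k7aCl σ us.2.2.2.2 * t ^ 2| ≤ 3 := by
        have b1 := hcl us.2.2.1
        have b2 := hcl us.2.2.2.1
        have b3 := hcl us.2.2.2.2
        have t2 : t ^ 2 ≤ 1 := by nlinarith [ht.1, ht.2]
        rw [abs_of_nonneg (by
          have := mul_nonneg b2.1 ht.1
          have := mul_nonneg b3.1 (sq_nonneg t)
          linarith [b1.1])]
        nlinarith [b1.2, b2.2, b3.2, b2.1, b3.1, ht.1, ht.2, sq_nonneg t]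
      have h6 := hRge 48922361859 19 (by norm_num) (by norm_num)
      have h7 := hKp 19
      have h8 := hKp1 19
      have e2 : (1728 * (8 * K ^ 4) ^ 2) ^ 2 * (4 * K) * K ^ 2 = 48922361856 * K ^ 19 := by ring
      rw [e2] at hF
      calc |(L i).F t ((L i).cen t + β0 * u) - (k7aCl σ us.2.2.1 + k7aCl σ us.2.2.2.1 * t + k7aCl σ us.2.2.2.2 * t ^ 2)|
          ≤ |(L i).F t ((L i).cen t + β0 * u)| + |k7aCl σ us.2.2.1 + k7aCl σ us.2.2.2.1 * t + k7aCl σ us.2.2.2.2 * t ^ 2| := abs_sub _ _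
        _ ≤ R := by linarith
    · intro l hl t ht
      have hfull := k7a_r_full (D.jit σ Mk) hA hK ht0 htq hKq (l, us) hl t ht
      rw [k7a_r_undo_y D σ Mk, k7a_r_undo_x D σ Mk]
      have h1 := hRge 864 3 (by norm_num) (by norm_num)
      have h2 := hKp 3
      have h3 : 0 < K ^ 3 := by positivity
      constructor
      · refine hfull.1.trans ?_
        have h4 := (hcomp i hi).2
        calc 432 * K ^ 2 * (K * β i) = 432 * K ^ 3 * β i := by ring
          _ ≤ 432 * K ^ 3 * (2 * β0) := by gcongr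
          _ = 864 * K ^ 3 * β0 := by ring
          _ ≤ R * β0 := by
              refine mul_le_mul_of_nonneg_right ?_ hβ0.le
              linarith
      · refine hfull.2.trans ?_
        calc 432 * K ^ 2 * (K * a) = 432 * K ^ 3 * a := by ring
          _ ≤ R * a := by
              refine mul_le_mul_of_nonneg_right ?_ ha0.le
              linarith
    · have h1 := (Finset.mem_filter.1 (hSel hi)).2
      have h2 := hRge 2 3 (by norm_num) (by norm_num)
      calc ENNReal.ofReal (c * a ^ d * β0) ≤ ENNReal.ofReal (c * a ^ d * β i) := by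
            refine ENNReal.ofReal_le_ofReal ?_
            have := (hcomp i hi).1
            gcongr
        _ ≤ ENNReal.ofReal (2 * K ^ 3 * K1) * M i := h1
        _ ≤ ENNReal.ofReal R * M i := by
            refine mul_le_mul_left (ENNReal.ofReal_le_ofReal ?_) _
            refine le_trans ?_ h2
            have : K ^ 3 * K1 ≤ (K * K1) ^ 3 := by
              rw [mul_pow]
              have h3 : K1 ≤ K1 ^ 3 := by
                calc K1 = K1 ^ 1 := (pow_one _).symm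
                  _ ≤ K1 ^ 3 := pow_le_pow_right₀ hK1 (by norm_num)
              have : 0 < K ^ 3 := by positivity
              nlinarith
            linarith

/-! ## the two statements of the contract -/

/-- **return** (= `k7a_return` of `T71Contract.lean`, `k7aRet` written out) -/
theorem k7a_r_return (D : K7aData Λ) {K K1 σ c d a : ℝ} {Mk : Set (Λ × ℝ)} (hD : D.Adm K) (hM : K7aMarks D σ K1 Mk) (hK : 1 ≤ K)
    (hK1 : 1 ≤ K1) (hσ0 : 0 < σ) (hσa : σ ≤ a) (ha : a ≤ 1) (hc : 0 < c)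
    (hJ : (D.jit σ Mk).Adm K) (hcap : (D.jit σ Mk).ECap (fun _ => 0) K c d a) (hsl : (D.jit σ Mk).ESl (fun _ => 0) K c d a σ)
    (hB : (D.jit σ Mk).Block (fun _ => 0) K c d a) :
    ∃ β : ℝ, σ ≤ 10 ^ 20 * (K * K1) ^ 40 * (1 + Real.log (1 / σ)) * β ∧ β ≤ 10 ^ 20 * (K * K1) ^ 40 * (1 + Real.log (1 / σ)) ∧
      D.Out (10 ^ 20 * (K * K1) ^ 40 * (1 + Real.log (1 / σ))) β c d a := by
  obtain ⟨β0, β1, t0, q, A, L1, hq, hKq, hA, hβ0, h01, h10, hOut⟩ := k7a_r_core D hD hM hK hK1 hσ0 hσa ha hc hJ hcap hsl hB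
  have hprob' := hJ.prob
  have hK0 : 0 < K := by linarith
  have hσ1 : σ ≤ 1 := hσa.trans ha
  have hKZ : K ≤ K * K1 := by nlinarith
  refine ⟨β0, ?_, ?_, hOut⟩
  · have h1 := k7a_r_width (D.jit σ Mk) hsl hA hK (lt_of_lt_of_le hσ0 hσa) ha hc hσ0 hq hKq
    have h2 := k7a_r_ret_ge hK hK1 hσ0 hσ1 80 (by norm_num) 6 (by norm_num)
    have h3 : K ^ 6 ≤ (K * K1) ^ 6 := pow_le_pow_left₀ hK0.le hKZ 6
    have h4 : 0 < K ^ 6 := by positivity
    calc σ ≤ 40 * K ^ 6 * β1 := h1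
      _ ≤ 40 * K ^ 6 * (2 * β0) := by gcongr
      _ = 80 * K ^ 6 * β0 := by ring
      _ ≤ _ := by
          refine mul_le_mul_of_nonneg_right ?_ hβ0.le
          linarith
  · have h2 := k7a_r_ret_ge hK hK1 hσ0 hσ1 1 (by norm_num) 1 (by norm_num)
    rw [pow_one, one_mul] at h2
    linarith [hA.le]

/-- **return, angular case** (= `k7a_return_ang` of `T71Contract.lean`, `k7aRet` written out) -/
theorem k7a_r_return_ang (D : K7aData Λ) {K K1 σ c d a N S1 u1 u : ℝ} {Mk : Set (Λ × ℝ)} (hD : D.Adm K) (hM : K7aMarks D σ K1 Mk)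
    (hK : 1 ≤ K) (hK1 : 1 ≤ K1) (hσ0 : 0 < σ) (hσa : σ ≤ a) (ha : a ≤ 1) (hc : 0 < c) (hN : 1 ≤ N)
    (hJ : (D.jit σ Mk).Adm K) (hcap : (D.jit σ Mk).ECap (fun _ => 0) K c d a) (hsl : (D.jit σ Mk).ESl (fun _ => 0) K c d a σ)
    (hang : (D.jit σ Mk).EAng (fun _ => 0) K c d a N S1 u1) (hu0 : 0 < u) (hu1 : u ≤ u1) (hbig : 8 * K ^ 4 < N ^ (S1 * u))
    (hB : (D.jit σ Mk).Block (fun _ => 0) K c d a) :
    ∃ β : ℝ, N ^ (-u) ≤ 10 ^ 20 * (K * K1) ^ 40 * (1 + Real.log (1 / σ)) * β ∧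
      β ≤ 10 ^ 20 * (K * K1) ^ 40 * (1 + Real.log (1 / σ)) ∧ D.Out (10 ^ 20 * (K * K1) ^ 40 * (1 + Real.log (1 / σ))) β c d a := by
  obtain ⟨β0, β1, t0, q, A, L1, hq, hKq, hA, hβ0, h01, h10, hOut⟩ := k7a_r_core D hD hM hK hK1 hσ0 hσa ha hc hJ hcap hsl hB
  have hprob' := hJ.prob
  have hK0 : 0 < K := by linarith
  have hσ1 : σ ≤ 1 := hσa.trans ha
  have hKZ : K ≤ K * K1 := by nlinarith
  refine ⟨β0, ?_, ?_, hOut⟩
  · have h1 := k7a_r_width_ang (D.jit σ Mk) hang hA hK (lt_of_lt_of_le hσ0 hσa) hc hN hu0 hu1 hbig hq hKq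
    have h2 := k7a_r_ret_ge hK hK1 hσ0 hσ1 10 (by norm_num) 2 (by norm_num)
    have h3 : K ^ 2 ≤ (K * K1) ^ 2 := pow_le_pow_left₀ hK0.le hKZ 2
    have h4 : 0 < K ^ 2 := by positivity
    calc N ^ (-u) ≤ 5 * K ^ 2 * β1 := h1
      _ ≤ 5 * K ^ 2 * (2 * β0) := by gcongr
      _ = 10 * K ^ 2 * β0 := by ring
      _ ≤ _ := by
          refine mul_le_mul_of_nonneg_right ?_ hβ0.le
          linarith
  · have h2 := k7a_r_ret_ge hK hK1 hσ0 hσ1 1 (by norm_num) 1 (by norm_num)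
    rw [pow_one, one_mul] at h2
    linarith [hA.le]

end

end Claimed.Agent.R252
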