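import Claimed.Agent.R252.S7a.Defs
import Claimed.Agent.R252.S7a.Ret

/-!
# ROW 252 (S0492), unit S7a, file `Smooth`: the exact-base ceilings of the jittered marked law (post BP-252-S7a-SMOOTH).      Prover helper43.  Nothing open.

* `k7a_s_noise`, `k7a_s_core` : THE Fubini computation.  For `G, R ⊆ Λ × ℝ`, `η : Λ × ℝ → ℝ`: if `|{u₁ ∈ [0,σ] : (l,u₁) ∈ R}| ≤ θ σ` and every section
  `{l : (l,t) ∈ G, η(l,t) ∈ [y - 2σ, y]}` has prior mass `≤ b σ` then `(ν × ρ_σ × dt){(l,t) ∈ G, (l,u₁) ∈ R, (t, η + u₀ + u₁ t) ∈ B} ≤ θ b |B|`.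
* `k7a_s_geo`, `k7a_s_sec`    : the section bound `ν A ≤ 66 K² K₁ β₀ / σ` from `K7aMarks.floor` and a mesh ceiling `β₀` (with an extra trajectory constraint `Y`).
* `k7a_s_jit`, `k7a_s_world`  : transfer to `(D.jit σ Mk).mu`, one world.
* `k7a_s_ecap`, `k7a_s_esl`, `k7a_s_eang` = `k7a_jit_ecap`, `k7a_jit_esl`, `k7a_jit_eang` of `T71Contract.lean`.
-/

set_option autoImplicit false

namespace Claimed.Agent.R252

open MeasureTheory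
open scoped ENNReal BigOperators

noncomputable section

variable {Λ : Type} [MeasurableSpace Λ]

theorem k7a_s_cl_mem {σ : ℝ} (hσ : 0 ≤ σ) (u : ℝ) : 0 ≤ k7aCl σ u ∧ k7aCl σ u ≤ σ := by
  unfold k7aCl
  exact ⟨le_max_left _ _, max_le hσ (min_le_left _ _)⟩

theorem k7a_s_cl_eq {σ u : ℝ} (hu : u ∈ Set.Icc 0 σ) : k7aCl σ u = u := by
  unfold k7aCl
  rw [min_eq_right hu.2, max_eq_right hu.1]

theorem k7a_s_cl_meas (σ : ℝ) : Measurable (k7aCl σ) := by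
  unfold k7aCl
  exact measurable_const.max (measurable_const.min measurable_id)

theorem k7a_s_un_prob {σ : ℝ} (hσ : 0 < σ) : IsProbabilityMeasure (k7aUn σ) := by
  constructor
  unfold k7aUn
  rw [Measure.smul_apply, Measure.restrict_apply MeasurableSet.univ, Set.univ_inter, Real.volume_Icc, sub_zero, smul_eq_mul,
    ← ENNReal.ofReal_mul (by positivity), inv_mul_cancel₀ hσ.ne', ENNReal.ofReal_one]

theorem k7a_s_un_apply (σ : ℝ) (A : Set ℝ) : k7aUn σ A = ENNReal.ofReal σ⁻¹ * volume (A ∩ Set.Icc 0 σ) := by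
  unfold k7aUn
  rw [Measure.smul_apply, Measure.restrict_apply' measurableSet_Icc, smul_eq_mul]

/-- the two relevant noise coordinates -/
theorem k7a_s_noise {σ θ : ℝ} (hσ : 0 < σ) (R : Set ℝ) (hR : MeasurableSet R)
    (hRb : volume (R ∩ Set.Icc 0 σ) ≤ ENNReal.ofReal (θ * σ)) (Bt : Set ℝ) (hBt : MeasurableSet Bt) (e t : ℝ)
    (ht : t ∈ Set.Icc (0 : ℝ) 1) :
    k7aNoise σ {u | u.2.1 ∈ R ∧ e + k7aCl σ u.1 + k7aCl σ u.2.1 * t ∈ Bt}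
      ≤ ENNReal.ofReal θ * (ENNReal.ofReal σ⁻¹ * volume {y | y ∈ Bt ∧ e ∈ Set.Icc (y - 2 * σ) y}) := by
  have := k7a_s_un_prob hσ
  have hS : MeasurableSet {u : K7aU | u.2.1 ∈ R ∧ e + k7aCl σ u.1 + k7aCl σ u.2.1 * t ∈ Bt} := by
    have hf : Measurable fun u : K7aU => e + k7aCl σ u.1 + k7aCl σ u.2.1 * t :=
      (measurable_const.add ((k7a_s_cl_meas σ).comp measurable_fst)).add
        (((k7a_s_cl_meas σ).comp measurable_snd.fst).mul measurable_const)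
    exact (measurable_snd.fst hR).inter (hf hBt)
  unfold k7aNoise
  rw [Measure.prod_apply_symm hS]
  have hin : ∀ w : ℝ × ℝ × ℝ × ℝ, k7aUn σ ((fun u₀ : ℝ => ((u₀, w) : K7aU)) ⁻¹' {u : K7aU | u.2.1 ∈ R ∧ e + k7aCl σ u.1 + k7aCl σ u.2.1 * t ∈ Bt})
      ≤ Set.indicator {w : ℝ × ℝ × ℝ × ℝ | w.1 ∈ R} (fun _ => ENNReal.ofReal σ⁻¹ * volume {y | y ∈ Bt ∧ e ∈ Set.Icc (y - 2 * σ) y}) w := by
    intro w
    by_cases hw : w.1 ∈ R
    · rw [Set.indicator_of_mem (show w ∈ {w : ℝ × ℝ × ℝ × ℝ | w.1 ∈ R} from hw), k7a_s_un_apply]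
      refine mul_le_mul_right ?_ _
      rw [← measure_preimage_add_right volume (e + k7aCl σ w.1 * t) {y | y ∈ Bt ∧ e ∈ Set.Icc (y - 2 * σ) y}]
      refine measure_mono ?_
      rintro u₀ ⟨⟨-, h2⟩, h3⟩
      have hc := k7a_s_cl_mem hσ.le w.1
      have h2' : e + k7aCl σ u₀ + k7aCl σ w.1 * t ∈ Bt := h2
      rw [k7a_s_cl_eq h3] at h2'
      have e1 : u₀ + (e + k7aCl σ w.1 * t) = e + u₀ + k7aCl σ w.1 * t := by ring
      have hct : 0 ≤ k7aCl σ w.1 * t ∧ k7aCl σ w.1 * t ≤ σ :=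
        ⟨mul_nonneg hc.1 ht.1, by nlinarith [hc.1, hc.2, ht.1, ht.2]⟩
      refine ⟨?_, ?_, ?_⟩
      · show u₀ + (e + k7aCl σ w.1 * t) ∈ Bt
        rw [e1]; exact h2'
      · show u₀ + (e + k7aCl σ w.1 * t) - 2 * σ ≤ e
        linarith [h3.2, hct.2]
      · show e ≤ u₀ + (e + k7aCl σ w.1 * t)
        linarith [h3.1, hct.1]
    · rw [Set.indicator_of_notMem (show w ∉ {w : ℝ × ℝ × ℝ × ℝ | w.1 ∈ R} from hw)]
      have : (fun u₀ : ℝ => ((u₀, w) : K7aU)) ⁻¹' {u : K7aU | u.2.1 ∈ R ∧ e + k7aCl σ u.1 + k7aCl σ u.2.1 * t ∈ Bt} = ∅ :=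
        Set.eq_empty_of_forall_notMem fun u₀ h => hw h.1
      rw [this, measure_empty]
  refine (lintegral_mono hin).trans ?_
  rw [lintegral_indicator_const (show MeasurableSet {w : ℝ × ℝ × ℝ × ℝ | w.1 ∈ R} from measurable_fst hR)]
  have hprod : ((k7aUn σ).prod ((k7aUn σ).prod ((k7aUn σ).prod (k7aUn σ)))) {w : ℝ × ℝ × ℝ × ℝ | w.1 ∈ R} = k7aUn σ R := by
    have : {w : ℝ × ℝ × ℝ × ℝ | w.1 ∈ R} = R ×ˢ Set.univ := by
      ext w; simp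
    rw [this, Measure.prod_prod, measure_univ, mul_one]
  rw [hprod, k7a_s_un_apply, mul_comm]
  refine mul_le_mul_left ?_ _
  calc ENNReal.ofReal σ⁻¹ * volume (R ∩ Set.Icc 0 σ) ≤ ENNReal.ofReal σ⁻¹ * ENNReal.ofReal (θ * σ) := mul_le_mul_right hRb _
    _ = ENNReal.ofReal θ := by
      rw [← ENNReal.ofReal_mul (by positivity)]
      congr 1
      field_simp

/-- **the Fubini computation** -/
theorem k7a_s_core (ν : Measure Λ) [SFinite ν] {σ θ b : ℝ} (hσ : 0 < σ) (hθ : 0 ≤ θ)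
    (η : Λ × ℝ → ℝ) (hη : Measurable η) (G : Set (Λ × ℝ)) (hG : MeasurableSet G) (R : Set (Λ × ℝ)) (hR : MeasurableSet R)
    (hRb : ∀ l, volume ({u | (l, u) ∈ R} ∩ Set.Icc 0 σ) ≤ ENNReal.ofReal (θ * σ))
    (hsec : ∀ t ∈ Set.Icc (0 : ℝ) 1, ∀ y, ν {l | (l, t) ∈ G ∧ η (l, t) ∈ Set.Icc (y - 2 * σ) y} ≤ ENNReal.ofReal (b * σ))
    (B : Set (ℝ × ℝ)) (hB : MeasurableSet B) :
    ((ν.prod (k7aNoise σ)).prod k7aTm) {z | (z.1.1, z.2) ∈ G ∧ (z.1.1, z.1.2.2.1) ∈ R ∧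
        (z.2, η (z.1.1, z.2) + k7aCl σ z.1.2.1 + k7aCl σ z.1.2.2.1 * z.2) ∈ B}
      ≤ ENNReal.ofReal (θ * b) * volume B := by
  have := k7a_s_un_prob hσ
  have hnp : IsProbabilityMeasure (k7aNoise σ) := by unfold k7aNoise; infer_instance
  have hS : MeasurableSet {z : (Λ × K7aU) × ℝ | (z.1.1, z.2) ∈ G ∧ (z.1.1, z.1.2.2.1) ∈ R ∧
        (z.2, η (z.1.1, z.2) + k7aCl σ z.1.2.1 + k7aCl σ z.1.2.2.1 * z.2) ∈ B} := by
    have f1 : Measurable fun z : (Λ × K7aU) × ℝ => (z.1.1, z.2) := measurable_fst.fst.prodMk measurable_snd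
    have f2 : Measurable fun z : (Λ × K7aU) × ℝ => (z.1.1, z.1.2.2.1) := measurable_fst.fst.prodMk measurable_fst.snd.snd.fst
    have f3 : Measurable fun z : (Λ × K7aU) × ℝ => (z.2, η (z.1.1, z.2) + k7aCl σ z.1.2.1 + k7aCl σ z.1.2.2.1 * z.2) :=
      measurable_snd.prodMk (((hη.comp f1).add ((k7a_s_cl_meas σ).comp measurable_fst.snd.fst)).add
        (((k7a_s_cl_meas σ).comp measurable_fst.snd.snd.fst).mul measurable_snd))
    exact (f1 hG).inter ((f2 hR).inter (f3 hB))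
  unfold k7aTm
  rw [Measure.prod_apply_symm hS]
  have key : ∀ t ∈ Set.Icc (0 : ℝ) 1, (ν.prod (k7aNoise σ)) ((fun x : Λ × K7aU => (x, t)) ⁻¹' {z : (Λ × K7aU) × ℝ | (z.1.1, z.2) ∈ G ∧ (z.1.1, z.1.2.2.1) ∈ R ∧
        (z.2, η (z.1.1, z.2) + k7aCl σ z.1.2.1 + k7aCl σ z.1.2.2.1 * z.2) ∈ B})
      ≤ ENNReal.ofReal (θ * b) * volume (Prod.mk t ⁻¹' B) := by
    intro t ht
    rw [Measure.prod_apply (measurable_prodMk_right hS)]
    have hZ : MeasurableSet {w : Λ × ℝ | (w.1, t) ∈ G ∧ (t, w.2) ∈ B ∧ η (w.1, t) ∈ Set.Icc (w.2 - 2 * σ) w.2} := by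
      have g1 : Measurable fun w : Λ × ℝ => (w.1, t) := measurable_fst.prodMk measurable_const
      have g2 : Measurable fun w : Λ × ℝ => (t, w.2) := measurable_const.prodMk measurable_snd
      have g3 : MeasurableSet {w : Λ × ℝ | w.2 - 2 * σ ≤ η (w.1, t)} :=
        measurableSet_le (measurable_snd.sub measurable_const) (hη.comp g1)
      have g4 : MeasurableSet {w : Λ × ℝ | η (w.1, t) ≤ w.2} := measurableSet_le (hη.comp g1) measurable_snd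
      exact (g1 hG).inter ((g2 hB).inter (g3.inter g4))
    have hl : ∀ l : Λ, k7aNoise σ (Prod.mk l ⁻¹' ((fun x : Λ × K7aU => (x, t)) ⁻¹' {z : (Λ × K7aU) × ℝ | (z.1.1, z.2) ∈ G ∧ (z.1.1, z.1.2.2.1) ∈ R ∧
        (z.2, η (z.1.1, z.2) + k7aCl σ z.1.2.1 + k7aCl σ z.1.2.2.1 * z.2) ∈ B}))
        ≤ ENNReal.ofReal θ * (ENNReal.ofReal σ⁻¹ * volume (Prod.mk l ⁻¹' {w : Λ × ℝ | (w.1, t) ∈ G ∧ (t, w.2) ∈ B ∧ η (w.1, t) ∈ Set.Icc (w.2 - 2 * σ) w.2})) := by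
      intro l
      by_cases hlG : (l, t) ∈ G
      · have h1 := k7a_s_noise hσ {u | (l, u) ∈ R} (measurable_prodMk_left hR) (hRb l) (Prod.mk t ⁻¹' B) (measurable_prodMk_left hB)
          (η (l, t)) t ht
        refine le_trans (measure_mono ?_) (h1.trans ?_)
        · rintro u ⟨-, h2, h3⟩
          exact ⟨h2, h3⟩
        · refine mul_le_mul_right (mul_le_mul_right (measure_mono ?_) _) _
          rintro y ⟨h2, h3⟩
          exact ⟨hlG, h2, h3⟩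
      · have : Prod.mk l ⁻¹' ((fun x : Λ × K7aU => (x, t)) ⁻¹' {z : (Λ × K7aU) × ℝ | (z.1.1, z.2) ∈ G ∧ (z.1.1, z.1.2.2.1) ∈ R ∧
            (z.2, η (z.1.1, z.2) + k7aCl σ z.1.2.1 + k7aCl σ z.1.2.2.1 * z.2) ∈ B}) = ∅ :=
          Set.eq_empty_of_forall_notMem fun u h => hlG h.1
        rw [this, measure_empty]
        exact zero_le
    refine (lintegral_mono hl).trans ?_
    rw [lintegral_const_mul _ ((measurable_measure_prodMk_left hZ).const_mul _), lintegral_const_mul _ (measurable_measure_prodMk_left hZ),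
      ← Measure.prod_apply hZ, Measure.prod_apply_symm hZ]
    have hy : ∀ y : ℝ, ν ((fun l : Λ => (l, y)) ⁻¹' {w : Λ × ℝ | (w.1, t) ∈ G ∧ (t, w.2) ∈ B ∧ η (w.1, t) ∈ Set.Icc (w.2 - 2 * σ) w.2})
        ≤ Set.indicator (Prod.mk t ⁻¹' B) (fun _ => ENNReal.ofReal (b * σ)) y := by
      intro y
      by_cases hyB : (t, y) ∈ B
      · rw [Set.indicator_of_mem (show y ∈ Prod.mk t ⁻¹' B from hyB)]
        refine le_trans (measure_mono ?_) (hsec t ht y)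
        rintro l ⟨h1, -, h3⟩
        exact ⟨h1, h3⟩
      · rw [Set.indicator_of_notMem (show y ∉ Prod.mk t ⁻¹' B from hyB)]
        have : (fun l : Λ => (l, y)) ⁻¹' {w : Λ × ℝ | (w.1, t) ∈ G ∧ (t, w.2) ∈ B ∧ η (w.1, t) ∈ Set.Icc (w.2 - 2 * σ) w.2} = ∅ :=
          Set.eq_empty_of_forall_notMem fun l h => hyB h.2.1
        rw [this, measure_empty]
    calc ENNReal.ofReal θ * (ENNReal.ofReal σ⁻¹ * ∫⁻ y, ν ((fun l : Λ => (l, y)) ⁻¹' {w : Λ × ℝ | (w.1, t) ∈ G ∧ (t, w.2) ∈ B ∧ η (w.1, t) ∈ Set.Icc (w.2 - 2 * σ) w.2}))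
        ≤ ENNReal.ofReal θ * (ENNReal.ofReal σ⁻¹ * ∫⁻ y, Set.indicator (Prod.mk t ⁻¹' B) (fun _ => ENNReal.ofReal (b * σ)) y) :=
          mul_le_mul_right (mul_le_mul_right (lintegral_mono hy) _) _
      _ = ENNReal.ofReal θ * (ENNReal.ofReal σ⁻¹ * (ENNReal.ofReal (b * σ) * volume (Prod.mk t ⁻¹' B))) := by
          rw [lintegral_indicator_const (measurable_prodMk_left hB)]
      _ = ENNReal.ofReal (θ * b) * volume (Prod.mk t ⁻¹' B) := by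
          rw [← mul_assoc, ← mul_assoc, ← ENNReal.ofReal_mul hθ, ← ENNReal.ofReal_mul (by positivity)]
          congr 2
          field_simp
  calc ∫⁻ t in Set.Icc (0 : ℝ) 1, (ν.prod (k7aNoise σ)) ((fun x : Λ × K7aU => (x, t)) ⁻¹' {z : (Λ × K7aU) × ℝ | (z.1.1, z.2) ∈ G ∧ (z.1.1, z.1.2.2.1) ∈ R ∧
        (z.2, η (z.1.1, z.2) + k7aCl σ z.1.2.1 + k7aCl σ z.1.2.2.1 * z.2) ∈ B})
      ≤ ∫⁻ t in Set.Icc (0 : ℝ) 1, ENNReal.ofReal (θ * b) * volume (Prod.mk t ⁻¹' B) := setLIntegral_mono' measurableSet_Icc key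
    _ ≤ ∫⁻ t, ENNReal.ofReal (θ * b) * volume (Prod.mk t ⁻¹' B) := setLIntegral_le_lintegral _ _
    _ = ENNReal.ofReal (θ * b) * volume B := by
        rw [lintegral_const_mul _ (measurable_measure_prodMk_left hB), Measure.volume_eq_prod, Measure.prod_apply hB]

theorem k7a_s_meas (D : K7aData Λ) {K : ℝ} (hD : D.Adm K) :
    Measurable D.y0 ∧ Measurable D.y1 ∧ Measurable D.x0 ∧ Measurable D.x1 ∧ Measurable D.x2 := by
  have h := hD.meas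
  exact ⟨h.fst, h.snd.fst, h.snd.snd.fst, h.snd.snd.snd.fst, h.snd.snd.snd.snd⟩

theorem k7a_s_meas_y (D : K7aData Λ) {K : ℝ} (hD : D.Adm K) : Measurable fun z : Λ × ℝ => D.y z.1 z.2 := by
  obtain ⟨h0, h1, -⟩ := k7a_s_meas D hD
  unfold K7aData.y
  exact (h0.comp measurable_fst).add ((h1.comp measurable_fst).mul measurable_snd)

theorem k7a_s_meas_x (D : K7aData Λ) {K : ℝ} (hD : D.Adm K) : Measurable fun z : Λ × ℝ => D.x z.1 z.2 := by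
  obtain ⟨-, -, h2, h3, h4⟩ := k7a_s_meas D hD
  unfold K7aData.x
  exact ((h2.comp measurable_fst).add ((h3.comp measurable_fst).mul measurable_snd)).add
    ((h4.comp measurable_fst).mul (measurable_snd.pow_const 2))

theorem k7a_s_tm_sfinite : SFinite k7aTm := by unfold k7aTm; infer_instance

theorem k7a_s_ae_tm {α : Type} [MeasurableSpace α] (μ : Measure α) [SFinite μ] : ∀ᵐ z ∂(μ.prod k7aTm), z.2 ∈ Set.Icc (0 : ℝ) 1 := by
  have := k7a_s_tm_sfinite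
  have h2 : ∀ᵐ t ∂k7aTm, t ∈ Set.Icc (0 : ℝ) 1 := by
    unfold k7aTm
    exact ae_restrict_mem measurableSet_Icc
  exact Measure.quasiMeasurePreserving_snd.ae h2

theorem k7a_s_ae_time (D : K7aData Λ) {K : ℝ} (hD : D.Adm K) : ∀ᵐ z ∂D.mu, z.2 ∈ Set.Icc (0 : ℝ) 1 := by
  have := hD.prob
  exact (Measure.absolutelyContinuous_of_le_smul hD.dom).ae_le (k7a_s_ae_tm D.nu)

/-- the geometry of one time bin -/
theorem k7a_s_geo {K σ p y0 y1 x0 x1 x2 t t' y xs : ℝ} {i : ℤ} (hK : 1 ≤ K) (hσ0 : 0 < σ) (hσp : σ ≤ p)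
    (b1 : |y1| ≤ K) (b3 : |x1| ≤ K) (b4 : |x2| ≤ K) (ht : t ∈ Set.Icc (0 : ℝ) 1) (ht' : t' ∈ Set.Icc (0 : ℝ) 1)
    (hti : (i : ℝ) * σ ≤ t ∧ t < ((i : ℝ) + 1) * σ) (hti' : (i : ℝ) * σ ≤ t' ∧ t' < ((i : ℝ) + 1) * σ)
    (hx : x0 + x1 * t + x2 * t ^ 2 ∈ Set.Ico (xs - 3 * σ) (xs + p)) (hy : y0 + y1 * t ∈ Set.Icc (y - 2 * σ) y) :
    ⌊t' / σ⌋ = i ∧ ⌊(y0 + y1 * t') / σ⌋ ∈ Finset.Icc ⌊y / σ - 2 - K⌋ ⌊y / σ + K⌋ ∧
    ∃ k < ⌈6 * K + 4⌉₊, x0 + x1 * t' + x2 * t' ^ 2 ∈ Set.Ico (xs - (3 + 3 * K) * p + (k : ℝ) * p) (xs - (3 + 3 * K) * p + (k : ℝ) * p + p) := by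
  have hp0 : 0 < p := lt_of_lt_of_le hσ0 hσp
  have hK0 : 0 ≤ K := by linarith
  have hdt : |t' - t| ≤ σ := by
    rw [abs_le]; constructor <;> nlinarith [hti.1, hti.2, hti'.1, hti'.2]
  refine ⟨?_, ?_, ?_⟩
  · rw [Int.floor_eq_iff]
    exact ⟨(le_div_iff₀ hσ0).2 hti'.1, (div_lt_iff₀ hσ0).2 hti'.2⟩
  · have h1 : |y1 * (t' - t)| ≤ K * σ := by
      rw [abs_mul]; exact mul_le_mul b1 hdt (abs_nonneg _) hK0
    have h2 := abs_le.1 h1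
    rw [Finset.mem_Icc]
    constructor
    · apply Int.floor_le_floor
      rw [le_div_iff₀ hσ0]
      have : (y / σ - 2 - K) * σ = y - 2 * σ - K * σ := by field_simp
      rw [this]
      nlinarith [hy.1, h2.1]
    · apply Int.floor_le_floor
      rw [div_le_iff₀ hσ0]
      have : (y / σ + K) * σ = y + K * σ := by field_simp
      rw [this]
      nlinarith [hy.2, h2.2]
  · have h3 : |x1 + x2 * (t' + t)| ≤ 3 * K := by
      have a1 : |x2 * (t' + t)| ≤ K * 2 := by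
        rw [abs_mul]
        refine mul_le_mul b4 ?_ (abs_nonneg _) hK0
        rw [abs_le]; constructor <;> linarith [ht.1, ht.2, ht'.1, ht'.2]
      calc |x1 + x2 * (t' + t)| ≤ |x1| + |x2 * (t' + t)| := abs_add_le _ _
        _ ≤ 3 * K := by linarith
    have h4 : |(t' - t) * (x1 + x2 * (t' + t))| ≤ σ * (3 * K) := by
      rw [abs_mul]; exact mul_le_mul hdt h3 (abs_nonneg _) hσ0.le
    have h5 := abs_le.1 h4
    have e : x0 + x1 * t' + x2 * t' ^ 2 = (x0 + x1 * t + x2 * t ^ 2) + (t' - t) * (x1 + x2 * (t' + t)) := by ring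
    obtain ⟨X, hX⟩ : ∃ X : ℝ, X = x0 + x1 * t' + x2 * t' ^ 2 := ⟨_, rfl⟩
    rw [← hX] at e ⊢
    have hσK : σ * (3 * K) ≤ p * (3 * K) := mul_le_mul_of_nonneg_right hσp (by linarith)
    have l1 : xs - (3 + 3 * K) * p ≤ X := by nlinarith [hx.1, h5.1]
    have l2 : X < xs - (3 + 3 * K) * p + (6 * K + 4) * p := by nlinarith [hx.2, h5.2]
    obtain ⟨X0, hX0⟩ : ∃ X0 : ℝ, X0 = xs - (3 + 3 * K) * p := ⟨_, rfl⟩
    rw [← hX0] at l1 l2 ⊢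
    have q0 : 0 ≤ (X - X0) / p := div_nonneg (by linarith) hp0.le
    refine ⟨⌊(X - X0) / p⌋₊, ?_, ?_, ?_⟩
    · rw [Nat.floor_lt q0]
      refine lt_of_lt_of_le ?_ (Nat.le_ceil _)
      rw [div_lt_iff₀ hp0]
      linarith
    · have := Nat.floor_le q0
      rw [le_div_iff₀ hp0] at this
      linarith
    · have := Nat.lt_floor_add_one ((X - X0) / p)
      rw [div_lt_iff₀ hp0] at this
      linarith

/-- **the section bound**: floor of the marks against the mesh ceiling -/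
theorem k7a_s_sec (D : K7aData Λ) {K K1 σ p β0 : ℝ} {Mk : Set (Λ × ℝ)} (hD : D.Adm K) (hM : K7aMarks D σ K1 Mk) (hK : 1 ≤ K)
    (hK1 : 0 ≤ K1) (hσ0 : 0 < σ) (hσp : σ ≤ p) (hβ : 0 ≤ β0) (Y : Set Λ) (hY : MeasurableSet Y)
    (hcell : ∀ (i j : ℤ) (xs' : ℝ), D.mu (D.cell σ i j ∩ {z | D.x z.1 z.2 ∈ Set.Ico xs' (xs' + p) ∧ z.1 ∈ Y}) ≤ ENNReal.ofReal β0)
    (t : ℝ) (ht : t ∈ Set.Icc (0 : ℝ) 1) (y xs : ℝ) :
    D.nu {l | ((l, t) ∈ Mk ∧ D.x l t ∈ Set.Ico (xs - 3 * σ) (xs + p) ∧ l ∈ Y) ∧ D.y l t ∈ Set.Icc (y - 2 * σ) y}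
      ≤ ENNReal.ofReal (66 * K ^ 2 * K1 * β0 / σ ^ 2 * σ) := by
  have hA : MeasurableSet {l | ((l, t) ∈ Mk ∧ D.x l t ∈ Set.Ico (xs - 3 * σ) (xs + p) ∧ l ∈ Y) ∧ D.y l t ∈ Set.Icc (y - 2 * σ) y} := by
    have g1 : Measurable fun l : Λ => (l, t) := measurable_id.prodMk measurable_const
    exact ((g1 hM.meas).inter ((((k7a_s_meas_x D hD).comp g1) measurableSet_Ico).inter hY)).inter
      (((k7a_s_meas_y D hD).comp g1) measurableSet_Icc)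
  obtain ⟨A, hAdef⟩ : ∃ A : Set Λ, A = {l | ((l, t) ∈ Mk ∧ D.x l t ∈ Set.Ico (xs - 3 * σ) (xs + p) ∧ l ∈ Y) ∧ D.y l t ∈ Set.Icc (y - 2 * σ) y} := ⟨_, rfl⟩
  rw [← hAdef] at hA ⊢
  obtain ⟨i, hi⟩ : ∃ i : ℤ, i = ⌊t / σ⌋ := ⟨_, rfl⟩
  have hti : (i : ℝ) * σ ≤ t ∧ t < ((i : ℝ) + 1) * σ := by
    rw [hi]
    exact ⟨(le_div_iff₀ hσ0).1 (Int.floor_le (t / σ)), (div_lt_iff₀ hσ0).1 (Int.lt_floor_add_one (t / σ))⟩
  have hfl := hM.floor A i hA (fun l hl => by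
    rw [hAdef] at hl
    exact (hM.bins l t ((i : ℝ) * σ) (by rw [mul_div_cancel_right₀ _ hσ0.ne', Int.floor_intCast, hi])).1 hl.1.1)
  have hcov : (A ×ˢ Set.Ico ((i : ℝ) * σ) (((i : ℝ) + 1) * σ) : Set (Λ × ℝ)) ≤ᵐ[D.mu]
      (⋃ j ∈ Finset.Icc ⌊y / σ - 2 - K⌋ ⌊y / σ + K⌋, ⋃ k ∈ Finset.range ⌈6 * K + 4⌉₊,
        (D.cell σ i j ∩ {z | D.x z.1 z.2 ∈ Set.Ico (xs - (3 + 3 * K) * p + (k : ℝ) * p) (xs - (3 + 3 * K) * p + (k : ℝ) * p + p) ∧ z.1 ∈ Y})) := by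
    filter_upwards [k7a_s_ae_time D hD] with z hz hzA
    obtain ⟨l, t'⟩ := z
    obtain ⟨hl, ht'⟩ := hzA
    rw [hAdef] at hl
    obtain ⟨⟨-, hx, hlY⟩, hy⟩ := hl
    obtain ⟨-, b1, -, b3, b4⟩ := hD.bd l
    obtain ⟨g1, g2, k, hk, g3⟩ := k7a_s_geo hK hσ0 hσp b1 b3 b4 ht hz hti ht' hx hy
    refine Set.mem_biUnion g2 (Set.mem_biUnion (Finset.mem_coe.2 (Finset.mem_range.2 hk)) ⟨⟨g1, rfl⟩, g3, hlY⟩)
  have hμ : D.mu (A ×ˢ Set.Ico ((i : ℝ) * σ) (((i : ℝ) + 1) * σ))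
      ≤ (((Finset.Icc ⌊y / σ - 2 - K⌋ ⌊y / σ + K⌋).card * ⌈6 * K + 4⌉₊ : ℕ) : ℝ≥0∞) * ENNReal.ofReal β0 := by
    refine (measure_mono_ae hcov).trans ?_
    refine (measure_biUnion_finset_le _ _).trans ?_
    refine (Finset.sum_le_sum fun j _ => (measure_biUnion_finset_le (Finset.range ⌈6 * K + 4⌉₊) _).trans
      (Finset.sum_le_sum fun k _ => hcell i j _)).trans ?_
    simp only [Finset.sum_const, Finset.card_range, nsmul_eq_mul]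
    rw [← mul_assoc, Nat.cast_mul]
  have hcard : (((Finset.Icc ⌊y / σ - 2 - K⌋ ⌊y / σ + K⌋).card * ⌈6 * K + 4⌉₊ : ℕ) : ℝ) ≤ 66 * K ^ 2 := by
    have c1 : ((Finset.Icc ⌊y / σ - 2 - K⌋ ⌊y / σ + K⌋).card : ℝ) ≤ 2 * K + 4 := by
      rw [Int.card_Icc]
      have h2 : ((⌊y / σ + K⌋ + 1 - ⌊y / σ - 2 - K⌋).toNat : ℝ) = (((⌊y / σ + K⌋ + 1 - ⌊y / σ - 2 - K⌋).toNat : ℤ) : ℝ) :=
        (Int.cast_natCast _).symm
      rw [h2, Int.toNat_eq_max, Int.cast_max]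
      refine max_le ?_ (by simp only [Int.cast_zero]; linarith)
      push_cast
      linarith [Int.floor_le (y / σ + K), Int.lt_floor_add_one (y / σ - 2 - K)]
    have c2 : (⌈6 * K + 4⌉₊ : ℝ) ≤ 6 * K + 5 := by
      have := Nat.ceil_lt_add_one (show (0 : ℝ) ≤ 6 * K + 4 by linarith)
      linarith
    push_cast
    calc ((Finset.Icc ⌊y / σ - 2 - K⌋ ⌊y / σ + K⌋).card : ℝ) * (⌈6 * K + 4⌉₊ : ℝ) ≤ (2 * K + 4) * (6 * K + 5) :=
          mul_le_mul c1 c2 (Nat.cast_nonneg _) (by linarith)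
      _ ≤ 66 * K ^ 2 := by nlinarith
  have h1 : ENNReal.ofReal σ * D.nu A ≤ ENNReal.ofReal (K1 * (66 * K ^ 2 * β0)) := by
    refine hfl.trans ?_
    rw [ENNReal.ofReal_mul hK1]
    refine mul_le_mul_right (hμ.trans ?_) _
    rw [← ENNReal.ofReal_natCast, ← ENNReal.ofReal_mul (Nat.cast_nonneg _)]
    exact ENNReal.ofReal_le_ofReal (mul_le_mul_of_nonneg_right hcard hβ)
  calc D.nu A = ENNReal.ofReal σ⁻¹ * (ENNReal.ofReal σ * D.nu A) := by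
        rw [← mul_assoc, ← ENNReal.ofReal_mul (by positivity), inv_mul_cancel₀ hσ0.ne', ENNReal.ofReal_one, one_mul]
    _ ≤ ENNReal.ofReal σ⁻¹ * ENNReal.ofReal (K1 * (66 * K ^ 2 * β0)) := mul_le_mul_right h1 _
    _ = ENNReal.ofReal (66 * K ^ 2 * K1 * β0 / σ ^ 2 * σ) := by
        rw [← ENNReal.ofReal_mul (by positivity)]
        congr 1
        field_simp

theorem k7a_s_noise_prob {σ : ℝ} (hσ : 0 < σ) : IsProbabilityMeasure (k7aNoise σ) := by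
  have := k7a_s_un_prob hσ
  unfold k7aNoise
  infer_instance

/-- the jittered marked law of a set which, for times in `[0,1]`, is contained in a core set -/
theorem k7a_s_jit (D : K7aData Λ) {K K1 σ θ b : ℝ} {Mk : Set (Λ × ℝ)} (hD : D.Adm K) (hM : K7aMarks D σ K1 Mk) (hσ0 : 0 < σ)
    (hθ : 0 ≤ θ) (W : Set (Λ × ℝ)) (hW : MeasurableSet W) (R : Set (Λ × ℝ)) (hR : MeasurableSet R)
    (hRb : ∀ l, volume ({u | (l, u) ∈ R} ∩ Set.Icc 0 σ) ≤ ENNReal.ofReal (θ * σ))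
    (hsec : ∀ t ∈ Set.Icc (0 : ℝ) 1, ∀ y, D.nu {l | ((l, t) ∈ Mk ∧ (l, t) ∈ W) ∧ D.y l t ∈ Set.Icc (y - 2 * σ) y} ≤ ENNReal.ofReal (b * σ))
    (B : Set (ℝ × ℝ)) (hB : MeasurableSet B) (S : Set ((Λ × K7aU) × ℝ))
    (hS : ∀ z ∈ S, z.2 ∈ Set.Icc (0 : ℝ) 1 → (z.1.1, z.2) ∈ W ∧ (z.1.1, z.1.2.2.1) ∈ R ∧ (D.jit σ Mk).bs z ∈ B) :
    (D.jit σ Mk).mu S ≤ ENNReal.ofReal (θ * b) * volume B := by
  have := hD.prob
  have := k7a_s_noise_prob hσ0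
  have hMk' : MeasurableSet {z : (Λ × K7aU) × ℝ | (z.1.1, z.2) ∈ Mk} :=
    (measurable_fst.fst.prodMk measurable_snd : Measurable fun z : (Λ × K7aU) × ℝ => (z.1.1, z.2)) hM.meas
  show (((D.nu.prod (k7aNoise σ)).prod k7aTm).restrict {z | (z.1.1, z.2) ∈ Mk}) S ≤ _
  rw [Measure.restrict_apply' hMk']
  have hcore := k7a_s_core D.nu hσ0 hθ (fun z => D.y z.1 z.2) (k7a_s_meas_y D hD) (Mk ∩ W) (hM.meas.inter hW) R hR hRb hsec B hB
  refine le_trans (measure_mono_ae ?_) hcore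
  filter_upwards [k7a_s_ae_tm (D.nu.prod (k7aNoise σ))] with z hz hzS
  obtain ⟨h1, h2⟩ := hzS
  obtain ⟨a1, a2, a3⟩ := hS z h1 hz
  refine ⟨⟨h2, a1⟩, a2, ?_⟩
  have e : (D.jit σ Mk).bs z = (z.2, D.y z.1.1 z.2 + k7aCl σ z.1.2.1 + k7aCl σ z.1.2.2.1 * z.2) := by
    unfold K7aData.bs K7aData.y K7aData.jit
    refine Prod.ext rfl ?_
    show D.y0 z.1.1 + k7aCl σ z.1.2.1 + (D.y1 z.1.1 + k7aCl σ z.1.2.2.1) * z.2 = _
    ring
  rw [e] at a3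
  exact a3

theorem k7a_s_jit_x (D : K7aData Λ) {σ : ℝ} (hσ : 0 ≤ σ) (Mk : Set (Λ × ℝ)) (z : (Λ × K7aU) × ℝ) (hz : z.2 ∈ Set.Icc (0 : ℝ) 1) :
    D.x z.1.1 z.2 ≤ (D.jit σ Mk).x z.1 z.2 ∧ (D.jit σ Mk).x z.1 z.2 ≤ D.x z.1.1 z.2 + 3 * σ := by
  have e : (D.jit σ Mk).x z.1 z.2 = D.x z.1.1 z.2 + (k7aCl σ z.1.2.2.2.1 + k7aCl σ z.1.2.2.2.2.1 * z.2 + k7aCl σ z.1.2.2.2.2.2 * z.2 ^ 2) := by
    unfold K7aData.x K7aData.jit
    show D.x0 z.1.1 + k7aCl σ z.1.2.2.2.1 + (D.x1 z.1.1 + k7aCl σ z.1.2.2.2.2.1) * z.2 + (D.x2 z.1.1 + k7aCl σ z.1.2.2.2.2.2) * z.2 ^ 2 = _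
    ring
  have c2 := k7a_s_cl_mem hσ z.1.2.2.2.1
  have c3 := k7a_s_cl_mem hσ z.1.2.2.2.2.1
  have c4 := k7a_s_cl_mem hσ z.1.2.2.2.2.2
  have t2 : 0 ≤ z.2 ^ 2 ∧ z.2 ^ 2 ≤ 1 := ⟨sq_nonneg _, by nlinarith [hz.1, hz.2]⟩
  have m3 : 0 ≤ k7aCl σ z.1.2.2.2.2.1 * z.2 ∧ k7aCl σ z.1.2.2.2.2.1 * z.2 ≤ σ :=
    ⟨mul_nonneg c3.1 hz.1, by nlinarith [c3.1, c3.2, hz.1, hz.2]⟩
  have m4 : 0 ≤ k7aCl σ z.1.2.2.2.2.2 * z.2 ^ 2 ∧ k7aCl σ z.1.2.2.2.2.2 * z.2 ^ 2 ≤ σ :=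
    ⟨mul_nonneg c4.1 t2.1, by nlinarith [c4.1, c4.2, t2.1, t2.2]⟩
  rw [e]
  constructor <;> linarith [c2.1, c2.2, m3.1, m3.2, m4.1, m4.2]

/-- one world -/
theorem k7a_s_world (D : K7aData Λ) {K σ : ℝ} (hD : D.Adm K) (hσ0 : 0 < σ) (Mk : Set (Λ × ℝ)) (γ : ℕ) (P : (Λ × K7aU) × ℝ → Prop)
    (C V : ℝ≥0∞) (h : (D.jit σ Mk).mu {z | P z} ≤ C * V) :
    (D.jit σ Mk).mu {z | (0 : ℕ) = γ ∧ P z} ≤ C * (D.jit σ Mk).om (fun _ => 0) γ * V := by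
  by_cases hγ : (0 : ℕ) = γ
  · subst hγ
    have := hD.prob
    have := k7a_s_noise_prob hσ0
    have hom : (D.jit σ Mk).om (fun _ => 0) 0 = 1 := by
      unfold K7aData.om
      have e : (fun _ : Λ × K7aU => (0 : ℕ)) ⁻¹' {0} = Set.univ := Set.eq_univ_of_forall fun _ => rfl
      rw [e]
      show (D.nu.prod (k7aNoise σ)) Set.univ = 1
      exact measure_univ
    rw [hom, mul_one]
    refine le_trans (measure_mono ?_) h
    exact fun z hz => hz.2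
  · have : {z : (Λ × K7aU) × ℝ | (0 : ℕ) = γ ∧ P z} = ∅ := Set.eq_empty_of_forall_notMem fun z hz => hγ hz.1
    rw [this, measure_empty]
    exact zero_le

omit [MeasurableSpace Λ] in
theorem k7a_s_univ_R {σ : ℝ} (l : Λ) : volume ({u : ℝ | (l, u) ∈ (Set.univ : Set (Λ × ℝ))} ∩ Set.Icc 0 σ) ≤ ENNReal.ofReal (1 * σ) := by
  refine (measure_mono Set.inter_subset_right).trans ?_
  rw [Real.volume_Icc, sub_zero, one_mul]

theorem k7a_s_W_meas (D : K7aData Λ) {K : ℝ} (hD : D.Adm K) (lo hi : ℝ) (Y : Set Λ) (hY : MeasurableSet Y) :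
    MeasurableSet {z : Λ × ℝ | D.x z.1 z.2 ∈ Set.Ico lo hi ∧ z.1 ∈ Y} :=
  ((k7a_s_meas_x D hD) measurableSet_Ico).inter (measurable_fst hY)

/-- **L-252-S7a-JCAP** -/
theorem k7a_s_ecap (D : K7aData Λ) {K K1 σ c d a : ℝ} {Mk : Set (Λ × ℝ)} (hD : D.Adm K) (hM : K7aMarks D σ K1 Mk) (hK : 1 ≤ K)
    (hK1 : 1 ≤ K1) (hσ0 : 0 < σ) (hσa : σ ≤ a) (hc : 0 < c) (hcap : D.Cap K σ c d a) :
    (D.jit σ Mk).ECap (fun _ => 0) (100 * K ^ 3 * K1) c d a := by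
  intro γ B p xs hB hap hp1
  refine k7a_s_world D hD hσ0 Mk γ (fun z => (D.jit σ Mk).bs z ∈ B ∧ (D.jit σ Mk).x z.1 z.2 ∈ Set.Ico xs (xs + p)) _ _ ?_
  have hp0 : 0 < p := by linarith
  have hpd : 0 < p ^ d := Real.rpow_pos_of_pos hp0 d
  have hβ : 0 ≤ K * σ ^ 2 * c * p ^ d := by positivity
  have hb := k7a_s_jit D hD hM hσ0 zero_le_one {z | D.x z.1 z.2 ∈ Set.Ico (xs - 3 * σ) (xs + p) ∧ z.1 ∈ Set.univ}
    (k7a_s_W_meas D hD _ _ _ MeasurableSet.univ) Set.univ MeasurableSet.univ k7a_s_univ_R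
    (fun t ht y => k7a_s_sec D hD hM hK (by linarith) hσ0 (hσa.trans hap) hβ Set.univ MeasurableSet.univ
      (fun i j xs' => le_trans (measure_mono (Set.inter_subset_inter_right _ fun z hz => hz.1)) (hcap i j p xs' hap hp1)) t ht y xs)
    B hB {z | (D.jit σ Mk).bs z ∈ B ∧ (D.jit σ Mk).x z.1 z.2 ∈ Set.Ico xs (xs + p)}
    (fun z hz hzt => by
      have hx := k7a_s_jit_x D hσ0.le Mk z hzt
      exact ⟨⟨⟨by linarith [hz.2.1, hx.2], by linarith [hz.2.2, hx.1]⟩, Set.mem_univ _⟩, Set.mem_univ _, hz.1⟩)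
  refine hb.trans (mul_le_mul_left (ENNReal.ofReal_le_ofReal ?_) _)
  have e : 1 * (66 * K ^ 2 * K1 * (K * σ ^ 2 * c * p ^ d) / σ ^ 2) = 66 * (K ^ 3 * K1 * c * p ^ d) := by
    field_simp
  rw [e]
  have : 0 ≤ K ^ 3 * K1 * c * p ^ d := by positivity
  nlinarith

/-- **L-252-S7a-JSL** -/
theorem k7a_s_esl (D : K7aData Λ) {K K1 σ c d a : ℝ} {Mk : Set (Λ × ℝ)} (hD : D.Adm K) (hM : K7aMarks D σ K1 Mk) (hK : 1 ≤ K)
    (hK1 : 1 ≤ K1) (hσ0 : 0 < σ) (hσa : σ ≤ a) (hc : 0 < c) (hcap : D.Cap K σ c d a) :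
    (D.jit σ Mk).ESl (fun _ => 0) (100 * K ^ 3 * K1) c d a σ := by
  intro γ B p xs ρ vs hB hap hp1 hρ0 _hρσ
  refine k7a_s_world D hD hσ0 Mk γ (fun z => (D.jit σ Mk).bs z ∈ B ∧ (D.jit σ Mk).x z.1 z.2 ∈ Set.Ico xs (xs + p) ∧
    (D.jit σ Mk).y1 z.1 ∈ Set.Ico vs (vs + ρ)) _ _ ?_
  have hp0 : 0 < p := by linarith
  have hpd : 0 < p ^ d := Real.rpow_pos_of_pos hp0 d
  have hβ : 0 ≤ K * σ ^ 2 * c * p ^ d := by positivity
  have hRm : MeasurableSet {w : Λ × ℝ | D.y1 w.1 + k7aCl σ w.2 ∈ Set.Ico vs (vs + ρ)} :=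
    (((k7a_s_meas D hD).2.1.comp measurable_fst).add ((k7a_s_cl_meas σ).comp measurable_snd)) measurableSet_Ico
  have hRb : ∀ l : Λ, volume ({u : ℝ | (l, u) ∈ {w : Λ × ℝ | D.y1 w.1 + k7aCl σ w.2 ∈ Set.Ico vs (vs + ρ)}} ∩ Set.Icc 0 σ)
      ≤ ENNReal.ofReal (ρ / σ * σ) := by
    intro l
    have hsub : ({u : ℝ | (l, u) ∈ {w : Λ × ℝ | D.y1 w.1 + k7aCl σ w.2 ∈ Set.Ico vs (vs + ρ)}} ∩ Set.Icc 0 σ)
        ⊆ Set.Ico (vs - D.y1 l) (vs - D.y1 l + ρ) := by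
      rintro u ⟨h1, h2⟩
      have h1' : D.y1 l + k7aCl σ u ∈ Set.Ico vs (vs + ρ) := h1
      rw [k7a_s_cl_eq h2] at h1'
      exact ⟨by linarith [h1'.1], by linarith [h1'.2]⟩
    refine (measure_mono hsub).trans ?_
    rw [Real.volume_Ico, div_mul_cancel₀ _ hσ0.ne']
    exact ENNReal.ofReal_le_ofReal (by linarith)
  have hb := k7a_s_jit D hD hM hσ0 (div_nonneg hρ0.le hσ0.le) {z | D.x z.1 z.2 ∈ Set.Ico (xs - 3 * σ) (xs + p) ∧ z.1 ∈ Set.univ}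
    (k7a_s_W_meas D hD _ _ _ MeasurableSet.univ) {w : Λ × ℝ | D.y1 w.1 + k7aCl σ w.2 ∈ Set.Ico vs (vs + ρ)} hRm hRb
    (fun t ht y => k7a_s_sec D hD hM hK (by linarith) hσ0 (hσa.trans hap) hβ Set.univ MeasurableSet.univ
      (fun i j xs' => le_trans (measure_mono (Set.inter_subset_inter_right _ fun z hz => hz.1)) (hcap i j p xs' hap hp1)) t ht y xs)
    B hB {z | (D.jit σ Mk).bs z ∈ B ∧ (D.jit σ Mk).x z.1 z.2 ∈ Set.Ico xs (xs + p) ∧ (D.jit σ Mk).y1 z.1 ∈ Set.Ico vs (vs + ρ)}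
    (fun z hz hzt => by
      have hx := k7a_s_jit_x D hσ0.le Mk z hzt
      exact ⟨⟨⟨by linarith [hz.2.1.1, hx.2], by linarith [hz.2.1.2, hx.1]⟩, Set.mem_univ _⟩, hz.2.2, hz.1⟩)
  refine hb.trans (mul_le_mul_left (ENNReal.ofReal_le_ofReal ?_) _)
  have e : ρ / σ * (66 * K ^ 2 * K1 * (K * σ ^ 2 * c * p ^ d) / σ ^ 2) = 66 * (K ^ 3 * K1 * c * p ^ d * (ρ / σ)) := by
    field_simp
  rw [e]
  have : 0 ≤ K ^ 3 * K1 * c * p ^ d * (ρ / σ) := by positivity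
  nlinarith

/-- **L-252-S7a-JANG** -/
theorem k7a_s_eang (D : K7aData Λ) {K K1 σ c d a N S1 u1 u1' : ℝ} {Mk : Set (Λ × ℝ)} (hD : D.Adm K) (hM : K7aMarks D σ K1 Mk)
    (hK : 1 ≤ K) (hK1 : 1 ≤ K1) (hσ0 : 0 < σ) (hσa : σ ≤ a) (hc : 0 < c) (hN : 1 ≤ N) (hu : u1' ≤ u1)
    (hσu : σ ≤ N ^ (-u1')) (hang : D.Ang K σ c d a N S1 u1) :
    (D.jit σ Mk).EAng (fun _ => 0) (200 * K ^ 3 * K1) c d a N S1 u1' := by
  intro γ B xs vs u hB hu0 huu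
  refine k7a_s_world D hD hσ0 Mk γ (fun z => (D.jit σ Mk).bs z ∈ B ∧ (D.jit σ Mk).x z.1 z.2 ∈ Set.Ico xs (xs + a) ∧
    (D.jit σ Mk).y1 z.1 ∈ Set.Ico vs (vs + N ^ (-u))) _ _ ?_
  have ha0 : 0 < a := by linarith
  have hN0 : 0 < N := by linarith
  have had : 0 < a ^ d := Real.rpow_pos_of_pos ha0 d
  have hNS : 0 < N ^ (-(S1 * u)) := Real.rpow_pos_of_pos hN0 _
  obtain ⟨w, hw⟩ : ∃ w : ℝ, w = N ^ (-u) := ⟨_, rfl⟩
  have hσw : σ ≤ w := by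
    rw [hw]
    exact hσu.trans (Real.rpow_le_rpow_of_exponent_le hN (by linarith))
  rw [← hw]
  have hβ : 0 ≤ 2 * (K * σ ^ 2 * c * a ^ d * N ^ (-(S1 * u))) := by positivity
  have hY : MeasurableSet {l : Λ | D.y1 l ∈ Set.Ico (vs - σ) (vs + w)} := (k7a_s_meas D hD).2.1 measurableSet_Ico
  have hcell : ∀ (i j : ℤ) (xs' : ℝ), D.mu (D.cell σ i j ∩ {z | D.x z.1 z.2 ∈ Set.Ico xs' (xs' + a) ∧ z.1 ∈ {l : Λ | D.y1 l ∈ Set.Ico (vs - σ) (vs + w)}})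
      ≤ ENNReal.ofReal (2 * (K * σ ^ 2 * c * a ^ d * N ^ (-(S1 * u)))) := by
    intro i j xs'
    have h1 := hang i j xs' (vs - w) u hu0 (huu.trans hu)
    have h2 := hang i j xs' vs u hu0 (huu.trans hu)
    rw [← hw] at h1 h2
    have hsub : D.cell σ i j ∩ {z | D.x z.1 z.2 ∈ Set.Ico xs' (xs' + a) ∧ z.1 ∈ {l : Λ | D.y1 l ∈ Set.Ico (vs - σ) (vs + w)}}
        ⊆ (D.cell σ i j ∩ {z | D.x z.1 z.2 ∈ Set.Ico xs' (xs' + a) ∧ D.y1 z.1 ∈ Set.Ico (vs - w) (vs - w + w)})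
          ∪ (D.cell σ i j ∩ {z | D.x z.1 z.2 ∈ Set.Ico xs' (xs' + a) ∧ D.y1 z.1 ∈ Set.Ico vs (vs + w)}) := by
      rintro z ⟨hz1, hz2, hz3⟩
      have hz3' : D.y1 z.1 ∈ Set.Ico (vs - σ) (vs + w) := hz3
      by_cases hv : D.y1 z.1 < vs
      · exact Or.inl ⟨hz1, hz2, by linarith [hz3'.1], by linarith⟩
      · exact Or.inr ⟨hz1, hz2, not_lt.1 hv, hz3'.2⟩
    refine (measure_mono hsub).trans ((measure_union_le _ _).trans ?_)
    rw [two_mul, ENNReal.ofReal_add (by positivity) (by positivity)]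
    exact add_le_add h1 h2
  have hb := k7a_s_jit D hD hM hσ0 zero_le_one {z | D.x z.1 z.2 ∈ Set.Ico (xs - 3 * σ) (xs + a) ∧ z.1 ∈ {l : Λ | D.y1 l ∈ Set.Ico (vs - σ) (vs + w)}}
    (k7a_s_W_meas D hD _ _ _ hY) Set.univ MeasurableSet.univ k7a_s_univ_R
    (fun t ht y => k7a_s_sec D hD hM hK (by linarith) hσ0 hσa hβ _ hY hcell t ht y xs)
    B hB {z | (D.jit σ Mk).bs z ∈ B ∧ (D.jit σ Mk).x z.1 z.2 ∈ Set.Ico xs (xs + a) ∧ (D.jit σ Mk).y1 z.1 ∈ Set.Ico vs (vs + w)}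
    (fun z hz hzt => by
      have hx := k7a_s_jit_x D hσ0.le Mk z hzt
      have hcl := k7a_s_cl_mem hσ0.le z.1.2.2.1
      have hy1 : D.y1 z.1.1 + k7aCl σ z.1.2.2.1 ∈ Set.Ico vs (vs + w) := hz.2.2
      exact ⟨⟨⟨by linarith [hz.2.1.1, hx.2], by linarith [hz.2.1.2, hx.1]⟩, ⟨by linarith [hy1.1, hcl.2], by linarith [hy1.2, hcl.1]⟩⟩,
        Set.mem_univ _, hz.1⟩)
  refine hb.trans (mul_le_mul_left (ENNReal.ofReal_le_ofReal ?_) _)
  have e : 1 * (66 * K ^ 2 * K1 * (2 * (K * σ ^ 2 * c * a ^ d * N ^ (-(S1 * u)))) / σ ^ 2) = 132 * (K ^ 3 * K1 * c * a ^ d * N ^ (-(S1 * u))) := by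
    field_simp
    ring
  rw [e]
  have : 0 ≤ K ^ 3 * K1 * c * a ^ d * N ^ (-(S1 * u)) := by positivity
  nlinarith

end

end Claimed.Agent.R252

/-!
# ROW 252 (S0492), unit S7a (architect helper26), file 2: THEOREM 7.1 (scalar mesh projection, 07 l.48-295).      CONTRACT file: every `sorry` is a post / leaf `*-252-S7a-*`.

PAPER-FREE (Mathlib + `S7a/Defs`).  THE CHAIN (all statements at finite scale):

    k7a_FrontAng  (= Cor 6.x at finite scale; proved LATER from Base + Sec 6 in `S7a/Bridge.lean`)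
        │  k7a_c_front (CropMain)     "obtaining an angular gain" : one-scale homogenisation `k7a_homog` + `k7a_argmax` + crops + lifting          [post BP-252-S7a-CROP]
        ▼
    k7a_Front
        │  k7a_T71_of_front          smoothing (`k7a_marks_exist`, `k7a_jit_*`) [post BP-252-S7a-SMOOTH]  +  return (`k7a_return`) [post BP-252-S7a-RET]  + choice of exponents [leaf GLUE]
        ▼
    k7a_T71          and      k7a_FrontAng ──(k7a_jit_eang, k7a_return_ang)──▶ k7a_T71a.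

## Proof sketches (complete; every constant below was computed by hand and then enlarged)

SMOOTH.  `g = d mu / d(nu × dt)` (`≤ K`), `G_i(l) = ∫_{I_i} g(l,t) dt`, `I_i = [iσ, (i+1)σ)`;  `Mk = {(l,t) : σ / K₁ ≤ G_{⌊t/σ⌋}(l)}`.  `mu (A × I_i) = ∫_A G_i dnu` gives `floor`; `σ = 2^{-m}` : `2^m` bins in `[0,1)` give `loss`.
 * ecap: fix `t`, the noises `u₁..u₄` and `y`.  `∫ du₀/σ 1_B(t, y_l(t) + u₀ + u₁ t) ≤ |B_t ∩ ..|/σ`; the contributing `l` form the SECTION `A = {l : (l,t) ∈ Mk, y_l(t) ∈ [y - 2σ, y], x_l(t) ∈ [xs - 3σ, xs + p)}`; by `floor`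
   `nu A ≤ (K₁/σ) mu (A × I)`, and on `A × I` the position moves by `≤ Kσ`, `x` by `≤ 3Kσ ≤ 3K p` : `≤ (2K+4)` mesh cells, `≤ (6K+5)` intervals of length `p`; `Cap` gives `nu A ≤ 66 K³ K₁ σ c p^d`.  Fubini.
 * esl: in addition `∫ du₁/σ 1[y1_l + u₁ ∈ [vs, vs+ρ)] ≤ ρ/σ` (do this integral first; the other constraints are enlarged so that they do not depend on `u₁`).
 * eang: `y1_l ∈ [vs - σ, vs + N^{-u})` = two intervals of length `N^{-u}` as `σ ≤ N^{-u}`; use `Ang` instead of `Cap`.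
 * esup: `U 0 k = ⋃` of the `σ`-squares `(i, j')` with `(i, j, k') ∈ S`, `|j' - j| ≤ K + 4`, `|k - k'| ≤ 3K + 5`.  If the noisy cell of `((l,u),t)` is not of this form then NO `t' ∈ I` has its original cell in `S`; so for the section
   `A^t` of these `l` one has `mu (A^t × I) = 0`, hence `nu A^t = 0` by `floor`; integrate in `t` (only SECTIONS are used, no projections).
RETURN.  Block `[t0,t0+q)`, labels `i`, widths `β i`.
 R1 moving bins: `ECap`/`ESl`/`EAng` hold with `x ∈ Ico xs (xs+p)` replaced by `|x - F(t,y)| ≤ K a`, `F` measurable, constant `× (2K+2)` (split `B` by `⌊F/a⌋`).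
 R2 `β i ≥ σ/(40 K⁶)` : the block bound confines `y'` to an interval of length `5K²β i`; floor `≤` ceiling over the base set `{t ∈ block, |y - cen| ≤ Kβ i}` of area `2Kβ i q`.   Angular case: `8K⁴ < N^{S₁u}` ⟹ `N^{-u} < 5K²β i`.
 R3 norm: `|F| ≤ 4K` on a subset of relative measure `≥ 1/(8K⁴)` of that base set (floor `≤` ceiling again); Remez for degree 2 in the sheared coordinates `(t - t0)/q`, `(y - cen t)/(Kβ i)`  (`R252/Remez`: `rmz_one` twice or `rmz_box`).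
 R4 extrapolation from the block (`q ≥ 1/K`) to `[0,1]` : the affine `y - cen`, the quadratic `x - F(t, y(t))`, the norm of `F`  (`rmz_lagrange_eval`).     Budget `Σ_i c a^d β i ≤ K²`.
 R5 common jitter: `mu' = ∫ ρ_σ(du) (nu × dt)|Mk`, so some `u* ∈ [0,σ]⁵` keeps `(nu × dt){(l,t) ∈ Mk, t ∈ block, lab'(l,u*) ≠ none} ≥ 1/K`.   `lab l := lab' (l, u*)`.
 R6 undo: centre `cen - Δy`, predictor `F(t, y + Δy(t)) - Δx(t)`, `Δy = u*₀ + u*₁ t`, `Δx = u*₂ + u*₃ t + u*₄ t²` (again `K7aQuad`; the norm in adapted coordinates changes by `≤ 3σ`).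
 R7 marks: `mu {lab = i} ≥ Σ_I mu (A_{i,I} × I) ≥ K₁⁻¹ (nu × dt){Mk, block, lab = i}`; total `≥ 1/(K K₁)`.   Delete the labels with `mu {lab = i} < c a^d β i / (2K³K₁)` : loss `≤ 1/(2KK₁)` by the budget.
 R8 dyadic pigeonhole of `β i ∈ [σ/(40K⁶), K]` : `≤ 20 K (1 + log (1/σ))` classes.
CROP.  See `S7a/CropLaw.lean`, `S7a/CropMain.lean` (`k7a_c_front`).
-/

set_option autoImplicit false

namespace Claimed.Agent.R252

open MeasureTheory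
open scoped ENNReal BigOperators

noncomputable section

variable {Λ : Type} [MeasurableSpace Λ]

/-! ## 1. Smoothing the mesh law      (post BP-252-S7a-SMOOTH) -/

/-- **L-252-S7a-MARK** the marks exist -/
theorem k7a_marks_exist (D : K7aData Λ) {K K1 σ : ℝ} {m : ℕ} (hD : D.Adm K) (hσ : σ = (1 / 2 : ℝ) ^ m) (hK1 : 0 < K1) :
    ∃ Mk, K7aMarks D σ K1 Mk := by
  have hσ0 : 0 < σ := by rw [hσ]; positivity
  have := hD.prob
  have : IsFiniteMeasure k7aTm := by unfold k7aTm; infer_instance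
  obtain ⟨ρ, hρ⟩ : ∃ ρ : Measure (Λ × ℝ), ρ = D.nu.prod k7aTm := ⟨_, rfl⟩
  have : IsFiniteMeasure ρ := by rw [hρ]; infer_instance
  have hdom : D.mu ≤ ENNReal.ofReal K • ρ := by rw [hρ]; exact hD.dom
  have hac : D.mu ≪ ρ := Measure.absolutelyContinuous_of_le_smul hdom
  have : IsFiniteMeasure (ENNReal.ofReal K • ρ) := Measure.smul_finite ρ ENNReal.ofReal_ne_top
  have : IsFiniteMeasure D.mu := isFiniteMeasure_of_le _ hdom
  obtain ⟨g, hgd⟩ : ∃ g : Λ × ℝ → ℝ≥0∞, g = D.mu.rnDeriv ρ := ⟨_, rfl⟩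
  have hg : Measurable g := by rw [hgd]; exact Measure.measurable_rnDeriv _ _
  have hmu : ρ.withDensity g = D.mu := by rw [hgd]; exact Measure.withDensity_rnDeriv_eq _ _ hac
  have hrect : ∀ (A : Set Λ) (I : Set ℝ), MeasurableSet A → MeasurableSet I →
      D.mu (A ×ˢ I) = ∫⁻ l in A, ∫⁻ t in I, g (l, t) ∂k7aTm ∂D.nu := by
    intro A I hA hI
    rw [← hmu, withDensity_apply _ (hA.prod hI), hρ, ← Measure.prod_restrict, lintegral_prod _ hg.aemeasurable]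
  obtain ⟨T, hT⟩ : ∃ T : ℤ → Set ℝ, T = fun i : ℤ => Set.Ico ((i : ℝ) * σ) (((i : ℝ) + 1) * σ) := ⟨_, rfl⟩
  have hTm : ∀ i, MeasurableSet (T i) := fun i => by rw [hT]; exact measurableSet_Ico
  have hTmem : ∀ (i : ℤ) (t : ℝ), t ∈ T i ↔ ⌊t / σ⌋ = i := by
    intro i t
    rw [hT, Int.floor_eq_iff, le_div_iff₀ hσ0, div_lt_iff₀ hσ0]
    rfl
  obtain ⟨G, hG⟩ : ∃ G : ℤ → Λ → ℝ≥0∞, G = fun i l => ∫⁻ t in T i, g (l, t) ∂k7aTm := ⟨_, rfl⟩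
  have hGm : ∀ i, Measurable (G i) := by
    intro i
    rw [hG]
    exact hg.lintegral_prod_right'
  have hrect' : ∀ (A : Set Λ) (i : ℤ), MeasurableSet A → D.mu (A ×ˢ T i) = ∫⁻ l in A, G i l ∂D.nu := by
    intro A i hA
    rw [hrect A (T i) hA (hTm i), hG]
  obtain ⟨θ, hθ⟩ : ∃ θ : ℝ≥0∞, θ = ENNReal.ofReal (σ / K1) := ⟨_, rfl⟩
  refine ⟨{z | θ ≤ G ⌊z.2 / σ⌋ z.1}, ?_, ?_, ?_, ?_⟩
  · have e : {z : Λ × ℝ | θ ≤ G ⌊z.2 / σ⌋ z.1} = ⋃ i : ℤ, {l | θ ≤ G i l} ×ˢ T i := by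
      ext z
      simp only [Set.mem_iUnion, Set.mem_prod, hTmem]
      constructor
      · intro h
        exact ⟨_, h, rfl⟩
      · rintro ⟨i, h1, h2⟩
        have h3 : θ ≤ G i z.1 := h1
        rw [← h2] at h3
        exact h3
    rw [e]
    exact MeasurableSet.iUnion fun i => (measurableSet_le measurable_const (hGm i)).prod (hTm i)
  · intro l t t' h
    show θ ≤ G ⌊t / σ⌋ l ↔ θ ≤ G ⌊t' / σ⌋ l
    rw [h]
  · have e : {z : Λ × ℝ | θ ≤ G ⌊z.2 / σ⌋ z.1}ᶜ = ⋃ i : ℤ, {l | G i l < θ} ×ˢ T i := by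
      ext z
      simp only [Set.mem_iUnion, Set.mem_prod, hTmem, Set.mem_compl_iff]
      constructor
      · intro h
        have h' : G ⌊z.2 / σ⌋ z.1 < θ := not_le.1 h
        exact ⟨_, h', rfl⟩
      · rintro ⟨i, h1, h2⟩
        have h3 : G i z.1 < θ := h1
        rw [← h2] at h3
        exact not_le.2 h3
    have hB : ∀ i, MeasurableSet {l | G i l < θ} := fun i => measurableSet_lt (hGm i) measurable_const
    have hz : ∀ i : ℤ, i ∉ Finset.Ico (0 : ℤ) (2 ^ m) → D.mu ({l | G i l < θ} ×ˢ T i) = 0 := by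
      intro i hi
      have h0 : k7aTm (T i) = 0 := by
        unfold k7aTm
        rw [Measure.restrict_apply (hTm i)]
        rw [Finset.mem_Ico, not_and_or, not_le, not_lt] at hi
        rcases hi with hi | hi
        · have : T i ∩ Set.Icc (0 : ℝ) 1 = ∅ := by
            ext t
            simp only [Set.mem_inter_iff, Set.mem_empty_iff_false, iff_false, not_and]
            intro h1 h2
            rw [hT] at h1
            have h3 : ((i : ℝ) + 1) ≤ 0 := by exact_mod_cast Int.add_one_le_iff.2 hi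
            have h4 : ((i : ℝ) + 1) * σ ≤ 0 := mul_nonpos_of_nonpos_of_nonneg h3 hσ0.le
            linarith [h1.2, h2.1]
          rw [this, measure_empty]
        · have hsub : T i ∩ Set.Icc (0 : ℝ) 1 ⊆ {1} := by
            intro t ht
            have h1 := ht.1
            rw [hT] at h1
            have h3 : ((2 : ℝ) ^ m) ≤ (i : ℝ) := by exact_mod_cast hi
            have h4 : (2 : ℝ) ^ m * σ = 1 := by
              rw [hσ, ← mul_pow]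
              norm_num
            have h5 : 1 ≤ (i : ℝ) * σ := by
              rw [← h4]
              exact mul_le_mul_of_nonneg_right h3 hσ0.le
            exact le_antisymm ht.2.2 (h5.trans h1.1)
          exact measure_mono_null hsub (by simp)
      rw [hrect' _ i (hB i)]
      have h1 : ∀ l, G i l = 0 := by
        intro l
        rw [hG]
        show ∫⁻ t in T i, g (l, t) ∂k7aTm = 0
        rw [Measure.restrict_eq_zero.2 h0, lintegral_zero_measure]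
      simp [h1]
    have hle : ∀ i : ℤ, D.mu ({l | G i l < θ} ×ˢ T i) ≤ θ := by
      intro i
      rw [hrect' _ i (hB i)]
      calc ∫⁻ l in {l | G i l < θ}, G i l ∂D.nu ≤ ∫⁻ _ in {l | G i l < θ}, θ ∂D.nu :=
            setLIntegral_mono' (hB i) fun l hl => le_of_lt hl
        _ = θ * D.nu {l | G i l < θ} := by rw [setLIntegral_const]
        _ ≤ θ * 1 := mul_le_mul' le_rfl prob_le_one
        _ = θ := mul_one _
    rw [e]
    calc ENNReal.ofReal K1 * D.mu (⋃ i : ℤ, {l | G i l < θ} ×ˢ T i)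
        ≤ ENNReal.ofReal K1 * ∑' i : ℤ, D.mu ({l | G i l < θ} ×ˢ T i) := mul_le_mul' le_rfl (measure_iUnion_le _)
      _ = ENNReal.ofReal K1 * ∑ i ∈ Finset.Ico (0 : ℤ) (2 ^ m), D.mu ({l | G i l < θ} ×ˢ T i) := by
          rw [tsum_eq_sum hz]
      _ ≤ ENNReal.ofReal K1 * ∑ _i ∈ Finset.Ico (0 : ℤ) (2 ^ m), θ :=
          mul_le_mul' le_rfl (Finset.sum_le_sum fun i _ => hle i)
      _ = 1 := by
          rw [Finset.sum_const, Int.card_Ico, sub_zero, nsmul_eq_mul, hθ]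
          have h1 : (((2 : ℤ) ^ m).toNat : ℝ≥0∞) = ENNReal.ofReal ((2 : ℝ) ^ m) := by
            have h2 : ((2 : ℤ) ^ m).toNat = 2 ^ m := by
              have : ((2 : ℤ) ^ m) = ((2 ^ m : ℕ) : ℤ) := by push_cast; rfl
              rw [this, Int.toNat_natCast]
            rw [h2, ← ENNReal.ofReal_natCast]
            push_cast
            rfl
          rw [h1, ← ENNReal.ofReal_mul (by positivity), ← ENNReal.ofReal_mul hK1.le, ← ENNReal.ofReal_one]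
          congr 1
          have h4 : (2 : ℝ) ^ m * σ = 1 := by
            rw [hσ, ← mul_pow]
            norm_num
          field_simp
          linarith
  · intro A i hA hmem
    have h1 : ∀ l ∈ A, θ ≤ G i l := by
      intro l hl
      have h2 : θ ≤ G ⌊(i : ℝ) * σ / σ⌋ l := hmem l hl
      rwa [mul_div_assoc, div_self hσ0.ne', mul_one, Int.floor_intCast] at h2
    have h2 : D.mu (A ×ˢ Set.Ico ((i : ℝ) * σ) (((i : ℝ) + 1) * σ)) = ∫⁻ l in A, G i l ∂D.nu := by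
      have := hrect' A i hA
      rw [hT] at this
      exact this
    rw [h2]
    calc ENNReal.ofReal σ * D.nu A = ENNReal.ofReal K1 * (θ * D.nu A) := by
          rw [← mul_assoc, hθ, ← ENNReal.ofReal_mul hK1.le]
          congr 2
          field_simp
      _ = ENNReal.ofReal K1 * ∫⁻ _ in A, θ ∂D.nu := by rw [setLIntegral_const]
      _ ≤ ENNReal.ofReal K1 * ∫⁻ l in A, G i l ∂D.nu :=
          mul_le_mul' le_rfl (setLIntegral_mono' hA h1)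

theorem k7a_jadm_un_prob {σ : ℝ} (hσ : 0 < σ) : IsProbabilityMeasure (k7aUn σ) := by
  constructor
  unfold k7aUn
  rw [Measure.smul_apply, Measure.restrict_apply MeasurableSet.univ, Set.univ_inter, Real.volume_Icc, sub_zero, smul_eq_mul,
    ← ENNReal.ofReal_mul (inv_nonneg.2 hσ.le), inv_mul_cancel₀ hσ.ne', ENNReal.ofReal_one]

theorem k7a_jadm_noise_prob {σ : ℝ} (hσ : 0 < σ) : IsProbabilityMeasure (k7aNoise σ) := by
  have := k7a_jadm_un_prob hσ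
  unfold k7aNoise
  infer_instance

theorem k7a_jadm_tm_sfinite : SFinite k7aTm := by
  unfold k7aTm
  infer_instance

theorem k7a_jadm_cl_meas (σ : ℝ) : Measurable (k7aCl σ) := by
  unfold k7aCl
  exact measurable_const.max (measurable_const.min measurable_id)

theorem k7a_jadm_cl_bd {σ : ℝ} (hσ : 0 ≤ σ) (u : ℝ) : 0 ≤ k7aCl σ u ∧ k7aCl σ u ≤ σ := by
  unfold k7aCl
  exact ⟨le_max_left _ _, max_le hσ (min_le_left _ _)⟩

theorem k7a_jadm_cl_eq {σ u : ℝ} (hu : u ∈ Set.Icc 0 σ) : k7aCl σ u = u := by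
  unfold k7aCl
  rw [min_eq_right hu.2, max_eq_right hu.1]

theorem k7a_jadm_co_meas (D : K7aData Λ) (hm : Measurable D.co) (σ : ℝ) (Mk : Set (Λ × ℝ)) : Measurable (D.jit σ Mk).co := by
  have h0 : Measurable D.y0 := hm.fst
  have h1 : Measurable D.y1 := hm.snd.fst
  have h2 : Measurable D.x0 := hm.snd.snd.fst
  have h3 : Measurable D.x1 := hm.snd.snd.snd.fst
  have h4 : Measurable D.x2 := hm.snd.snd.snd.snd
  have hc := k7a_jadm_cl_meas σ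
  show Measurable fun l : Λ × K7aU => (D.y0 l.1 + k7aCl σ l.2.1, D.y1 l.1 + k7aCl σ l.2.2.1, D.x0 l.1 + k7aCl σ l.2.2.2.1,
    D.x1 l.1 + k7aCl σ l.2.2.2.2.1, D.x2 l.1 + k7aCl σ l.2.2.2.2.2)
  exact ((h0.comp measurable_fst).add (hc.comp measurable_snd.fst)).prodMk
    (((h1.comp measurable_fst).add (hc.comp measurable_snd.snd.fst)).prodMk
    (((h2.comp measurable_fst).add (hc.comp measurable_snd.snd.snd.fst)).prodMk
    (((h3.comp measurable_fst).add (hc.comp measurable_snd.snd.snd.snd.fst)).prodMk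
    ((h4.comp measurable_fst).add (hc.comp measurable_snd.snd.snd.snd.snd)))))

theorem k7a_jadm_mk_meas {Mk : Set (Λ × ℝ)} (hMk : MeasurableSet Mk) : MeasurableSet {z : (Λ × K7aU) × ℝ | (z.1.1, z.2) ∈ Mk} :=
  (measurable_fst.fst.prodMk measurable_snd) hMk

/-- the noise does not change the prior mass of the marks -/
theorem k7a_jadm_mass_eq (D : K7aData Λ) [IsProbabilityMeasure D.nu] {σ : ℝ} (hσ : 0 < σ) {Mk : Set (Λ × ℝ)} (hMk : MeasurableSet Mk) :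
    ((D.nu.prod (k7aNoise σ)).prod k7aTm) {z | (z.1.1, z.2) ∈ Mk} = (D.nu.prod k7aTm) Mk := by
  have := k7a_jadm_noise_prob hσ
  have := k7a_jadm_tm_sfinite
  have e : D.nu.prod k7aTm = ((D.nu.prod (k7aNoise σ)).prod k7aTm).map (Prod.map Prod.fst id) := by
    rw [← Measure.map_prod_map _ _ measurable_fst measurable_id, Measure.map_id, Measure.map_fst_prod, measure_univ, one_smul]
  rw [e, Measure.map_apply (measurable_fst.prodMap measurable_id) hMk]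
  rfl

theorem k7a_jadm_bd {K σ : ℝ} (hK : 1 ≤ K) (hσ0 : 0 < σ) (hσ1 : σ ≤ 1) (v u : ℝ) (hv : |v| ≤ K) : |v + k7aCl σ u| ≤ 2 * K ^ 2 := by
  obtain ⟨h1, h2⟩ := k7a_jadm_cl_bd hσ0.le u
  obtain ⟨h3, h4⟩ := abs_le.1 hv
  rw [abs_le]
  constructor <;> nlinarith

/-- the arithmetic of the mass -/
theorem k7a_jadm_arith {k k1 a b M : ℝ≥0∞} (h1 : 1 ≤ k * (a + b)) (h2 : k1 * b ≤ 1) (h3 : a ≤ k * M) (h4 : 2 * k ≤ k1) :
    1 ≤ 2 * k ^ 2 * M := by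
  have h5 : 2 * k * b ≤ 1 := (mul_le_mul_left h4 b).trans h2
  have h6 : (1 : ℝ≥0∞) + 1 ≤ 2 * k * a + 1 := by
    calc (1 : ℝ≥0∞) + 1 = 2 * 1 := by ring
      _ ≤ 2 * (k * (a + b)) := by gcongr
      _ = 2 * k * a + 2 * k * b := by ring
      _ ≤ 2 * k * a + 1 := by gcongr
  have h7 : (1 : ℝ≥0∞) ≤ 2 * k * a := ENNReal.le_of_add_le_add_right ENNReal.one_ne_top h6
  calc (1 : ℝ≥0∞) ≤ 2 * k * a := h7
    _ ≤ 2 * k * (k * M) := by gcongr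
    _ = 2 * k ^ 2 * M := by ring

/-- **L-252-S7a-JADM** the jittered marked law is admissible -/
theorem k7a_jit_adm (D : K7aData Λ) {K K1 σ : ℝ} {Mk : Set (Λ × ℝ)} (hD : D.Adm K) (hM : K7aMarks D σ K1 Mk) (hK : 1 ≤ K)
    (hK1 : 2 * K ≤ K1) (hσ0 : 0 < σ) (hσ1 : σ ≤ 1) : (D.jit σ Mk).Adm (2 * K ^ 2) ∧ (D.jit σ Mk).Evt := by
  have := hD.prob
  have := k7a_jadm_noise_prob hσ0
  have hK2 : (1 : ℝ) ≤ 2 * K ^ 2 := by nlinarith
  refine ⟨⟨?_, k7a_jadm_co_meas D hD.meas σ Mk, ?_, ?_, ?_⟩, ⟨_, k7a_jadm_mk_meas hM.meas, rfl⟩⟩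
  · show IsProbabilityMeasure (D.nu.prod (k7aNoise σ))
    infer_instance
  · intro l
    obtain ⟨b0, b1, b2, b3, b4⟩ := hD.bd l.1
    exact ⟨k7a_jadm_bd hK hσ0 hσ1 _ _ b0, k7a_jadm_bd hK hσ0 hσ1 _ _ b1, k7a_jadm_bd hK hσ0 hσ1 _ _ b2,
      k7a_jadm_bd hK hσ0 hσ1 _ _ b3, k7a_jadm_bd hK hσ0 hσ1 _ _ b4⟩
  · show ((D.nu.prod (k7aNoise σ)).prod k7aTm).restrict _ ≤ ENNReal.ofReal (2 * K ^ 2) • (D.nu.prod (k7aNoise σ)).prod k7aTm
    refine Measure.restrict_le_self.trans (Measure.le_iff.2 fun s _ => ?_)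
    rw [Measure.smul_apply, smul_eq_mul]
    exact le_mul_of_one_le_left' (ENNReal.one_le_ofReal.2 hK2)
  · show 1 ≤ ENNReal.ofReal (2 * K ^ 2) * (((D.nu.prod (k7aNoise σ)).prod k7aTm).restrict {z | (z.1.1, z.2) ∈ Mk}) Set.univ
    rw [Measure.restrict_apply MeasurableSet.univ, Set.univ_inter, k7a_jadm_mass_eq D hσ0 hM.meas]
    have e : ENNReal.ofReal (2 * K ^ 2) = 2 * ENNReal.ofReal K ^ 2 := by
      rw [ENNReal.ofReal_mul (by norm_num), ENNReal.ofReal_pow (by linarith)]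
      norm_num
    rw [e]
    refine k7a_jadm_arith (k1 := ENNReal.ofReal K1) (a := D.mu Mk) (b := D.mu Mkᶜ) ?_ hM.loss ?_ ?_
    · rw [measure_add_measure_compl hM.meas]
      exact hD.mass
    · have := hD.dom Mk
      rwa [Measure.smul_apply, smul_eq_mul] at this
    · have e2 : (2 : ℝ≥0∞) * ENNReal.ofReal K = ENNReal.ofReal (2 * K) := by
        rw [ENNReal.ofReal_mul (by norm_num)]
        norm_num
      rw [e2]
      exact ENNReal.ofReal_le_ofReal hK1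

theorem k7a_jadm_prod_smul {α β : Type*} [MeasurableSpace α] [MeasurableSpace β] (μ : Measure α) (ν : Measure β) [SFinite μ] [SFinite ν]
    (c c' : ℝ≥0∞) (s : Set α) (t : Set β) :
    (c • μ.restrict s).prod (c' • ν.restrict t) = (c * c') • (μ.prod ν).restrict (s ×ˢ t) := by
  rw [Measure.prod_smul_left, Measure.prod_smul_right, Measure.prod_restrict, smul_smul]

/-- the noise law is the normalised Lebesgue measure of the cube -/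
theorem k7a_jadm_noise_eq (σ : ℝ) : k7aNoise σ = (ENNReal.ofReal σ⁻¹ ^ 5) • (volume : Measure K7aU).restrict
    (Set.Icc 0 σ ×ˢ (Set.Icc 0 σ ×ˢ (Set.Icc 0 σ ×ˢ (Set.Icc 0 σ ×ˢ Set.Icc 0 σ)))) := by
  unfold k7aNoise k7aUn
  rw [k7a_jadm_prod_smul, k7a_jadm_prod_smul, k7a_jadm_prod_smul, k7a_jadm_prod_smul]
  have e : ∀ c : ℝ≥0∞, c * (c * (c * (c * c))) = c ^ 5 := fun c => by ring
  rw [e]
  rfl

theorem k7a_jadm_inv : (volume : Measure K7aU).IsAddLeftInvariant := by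
  have i3 : (volume : Measure (ℝ × ℝ × ℝ)).IsAddLeftInvariant :=
    Measure.prod.instIsAddLeftInvariant (μ := (volume : Measure ℝ)) (ν := (volume : Measure (ℝ × ℝ)))
  have i4 : (volume : Measure (ℝ × ℝ × ℝ × ℝ)).IsAddLeftInvariant :=
    Measure.prod.instIsAddLeftInvariant (μ := (volume : Measure ℝ)) (ν := (volume : Measure (ℝ × ℝ × ℝ)))
  exact Measure.prod.instIsAddLeftInvariant (μ := (volume : Measure ℝ)) (ν := (volume : Measure (ℝ × ℝ × ℝ × ℝ)))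

theorem k7a_jadm_dens (D : K7aData Λ) [IsProbabilityMeasure D.nu] (hm : Measurable D.co) {σ : ℝ} (hσ : 0 < σ) (Mk : Set (Λ × ℝ)) :
    (D.nu.prod (k7aNoise σ)).map (D.jit σ Mk).co ≤ ENNReal.ofReal (σ⁻¹ ^ 5) • volume := by
  have := k7a_jadm_noise_prob hσ
  have hco := k7a_jadm_co_meas D hm σ Mk
  refine Measure.le_iff.2 fun B hB => ?_
  rw [Measure.map_apply hco hB, Measure.prod_apply (hco hB), Measure.smul_apply, smul_eq_mul]
  have key : ∀ l, k7aNoise σ (Prod.mk l ⁻¹' ((D.jit σ Mk).co ⁻¹' B)) ≤ ENNReal.ofReal (σ⁻¹ ^ 5) * volume B := by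
    intro l
    rw [k7a_jadm_noise_eq, Measure.smul_apply, smul_eq_mul, ENNReal.ofReal_pow (inv_nonneg.2 hσ.le),
      Measure.restrict_apply (measurable_prodMk_left (hco hB))]
    refine mul_le_mul_right ?_ _
    have hinv := k7a_jadm_inv
    calc volume (Prod.mk l ⁻¹' ((D.jit σ Mk).co ⁻¹' B) ∩ (Set.Icc 0 σ ×ˢ (Set.Icc 0 σ ×ˢ (Set.Icc 0 σ ×ˢ (Set.Icc 0 σ ×ˢ Set.Icc 0 σ)))))
        ≤ volume ((fun u => D.co l + u) ⁻¹' B) := by
          refine measure_mono ?_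
          rintro u ⟨hu, c0, c1, c2, c3, c4⟩
          have e : (D.jit σ Mk).co (l, u) = D.co l + u := by
            show (D.y0 l + k7aCl σ u.1, D.y1 l + k7aCl σ u.2.1, D.x0 l + k7aCl σ u.2.2.1, D.x1 l + k7aCl σ u.2.2.2.1,
              D.x2 l + k7aCl σ u.2.2.2.2) = _
            rw [k7a_jadm_cl_eq c0, k7a_jadm_cl_eq c1, k7a_jadm_cl_eq c2, k7a_jadm_cl_eq c3, k7a_jadm_cl_eq c4]
            rfl
          show D.co l + u ∈ B
          rw [← e]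
          exact hu
      _ = volume B := measure_preimage_add _ _ _
  calc ∫⁻ l, k7aNoise σ (Prod.mk l ⁻¹' ((D.jit σ Mk).co ⁻¹' B)) ∂D.nu ≤ ∫⁻ _, ENNReal.ofReal (σ⁻¹ ^ 5) * volume B ∂D.nu := lintegral_mono key
    _ = ENNReal.ofReal (σ⁻¹ ^ 5) * volume B := by rw [lintegral_const, measure_univ, mul_one]

/-- **L-252-S7a-JTMP** its coefficient law has density `≤ σ⁻⁵` -/
theorem k7a_jit_tmp (D : K7aData Λ) {K σ : ℝ} (Mk : Set (Λ × ℝ)) (hD : D.Adm K) (hσ0 : 0 < σ) (hσ1 : σ ≤ 1) :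
    (D.jit σ Mk).Tmp (fun _ => 0) (σ⁻¹ ^ 5) := by
  have := hD.prob
  have := k7a_jadm_noise_prob hσ0
  have h1 : (1 : ℝ) ≤ σ⁻¹ ^ 5 := one_le_pow₀ ((one_le_inv₀ hσ0).2 hσ1)
  refine ⟨measurable_const, ⟨{0}, fun _ => Finset.mem_singleton_self 0, by simpa using h1⟩, fun γ => ?_⟩
  by_cases hγ : γ = 0
  · subst hγ
    have e : ((fun _ : Λ × K7aU => 0) ⁻¹' {0}) = Set.univ := by
      ext
      simp
    unfold K7aData.om
    rw [e, Measure.restrict_univ]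
    show (D.nu.prod (k7aNoise σ)).map _ ≤ (_ * (D.nu.prod (k7aNoise σ)) Set.univ) • volume
    rw [measure_univ, mul_one]
    exact k7a_jadm_dens D hD.meas hσ0 Mk
  · have e : ((fun _ : Λ × K7aU => 0) ⁻¹' {γ}) = ∅ := by
      ext
      simp [Ne.symm hγ]
    rw [e, Measure.restrict_empty, Measure.map_zero]
    exact Measure.zero_le _

/-- **L-252-S7a-JCAP** exact-base ceiling of the jittered marked law -/
theorem k7a_jit_ecap (D : K7aData Λ) {K K1 σ c d a : ℝ} {Mk : Set (Λ × ℝ)} (hD : D.Adm K) (hM : K7aMarks D σ K1 Mk) (hK : 1 ≤ K)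
    (hK1 : 1 ≤ K1) (hσ0 : 0 < σ) (hσa : σ ≤ a) (ha : a ≤ 1) (hc : 0 < c) (hcap : D.Cap K σ c d a) :
    (D.jit σ Mk).ECap (fun _ => 0) (100 * K ^ 3 * K1) c d a :=
  k7a_s_ecap D hD hM hK hK1 hσ0 hσa hc hcap

/-- **L-252-S7a-JSL** the slope-noise factor -/
theorem k7a_jit_esl (D : K7aData Λ) {K K1 σ c d a : ℝ} {Mk : Set (Λ × ℝ)} (hD : D.Adm K) (hM : K7aMarks D σ K1 Mk) (hK : 1 ≤ K)
    (hK1 : 1 ≤ K1) (hσ0 : 0 < σ) (hσa : σ ≤ a) (ha : a ≤ 1) (hc : 0 < c) (hcap : D.Cap K σ c d a) :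
    (D.jit σ Mk).ESl (fun _ => 0) (100 * K ^ 3 * K1) c d a σ :=
  k7a_s_esl D hD hM hK hK1 hσ0 hσa hc hcap

/-- **L-252-S7a-JANG** the angular ceiling survives, for velocity bins not finer than `σ` -/
theorem k7a_jit_eang (D : K7aData Λ) {K K1 σ c d a N S1 u1 u1' : ℝ} {Mk : Set (Λ × ℝ)} (hD : D.Adm K) (hM : K7aMarks D σ K1 Mk)
    (hK : 1 ≤ K) (hK1 : 1 ≤ K1) (hσ0 : 0 < σ) (hσa : σ ≤ a) (ha : a ≤ 1) (hc : 0 < c) (hN : 1 ≤ N) (hu : u1' ≤ u1)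
    (hσu : σ ≤ N ^ (-u1')) (hang : D.Ang K σ c d a N S1 u1) :
    (D.jit σ Mk).EAng (fun _ => 0) (200 * K ^ 3 * K1) c d a N S1 u1' :=
  k7a_s_eang D hD hM hK hK1 hσ0 hσa hc hN hu hσu hang

theorem k7a_jsup_floor {p q r : ℝ} {R : ℤ} (h : |p - q| ≤ r) (hR : r ≤ (R : ℝ) - 1) :
    ⌊p⌋ ∈ Finset.Icc (⌊q⌋ - R) (⌊q⌋ + R) := by
  rw [Finset.mem_Icc]
  have h1 := Int.floor_le p
  have h2 := Int.lt_floor_add_one p
  have h3 := Int.floor_le q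
  have h4 := Int.lt_floor_add_one q
  obtain ⟨h5, h6⟩ := abs_le.1 h
  constructor
  · have : ((⌊q⌋ - R : ℤ) : ℝ) < (⌊p⌋ : ℝ) := by push_cast; linarith
    exact_mod_cast this.le
  · have : (⌊p⌋ : ℝ) < ((⌊q⌋ + R : ℤ) : ℝ) := by push_cast; linarith
    exact_mod_cast this.le

theorem k7a_jsup_un_prob {σ : ℝ} (hσ : 0 < σ) : IsProbabilityMeasure (k7aUn σ) := by
  constructor
  unfold k7aUn
  rw [Measure.smul_apply, Measure.restrict_apply MeasurableSet.univ, Set.univ_inter, Real.volume_Icc,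
    smul_eq_mul, sub_zero, ← ENNReal.ofReal_mul (by positivity), inv_mul_cancel₀ hσ.ne', ENNReal.ofReal_one]

theorem k7a_jsup_noise_prob {σ : ℝ} (hσ : 0 < σ) : IsProbabilityMeasure (k7aNoise σ) := by
  have := k7a_jsup_un_prob hσ
  unfold k7aNoise
  infer_instance

theorem k7a_jsup_cl {σ : ℝ} (hσ : 0 ≤ σ) (u : ℝ) : 0 ≤ k7aCl σ u ∧ k7aCl σ u ≤ σ := by
  unfold k7aCl
  exact ⟨le_max_left _ _, max_le hσ (min_le_left _ _)⟩

theorem k7a_jsup_cl_meas (σ : ℝ) : Measurable (k7aCl σ) := by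
  unfold k7aCl
  exact measurable_const.max (measurable_const.min measurable_id)

theorem k7a_jsup_geo (D : K7aData Λ) {K σ a : ℝ} (hD : D.Adm K) (hK : 1 ≤ K) (hσ0 : 0 < σ) (hσa : σ ≤ a)
    (Mk : Set (Λ × ℝ)) (l : Λ) (u : K7aU) (t t' : ℝ) (ht : t ∈ Set.Icc (0 : ℝ) 1) (ht' : t' ∈ Set.Icc (0 : ℝ) 1)
    (htt : ⌊t' / σ⌋ = ⌊t / σ⌋) :
    ⌊(D.jit σ Mk).y (l, u) t / σ⌋ ∈ Finset.Icc (⌊D.y l t' / σ⌋ - (⌈K⌉ + 3)) (⌊D.y l t' / σ⌋ + (⌈K⌉ + 3)) ∧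
    ⌊(D.jit σ Mk).x (l, u) t / a⌋ ∈ Finset.Icc (⌊D.x l t' / a⌋ - (⌈3 * K⌉ + 4)) (⌊D.x l t' / a⌋ + (⌈3 * K⌉ + 4)) := by
  have ha0 : 0 < a := lt_of_lt_of_le hσ0 hσa
  obtain ⟨-, b1, -, b3, b4⟩ := hD.bd l
  have hδ : |t - t'| ≤ σ := by
    have h1 := Int.floor_le (t / σ)
    have h2 := Int.lt_floor_add_one (t / σ)
    have h3 := Int.floor_le (t' / σ)
    have h4 := Int.lt_floor_add_one (t' / σ)
    rw [htt] at h3 h4
    rw [le_div_iff₀ hσ0] at h1 h3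
    rw [div_lt_iff₀ hσ0] at h2 h4
    rw [abs_le]; constructor <;> nlinarith
  obtain ⟨c0a, c0b⟩ := k7a_jsup_cl hσ0.le u.1
  obtain ⟨c1a, c1b⟩ := k7a_jsup_cl hσ0.le u.2.1
  obtain ⟨c2a, c2b⟩ := k7a_jsup_cl hσ0.le u.2.2.1
  obtain ⟨c3a, c3b⟩ := k7a_jsup_cl hσ0.le u.2.2.2.1
  obtain ⟨c4a, c4b⟩ := k7a_jsup_cl hσ0.le u.2.2.2.2
  have hK0 : 0 ≤ K := by linarith
  have e1 : |D.y1 l * (t - t')| ≤ K * σ := by
    rw [abs_mul]; exact mul_le_mul b1 hδ (abs_nonneg _) hK0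
  have e3 : |D.x1 l * (t - t')| ≤ K * σ := by
    rw [abs_mul]; exact mul_le_mul b3 hδ (abs_nonneg _) hK0
  have e4 : |D.x2 l * ((t - t') * (t + t'))| ≤ K * (σ * 2) := by
    rw [abs_mul, abs_mul]
    refine mul_le_mul b4 (mul_le_mul hδ ?_ (abs_nonneg _) hσ0.le) (by positivity) hK0
    rw [abs_le]; constructor <;> linarith [ht.1, ht.2, ht'.1, ht'.2]
  have m1a : 0 ≤ k7aCl σ u.2.1 * t := mul_nonneg c1a ht.1
  have m1b : k7aCl σ u.2.1 * t ≤ σ := by nlinarith [ht.1, ht.2]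
  have m3a : 0 ≤ k7aCl σ u.2.2.2.1 * t := mul_nonneg c3a ht.1
  have m3b : k7aCl σ u.2.2.2.1 * t ≤ σ := by nlinarith [ht.1, ht.2]
  have ht2 : t ^ 2 ≤ 1 := by nlinarith [ht.1, ht.2]
  have m4a : 0 ≤ k7aCl σ u.2.2.2.2 * t ^ 2 := mul_nonneg c4a (sq_nonneg _)
  have m4b : k7aCl σ u.2.2.2.2 * t ^ 2 ≤ σ := by nlinarith [sq_nonneg t]
  constructor
  · refine k7a_jsup_floor (r := K + 2) ?_ ?_
    · rw [← sub_div, abs_div, abs_of_pos hσ0, div_le_iff₀ hσ0]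
      have e : (D.jit σ Mk).y (l, u) t - D.y l t'
          = k7aCl σ u.1 + k7aCl σ u.2.1 * t + D.y1 l * (t - t') := by
        simp only [K7aData.y, K7aData.jit]; ring
      rw [e]
      obtain ⟨p1, p2⟩ := abs_le.1 e1
      rw [abs_le]; constructor <;> nlinarith
    · push_cast
      have := Int.le_ceil K
      linarith
  · refine k7a_jsup_floor (r := 3 * K + 3) ?_ ?_
    · rw [← sub_div, abs_div, abs_of_pos ha0, div_le_iff₀ ha0]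
      have e : (D.jit σ Mk).x (l, u) t - D.x l t'
          = k7aCl σ u.2.2.1 + k7aCl σ u.2.2.2.1 * t + k7aCl σ u.2.2.2.2 * t ^ 2 + D.x1 l * (t - t')
            + D.x2 l * ((t - t') * (t + t')) := by
        simp only [K7aData.x, K7aData.jit]; ring
      rw [e]
      obtain ⟨p1, p2⟩ := abs_le.1 e3
      obtain ⟨p3, p4⟩ := abs_le.1 e4
      have : (3 * K + 3) * σ ≤ (3 * K + 3) * a := mul_le_mul_of_nonneg_left hσa (by linarith)
      rw [abs_le]; constructor <;> nlinarith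
    · push_cast
      have := Int.le_ceil (3 * K)
      linarith

theorem k7a_jsup_sq {σ : ℝ} (hσ0 : 0 < σ) (i j : ℤ) :
    volume {o : ℝ × ℝ | ⌊o.1 / σ⌋ = i ∧ ⌊o.2 / σ⌋ = j} = ENNReal.ofReal (σ ^ 2) := by
  have e : {o : ℝ × ℝ | ⌊o.1 / σ⌋ = i ∧ ⌊o.2 / σ⌋ = j}
      = Set.Ico ((i : ℝ) * σ) (((i : ℝ) + 1) * σ) ×ˢ Set.Ico ((j : ℝ) * σ) (((j : ℝ) + 1) * σ) := by
    ext o
    simp only [Set.mem_ofPred_eq, Set.mem_prod, Set.mem_Ico, Int.floor_eq_iff, le_div_iff₀ hσ0, div_lt_iff₀ hσ0]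
  rw [e, Measure.volume_eq_prod, Measure.prod_prod, Real.volume_Ico, Real.volume_Ico,
    ← ENNReal.ofReal_mul (by nlinarith)]
  congr 1
  ring

theorem k7a_jsup_vol {σ : ℝ} (hσ0 : 0 < σ) (T : Finset (ℤ × ℤ × ℤ)) :
    ∑' k : ℤ, volume {o : ℝ × ℝ | (⌊o.1 / σ⌋, ⌊o.2 / σ⌋, k) ∈ T} ≤ (T.card : ℝ≥0∞) * ENNReal.ofReal (σ ^ 2) := by
  classical
  have h1 : ∀ k : ℤ, volume {o : ℝ × ℝ | (⌊o.1 / σ⌋, ⌊o.2 / σ⌋, k) ∈ T}
      ≤ ((T.filter fun τ => τ.2.2 = k).card : ℝ≥0∞) * ENNReal.ofReal (σ ^ 2) := by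
    intro k
    have hsub : {o : ℝ × ℝ | (⌊o.1 / σ⌋, ⌊o.2 / σ⌋, k) ∈ T}
        ⊆ ⋃ τ ∈ T.filter fun τ => τ.2.2 = k, {o : ℝ × ℝ | ⌊o.1 / σ⌋ = τ.1 ∧ ⌊o.2 / σ⌋ = τ.2.1} := by
      intro o ho
      simp only [Set.mem_iUnion]
      exact ⟨_, Finset.mem_filter.2 ⟨ho, rfl⟩, rfl, rfl⟩
    refine (measure_mono hsub).trans ((measure_biUnion_finset_le _ _).trans ?_)
    simp only [k7a_jsup_sq hσ0]
    rw [Finset.sum_const, nsmul_eq_mul]
  refine (ENNReal.tsum_le_tsum h1).trans ?_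
  rw [tsum_eq_sum (s := T.image fun τ => τ.2.2)]
  · rw [← Finset.sum_mul, Finset.card_eq_sum_card_image (fun τ : ℤ × ℤ × ℤ => τ.2.2) T]
    push_cast
    exact le_refl _
  · intro k hk
    have : (T.filter fun τ => τ.2.2 = k) = ∅ := by
      rw [Finset.filter_eq_empty_iff]
      intro τ hτ he
      exact hk (Finset.mem_image.2 ⟨τ, hτ, he⟩)
    rw [this]; simp

theorem k7a_jsup_card {K : ℝ} (hK : 1 ≤ K) (S : Finset (ℤ × ℤ × ℤ)) :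
    (((S.biUnion fun τ => ({τ.1} : Finset ℤ) ×ˢ (Finset.Icc (τ.2.1 - (⌈K⌉ + 3)) (τ.2.1 + (⌈K⌉ + 3)) ×ˢ
      Finset.Icc (τ.2.2 - (⌈3 * K⌉ + 4)) (τ.2.2 + (⌈3 * K⌉ + 4)))).card : ℕ) : ℝ) ≤ (S.card : ℝ) * (187 * K ^ 2) := by
  have h1 := Finset.card_biUnion_le_card_mul S (fun τ => ({τ.1} : Finset ℤ) ×ˢ
      (Finset.Icc (τ.2.1 - (⌈K⌉ + 3)) (τ.2.1 + (⌈K⌉ + 3)) ×ˢ
      Finset.Icc (τ.2.2 - (⌈3 * K⌉ + 4)) (τ.2.2 + (⌈3 * K⌉ + 4))))
      ((2 * ⌈K⌉ + 7).toNat * (2 * ⌈3 * K⌉ + 9).toNat) (by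
    intro τ _
    rw [Finset.card_product, Finset.card_product, Finset.card_singleton, one_mul, Int.card_Icc, Int.card_Icc]
    refine le_of_eq ?_
    congr 2 <;> ring)
  have c1 : (0 : ℤ) ≤ ⌈K⌉ := Int.ceil_nonneg (by linarith)
  have c2 : (0 : ℤ) ≤ ⌈3 * K⌉ := Int.ceil_nonneg (by linarith)
  have d1 := Int.ceil_lt_add_one K
  have d2 := Int.ceil_lt_add_one (3 * K)
  have e1 : (((2 * ⌈K⌉ + 7).toNat : ℕ) : ℝ) = 2 * (⌈K⌉ : ℝ) + 7 := by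
    have : (((2 * ⌈K⌉ + 7).toNat : ℕ) : ℤ) = 2 * ⌈K⌉ + 7 := Int.toNat_of_nonneg (by linarith)
    exact_mod_cast this
  have e2 : (((2 * ⌈3 * K⌉ + 9).toNat : ℕ) : ℝ) = 2 * (⌈3 * K⌉ : ℝ) + 9 := by
    have : (((2 * ⌈3 * K⌉ + 9).toNat : ℕ) : ℤ) = 2 * ⌈3 * K⌉ + 9 := Int.toNat_of_nonneg (by linarith)
    exact_mod_cast this
  have h2 : ((_ : ℕ) : ℝ) ≤ ((S.card * ((2 * ⌈K⌉ + 7).toNat * (2 * ⌈3 * K⌉ + 9).toNat) : ℕ) : ℝ) :=
    Nat.cast_le.2 h1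
  refine h2.trans ?_
  push_cast
  rw [e1, e2]
  refine mul_le_mul_of_nonneg_left ?_ (Nat.cast_nonneg _)
  have f1 : 2 * (⌈K⌉ : ℝ) + 7 ≤ 11 * K := by linarith
  have f2 : 2 * (⌈3 * K⌉ : ℝ) + 9 ≤ 17 * K := by linarith
  have g1 : (0 : ℝ) ≤ (⌈3 * K⌉ : ℝ) := by exact_mod_cast c2
  calc (2 * (⌈K⌉ : ℝ) + 7) * (2 * (⌈3 * K⌉ : ℝ) + 9) ≤ (11 * K) * (17 * K) :=
        mul_le_mul f1 f2 (by linarith) (by linarith)
    _ = 187 * K ^ 2 := by ring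

theorem k7a_jsup_time (m : Measure Λ) [SFinite m] : ∀ᵐ z ∂(m.prod k7aTm), z.2 ∈ Set.Icc (0 : ℝ) 1 := by
  have : SFinite k7aTm := by unfold k7aTm; infer_instance
  refine Measure.quasiMeasurePreserving_snd.ae ?_
  unfold k7aTm
  exact ae_restrict_mem measurableSet_Icc

/-- the section argument -/
theorem k7a_jsup_sec (D : K7aData Λ) {K K1 σ a : ℝ} {Mk : Set (Λ × ℝ)} (hD : D.Adm K) (hM : K7aMarks D σ K1 Mk) (hK : 1 ≤ K)
    (hσ0 : 0 < σ) (hσa : σ ≤ a) (S : Finset (ℤ × ℤ × ℤ))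
    (hS1 : ∀ᵐ z ∂D.mu, (⌊z.2 / σ⌋, ⌊D.y z.1 z.2 / σ⌋, ⌊D.x z.1 z.2 / a⌋) ∈ S) (u : K7aU) (t : ℝ) (A : Set Λ)
    (hAm : MeasurableSet A)
    (hA : ∀ l ∈ A, (l, t) ∈ Mk ∧ t ∈ Set.Icc (0 : ℝ) 1 ∧
      (⌊t / σ⌋, ⌊(D.jit σ Mk).y (l, u) t / σ⌋, ⌊(D.jit σ Mk).x (l, u) t / a⌋) ∉
        S.biUnion fun τ => ({τ.1} : Finset ℤ) ×ˢ (Finset.Icc (τ.2.1 - (⌈K⌉ + 3)) (τ.2.1 + (⌈K⌉ + 3)) ×ˢ
          Finset.Icc (τ.2.2 - (⌈3 * K⌉ + 4)) (τ.2.2 + (⌈3 * K⌉ + 4)))) :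
    D.nu A = 0 := by
  have := hD.prob
  obtain ⟨i, hi⟩ : ∃ i : ℤ, i = ⌊t / σ⌋ := ⟨_, rfl⟩
  have hmk : ∀ l ∈ A, (l, (i : ℝ) * σ) ∈ Mk := by
    intro l hl
    refine (hM.bins l t ((i : ℝ) * σ) ?_).1 (hA l hl).1
    rw [mul_div_cancel_right₀ _ hσ0.ne', Int.floor_intCast, hi]
  have hN : D.mu {z | ¬ (⌊z.2 / σ⌋, ⌊D.y z.1 z.2 / σ⌋, ⌊D.x z.1 z.2 / a⌋) ∈ S} = 0 := ae_iff.1 hS1
  have hO : D.mu {z | ¬ z.2 ∈ Set.Icc (0 : ℝ) 1} = 0 := by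
    have h1 := hD.dom {z | ¬ z.2 ∈ Set.Icc (0 : ℝ) 1}
    have h2 : (D.nu.prod k7aTm) {z | ¬ z.2 ∈ Set.Icc (0 : ℝ) 1} = 0 := ae_iff.1 (k7a_jsup_time D.nu)
    rw [Measure.smul_apply, h2, smul_zero] at h1
    exact le_antisymm h1 zero_le
  have h0 : D.mu (A ×ˢ Set.Ico ((i : ℝ) * σ) (((i : ℝ) + 1) * σ)) = 0 := by
    refine measure_mono_null ?_ (measure_union_null hN hO)
    rintro ⟨l, t'⟩ ⟨hl, ht'⟩
    by_contra hcon
    simp only [Set.mem_union, Set.mem_ofPred_eq, not_or, not_not] at hcon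
    obtain ⟨hc1, hc2⟩ := hcon
    have hl' : l ∈ A := hl
    have ht'' : t' ∈ Set.Ico ((i : ℝ) * σ) (((i : ℝ) + 1) * σ) := ht'
    have hfl : ⌊t' / σ⌋ = ⌊t / σ⌋ := by
      rw [← hi, Int.floor_eq_iff, le_div_iff₀ hσ0, div_lt_iff₀ hσ0]
      exact ht''
    obtain ⟨g1, g2⟩ := k7a_jsup_geo D hD hK hσ0 hσa Mk l u t t' (hA l hl').2.1 hc2 hfl
    apply (hA l hl').2.2
    rw [Finset.mem_biUnion]
    refine ⟨_, hc1, ?_⟩
    rw [Finset.mem_product, Finset.mem_product, Finset.mem_singleton]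
    exact ⟨hfl.symm, g1, g2⟩
  have hf := hM.floor A i hAm hmk
  rw [h0, mul_zero] at hf
  have hf' : ENNReal.ofReal σ * D.nu A = 0 := le_antisymm hf zero_le
  rcases mul_eq_zero.1 hf' with h | h
  · exact absurd h (by simpa using hσ0)
  · exact h

/-- **L-252-S7a-JSUP** the noisy terminal support -/
theorem k7a_jit_esup (D : K7aData Λ) {K K1 σ c d a : ℝ} {Mk : Set (Λ × ℝ)} (hD : D.Adm K) (hM : K7aMarks D σ K1 Mk) (hK : 1 ≤ K)
    (hK1 : 1 ≤ K1) (hσ0 : 0 < σ) (hσa : σ ≤ a) (ha : a ≤ 1) (hc : 0 < c) (hsup : D.Supp K σ c d a) :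
    (D.jit σ Mk).ESup (fun _ => 0) (200 * K ^ 3) c d a := by
  classical
  obtain ⟨S, hS1, hS2⟩ := hsup
  have ha0 : 0 < a := lt_of_lt_of_le hσ0 hσa
  have hpn := hD.prob
  have hpr := k7a_jsup_noise_prob hσ0
  have htmS : SFinite k7aTm := by unfold k7aTm; infer_instance
  obtain ⟨T, hT⟩ : ∃ T : Finset (ℤ × ℤ × ℤ), T = S.biUnion fun τ => ({τ.1} : Finset ℤ) ×ˢ
      (Finset.Icc (τ.2.1 - (⌈K⌉ + 3)) (τ.2.1 + (⌈K⌉ + 3)) ×ˢ
        Finset.Icc (τ.2.2 - (⌈3 * K⌉ + 4)) (τ.2.2 + (⌈3 * K⌉ + 4))) := ⟨_, rfl⟩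
  refine ⟨fun _ k => {o | (⌊o.1 / σ⌋, ⌊o.2 / σ⌋, k) ∈ T}, ?_, ?_, ?_⟩
  · intro _ k
    have hm : Measurable fun o : ℝ × ℝ => (⌊o.1 / σ⌋, ⌊o.2 / σ⌋, k) :=
      (measurable_fst.div_const σ).floor.prodMk ((measurable_snd.div_const σ).floor.prodMk measurable_const)
    exact hm (Set.to_countable (T : Set (ℤ × ℤ × ℤ))).measurableSet
  · have hsetM : MeasurableSet {z : (Λ × K7aU) × ℝ | (z.1.1, z.2) ∈ Mk} :=
      (measurable_fst.fst.prodMk measurable_snd) hM.meas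
    show ∀ᵐ z ∂(((D.nu.prod (k7aNoise σ)).prod k7aTm).restrict {z | (z.1.1, z.2) ∈ Mk}), _
    rw [ae_restrict_iff' hsetM]
    have my0 : Measurable D.y0 := hD.meas.fst
    have my1 : Measurable D.y1 := hD.meas.snd.fst
    have mx0 : Measurable D.x0 := hD.meas.snd.snd.fst
    have mx1 : Measurable D.x1 := hD.meas.snd.snd.snd.fst
    have mx2 : Measurable D.x2 := hD.meas.snd.snd.snd.snd
    have hcl := k7a_jsup_cl_meas σ
    have hy : Measurable fun z : (Λ × K7aU) × ℝ => (D.jit σ Mk).y z.1 z.2 := by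
      simp only [K7aData.y, K7aData.jit]
      exact ((my0.comp measurable_fst.fst).add (hcl.comp measurable_fst.snd.fst)).add
        (((my1.comp measurable_fst.fst).add (hcl.comp measurable_fst.snd.snd.fst)).mul measurable_snd)
    have hx : Measurable fun z : (Λ × K7aU) × ℝ => (D.jit σ Mk).x z.1 z.2 := by
      simp only [K7aData.x, K7aData.jit]
      exact (((mx0.comp measurable_fst.fst).add (hcl.comp measurable_fst.snd.snd.snd.fst)).add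
        (((mx1.comp measurable_fst.fst).add (hcl.comp measurable_fst.snd.snd.snd.snd.fst)).mul measurable_snd)).add
        (((mx2.comp measurable_fst.fst).add (hcl.comp measurable_fst.snd.snd.snd.snd.snd)).mul (measurable_snd.pow_const 2))
    have hcell : Measurable fun z : (Λ × K7aU) × ℝ =>
        (⌊z.2 / σ⌋, ⌊(D.jit σ Mk).y z.1 z.2 / σ⌋, ⌊(D.jit σ Mk).x z.1 z.2 / a⌋) :=
      (measurable_snd.div_const σ).floor.prodMk ((hy.div_const σ).floor.prodMk (hx.div_const a).floor)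
    obtain ⟨B', hB'⟩ : ∃ B' : Set ((Λ × K7aU) × ℝ), B' = {z | (z.1.1, z.2) ∈ Mk} ∩ ({z | z.2 ∈ Set.Icc (0 : ℝ) 1} ∩
        {z | (⌊z.2 / σ⌋, ⌊(D.jit σ Mk).y z.1 z.2 / σ⌋, ⌊(D.jit σ Mk).x z.1 z.2 / a⌋) ∈ (T : Set (ℤ × ℤ × ℤ))}ᶜ) := ⟨_, rfl⟩
    have hB'm : MeasurableSet B' := by
      rw [hB']
      exact hsetM.inter ((measurable_snd measurableSet_Icc).inter
        (hcell (Set.to_countable (T : Set (ℤ × ℤ × ℤ))).measurableSet).compl)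
    have hB'0 : ((D.nu.prod (k7aNoise σ)).prod k7aTm) B' = 0 := by
      rw [Measure.prod_apply_symm hB'm]
      have h1 : ∀ t, (D.nu.prod (k7aNoise σ)) ((fun x => (x, t)) ⁻¹' B') = 0 := by
        intro t
        have hm1 : MeasurableSet ((fun x : Λ × K7aU => (x, t)) ⁻¹' B') := measurable_prodMk_right hB'm
        rw [Measure.prod_apply_symm hm1]
        have h2 : ∀ u, D.nu ((fun l => (l, u)) ⁻¹' ((fun x : Λ × K7aU => (x, t)) ⁻¹' B')) = 0 := by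
          intro u
          refine k7a_jsup_sec D hD hM hK hσ0 hσa S hS1 u t _ (measurable_prodMk_right hm1) ?_
          intro l hl
          have hl' : ((l, u), t) ∈ B' := hl
          rw [hB'] at hl'
          rw [← hT]
          exact ⟨hl'.1, hl'.2.1, hl'.2.2⟩
        simp only [h2, lintegral_zero]
      simp only [h1, lintegral_zero]
    have htm := k7a_jsup_time (D.nu.prod (k7aNoise σ))
    have hnB : ∀ᵐ z ∂((D.nu.prod (k7aNoise σ)).prod k7aTm), z ∉ B' := measure_eq_zero_iff_ae_notMem.1 hB'0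
    filter_upwards [htm, hnB] with z h1 h2 h3
    by_contra h4
    apply h2
    rw [hB']
    exact ⟨h3, h1, h4⟩
  · have hprob : IsProbabilityMeasure (D.nu.prod (k7aNoise σ)) := inferInstance
    have hom0 : (D.jit σ Mk).om (fun _ => 0) 0 = 1 := by
      unfold K7aData.om
      have : ((fun _ : Λ × K7aU => (0 : ℕ)) ⁻¹' {0}) = Set.univ := by ext; simp
      rw [this]
      exact hprob.measure_univ
    have hom : ∀ γ, γ ≠ 0 → (D.jit σ Mk).om (fun _ => 0) γ = 0 := by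
      intro γ hγ
      unfold K7aData.om
      have : ((fun _ : Λ × K7aU => (0 : ℕ)) ⁻¹' {γ}) = ∅ := by
        ext; simp [Ne.symm hγ]
      rw [this, measure_empty]
    rw [tsum_eq_single 0 (fun γ hγ => by rw [hom γ hγ, zero_mul]), hom0, one_mul]
    have hv := k7a_jsup_vol hσ0 T
    have hcard := k7a_jsup_card hK S
    rw [← hT] at hcard
    have had : 0 < a ^ d := Real.rpow_pos_of_pos ha0 d
    calc ENNReal.ofReal (c * a ^ d) * ∑' k : ℤ, volume {o : ℝ × ℝ | (⌊o.1 / σ⌋, ⌊o.2 / σ⌋, k) ∈ T}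
        ≤ ENNReal.ofReal (c * a ^ d) * ((T.card : ℝ≥0∞) * ENNReal.ofReal (σ ^ 2)) := by gcongr
      _ = ENNReal.ofReal (c * a ^ d * ((T.card : ℝ) * σ ^ 2)) := by
          rw [← ENNReal.ofReal_natCast, ← ENNReal.ofReal_mul (Nat.cast_nonneg _), ← ENNReal.ofReal_mul (by positivity)]
      _ ≤ ENNReal.ofReal (200 * K ^ 3) := by
          refine ENNReal.ofReal_le_ofReal ?_
          have h1 : c * a ^ d * ((T.card : ℝ) * σ ^ 2) ≤ c * a ^ d * (((S.card : ℝ) * (187 * K ^ 2)) * σ ^ 2) := by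
            gcongr
          have h2 : c * a ^ d * (((S.card : ℝ) * (187 * K ^ 2)) * σ ^ 2)
              = ((S.card : ℝ) * σ ^ 2 * (c * a ^ d)) * (187 * K ^ 2) := by ring
          have h3 : ((S.card : ℝ) * σ ^ 2 * (c * a ^ d)) * (187 * K ^ 2) ≤ K * (187 * K ^ 2) :=
            mul_le_mul_of_nonneg_right hS2 (by positivity)
          have h4 : 0 ≤ K ^ 3 := by positivity
          nlinarith

/-! ## 2. Full-time fits and return to the original law      (post BP-252-S7a-RET) -/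

/-- the loss of the return step -/
def k7aRet (K K1 σ : ℝ) : ℝ := 10 ^ 20 * (K * K1) ^ 40 * (1 + Real.log (1 / σ))

/-- **return** (07 l.228-292): one block of a true system of the jittered marked law gives the conclusion of Thm 7.1 for the original law -/
theorem k7a_return (D : K7aData Λ) {K K1 σ c d a : ℝ} {Mk : Set (Λ × ℝ)} (hD : D.Adm K) (hM : K7aMarks D σ K1 Mk) (hK : 1 ≤ K)
    (hK1 : 1 ≤ K1) (hσ0 : 0 < σ) (hσa : σ ≤ a) (ha : a ≤ 1) (hc : 0 < c)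
    (hJ : (D.jit σ Mk).Adm K) (hcap : (D.jit σ Mk).ECap (fun _ => 0) K c d a) (hsl : (D.jit σ Mk).ESl (fun _ => 0) K c d a σ)
    (hB : (D.jit σ Mk).Block (fun _ => 0) K c d a) :
    ∃ β : ℝ, σ ≤ k7aRet K K1 σ * β ∧ β ≤ k7aRet K K1 σ ∧ D.Out (k7aRet K K1 σ) β c d a := by
  unfold k7aRet
  exact k7a_r_return D hD hM hK hK1 hσ0 hσa ha hc hJ hcap hsl hB

/-- **return, angular case**: every `u ≤ u₁` with `8 K⁴ < N^{S₁ u}` bounds the interval scale below by `N^{-u}` -/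
theorem k7a_return_ang (D : K7aData Λ) {K K1 σ c d a N S1 u1 u : ℝ} {Mk : Set (Λ × ℝ)} (hD : D.Adm K) (hM : K7aMarks D σ K1 Mk)
    (hK : 1 ≤ K) (hK1 : 1 ≤ K1) (hσ0 : 0 < σ) (hσa : σ ≤ a) (ha : a ≤ 1) (hc : 0 < c) (hN : 1 ≤ N)
    (hJ : (D.jit σ Mk).Adm K) (hcap : (D.jit σ Mk).ECap (fun _ => 0) K c d a) (hsl : (D.jit σ Mk).ESl (fun _ => 0) K c d a σ)
    (hang : (D.jit σ Mk).EAng (fun _ => 0) K c d a N S1 u1) (hu0 : 0 < u) (hu1 : u ≤ u1) (hbig : 8 * K ^ 4 < N ^ (S1 * u))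
    (hB : (D.jit σ Mk).Block (fun _ => 0) K c d a) :
    ∃ β : ℝ, N ^ (-u) ≤ k7aRet K K1 σ * β ∧ β ≤ k7aRet K K1 σ ∧ D.Out (k7aRet K K1 σ) β c d a := by
  unfold k7aRet
  exact k7a_r_return_ang D hD hM hK hK1 hσ0 hσa ha hc hN hJ hcap hsl hang hu0 hu1 hbig hB

/-! ## 3. Obtaining an angular gain      (post BP-252-S7a-CROP) -/

/-- **L-252-S7a-ARGMAX** (07 l.173-191) the maximisation of `(1-R) r - f(r,u) + ε u`, `R = (1-d)/2`, on a finite grid.  `η` = the error of the profile bounds. -/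
theorem k7a_argmax (Gr Gu : Finset ℝ) (f : ℝ → ℝ → ℝ) {s M U d C0 ε η : ℝ} (hd0 : 0 ≤ d) (hd : d < 1) (hε0 : 0 < ε) (hη : 0 ≤ η)
    (hs : s ∈ Gr) (h0 : (0 : ℝ) ∈ Gu) (hGr : ∀ r ∈ Gr, 0 ≤ r ∧ r ≤ s) (hGu : ∀ u ∈ Gu, 0 ≤ u ∧ u ≤ U)
    (hterm : f s 0 ≤ d * s - C0 + η) (hlow : ∀ r ∈ Gr, ∀ u ∈ Gu, d * r - C0 + max 0 (u - M) - η ≤ f r u) :
    ∃ r0 ∈ Gr, ∃ u0 ∈ Gu, (1 - d) / 2 * (s - r0) ≤ ε * U + 2 * η ∧ (1 - ε) * u0 ≤ max M 0 + 2 * η ∧ f r0 u0 ≤ f s 0 + ε * U ∧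
      (∀ r ∈ Gr, f r0 u0 - f r u0 ≤ (1 - (1 - d) / 2) * (r0 - r)) ∧ ∀ u ∈ Gu, ε * (u - u0) ≤ f r0 u - f r0 u0 := by
  obtain ⟨⟨r0, u0⟩, hm, hmax⟩ := Finset.exists_max_image (Gr ×ˢ Gu)
    (fun p : ℝ × ℝ => (1 - (1 - d) / 2) * p.1 - f p.1 p.2 + ε * p.2) ⟨(s, 0), Finset.mem_product.2 ⟨hs, h0⟩⟩
  obtain ⟨hr0, hu0⟩ := Finset.mem_product.1 hm
  simp only at hr0 hu0
  have hmx : ∀ r ∈ Gr, ∀ u ∈ Gu, (1 - (1 - d) / 2) * r - f r u + ε * u ≤ (1 - (1 - d) / 2) * r0 - f r0 u0 + ε * u0 :=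
    fun r hr u hu => hmax (r, u) (Finset.mem_product.2 ⟨hr, hu⟩)
  have h1 := hmx s hs 0 h0
  have h2 := hlow r0 hr0 u0 hu0
  obtain ⟨a1, a2⟩ := hGr r0 hr0
  obtain ⟨b1, b2⟩ := hGu u0 hu0
  have m0 : 0 ≤ max 0 (u0 - M) := le_max_left _ _
  have m1 : u0 - M ≤ max 0 (u0 - M) := le_max_right _ _
  have m2 : M ≤ max M 0 := le_max_left _ _
  have e1 : ε * u0 ≤ ε * U := mul_le_mul_of_nonneg_left b2 hε0.le
  have e2 : 0 ≤ (1 - d) / 2 * (s - r0) := mul_nonneg (by linarith) (by linarith)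
  have e3 : 0 ≤ (1 - (1 - d) / 2) * (s - r0) := mul_nonneg (by linarith) (by linarith)
  refine ⟨r0, hr0, u0, hu0, ?_, ?_, ?_, ?_, ?_⟩
  · nlinarith
  · nlinarith
  · nlinarith
  · intro r hr
    have := hmx r hr u0 hu0
    nlinarith
  · intro u hu
    have := hmx r0 hr0 u hu
    nlinarith

/-- a measure dominated by `c • volume` has a density `≤ c` EVERYWHERE -/
theorem k7a_homog_dens (ν : Measure (ℝ × ℝ)) [IsFiniteMeasure ν] (c : ℝ≥0∞) (h : ν ≤ c • volume) :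
    ∃ g : ℝ × ℝ → ℝ≥0∞, Measurable g ∧ (∀ o, g o ≤ c) ∧ ν = volume.withDensity g := by
  have hac : ν ≪ volume := Measure.absolutelyContinuous_of_le_smul h
  have hd : volume.withDensity (ν.rnDeriv volume) = ν := Measure.withDensity_rnDeriv_eq ν volume hac
  have hm : Measurable (ν.rnDeriv volume) := Measure.measurable_rnDeriv ν volume
  have hle : ν.rnDeriv volume ≤ᵐ[volume] fun _ => c := by
    refine ae_le_of_forall_setLIntegral_le_of_sigmaFinite hm fun s hs _ => ?_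
    rw [← withDensity_apply _ hs, hd, setLIntegral_const]
    exact h s
  refine ⟨fun o => min (ν.rnDeriv volume o) c, hm.min measurable_const, fun o => min_le_right _ _, ?_⟩
  rw [← hd]
  refine withDensity_congr_ae ?_
  filter_upwards [hle] with o ho
  rw [hd]
  exact (min_eq_left ho).symm

/-- fibred sets over a countable label -/
theorem k7a_homog_fib {Ω : Type} [MeasurableSpace Ω] (μ : Measure Ω) (b : Ω → ℝ × ℝ) (hb : Measurable b)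
    (l : Ω → ℤ × ℤ) (hl : Measurable l) (S : ℤ × ℤ → Set (ℝ × ℝ)) (hS : ∀ e, MeasurableSet (S e)) :
    MeasurableSet {ω | b ω ∈ S (l ω)} ∧ μ {ω | b ω ∈ S (l ω)} = ∑' e, μ (l ⁻¹' {e} ∩ b ⁻¹' (S e)) := by
  have he : {ω | b ω ∈ S (l ω)} = ⋃ e, l ⁻¹' {e} ∩ b ⁻¹' (S e) := by
    ext ω
    simp only [Set.mem_ofPred_eq, Set.mem_iUnion, Set.mem_inter_iff, Set.mem_preimage, Set.mem_singleton_iff]
    constructor
    · intro h; exact ⟨l ω, rfl, h⟩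
    · rintro ⟨e, rfl, h⟩; exact h
  have hm : ∀ e, MeasurableSet (l ⁻¹' {e} ∩ b ⁻¹' (S e)) := fun e =>
    (hl (measurableSet_singleton e)).inter (hb (hS e))
  refine ⟨by rw [he]; exact MeasurableSet.iUnion hm, ?_⟩
  rw [he]
  refine measure_iUnion ?_ hm
  intro e e' hee
  refine Set.disjoint_left.2 ?_
  rintro ω ⟨h1, _⟩ ⟨h2, _⟩
  exact hee (h1.symm.trans h2)

/-- the levels cover `[0, c 0]` -/
theorem k7a_homog_lev (c : ℕ → ℝ≥0∞) (x : ℝ≥0∞) (hx : x ≤ c 0) (n : ℕ) :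
    x ≤ c n ∨ ∃ k, k < n ∧ c (k + 1) < x ∧ x ≤ c k := by
  induction n with
  | zero => exact Or.inl hx
  | succ n ih =>
    rcases ih with h | ⟨k, hk, h1, h2⟩
    · rcases le_or_gt x (c (n + 1)) with h' | h'
      · exact Or.inl h'
      · exact Or.inr ⟨n, Nat.lt_succ_self n, h', h⟩
    · exact Or.inr ⟨k, hk.trans (Nat.lt_succ_self n), h1, h2⟩

/-- **L-252-S7a-HOMOG** ONE-SCALE HOMOGENISATION (02 L2.5 at one scale).  Finitely many discrete labels `ℓ i` over an exact base `b`; all densities `≤ Hi`; the (label, base) pairs live in a region of measure `≤ V`.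
Quantise the densities in `J` levels of ratio `θ`.  One type `j` carries the fraction `J^{-#ι}` of the mass (up to the part of density `≤ Hi θ^{-J}`); on it: ceilings `Hi θ^{-j i}` and supports `≤ θ^{j i + 1} / Hi · mass`.
Proof: `g_{i,e}` = Radon-Nikodym derivative of `(μ|{ℓ i = e}).map b`; `E0 = {ω : ∀ i, Hi θ^{-(j i + 1)} < g_{i, ℓ i ω}(b ω) ≤ Hi θ^{-j i}}`; `U i e = {o : Hi θ^{-(j i + 1)} < g_{i,e} o}`; pigeonhole. -/
theorem k7a_homog {Ω ι : Type} [MeasurableSpace Ω] [Fintype ι] (μ : Measure Ω) [IsFiniteMeasure μ] (b : Ω → ℝ × ℝ) (hb : Measurable b)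
    (ℓ : ι → Ω → ℤ × ℤ) (hℓ : ∀ i, Measurable (ℓ i)) {Hi V θ : ℝ} {J : ℕ} (hHi : 0 < Hi) (hV : 0 ≤ V) (hθ : 1 < θ) (hJ : 0 < J)
    (hup : ∀ i e B, MeasurableSet B → μ (ℓ i ⁻¹' {e} ∩ b ⁻¹' B) ≤ ENNReal.ofReal Hi * volume B)
    (hreg : ∀ i, ∃ Rg : ℤ × ℤ → Set (ℝ × ℝ), (∀ e, MeasurableSet (Rg e)) ∧ (∀ᵐ ω ∂μ, b ω ∈ Rg (ℓ i ω)) ∧
      ∑' e, volume (Rg e) ≤ ENNReal.ofReal V) :
    ∃ (E0 : Set Ω) (j : ι → ℕ), MeasurableSet E0 ∧ (∀ i, j i < J) ∧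
      μ Set.univ ≤ (J : ℝ≥0∞) ^ Fintype.card ι * μ E0 + ENNReal.ofReal (Fintype.card ι * (Hi / θ ^ J) * V) ∧
      (∀ i e B, MeasurableSet B → μ (E0 ∩ ℓ i ⁻¹' {e} ∩ b ⁻¹' B) ≤ ENNReal.ofReal (Hi / θ ^ (j i)) * volume B) ∧
      ∀ i, ∃ U : ℤ × ℤ → Set (ℝ × ℝ), (∀ e, MeasurableSet (U e)) ∧ (∀ ω ∈ E0, b ω ∈ U (ℓ i ω)) ∧
        ENNReal.ofReal (Hi / θ ^ (j i + 1)) * ∑' e, volume (U e) ≤ μ Set.univ := by
  classical
  have hθ0 : 0 < θ := by linarith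
  -- the densities
  have hex : ∀ i e, ∃ g : ℝ × ℝ → ℝ≥0∞, Measurable g ∧ (∀ o, g o ≤ ENNReal.ofReal Hi) ∧
      ∀ B, MeasurableSet B → μ (ℓ i ⁻¹' {e} ∩ b ⁻¹' B) = ∫⁻ o in B, g o := by
    intro i e
    have happ : ∀ B, MeasurableSet B → (μ.restrict (ℓ i ⁻¹' {e})).map b B = μ (ℓ i ⁻¹' {e} ∩ b ⁻¹' B) := by
      intro B hB
      rw [Measure.map_apply hb hB, Measure.restrict_apply (hb hB), Set.inter_comm]
    have hfin : IsFiniteMeasure ((μ.restrict (ℓ i ⁻¹' {e})).map b) := inferInstance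
    obtain ⟨g, hg1, hg2, hg3⟩ := k7a_homog_dens ((μ.restrict (ℓ i ⁻¹' {e})).map b) (ENNReal.ofReal Hi) (by
      refine Measure.le_iff.2 fun B hB => ?_
      rw [happ B hB]
      simpa using hup i e B hB)
    refine ⟨g, hg1, hg2, fun B hB => ?_⟩
    rw [← happ B hB, hg3, withDensity_apply _ hB]
  choose g hgm hgle hgd using hex
  -- the levels
  obtain ⟨c, hc⟩ : ∃ c : ℕ → ℝ≥0∞, ∀ k, c k = ENNReal.ofReal (Hi / θ ^ k) := ⟨_, fun _ => rfl⟩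
  have hc0 : c 0 = ENNReal.ofReal Hi := by rw [hc]; simp
  have hAm : ∀ i e k, MeasurableSet {o | c (k + 1) < g i e o ∧ g i e o ≤ c k} := fun i e k =>
    (measurableSet_lt measurable_const (hgm i e)).inter (measurableSet_le (hgm i e) measurable_const)
  have hEim : ∀ i k, MeasurableSet {ω | c (k + 1) < g i (ℓ i ω) (b ω) ∧ g i (ℓ i ω) (b ω) ≤ c k} := fun i k =>
    (k7a_homog_fib μ b hb (ℓ i) (hℓ i) (fun e => {o | c (k + 1) < g i e o ∧ g i e o ≤ c k}) (fun e => hAm i e k)).1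
  have hEm : ∀ j : ι → Fin J,
      MeasurableSet {ω | ∀ i, c ((j i : ℕ) + 1) < g i (ℓ i ω) (b ω) ∧ g i (ℓ i ω) (b ω) ≤ c (j i)} := by
    intro j
    have : {ω | ∀ i, c ((j i : ℕ) + 1) < g i (ℓ i ω) (b ω) ∧ g i (ℓ i ω) (b ω) ≤ c (j i)}
        = ⋂ i, {ω | c ((j i : ℕ) + 1) < g i (ℓ i ω) (b ω) ∧ g i (ℓ i ω) (b ω) ≤ c (j i)} := by
      ext ω; simp
    rw [this]
    exact MeasurableSet.iInter fun i => hEim i _
  -- the part of low density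
  have hbad : ∀ i, μ {ω | g i (ℓ i ω) (b ω) ≤ c J} ≤ c J * ENNReal.ofReal V := by
    intro i
    obtain ⟨Rg, hR1, hR2, hR3⟩ := hreg i
    have hSm : ∀ e, MeasurableSet ({o | g i e o ≤ c J} ∩ Rg e) := fun e =>
      (measurableSet_le (hgm i e) measurable_const).inter (hR1 e)
    have h1 : μ {ω | g i (ℓ i ω) (b ω) ≤ c J} ≤ μ {ω | b ω ∈ {o | g i (ℓ i ω) o ≤ c J} ∩ Rg (ℓ i ω)} := by
      refine measure_mono_ae ?_
      filter_upwards [hR2] with ω hω h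
      exact ⟨h, hω⟩
    refine h1.trans ?_
    rw [(k7a_homog_fib μ b hb (ℓ i) (hℓ i) (fun e => {o | g i e o ≤ c J} ∩ Rg e) hSm).2]
    calc ∑' e, μ (ℓ i ⁻¹' {e} ∩ b ⁻¹' ({o | g i e o ≤ c J} ∩ Rg e))
        ≤ ∑' e, c J * volume (Rg e) := by
          refine ENNReal.tsum_le_tsum fun e => ?_
          rw [hgd i e _ (hSm e)]
          calc ∫⁻ o in {o | g i e o ≤ c J} ∩ Rg e, g i e o
              ≤ ∫⁻ _o in {o | g i e o ≤ c J} ∩ Rg e, c J := setLIntegral_mono' (hSm e) fun o ho => ho.1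
            _ = c J * volume ({o | g i e o ≤ c J} ∩ Rg e) := setLIntegral_const _ _
            _ ≤ c J * volume (Rg e) := by gcongr; exact Set.inter_subset_right
      _ = c J * ∑' e, volume (Rg e) := ENNReal.tsum_mul_left
      _ ≤ c J * ENNReal.ofReal V := by gcongr
  -- pigeonhole
  have : Nonempty (Fin J) := ⟨⟨0, hJ⟩⟩
  obtain ⟨j, hj⟩ := Finite.exists_max fun j : ι → Fin J =>
    μ {ω | ∀ i, c ((j i : ℕ) + 1) < g i (ℓ i ω) (b ω) ∧ g i (ℓ i ω) (b ω) ≤ c (j i)}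
  refine ⟨_, fun i => (j i : ℕ), hEm j, fun i => (j i).2, ?_, ?_, ?_⟩
  · have hcov : (Set.univ : Set Ω) ⊆ (⋃ i, {ω | g i (ℓ i ω) (b ω) ≤ c J}) ∪
        ⋃ j : ι → Fin J, {ω | ∀ i, c ((j i : ℕ) + 1) < g i (ℓ i ω) (b ω) ∧ g i (ℓ i ω) (b ω) ≤ c (j i)} := by
      intro ω _
      by_cases h : ∃ i, g i (ℓ i ω) (b ω) ≤ c J
      · obtain ⟨i, hi⟩ := h
        exact Or.inl (Set.mem_iUnion.2 ⟨i, hi⟩)
      · push Not at h
        have h2 : ∀ i, ∃ k : Fin J, c ((k : ℕ) + 1) < g i (ℓ i ω) (b ω) ∧ g i (ℓ i ω) (b ω) ≤ c k := by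
          intro i
          rcases k7a_homog_lev c (g i (ℓ i ω) (b ω)) (by rw [hc0]; exact hgle _ _ _) J with h' | ⟨k, hk, h1, h2⟩
          · exact absurd h' (not_le.2 (h i))
          · exact ⟨⟨k, hk⟩, h1, h2⟩
        choose k hk using h2
        exact Or.inr (Set.mem_iUnion.2 ⟨k, hk⟩)
    calc μ Set.univ ≤ μ (⋃ i, {ω | g i (ℓ i ω) (b ω) ≤ c J}) +
          μ (⋃ j : ι → Fin J, {ω | ∀ i, c ((j i : ℕ) + 1) < g i (ℓ i ω) (b ω) ∧ g i (ℓ i ω) (b ω) ≤ c (j i)}) :=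
          (measure_mono hcov).trans (measure_union_le _ _)
      _ ≤ ∑ _i : ι, c J * ENNReal.ofReal V + ∑ _j' : ι → Fin J,
          μ {ω | ∀ i, c ((j i : ℕ) + 1) < g i (ℓ i ω) (b ω) ∧ g i (ℓ i ω) (b ω) ≤ c (j i)} := by
          refine add_le_add ((measure_iUnion_fintype_le _ _).trans (Finset.sum_le_sum fun i _ => hbad i))
            ((measure_iUnion_fintype_le _ _).trans (Finset.sum_le_sum fun j' _ => hj j'))
      _ = _ := by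
          rw [Finset.sum_const, Finset.sum_const, Finset.card_univ, Finset.card_univ, Fintype.card_fun,
            Fintype.card_fin, nsmul_eq_mul, nsmul_eq_mul, add_comm, hc,
            ENNReal.ofReal_mul (by positivity), ENNReal.ofReal_mul (by positivity), ENNReal.ofReal_natCast]
          push_cast
          ring
  · intro i e B hB
    have hsub : {ω | ∀ i, c ((j i : ℕ) + 1) < g i (ℓ i ω) (b ω) ∧ g i (ℓ i ω) (b ω) ≤ c (j i)} ∩ ℓ i ⁻¹' {e} ∩ b ⁻¹' B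
        ⊆ ℓ i ⁻¹' {e} ∩ b ⁻¹' ({o | g i e o ≤ c (j i)} ∩ B) := by
      rintro ω ⟨⟨h1, h2⟩, h3⟩
      have h2' : ℓ i ω = e := h2
      refine ⟨h2, ?_, h3⟩
      have := (h1 i).2
      rw [h2'] at this
      exact this
    have hSm : MeasurableSet ({o | g i e o ≤ c (j i)} ∩ B) := (measurableSet_le (hgm i e) measurable_const).inter hB
    refine (measure_mono hsub).trans ?_
    rw [hgd i e _ hSm, ← hc]
    calc ∫⁻ o in {o | g i e o ≤ c (j i)} ∩ B, g i e o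
        ≤ ∫⁻ _o in {o | g i e o ≤ c (j i)} ∩ B, c (j i) := setLIntegral_mono' hSm fun o ho => ho.1
      _ = c (j i) * volume ({o | g i e o ≤ c (j i)} ∩ B) := setLIntegral_const _ _
      _ ≤ c (j i) * volume B := by gcongr; exact Set.inter_subset_right
  · intro i
    have hUm : ∀ e, MeasurableSet {o | c ((j i : ℕ) + 1) < g i e o} := fun e =>
      measurableSet_lt measurable_const (hgm i e)
    refine ⟨fun e => {o | c ((j i : ℕ) + 1) < g i e o}, hUm, fun ω hω => (hω i).1, ?_⟩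
    rw [← hc, ← ENNReal.tsum_mul_left]
    calc ∑' e, c ((j i : ℕ) + 1) * volume {o | c ((j i : ℕ) + 1) < g i e o}
        ≤ ∑' e, μ (ℓ i ⁻¹' {e} ∩ b ⁻¹' {o | c ((j i : ℕ) + 1) < g i e o}) := by
          refine ENNReal.tsum_le_tsum fun e => ?_
          rw [hgd i e _ (hUm e), ← setLIntegral_const]
          exact setLIntegral_mono' (hUm e) fun o ho => le_of_lt ho
      _ = μ {ω | b ω ∈ {o | c ((j i : ℕ) + 1) < g i (ℓ i ω) o}} :=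
          (k7a_homog_fib μ b hb (ℓ i) (hℓ i) (fun e => {o | c ((j i : ℕ) + 1) < g i e o}) hUm).2.symm
      _ ≤ μ Set.univ := measure_mono (Set.subset_univ _)

/-! **obtaining an angular gain** (07 l.173-226): `k7a_c_front : k7a_FrontAng → k7a_Front` is PROVED in `S7a/CropMain.lean` (helper85); assembly in `S7a/T71Main.lean`. -/

/-! ## 4. Glue -/

theorem k7a_glue_adm_mono {D : K7aData Λ} {K K' : ℝ} (hK : K ≤ K') (h : D.Adm K) : D.Adm K' where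
  prob := h.prob
  meas := h.meas
  bd := fun l => by
    obtain ⟨h1, h2, h3, h4, h5⟩ := h.bd l
    exact ⟨h1.trans hK, h2.trans hK, h3.trans hK, h4.trans hK, h5.trans hK⟩
  dom := h.dom.trans (Measure.le_iff.2 fun s _ => by
    simp only [Measure.smul_apply, smul_eq_mul]
    gcongr)
  mass := h.mass.trans (by gcongr)

theorem k7a_glue_tmp_mono {D : K7aData Λ} {wd : Λ → ℕ} {Q Q' : ℝ} (hQ : Q ≤ Q') (h : D.Tmp wd Q) : D.Tmp wd Q' where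
  meas := h.meas
  card := by
    obtain ⟨S, h1, h2⟩ := h.card
    exact ⟨S, h1, h2.trans hQ⟩
  dens := fun γ => (h.dens γ).trans (Measure.le_iff.2 fun s _ => by
    simp only [Measure.smul_apply, smul_eq_mul]
    gcongr)

theorem k7a_glue_ecap_mono {D : K7aData Λ} {wd : Λ → ℕ} {K K' c d a : ℝ} (hK : K ≤ K') (hc : 0 ≤ c) (ha : 0 ≤ a)
    (h : D.ECap wd K c d a) : D.ECap wd K' c d a := by
  intro γ B p xs hB hp hp1
  have hp0 : 0 ≤ p := ha.trans hp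
  have : 0 ≤ p ^ d := Real.rpow_nonneg hp0 d
  refine (h γ B p xs hB hp hp1).trans ?_
  gcongr

theorem k7a_glue_esl_mono {D : K7aData Λ} {wd : Λ → ℕ} {K K' c d a σ : ℝ} (hK : K ≤ K') (hc : 0 ≤ c) (ha : 0 ≤ a)
    (h : D.ESl wd K c d a σ) : D.ESl wd K' c d a σ := by
  intro γ B p xs ρ vs hB hp hp1 hρ hρσ
  have hp0 : 0 ≤ p := ha.trans hp
  have : 0 ≤ p ^ d := Real.rpow_nonneg hp0 d
  have hσ : 0 < σ := hρ.trans_le hρσ
  have : 0 ≤ ρ / σ := by positivity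
  refine (h γ B p xs ρ vs hB hp hp1 hρ hρσ).trans ?_
  gcongr

theorem k7a_glue_eang_mono {D : K7aData Λ} {wd : Λ → ℕ} {K K' c d a N S1 u1 : ℝ} (hK : K ≤ K') (hc : 0 ≤ c) (ha : 0 ≤ a)
    (hN : 0 ≤ N) (h : D.EAng wd K c d a N S1 u1) : D.EAng wd K' c d a N S1 u1 := by
  intro γ B xs vs u hB hu hu1
  have : 0 ≤ a ^ d := Real.rpow_nonneg ha d
  have : 0 ≤ N ^ (-(S1 * u)) := Real.rpow_nonneg hN _
  refine (h γ B xs vs u hB hu hu1).trans ?_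
  gcongr

theorem k7a_glue_esup_mono {D : K7aData Λ} {wd : Λ → ℕ} {K K' c d a : ℝ} (hK : K ≤ K')
    (h : D.ESup wd K c d a) : D.ESup wd K' c d a := by
  obtain ⟨U, h1, h2, h3⟩ := h
  exact ⟨U, h1, h2, h3.trans (ENNReal.ofReal_le_ofReal hK)⟩

theorem k7a_glue_block_mono {D : K7aData Λ} {wd : Λ → ℕ} {K K' c d a : ℝ} (hK0 : 0 < K) (hK : K ≤ K') (ha : 0 ≤ a)
    (h : D.Block wd K c d a) : D.Block wd K' c d a := by
  obtain ⟨t0, q, n, lab, L, β, w, h1, h2, h3, h4, h5, h6⟩ := h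
  have hq : 0 ≤ q := by
    by_contra hq
    push Not at hq
    nlinarith
  refine ⟨t0, q, n, lab, L, β, w, h1, h2, h3.trans (by gcongr), h4, h5.trans (by gcongr), fun i => ?_⟩
  obtain ⟨g1, g2, g3, g4, g5⟩ := h6 i
  refine ⟨g1, g2, g3.trans hK, fun l hl => ?_, g5.trans (by gcongr)⟩
  obtain ⟨e1, e2⟩ := g4 l hl
  refine ⟨e1, fun t ht => ?_⟩
  obtain ⟨f1, f2⟩ := e2 t ht
  exact ⟨f1.trans (by gcongr), f2.trans (by gcongr)⟩

theorem k7a_glue_out_mono {D : K7aData Λ} {K K' β c d a : ℝ} (hK : K ≤ K') (hβ : 0 ≤ β) (ha : 0 ≤ a)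
    (h : D.Out K β c d a) : D.Out K' β c d a := by
  obtain ⟨n, lab, L, h1, h2, h3⟩ := h
  refine ⟨n, lab, L, h1, h2.trans (by gcongr), fun i => ?_⟩
  obtain ⟨g1, g2, g3, g4, g5, g6⟩ := h3 i
  refine ⟨g1, g2.trans hK, g3.trans hK, fun t ht u hu => (g4 t ht u hu).trans hK, fun l hl t ht => ?_,
    g6.trans (by gcongr)⟩
  obtain ⟨f1, f2⟩ := g5 l hl t ht
  exact ⟨f1.trans (by gcongr), f2.trans (by gcongr)⟩

theorem k7a_glue_big (C ε : ℝ) (hε : 0 < ε) : ∃ N1 : ℝ, 1 ≤ N1 ∧ ∀ N, N1 ≤ N → C ≤ N ^ ε := by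
  obtain ⟨N0, hN0⟩ := Filter.eventually_atTop.1 ((tendsto_rpow_atTop hε).eventually_ge_atTop C)
  exact ⟨max 1 N0, le_max_left _ _, fun N hN => hN0 N ((le_max_right _ _).trans hN)⟩

theorem k7a_glue_ret (M τ2 : ℝ) (hM : 0 < M) (hτ : 0 < τ2) : ∃ N1 : ℝ, 1 ≤ N1 ∧ ∀ N, N1 ≤ N → ∀ τ σ : ℝ, 0 ≤ τ → τ ≤ τ2 →
    τ ≤ 1 → N ^ (-M - τ) ≤ σ → k7aRet (N ^ τ2) (2 * N ^ τ) σ ≤ N ^ (160 * τ2) := by
  obtain ⟨N1, hN1, hbig⟩ := k7a_glue_big (10 ^ 20 * 2 ^ 40 * (1 + (M + 1) / (40 * τ2))) (40 * τ2) (by positivity)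
  refine ⟨N1, hN1, fun N hN τ σ hτ0 hτ2 hτ1 hσ => ?_⟩
  have hN1' : 1 ≤ N := hN1.trans hN
  have hN0 : 0 < N := by linarith
  have hb := hbig N hN
  have hlogN : 0 ≤ Real.log N := Real.log_nonneg hN1'
  have hσ0 : 0 < σ := (Real.rpow_pos_of_pos hN0 _).trans_le hσ
  -- the logarithm
  have h1 : Real.log (1 / σ) ≤ (M + 1) * Real.log N := by
    rw [one_div, Real.log_inv]
    have := Real.log_le_log (Real.rpow_pos_of_pos hN0 _) hσ
    rw [Real.log_rpow hN0] at this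
    nlinarith
  have h2 : Real.log N ≤ N ^ (40 * τ2) / (40 * τ2) := Real.log_le_rpow_div hN0.le (by positivity)
  have h3 : 1 ≤ N ^ (40 * τ2) := Real.one_le_rpow hN1' (by positivity)
  have h4 : 1 + Real.log (1 / σ) ≤ (1 + (M + 1) / (40 * τ2)) * N ^ (40 * τ2) := by
    have : (M + 1) * Real.log N ≤ (M + 1) * (N ^ (40 * τ2) / (40 * τ2)) :=
      mul_le_mul_of_nonneg_left h2 (by linarith)
    have e : (M + 1) * (N ^ (40 * τ2) / (40 * τ2)) = (M + 1) / (40 * τ2) * N ^ (40 * τ2) := by ring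
    nlinarith
  -- the power
  have h5 : (N ^ τ2 * (2 * N ^ τ)) ^ 40 ≤ 2 ^ 40 * N ^ (80 * τ2) := by
    have e1 : N ^ τ ≤ N ^ τ2 := Real.rpow_le_rpow_of_exponent_le hN1' hτ2
    have e2 : N ^ τ2 * (2 * N ^ τ) ≤ 2 * N ^ (2 * τ2) := by
      have : N ^ (2 * τ2) = N ^ τ2 * N ^ τ2 := by rw [← Real.rpow_add hN0]; ring_nf
      rw [this]
      have := Real.rpow_pos_of_pos hN0 τ2
      nlinarith
    have e3 : (2 * N ^ (2 * τ2)) ^ 40 = 2 ^ 40 * N ^ (80 * τ2) := by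
      rw [mul_pow, ← Real.rpow_natCast (N ^ (2 * τ2)) 40, ← Real.rpow_mul hN0.le]
      norm_num
      ring_nf
    rw [← e3]
    have := Real.rpow_pos_of_pos hN0 τ2
    have := Real.rpow_pos_of_pos hN0 τ
    exact pow_le_pow_left₀ (by positivity) e2 40
  unfold k7aRet
  have hP80 := Real.rpow_pos_of_pos hN0 (80 * τ2)
  have hP40 := Real.rpow_pos_of_pos hN0 (40 * τ2)
  have e160 : N ^ (160 * τ2) = N ^ (80 * τ2) * (N ^ (40 * τ2) * N ^ (40 * τ2)) := by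
    rw [← Real.rpow_add hN0, ← Real.rpow_add hN0]; ring_nf
  rw [e160]
  have hpos : 0 ≤ (N ^ τ2 * (2 * N ^ τ)) ^ 40 := by positivity
  calc 10 ^ 20 * (N ^ τ2 * (2 * N ^ τ)) ^ 40 * (1 + Real.log (1 / σ))
      ≤ 10 ^ 20 * (N ^ τ2 * (2 * N ^ τ)) ^ 40 * ((1 + (M + 1) / (40 * τ2)) * N ^ (40 * τ2)) := by gcongr
    _ ≤ 10 ^ 20 * (2 ^ 40 * N ^ (80 * τ2)) * ((1 + (M + 1) / (40 * τ2)) * N ^ (40 * τ2)) := by gcongr
    _ = N ^ (80 * τ2) * ((10 ^ 20 * 2 ^ 40 * (1 + (M + 1) / (40 * τ2))) * N ^ (40 * τ2)) := by ring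
    _ ≤ N ^ (80 * τ2) * (N ^ (40 * τ2) * N ^ (40 * τ2)) := by gcongr

theorem k7a_glue_jit (D : K7aData Λ) {K0 σ c d a : ℝ} {m : ℕ} (hD : D.Adm K0) (hK : 1 ≤ K0) (hσ : σ = (1 / 2 : ℝ) ^ m)
    (hσa : σ ≤ a) (ha : a ≤ 1) (hc : 0 < c) (hcap : D.Cap K0 σ c d a) (hsup : D.Supp K0 σ c d a) :
    ∃ Mk, K7aMarks D σ (2 * K0) Mk ∧ (D.jit σ Mk).Evt ∧ (D.jit σ Mk).Tmp (fun _ => 0) (σ⁻¹ ^ 5) ∧
      ∀ K', 400 * K0 ^ 4 ≤ K' → (D.jit σ Mk).Adm K' ∧ (D.jit σ Mk).ECap (fun _ => 0) K' c d a ∧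
        (D.jit σ Mk).ESl (fun _ => 0) K' c d a σ ∧ (D.jit σ Mk).ESup (fun _ => 0) K' c d a := by
  have hσ0 : 0 < σ := by rw [hσ]; positivity
  have hσ1 : σ ≤ 1 := hσa.trans ha
  have ha0 : 0 ≤ a := hσ0.le.trans hσa
  obtain ⟨Mk, hM⟩ := k7a_marks_exist D (K1 := 2 * K0) hD hσ (by linarith)
  have hK1 : 1 ≤ 2 * K0 := by linarith
  obtain ⟨hA, hE⟩ := k7a_jit_adm D hD hM hK le_rfl hσ0 hσ1
  refine ⟨Mk, hM, hE, k7a_jit_tmp D Mk hD hσ0 hσ1, fun K' hK' => ?_⟩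
  have p2 : K0 ^ 2 ≤ K0 ^ 4 := pow_le_pow_right₀ hK (by norm_num)
  have p3 : K0 ^ 3 ≤ K0 ^ 4 := pow_le_pow_right₀ hK (by norm_num)
  have p4 : 0 < K0 ^ 4 := by positivity
  refine ⟨k7a_glue_adm_mono (by linarith) hA,
    k7a_glue_ecap_mono (by nlinarith) hc.le ha0 (k7a_jit_ecap D hD hM hK hK1 hσ0 hσa ha hc hcap),
    k7a_glue_esl_mono (by nlinarith) hc.le ha0 (k7a_jit_esl D hD hM hK hK1 hσ0 hσa ha hc hcap),
    k7a_glue_esup_mono (by linarith) (k7a_jit_esup D hD hM hK hK1 hσ0 hσa ha hc hsup)⟩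

theorem k7a_glue_ret_nn (K K1 : ℝ) {σ : ℝ} (hσ0 : 0 < σ) (hσ1 : σ ≤ 1) : 0 ≤ k7aRet K K1 σ := by
  unfold k7aRet
  have : 0 ≤ Real.log (1 / σ) := Real.log_nonneg (by rw [le_div_iff₀ hσ0]; linarith)
  positivity

theorem k7a_glue_pos {R β x : ℝ} (hR : 0 ≤ R) (hx : 0 < x) (h : x ≤ R * β) : 0 < β := by
  by_contra hcon
  push Not at hcon
  have := mul_nonpos_of_nonneg_of_nonpos hR hcon
  linarith

theorem k7a_glue_8 {N τ2 w : ℝ} (hN : 1 ≤ N) (hτ : 4 * τ2 ≤ w / 2) (hb : 9 ≤ N ^ (w / 2)) :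
    8 * (N ^ τ2) ^ 4 < N ^ w := by
  have hN0 : 0 < N := by linarith
  have e1 : (N ^ τ2) ^ 4 = N ^ (4 * τ2) := by
    rw [← Real.rpow_natCast (N ^ τ2) 4, ← Real.rpow_mul hN0.le]
    norm_num
    ring_nf
  have e2 : N ^ (4 * τ2) ≤ N ^ (w / 2) := Real.rpow_le_rpow_of_exponent_le hN hτ
  have e3 : N ^ w = N ^ (w / 2) * N ^ (w / 2) := by
    rw [← Real.rpow_add hN0]; ring_nf
  have e5 := Real.rpow_pos_of_pos hN0 (4 * τ2)
  rw [e1, e3]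
  nlinarith

/-- `400 K₀⁴ ≤ N^{τm}` -/
theorem k7a_glue_400 {N τ τm : ℝ} (hN : 1 ≤ N) (hτ : τ ≤ τm / 5) (hb : 400 ≤ N ^ (τm / 5)) :
    400 * (N ^ τ) ^ 4 ≤ N ^ τm := by
  have hN0 : 0 < N := by linarith
  have e1 : (N ^ τ) ^ 4 = N ^ (4 * τ) := by
    rw [← Real.rpow_natCast (N ^ τ) 4, ← Real.rpow_mul hN0.le]
    norm_num
    ring_nf
  have e2 : N ^ (4 * τ) ≤ N ^ (4 * (τm / 5)) := Real.rpow_le_rpow_of_exponent_le hN (by linarith)
  have e3 : N ^ τm = N ^ (τm / 5) * N ^ (4 * (τm / 5)) := by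
    rw [← Real.rpow_add hN0]; ring_nf
  rw [e1, e3]
  have := Real.rpow_pos_of_pos hN0 (4 * τ)
  gcongr

/-- `σ⁻⁵ ≤ N^{5M+5}` -/
theorem k7a_glue_tmpQ {N M τ σ : ℝ} (hN : 1 ≤ N) (hτ : τ ≤ 1) (hσ : N ^ (-M - τ) ≤ σ) :
    σ⁻¹ ^ 5 ≤ N ^ (5 * M + 5) := by
  have hN0 : 0 < N := by linarith
  have hp := Real.rpow_pos_of_pos hN0 (-M - τ)
  have h1 : σ⁻¹ ≤ N ^ (M + τ) := by
    have : N ^ (M + τ) = (N ^ (-M - τ))⁻¹ := by
      rw [← Real.rpow_neg hN0.le]; ring_nf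
    rw [this]
    exact inv_anti₀ hp hσ
  have h2 : (N ^ (M + τ)) ^ 5 = N ^ (5 * (M + τ)) := by
    rw [← Real.rpow_natCast (N ^ (M + τ)) 5, ← Real.rpow_mul hN0.le]
    norm_num
    ring_nf
  have hσ0 : 0 < σ := hp.trans_le hσ
  calc σ⁻¹ ^ 5 ≤ (N ^ (M + τ)) ^ 5 := pow_le_pow_left₀ (by positivity) h1 5
    _ = N ^ (5 * (M + τ)) := h2
    _ ≤ N ^ (5 * M + 5) := Real.rpow_le_rpow_of_exponent_le hN (by linarith)

/-- **L-252-S7a-GLUE1**: `K₁ = 2K`; `Front` with `A := max A (5M+5)`; exponents: `k7aRet (N^{τ₂}) (2N^{τ₂}) σ ≤ N^{τ'}`, `200 K⁴ · 2 ≤ N^{τ_F}` for large `N` -/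
theorem k7a_T71_of_front (h : k7a_Front) : k7a_T71 := by
  intro s M d A τ' hs hsM hd hτ'
  have hM : 0 < M := hs.trans hsM
  obtain ⟨τ2, hτ2⟩ : ∃ τ2 : ℝ, τ2 = τ' / 160 := ⟨_, rfl⟩
  have hτ20 : 0 < τ2 := by rw [hτ2]; positivity
  obtain ⟨τF, hτF, NF, hF⟩ := h s M d (max A (5 * M + 5)) τ2 hs hsM hd hτ20
  obtain ⟨τm, hτm⟩ : ∃ τm : ℝ, τm = min τF τ2 := ⟨_, rfl⟩
  have hτm0 : 0 < τm := by rw [hτm]; exact lt_min hτF hτ20
  have hτmF : τm ≤ τF := by rw [hτm]; exact min_le_left _ _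
  have hτm2 : τm ≤ τ2 := by rw [hτm]; exact min_le_right _ _
  obtain ⟨Na, hNa1, hNa⟩ := k7a_glue_ret M τ2 hM hτ20
  obtain ⟨Nb, hNb1, hNb⟩ := k7a_glue_big 400 (τm / 5) (by positivity)
  refine ⟨min (τm / 5) (min 1 (M - s)), lt_min (by positivity) (lt_min one_pos (by linarith)),
    max NF (max Na Nb), ?_⟩
  obtain ⟨τ, hτdef⟩ : ∃ τ : ℝ, τ = min (τm / 5) (min 1 (M - s)) := ⟨_, rfl⟩
  rw [← hτdef]
  have hτ0 : 0 < τ := by rw [hτdef]; exact lt_min (by positivity) (lt_min one_pos (by linarith))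
  have hτ5 : τ ≤ τm / 5 := by rw [hτdef]; exact min_le_left _ _
  have hτ1 : τ ≤ 1 := by rw [hτdef]; exact (min_le_right _ _).trans (min_le_left _ _)
  have hτMs : τ ≤ M - s := by rw [hτdef]; exact (min_le_right _ _).trans (min_le_right _ _)
  intro N hN Λ _ D σ c m hσ hσ1 hσ2 hc1 hc2 hAdm hCap hSupp
  have hNF : NF ≤ N := (le_max_left _ _).trans hN
  have hNa' : Na ≤ N := ((le_max_left _ _).trans (le_max_right _ _)).trans hN
  have hNb' : Nb ≤ N := ((le_max_right _ _).trans (le_max_right _ _)).trans hN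
  have hN1 : 1 ≤ N := hNa1.trans hNa'
  have hN0 : 0 < N := by linarith
  have hmono : ∀ x y : ℝ, x ≤ y → N ^ x ≤ N ^ y := fun x y hxy => Real.rpow_le_rpow_of_exponent_le hN1 hxy
  have hK0 : 1 ≤ N ^ τ := Real.one_le_rpow hN1 hτ0.le
  have ha0 : 0 < N ^ (-s) := Real.rpow_pos_of_pos hN0 _
  have ha1 : N ^ (-s) ≤ 1 := Real.rpow_le_one_of_one_le_of_nonpos hN1 (by linarith)
  have hσa : σ ≤ N ^ (-s) := hσ2.trans (hmono _ _ (by linarith))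
  have hσ0 : 0 < σ := by rw [hσ]; positivity
  have hc0 : 0 < c := (Real.rpow_pos_of_pos hN0 _).trans_le hc1
  obtain ⟨Mk, hM', hE, hT, hall⟩ := k7a_glue_jit D hAdm hK0 hσ hσa ha1 hc0 hCap hSupp
  have h400 : 400 * (N ^ τ) ^ 4 ≤ N ^ τm := k7a_glue_400 hN1 hτ5 (hNb N hNb')
  obtain ⟨a1, a2, a3, a4⟩ := hall (N ^ τF) (h400.trans (hmono _ _ hτmF))
  obtain ⟨b1, b2, b3, _⟩ := hall (N ^ τ2) (h400.trans (hmono _ _ hτm2))
  have hB := hF N hNF (Λ × K7aU) (D.jit σ Mk) σ c ((hmono _ _ (by linarith)).trans hσ1)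
    (hσ2.trans (hmono _ _ (by linarith))) ((hmono _ _ (neg_le_neg (le_max_left _ _))).trans hc1)
    (hc2.trans (hmono _ _ (le_max_left _ _))) a1 hE
    (k7a_glue_tmp_mono ((k7a_glue_tmpQ hN1 hτ1 hσ1).trans (hmono _ _ (le_max_right _ _))) hT) a2 a3 a4
  obtain ⟨β, hβ1, hβ2, hβ3⟩ := k7a_return D (k7a_glue_adm_mono (hmono _ _ (by linarith)) hAdm) hM'
    (Real.one_le_rpow hN1 hτ20.le) (by linarith) hσ0 hσa ha1 hc0 b1 b2 b3 hB
  have hret : k7aRet (N ^ τ2) (2 * N ^ τ) σ ≤ N ^ τ' := by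
    have := hNa N hNa' τ σ hτ0.le (by linarith) hτ1 hσ1
    have e : 160 * τ2 = τ' := by rw [hτ2]; ring
    rwa [e] at this
  have hβ0 : 0 < β := k7a_glue_pos (k7a_glue_ret_nn (N ^ τ2) (2 * N ^ τ) hσ0 (hσa.trans ha1)) hσ0 hβ1
  exact ⟨β, hβ1.trans (by gcongr), hβ2.trans hret, k7a_glue_out_mono hret hβ0.le ha0.le hβ3⟩

/-- **L-252-S7a-GLUE2**: the same with `k7a_jit_eang` (`u₁' = min u₁ (M/2)`), `k7a_FrontAng`, `k7a_return_ang` (`u = τ'/2`-ish) -/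
theorem k7a_T71a_of_frontAng (h : k7a_FrontAng) : k7a_T71a := by
  intro s M d A S1 u1 τ' hs hsM hd hS1 hu1 hτ'
  have hM : 0 < M := hs.trans hsM
  obtain ⟨u1', hu1'⟩ : ∃ u1' : ℝ, u1' = min u1 (M / 2) := ⟨_, rfl⟩
  have hu1'0 : 0 < u1' := by rw [hu1']; exact lt_min hu1 (by positivity)
  have hu1'1 : u1' ≤ u1 := by rw [hu1']; exact min_le_left _ _
  have hu1'M : u1' ≤ M / 2 := by rw [hu1']; exact min_le_right _ _
  obtain ⟨u, hu⟩ : ∃ u : ℝ, u = min u1' (τ' / 2) := ⟨_, rfl⟩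
  have hu0 : 0 < u := by rw [hu]; exact lt_min hu1'0 (by positivity)
  have huu : u ≤ u1' := by rw [hu]; exact min_le_left _ _
  have huτ : u ≤ τ' / 2 := by rw [hu]; exact min_le_right _ _
  obtain ⟨τ2, hτ2⟩ : ∃ τ2 : ℝ, τ2 = min (τ' / 320) (S1 * u / 8) := ⟨_, rfl⟩
  have hτ20 : 0 < τ2 := by rw [hτ2]; exact lt_min (by positivity) (by positivity)
  have hτ2a : τ2 ≤ τ' / 320 := by rw [hτ2]; exact min_le_left _ _
  have hτ2b : τ2 ≤ S1 * u / 8 := by rw [hτ2]; exact min_le_right _ _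
  obtain ⟨τF, hτF, NF, hF⟩ := h s d (max A (5 * M + 5)) S1 u1' τ2 hs hd hS1 hu1'0 hτ20
  obtain ⟨τm, hτm⟩ : ∃ τm : ℝ, τm = min τF τ2 := ⟨_, rfl⟩
  have hτm0 : 0 < τm := by rw [hτm]; exact lt_min hτF hτ20
  have hτmF : τm ≤ τF := by rw [hτm]; exact min_le_left _ _
  have hτm2 : τm ≤ τ2 := by rw [hτm]; exact min_le_right _ _
  obtain ⟨Na, hNa1, hNa⟩ := k7a_glue_ret M τ2 hM hτ20
  obtain ⟨Nb, hNb1, hNb⟩ := k7a_glue_big 400 (τm / 5) (by positivity)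
  obtain ⟨Nc, hNc1, hNc⟩ := k7a_glue_big 9 (S1 * u / 2) (by positivity)
  refine ⟨min (τm / 5) (min 1 (min (M - s) (M / 2))),
    lt_min (by positivity) (lt_min one_pos (lt_min (by linarith) (by positivity))),
    max NF (max Na (max Nb Nc)), ?_⟩
  obtain ⟨τ, hτdef⟩ : ∃ τ : ℝ, τ = min (τm / 5) (min 1 (min (M - s) (M / 2))) := ⟨_, rfl⟩
  rw [← hτdef]
  have hτ0 : 0 < τ := by
    rw [hτdef]; exact lt_min (by positivity) (lt_min one_pos (lt_min (by linarith) (by positivity)))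
  have hτ5 : τ ≤ τm / 5 := by rw [hτdef]; exact min_le_left _ _
  have hτ1 : τ ≤ 1 := by rw [hτdef]; exact (min_le_right _ _).trans (min_le_left _ _)
  have hτMs : τ ≤ M - s := by
    rw [hτdef]; exact (min_le_right _ _).trans ((min_le_right _ _).trans (min_le_left _ _))
  have hτM2 : τ ≤ M / 2 := by
    rw [hτdef]; exact (min_le_right _ _).trans ((min_le_right _ _).trans (min_le_right _ _))
  intro N hN Λ _ D σ c m hσ hσ1 hσ2 hc1 hc2 hAdm hCap hSupp hAng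
  have hNF : NF ≤ N := (le_max_left _ _).trans hN
  have hNa' : Na ≤ N := ((le_max_left _ _).trans (le_max_right _ _)).trans hN
  have hNb' : Nb ≤ N := ((le_max_left _ _).trans ((le_max_right _ _).trans (le_max_right _ _))).trans hN
  have hNc' : Nc ≤ N := ((le_max_right _ _).trans ((le_max_right _ _).trans (le_max_right _ _))).trans hN
  have hN1 : 1 ≤ N := hNa1.trans hNa'
  have hN0 : 0 < N := by linarith
  have hmono : ∀ x y : ℝ, x ≤ y → N ^ x ≤ N ^ y := fun x y hxy => Real.rpow_le_rpow_of_exponent_le hN1 hxy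
  have hK0 : 1 ≤ N ^ τ := Real.one_le_rpow hN1 hτ0.le
  have ha0 : 0 < N ^ (-s) := Real.rpow_pos_of_pos hN0 _
  have ha1 : N ^ (-s) ≤ 1 := Real.rpow_le_one_of_one_le_of_nonpos hN1 (by linarith)
  have hσa : σ ≤ N ^ (-s) := hσ2.trans (hmono _ _ (by linarith))
  have hσ0 : 0 < σ := by rw [hσ]; positivity
  have hc0 : 0 < c := (Real.rpow_pos_of_pos hN0 _).trans_le hc1
  obtain ⟨Mk, hM', hE, hT, hall⟩ := k7a_glue_jit D hAdm hK0 hσ hσa ha1 hc0 hCap hSupp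
  have h400 : 400 * (N ^ τ) ^ 4 ≤ N ^ τm := k7a_glue_400 hN1 hτ5 (hNb N hNb')
  have hEA := k7a_jit_eang D hAdm hM' hK0 (by linarith) hσ0 hσa ha1 hc0 hN1 hu1'1
    (hσ2.trans (hmono _ _ (by linarith))) hAng
  have e400 : 200 * (N ^ τ) ^ 3 * (2 * N ^ τ) = 400 * (N ^ τ) ^ 4 := by ring
  rw [e400] at hEA
  obtain ⟨a1, a2, _, a4⟩ := hall (N ^ τF) (h400.trans (hmono _ _ hτmF))
  obtain ⟨b1, b2, b3, _⟩ := hall (N ^ τ2) (h400.trans (hmono _ _ hτm2))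
  have hB := hF N hNF (Λ × K7aU) (D.jit σ Mk) (fun _ => 0) c
    ((hmono _ _ (neg_le_neg (le_max_left _ _))).trans hc1)
    (hc2.trans (hmono _ _ (le_max_left _ _))) a1 hE
    (k7a_glue_tmp_mono ((k7a_glue_tmpQ hN1 hτ1 hσ1).trans (hmono _ _ (le_max_right _ _))) hT) a2 a4
    (k7a_glue_eang_mono (h400.trans (hmono _ _ hτmF)) hc0.le ha0.le hN0.le hEA)
  have hbig : 8 * (N ^ τ2) ^ 4 < N ^ (S1 * u) := k7a_glue_8 hN1 (by linarith) (hNc N hNc')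
  obtain ⟨β, hβ1, hβ2, hβ3⟩ := k7a_return_ang D (k7a_glue_adm_mono (hmono _ _ (by linarith)) hAdm) hM'
    (Real.one_le_rpow hN1 hτ20.le) (by linarith) hσ0 hσa ha1 hc0 hN1 b1 b2 b3
    (k7a_glue_eang_mono (h400.trans (hmono _ _ hτm2)) hc0.le ha0.le hN0.le hEA) hu0 huu hbig hB
  have hret : k7aRet (N ^ τ2) (2 * N ^ τ) σ ≤ N ^ (τ' / 2) :=
    (hNa N hNa' τ σ hτ0.le (by linarith) hτ1 hσ1).trans (hmono _ _ (by linarith))
  have hu' := Real.rpow_pos_of_pos hN0 (-u)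
  have hβ0 : 0 < β := k7a_glue_pos (k7a_glue_ret_nn (N ^ τ2) (2 * N ^ τ) hσ0 (hσa.trans ha1)) hu' hβ1
  refine ⟨β, ?_, hβ2.trans (hret.trans (hmono _ _ (by linarith))),
    k7a_glue_out_mono (hret.trans (hmono _ _ (by linarith))) hβ0.le ha0.le hβ3⟩
  have h1 : N ^ (-u) ≤ N ^ (τ' / 2) * β := hβ1.trans (by gcongr)
  have h2 : N ^ (-(τ' / 2)) ≤ N ^ (-u) := hmono _ _ (by linarith)
  have h3 : N ^ τ' = N ^ (τ' / 2) * N ^ (τ' / 2) := by rw [← Real.rpow_add hN0]; ring_nf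
  have h4 : N ^ (τ' / 2) * N ^ (-(τ' / 2)) = 1 := by rw [← Real.rpow_add hN0]; simp
  have h5 := Real.rpow_pos_of_pos hN0 (τ' / 2)
  calc (1 : ℝ) = N ^ (τ' / 2) * N ^ (-(τ' / 2)) := h4.symm
    _ ≤ N ^ (τ' / 2) * (N ^ (τ' / 2) * β) := by gcongr; exact h2.trans h1
    _ = N ^ τ' * β := by rw [h3]; ring

end

end Claimed.Agent.R252
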