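import Claimed.Agent.R252.S7a.WideGlue
import Claimed.Agent.R252.S7a.WideContract
import Claimed.Agent.R252.S7p.CoreContract
import Claimed.Agent.R252.S8w.ListsCode

/-!
# ROW 252 (S0492), unit S7w, STAGE A (helper89), file 1: LONG DOMAINS AS AN INSTANCE OF THE TWO-COLOUR COMPARISON `k7p_core`.      Definitions only, no sorry.   -- KEEP

Long domains (07 l.598-602): time length `ρ = 2^{-kρ} ∼ β_min/β_max`, slope bins of width `bmax = β_max`, position bins of width `bmin = β_min` : `D = W.sdom ρ bmax bmin p = (k, sb, yb)`.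
Normalised coordinates of `D` : `τ = t/ρ - k`, `η = (Y - (yb bmin + sb bmax (t - kρ)))/(2 bmin)`; both lie in `[0,1)` at every incidence of the domain as soon as `ρ bmax ≤ bmin`.
* `k7waFN F ρ bmin bmax D`  the predictor `F(t, Y)` in the normalised coordinates of `D`.
* `k7waU W ρ bmin bmax p`   the normalised base point of an incidence.
* `k7waBs W E χ ρ bmin bmax : K7pBs`   base of the comparison: law `W.law E` of the CURRENT selection (`k7p_core` asks only for ceilings and budgets), boxes `(α, D)`, weight `A = ρ bmin χ π([v]_χ)`.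
* `k7waCol W E χ ρ bmin bmax P th d : K7pCol _`   one colour = one layer of projected labels.
-/

set_option autoImplicit false

namespace Claimed.Agent.R252

open MeasureTheory
open scoped ENNReal BigOperators

noncomputable section

/-- a predictor in the normalised coordinates of a long domain -/
def k7waFN (F : ℝ → ℝ → ℝ) (ρ bmin bmax : ℝ) (D : ℤ × ℤ × ℤ) : ℝ → ℝ → ℝ :=
  fun τ η => F (ρ * ((D.1 : ℝ) + τ)) ((D.2.2 : ℝ) * bmin + (D.2.1 : ℝ) * bmax * (ρ * τ) + 2 * bmin * η)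

/-- the normalised base point of an incidence in its long domain -/
def k7waU (W : K7aLn) (ρ bmin bmax : ℝ) (p : W.L × ℝ) : ℝ × ℝ :=
  (p.2 / ρ - ((W.sdom ρ bmax bmin p).1 : ℝ),
    (W.Y p.1 p.2 - (((W.sdom ρ bmax bmin p).2.2 : ℝ) * bmin + ((W.sdom ρ bmax bmin p).2.1 : ℝ) * bmax * (p.2 - ((W.sdom ρ bmax bmin p).1 : ℝ) * ρ))) / (2 * bmin))

/-- the box `(α, D)` of an incidence -/
def k7waBx (W : K7aLn) (χ ρ bmin bmax : ℝ) (p : W.L × ℝ) : ℤ × ℤ × (ℤ × ℤ × ℤ) :=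
  (kbBin χ (W.v p.1), kbBin χ (W.Z0 p.1), W.sdom ρ bmax bmin p)

/-- **the base of the comparison on long domains** -/
def k7waBs (W : K7aLn) (E : Set (W.L × ℝ)) (χ ρ bmin bmax : ℝ) : K7pBs where
  Ω := W.L × ℝ
  mΩ := inferInstance
  μ := W.law E
  Sp := E
  Bx := ℤ × ℤ × (ℤ × ℤ × ℤ)
  bx := k7waBx W χ ρ bmin bmax
  u := k7waU W ρ bmin bmax
  X := fun p => W.X p.1 p.2
  A := fun κ => ENNReal.ofReal (ρ * bmin * χ) * W.palχ χ κ.1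

/-- the index (box, label) of an incidence -/
def k7waIx (W : K7aLn) (χ ρ bmin bmax : ℝ) (P : K7aLayer W) (p : W.L × ℝ) : (ℤ × ℤ × (ℤ × ℤ × ℤ)) × Option P.Ph :=
  (k7waBx W χ ρ bmin bmax p, P.lab p.1)

open Classical in
/-- **one colour: a layer of projected labels on the long domains** -/
def k7waCol (W : K7aLn) (E : Set (W.L × ℝ)) (χ ρ bmin bmax : ℝ) (P : K7aLayer W) (th d : ℝ) : K7pCol (k7waBs W E χ ρ bmin bmax) where
  I := (ℤ × ℤ × (ℤ × ℤ × ℤ)) × Option P.Ph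
  ix := k7waIx W χ ρ bmin bmax P
  bxI := fun i => i.1
  f := fun i => match i.2 with
    | some φ => k7waFN (P.G φ).F ρ bmin bmax i.1.2.2
    | none => fun _ _ => 0
  T := fun i => if ∃ p ∈ E, k7waIx W χ ρ bmin bmax P p = i then ENNReal.ofReal (ρ * bmin * χ) * W.palχ χ i.1.1 * ENNReal.ofReal (th ^ d) else 0

theorem k7wa_defs_cite : True := by
  have := @k7waFN.eq_1; have := @k7waU.eq_1; have := @k7waBx.eq_1; have := @k7waBs.eq_1; have := @k7waIx.eq_1; have := @k7waCol.eq_1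
  trivial

end

end Claimed.Agent.R252

/-!
# ROW 252 (S0492), unit S7w, STAGE A (helper89), file 2: THE THREE LEAVES OF STAGE A.      CONTRACT file: every `sorry` is a leaf `L-252-S7w-A1, A2, A4`.

PAPER-FREE.  Vocabulary: `S7a/WideDefs` (`K7aLn`, `K7aLayer`), `S7a/WideADefs` (long domains as an instance of `K7pBs`, `K7pCol`), `S7p/CoreContract` (records `K7pBs.Ok`, `K7pCol.Ok`), tools `S7a/WideCapContract` (`k7wc_band` PROVED, `k7wc_sdom_box`, `k7wc_meas_sdom`, `k7wc_slice`),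
`S7a/WideContract` (`k7a_quad_lip` PROVED).   Prove IN PLACE, helper lemmas directly above the statement, prefix `k7wa_`.   The assembly (`S7a/WideAMain.lean`) is helper89's.
-/

set_option autoImplicit false

namespace Claimed.Agent.R252

open MeasureTheory
open scoped ENNReal BigOperators

noncomputable section

theorem k7wa_b_meas_bx (W : K7aLn) {N K d S : ℝ} {Ms Ws : Finset ℝ} (hW : W.Ok N K d S Ms Ws) (χ ρ bmin bmax : ℝ) : Measurable (k7waBx W χ ρ bmin bmax) := by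
  obtain ⟨hZ0, hv, -, -, -, -, -⟩ := hW.m_co
  unfold k7waBx kbBin
  exact (((hv.comp measurable_fst).div_const _).floor).prodMk ((((hZ0.comp measurable_fst).div_const _).floor).prodMk (k7wc_meas_sdom W hW ρ bmax bmin))

theorem k7wa_b_meas_u (W : K7aLn) {N K d S : ℝ} {Ms Ws : Finset ℝ} (hW : W.Ok N K d S Ms Ws) (ρ bmin bmax : ℝ) : Measurable (k7waU W ρ bmin bmax) := by
  obtain ⟨-, -, hY0, hY1, -, -, -⟩ := hW.m_co
  have hsd := k7wc_meas_sdom W hW ρ bmax bmin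
  have hc : Measurable fun n : ℤ => (n : ℝ) := measurable_from_top
  have h1 : Measurable fun p : W.L × ℝ => ((W.sdom ρ bmax bmin p).1 : ℝ) := hc.comp (measurable_fst.comp hsd)
  have h2 : Measurable fun p : W.L × ℝ => ((W.sdom ρ bmax bmin p).2.1 : ℝ) := hc.comp (measurable_fst.comp (measurable_snd.comp hsd))
  have h3 : Measurable fun p : W.L × ℝ => ((W.sdom ρ bmax bmin p).2.2 : ℝ) := hc.comp (measurable_snd.comp (measurable_snd.comp hsd))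
  have hY : Measurable fun p : W.L × ℝ => W.Y p.1 p.2 := by
    unfold K7aLn.Y
    exact (hY0.comp measurable_fst).add ((hY1.comp measurable_fst).mul measurable_snd)
  unfold k7waU
  exact ((measurable_snd.div_const ρ).sub h1).prodMk ((hY.sub ((h3.mul_const bmin).add ((h2.mul_const bmax).mul (measurable_snd.sub (h1.mul_const ρ))))).div_const _)

theorem k7wa_b_u_mem (W : K7aLn) {ρ bmin bmax : ℝ} (hρ0 : 0 < ρ) (hbmin : 0 < bmin) (hbmax : 0 < bmax) (hρb : ρ * bmax ≤ bmin) (z : W.L × ℝ) :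
    k7waU W ρ bmin bmax z ∈ Set.Ico (0 : ℝ) 1 ×ˢ Set.Ico (0 : ℝ) 1 := by
  obtain ⟨k, sb, yb, hD⟩ : ∃ k sb yb : ℤ, W.sdom ρ bmax bmin z = (k, sb, yb) := ⟨_, _, _, rfl⟩
  have h1 : ⌊z.2 / ρ⌋ = k := congrArg Prod.fst hD
  have h2 : ⌊W.Y1 z.1 / bmax⌋ = sb := congrArg (fun c => c.2.1) hD
  have h3 : ⌊W.Y z.1 (⌊z.2 / ρ⌋ * ρ) / bmin⌋ = yb := congrArg (fun c => c.2.2) hD
  rw [h1] at h3
  rw [Int.floor_eq_iff] at h1
  rw [Int.floor_eq_iff, le_div_iff₀ hbmax, div_lt_iff₀ hbmax] at h2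
  rw [Int.floor_eq_iff, le_div_iff₀ hbmin, div_lt_iff₀ hbmin] at h3
  have h1' := h1
  rw [le_div_iff₀ hρ0, div_lt_iff₀ hρ0] at h1'
  unfold k7waU
  rw [hD]
  simp only
  have e : W.Y z.1 z.2 - (yb * bmin + sb * bmax * (z.2 - k * ρ)) = (W.Y z.1 (k * ρ) - yb * bmin) + (W.Y1 z.1 - sb * bmax) * (z.2 - k * ρ) := by
    unfold K7aLn.Y
    ring
  have c1 : 0 ≤ (W.Y1 z.1 - sb * bmax) * (z.2 - k * ρ) := mul_nonneg (by linarith [h2.1]) (by linarith [h1'.1])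
  have c2 : (W.Y1 z.1 - sb * bmax) * (z.2 - k * ρ) ≤ bmax * ρ := mul_le_mul (by linarith [h2.2]) (by linarith [h1'.2]) (by linarith [h1'.1]) hbmax.le
  refine ⟨⟨by linarith [h1.1], by linarith [h1.2]⟩, ?_, ?_⟩
  · rw [e]
    exact div_nonneg (by linarith [h3.1]) (by positivity)
  · rw [e, div_lt_one (by positivity)]
    linarith [h3.2]

theorem k7wa_b_geo (W : K7aLn) {ρ bmin bmax ϑ : ℝ} (hρ0 : 0 < ρ) (hbmin : 0 < bmin) (hϑ0 : 0 < ϑ) (z : W.L × ℝ) (k sb yb c1 c2 : ℤ)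
    (hD : W.sdom ρ bmax bmin z = (k, sb, yb)) (hc : k7pCell ϑ (k7waU W ρ bmin bmax z) = (c1, c2)) :
    z.2 ∈ Set.Ico (((k : ℝ) + c1 * ϑ) * ρ) (((k : ℝ) + c1 * ϑ) * ρ + ρ * ϑ) ∧
      |W.Y z.1 z.2 - ((yb * bmin + sb * bmax * (c1 * ϑ * ρ) + 2 * bmin * ((c2 : ℝ) + 1 / 2) * ϑ) + sb * bmax * (z.2 - ((k : ℝ) + c1 * ϑ) * ρ))| ≤ bmin * ϑ := by
  unfold k7pCell k7waU at hc
  rw [hD] at hc
  simp only at hc
  have h1 : ⌊(z.2 / ρ - k) / ϑ⌋ = c1 := congrArg Prod.fst hc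
  have h2 : ⌊(W.Y z.1 z.2 - (yb * bmin + sb * bmax * (z.2 - k * ρ))) / (2 * bmin) / ϑ⌋ = c2 := congrArg Prod.snd hc
  rw [Int.floor_eq_iff, le_div_iff₀ hϑ0, div_lt_iff₀ hϑ0] at h1
  rw [Int.floor_eq_iff, le_div_iff₀ hϑ0, div_lt_iff₀ hϑ0, le_div_iff₀ (by positivity), div_lt_iff₀ (by positivity)] at h2
  obtain ⟨T, hT⟩ : ∃ T : ℝ, z.2 = T * ρ := ⟨z.2 / ρ, by field_simp⟩
  have hT' : z.2 / ρ = T := by
    rw [hT]
    field_simp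
  rw [hT'] at h1
  constructor
  · rw [hT]
    constructor
    · have := mul_le_mul_of_nonneg_right h1.1 hρ0.le
      linarith
    · have := mul_lt_mul_of_pos_right h1.2 hρ0
      linarith
  · have e : W.Y z.1 z.2 - ((yb * bmin + sb * bmax * (c1 * ϑ * ρ) + 2 * bmin * ((c2 : ℝ) + 1 / 2) * ϑ) + sb * bmax * (z.2 - ((k : ℝ) + c1 * ϑ) * ρ))
        = (W.Y z.1 z.2 - (yb * bmin + sb * bmax * (z.2 - k * ρ))) - 2 * bmin * ((c2 : ℝ) + 1 / 2) * ϑ := by ring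
    rw [e, abs_le]
    constructor <;> linarith [h2.1, h2.2]

theorem k7wa_b_cap (W : K7aLn) {N K d S χ ρ bmin bmax a0 ϑ lamW M : ℝ} {Ms Ws : Finset ℝ} (hW : W.Ok N K d S Ms Ws) (hN : 1 < N) (hK : 1 ≤ K) (hd0 : 0 ≤ d) (hd1 : d ≤ 1)
    {E : Set (W.L × ℝ)} (hE : E ⊆ W.Ev0) (hχ0 : W.χ0 ≤ χ) (hχ1 : χ ≤ 1) (hρ0 : 0 < ρ) (hbmin : 0 < bmin) (hbmax : 0 < bmax)
    (hϑ0 : 0 < ϑ) (hM : M ∈ Ms) (hM1 : 2 * N ^ (-M) ≤ ρ * ϑ) (hM2 : 2 * K * N ^ (-M) ≤ χ) (hM3 : 2 * (K + bmax + 1) * N ^ (-M) ≤ bmin * ϑ)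
    (ha0 : 0 < a0) (ha1 : a0 ≤ 1) (hlam : 1 ≤ lamW) (hWs : ∀ p ∈ Set.Icc a0 1, ∃ r ∈ Ws, p ≤ N ^ (-r) ∧ N ^ (-r) ≤ lamW * p)
    (mv zz k sb yb c1 c2 : ℤ) (x₀ p : ℝ) (hp : a0 ≤ p) :
    W.law E (E ∩ {ω | k7waBx W χ ρ bmin bmax ω = (mv, zz, (k, sb, yb)) ∧ k7pCell ϑ (k7waU W ρ bmin bmax ω) = (c1, c2) ∧ |W.X ω.1 ω.2 - x₀| ≤ p})
      ≤ ENNReal.ofReal (1344 * K ^ 3 * lamW * p ^ d * ϑ ^ 2) * (ENNReal.ofReal (ρ * bmin * χ) * W.palχ χ mv) := by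
  obtain ⟨A, hA⟩ : ∃ A : Set (W.L × ℝ), A = E ∩ {ω | k7waBx W χ ρ bmin bmax ω = (mv, zz, (k, sb, yb)) ∧ k7pCell ϑ (k7waU W ρ bmin bmax ω) = (c1, c2) ∧ |W.X ω.1 ω.2 - x₀| ≤ p} := ⟨_, rfl⟩
  rw [← hA]
  have h1 : W.law E A ≤ W.lam0 A := Measure.restrict_mono hE le_rfl A
  refine h1.trans ?_
  by_cases hne : A.Nonempty
  swap
  · rw [Set.not_nonempty_iff_eq_empty.1 hne, measure_empty]
    exact zero_le
  have hmem : ∀ z ∈ A, z ∈ W.Ev0 ∧ kbBin χ (W.v z.1) = mv ∧ kbBin χ (W.Z0 z.1) = zz ∧ W.sdom ρ bmax bmin z = (k, sb, yb) ∧ k7pCell ϑ (k7waU W ρ bmin bmax z) = (c1, c2) ∧ |W.X z.1 z.2 - x₀| ≤ p := by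
    intro z hz
    rw [hA] at hz
    obtain ⟨hzE, hzb, hzc, hzx⟩ := hz
    exact ⟨hE hzE, congrArg Prod.fst hzb, congrArg (fun c => c.2.1) hzb, congrArg (fun c => c.2.2) hzb, hzc, hzx⟩
  have hp0 : 0 < p := lt_of_lt_of_le ha0 hp
  have hK0 : 0 < K := by linarith
  have hχp : 0 < χ := lt_of_lt_of_le hW.χ0_pos hχ0
  have hN0 : 0 < N := by linarith
  have hlam0 : 0 < lamW := by linarith
  have hsc : |(sb : ℝ) * bmax| ≤ K + bmax := by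
    obtain ⟨z0, hz0⟩ := hne
    obtain ⟨hzE, -, -, hzD, -, -⟩ := hmem z0 hz0
    obtain ⟨-, hY1, -⟩ := k7wc_sdom_box W hρ0 hbmax hbmin z0 k sb yb hzD
    obtain ⟨-, -, -, hb, -⟩ := hW.bd z0.1 (hW.Ev0_sub hzE).1
    obtain ⟨b1, b2⟩ := abs_le.1 hb
    rw [abs_le]
    constructor <;> linarith [hY1.1, hY1.2]
  have hw : 2 * (|(sb : ℝ) * bmax| + 1) * N ^ (-M) ≤ bmin * ϑ := by
    refine le_trans ?_ hM3
    have : 0 < N ^ (-M) := Real.rpow_pos_of_pos hN0 _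
    exact mul_le_mul_of_nonneg_right (by linarith) this.le
  have hlamd : lamW ^ d ≤ lamW := by
    have := Real.rpow_le_rpow_of_exponent_le hlam hd1
    rwa [Real.rpow_one] at this
  have hK3 : K ≤ K ^ 3 := by
    have : 1 ≤ K ^ 2 := one_le_pow₀ hK
    nlinarith
  have hK23 : K ^ 2 ≤ K ^ 3 := pow_le_pow_right₀ hK (by norm_num)
  have hpd : 0 < p ^ d := Real.rpow_pos_of_pos hp0 _
  have hfin : ∀ c : ℝ, c ≤ 1344 * K ^ 3 * lamW * p ^ d * ϑ ^ 2 * (ρ * bmin * χ) →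
      ENNReal.ofReal c * W.palχ χ mv ≤ ENNReal.ofReal (1344 * K ^ 3 * lamW * p ^ d * ϑ ^ 2) * (ENNReal.ofReal (ρ * bmin * χ) * W.palχ χ mv) := by
    intro c hc
    rw [← mul_assoc, ← ENNReal.ofReal_mul (by positivity)]
    exact mul_le_mul' (ENNReal.ofReal_le_ofReal hc) le_rfl
  rcases le_or_gt p 1 with hp1 | hp1
  · obtain ⟨r, hr, hr1, hr2⟩ := hWs p ⟨hp, hp1⟩
    have hNr : 0 < N ^ (-r) := Real.rpow_pos_of_pos hN0 _
    have hb := k7wc_band W hW hN hK hM hr (zero_le_one) hχ0 hχ1 hM1 hM2 hw mv zz (fun _ _ _ => x₀)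
      (t0 := ((k : ℝ) + c1 * ϑ) * ρ) (yc := yb * bmin + sb * bmax * (c1 * ϑ * ρ) + 2 * bmin * ((c2 : ℝ) + 1 / 2) * ϑ)
      (fun _ _ _ _ _ _ _ _ _ _ _ _ _ _ _ _ _ => by
        rw [sub_self, abs_zero]
        exact hNr.le)
    refine (measure_mono ?_).trans (hb.trans (hfin _ ?_))
    · intro z hz
      obtain ⟨-, m1, m2, m3, m4, m5⟩ := hmem z hz
      obtain ⟨g1, g2⟩ := k7wa_b_geo W hρ0 hbmin hϑ0 z k sb yb c1 c2 m3 m4
      exact ⟨m1, m2, g1, g2, by rw [one_mul]; exact m5.trans hr1⟩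
    · have hP : (N ^ (-r)) ^ d ≤ lamW * p ^ d := by
        calc (N ^ (-r)) ^ d ≤ (lamW * p) ^ d := Real.rpow_le_rpow hNr.le hr2 hd0
          _ = lamW ^ d * p ^ d := Real.mul_rpow hlam0.le hp0.le
          _ ≤ lamW * p ^ d := mul_le_mul_of_nonneg_right hlamd hpd.le
      have hV : 0 ≤ χ * ρ * bmin * ϑ ^ 2 := by positivity
      calc 192 * K * (2 * 1 + 5) * (N ^ (-r)) ^ d * (χ * (ρ * ϑ) * (bmin * ϑ)) = 1344 * (K * (N ^ (-r)) ^ d) * (χ * ρ * bmin * ϑ ^ 2) := by ring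
        _ ≤ 1344 * (K ^ 3 * (lamW * p ^ d)) * (χ * ρ * bmin * ϑ ^ 2) := by
            refine mul_le_mul_of_nonneg_right ?_ hV
            refine mul_le_mul_of_nonneg_left ?_ (by norm_num)
            exact mul_le_mul hK3 hP (by positivity) (by positivity)
        _ = _ := by ring
  · obtain ⟨r, hr, hr1, hr2⟩ := hWs 1 ⟨ha1, le_rfl⟩
    have hNr : 0 < N ^ (-r) := Real.rpow_pos_of_pos hN0 _
    have hb := k7wc_band W hW hN hK hM hr hK0.le hχ0 hχ1 hM1 hM2 hw mv zz (fun _ _ _ => 0)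
      (t0 := ((k : ℝ) + c1 * ϑ) * ρ) (yc := yb * bmin + sb * bmax * (c1 * ϑ * ρ) + 2 * bmin * ((c2 : ℝ) + 1 / 2) * ϑ)
      (fun _ _ _ _ _ _ _ _ _ _ _ _ _ _ _ _ _ => by
        rw [sub_self, abs_zero]
        exact hNr.le)
    refine (measure_mono ?_).trans (hb.trans (hfin _ ?_))
    · intro z hz
      obtain ⟨m0, m1, m2, m3, m4, -⟩ := hmem z hz
      obtain ⟨g1, g2⟩ := k7wa_b_geo W hρ0 hbmin hϑ0 z k sb yb c1 c2 m3 m4
      refine ⟨m1, m2, g1, g2, ?_⟩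
      obtain ⟨-, -, -, -, hX⟩ := hW.bd z.1 (hW.Ev0_sub m0).1
      rw [sub_zero]
      exact (hX z.2 (hW.Ev0_sub m0).2).trans (le_mul_of_one_le_right hK0.le hr1)
    · have hP : (N ^ (-r)) ^ d ≤ lamW := by
        rw [mul_one] at hr2
        exact (Real.rpow_le_rpow hNr.le hr2 hd0).trans hlamd
      have hp1d : 1 ≤ p ^ d := Real.one_le_rpow hp1.le hd0
      have hV : 0 ≤ χ * ρ * bmin * ϑ ^ 2 := by positivity
      have hNd : 0 ≤ (N ^ (-r)) ^ d := by positivity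
      calc 192 * K * (2 * K + 5) * (N ^ (-r)) ^ d * (χ * (ρ * ϑ) * (bmin * ϑ)) = 192 * (K * (2 * K + 5) * (N ^ (-r)) ^ d) * (χ * ρ * bmin * ϑ ^ 2) := by ring
        _ ≤ 192 * (7 * K ^ 3 * (lamW * p ^ d)) * (χ * ρ * bmin * ϑ ^ 2) := by
            refine mul_le_mul_of_nonneg_right ?_ hV
            refine mul_le_mul_of_nonneg_left ?_ (by norm_num)
            refine mul_le_mul ?_ (hP.trans (le_mul_of_one_le_right hlam0.le hp1d)) hNd (by positivity)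
            nlinarith
        _ = _ := by ring

/-- **L-252-S7w-A1** (~300 l.)  **the base of the long domains satisfies the cap at the tiny mesh.**
PROOF.  `Z := k7waBs W E χ ρ bmin bmax`; all fields unfold by `rfl` (`Z.μ = W.law E = W.prior.restrict E`, `Z.Sp = E`, ..).
`cBx` instance.  `fin`: `W.prior = ν.prod k7aTm` finite (`hW.prob`, `k7aTm = volume.restrict (Icc 0 1)`).  `full`: `Measure.restrict_apply`, `Eᶜ ∩ E = ∅`.  `m_bx`: the map `k7waBx` is measurable into a countable discrete space (`kbBin χ x = ⌊x / kbDy χ⌋`, `hW.m_co`, `k7wc_meas_sdom`).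
`m_u`, `m_X`: `hW.m_co`, `k7wc_meas_sdom` (components of `sdom` cast to `ℝ`: `measurable_from_top.comp`).
`u_mem`: `τ = t/ρ - ⌊t/ρ⌋ ∈ [0,1)`; with `D = (k, sb, yb)`: `Y(t) - (yb bmin + sb bmax (t - kρ)) = (Y(kρ) - yb bmin) + (Y1 - sb bmax)(t - kρ) ∈ [0, bmin) + [0, bmax ρ] ⊆ [0, 2 bmin)` (as in the proof of `k7wc_sdom_box`; STRICT at the right end).
`cap`: fix `κ = (mv, zz, (k, sb, yb))`, `c = (c1, c2)`, `x₀`, `p ≥ a0`.   `W.law E A ≤ W.lam0 A` (`E ⊆ Ev0`: `Measure.restrict_mono`).   If no point of `Ev0` has `sdom = (k, sb, yb)`: the event is `lam0`-null (`k7wc_lam0_null`).  Otherwise `|sb bmax| ≤ K + bmax` (`hW.bd`, `k7wc_sdom_box`).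
 The event is contained in the event of `k7wc_band` with `t0 = (k + c1 ϑ) ρ`, `ρ' = ρ ϑ`, `sc = sb bmax`, `mw = bmin ϑ`, `yc = yb bmin + sb bmax (c1 ϑ ρ) + 2 bmin (c2 + 1/2) ϑ`:
 `⌊τ/ϑ⌋ = c1 ⟹ t ∈ [t0, t0 + ρϑ)`, `⌊η/ϑ⌋ = c2 ⟹ |Y - (yc + sc (t - t0))| ≤ bmin ϑ`.
 Case `p ≤ 1`: `r ∈ Ws` with `p ≤ N^{-r} ≤ lamW p`, `F := fun _ _ _ => x₀`, `κ := 1`: bound `192 K · 7 · (lamW p)^d χ ρ ϑ bmin ϑ ≤ 1344 K lamW p^d ϑ² (ρ bmin χ)` (`(lamW p)^d ≤ lamW p^d` as `0 ≤ d ≤ 1 ≤ lamW`).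
 Case `p > 1`: `r ∈ Ws` for `p := 1` (`1 ≤ N^{-r} ≤ lamW`), `F := 0`, `κ := K` (`|X| ≤ K ≤ K N^{-r}` on `Ev0`; restrict to `Ev0` first: `lam0 A = lam0 (A ∩ Ev0)`, `k7wc_lam0_apply`): bound `192 K (2K + 5) lamW^d .. ≤ 1344 K² lamW p^d ..`. -/
theorem k7wa_base_ok (W : K7aLn) {N K d S χ ρ bmin bmax a0 ϑ lamW M : ℝ} {Ms Ws : Finset ℝ} (hW : W.Ok N K d S Ms Ws) (hN : 1 < N) (hK : 1 ≤ K) (hd0 : 0 ≤ d) (hd1 : d ≤ 1)
    {E : Set (W.L × ℝ)} (mE : MeasurableSet E) (hE : E ⊆ W.Ev0) (hχ0 : W.χ0 ≤ χ) (hχ1 : χ ≤ 1) (hρ0 : 0 < ρ) (hbmin : 0 < bmin) (hbmax : 0 < bmax) (hρb : ρ * bmax ≤ bmin)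
    (hϑ : ∃ k : ℕ, ϑ = (1 / 2 : ℝ) ^ k) (hM : M ∈ Ms) (hM1 : 2 * N ^ (-M) ≤ ρ * ϑ) (hM2 : 2 * K * N ^ (-M) ≤ χ) (hM3 : 2 * (K + bmax + 1) * N ^ (-M) ≤ bmin * ϑ)
    (ha0 : 0 < a0) (ha1 : a0 ≤ 1) (hlam : 1 ≤ lamW) (hWs : ∀ p ∈ Set.Icc a0 1, ∃ r ∈ Ws, p ≤ N ^ (-r) ∧ N ^ (-r) ≤ lamW * p) :
    (k7waBs W E χ ρ bmin bmax).Ok (1344 * K ^ 3 * lamW) d a0 ϑ := by
  obtain ⟨kϑ, hkϑ⟩ := hϑ
  have hϑ0 : 0 < ϑ := by
    rw [hkϑ]
    positivity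
  refine ⟨?_, ?_, mE, ?_, ?_, k7wa_b_meas_u W hW ρ bmin bmax, ?_, fun ω _ => k7wa_b_u_mem W hρ0 hbmin hbmax hρb ω, ha0, ⟨kϑ, hkϑ⟩, ?_⟩
  · show Countable (ℤ × ℤ × (ℤ × ℤ × ℤ))
    infer_instance
  · show IsFiniteMeasure (W.law E)
    have := hW.prob
    have : IsFiniteMeasure k7aTm := by
      unfold k7aTm
      infer_instance
    unfold K7aLn.law K7aLn.prior
    infer_instance
  · show W.law E Eᶜ = 0
    unfold K7aLn.law
    rw [Measure.restrict_apply mE.compl, Set.compl_inter_self, measure_empty]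
  · intro s0
    exact k7wa_b_meas_bx W hW χ ρ bmin bmax (measurableSet_singleton (α := ℤ × ℤ × (ℤ × ℤ × ℤ)) s0)
  · show Measurable fun p : W.L × ℝ => W.X p.1 p.2
    obtain ⟨-, -, -, -, h0, h1, h2⟩ := hW.m_co
    unfold K7aLn.X
    exact ((h0.comp measurable_fst).add ((h1.comp measurable_fst).mul measurable_snd)).add ((h2.comp measurable_fst).mul (measurable_snd.pow_const 2))
  · intro κ c x₀ p hp
    obtain ⟨mv, zz, k, sb, yb⟩ := κ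
    obtain ⟨c1, c2⟩ := c
    exact k7wa_b_cap W hW hN hK hd0 hd1 hE hχ0 hχ1 hρ0 hbmin hbmax hϑ0 hM hM1 hM2 hM3 ha0 ha1 hlam hWs mv zz k sb yb c1 c2 x₀ p hp

theorem k7wa_col_quad_aff {F : ℝ → ℝ → ℝ} (hF : K7aQuad F) (a0 a1 b0 b1 b2 : ℝ) : K7aQuad (fun τ η => F (a0 + a1 * τ) (b0 + b1 * τ + b2 * η)) := by
  obtain ⟨e0, e1, e2, e3, e4, e5, h⟩ := hF
  refine ⟨e0 + e1 * a0 + e2 * b0 + e3 * a0 ^ 2 + e4 * a0 * b0 + e5 * b0 ^ 2,
    e1 * a1 + e2 * b1 + 2 * e3 * a0 * a1 + e4 * (a0 * b1 + a1 * b0) + 2 * e5 * b0 * b1,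
    e2 * b2 + e4 * a0 * b2 + 2 * e5 * b0 * b2,
    e3 * a1 ^ 2 + e4 * a1 * b1 + e5 * b1 ^ 2,
    e4 * a1 * b2 + 2 * e5 * b1 * b2,
    e5 * b2 ^ 2, fun τ η => ?_⟩
  show F (a0 + a1 * τ) (b0 + b1 * τ + b2 * η) = _
  rw [h]
  ring

theorem k7wa_col_fn_quad {F : ℝ → ℝ → ℝ} (hF : K7aQuad F) (ρ bmin bmax : ℝ) (D : ℤ × ℤ × ℤ) : K7aQuad (k7waFN F ρ bmin bmax D) := by
  obtain ⟨e0, e1, e2, e3, e4, e5, he⟩ := k7wa_col_quad_aff hF (ρ * D.1) ρ (D.2.2 * bmin) (D.2.1 * bmax * ρ) (2 * bmin)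
  refine ⟨e0, e1, e2, e3, e4, e5, fun τ η => ?_⟩
  rw [← he]
  unfold k7waFN
  congr 1 <;> ring

theorem k7wa_col_fn_id (W : K7aLn) (F : ℝ → ℝ → ℝ) {ρ bmin : ℝ} (bmax : ℝ) (hρ : 0 < ρ) (hbmin : 0 < bmin) (p : W.L × ℝ) :
    k7waFN F ρ bmin bmax (W.sdom ρ bmax bmin p) (k7waU W ρ bmin bmax p).1 (k7waU W ρ bmin bmax p).2 = F p.2 (W.Y p.1 p.2) := by
  unfold k7waFN k7waU
  congr 1
  · field_simp
    ring
  · field_simp
    ring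

theorem k7wa_col_meas_bx (W : K7aLn) {N K d S : ℝ} {Ms Ws : Finset ℝ} (hW : W.Ok N K d S Ms Ws) (χ ρ bmin bmax : ℝ) : Measurable (k7waBx W χ ρ bmin bmax) := by
  obtain ⟨hZ0, hv, -⟩ := hW.m_co
  have h1 : Measurable fun p : W.L × ℝ => kbBin χ (W.v p.1) := by
    unfold kbBin
    exact ((hv.comp measurable_fst).div_const _).floor
  have h2 : Measurable fun p : W.L × ℝ => kbBin χ (W.Z0 p.1) := by
    unfold kbBin
    exact ((hZ0.comp measurable_fst).div_const _).floor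
  exact h1.prodMk (h2.prodMk (k7wc_meas_sdom W hW ρ bmax bmin))

/-- the adapted coordinates of a point of the normalised square -/
theorem k7wa_col_pt {K β ρ bmin bmax c0 c1 Y0 Y1 k sb yb : ℝ} (hK : 1 ≤ K) (hρ0 : 0 < ρ) (hρ1 : ρ ≤ 1) (hbmin : 0 < bmin)
    (hb1 : bmin ≤ β) (hρb : ρ * bmax ≤ bmin) (h0 : |Y0 - c0| ≤ K * β) (h1 : |Y0 + Y1 - (c0 + c1)| ≤ K * β) (hk0 : 0 ≤ k * ρ) (hk1 : k * ρ ≤ 1)
    (hbox : ∀ t ∈ Set.Icc (k * ρ) (k * ρ + ρ), 0 ≤ Y0 + Y1 * t - (yb * bmin + sb * bmax * (t - k * ρ)) ∧ Y0 + Y1 * t - (yb * bmin + sb * bmax * (t - k * ρ)) ≤ bmin + bmax * ρ)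
    {τ η : ℝ} (hτ : τ ∈ Set.Icc (0 : ℝ) 1) (hη : η ∈ Set.Icc (0 : ℝ) 1) :
    |ρ * (k + τ)| ≤ 5 * K ∧ |(yb * bmin + sb * bmax * (ρ * τ) + 2 * bmin * η - (c0 + c1 * (ρ * (k + τ)))) / β| ≤ 5 * K := by
  have hβ : 0 < β := lt_of_lt_of_le hbmin hb1
  have ht0 : 0 ≤ ρ * τ := mul_nonneg hρ0.le hτ.1
  have ht1 : ρ * τ ≤ ρ := by nlinarith [hτ.2]
  have hs : ρ * (k + τ) = k * ρ + ρ * τ := by ring
  have hs0 : 0 ≤ ρ * (k + τ) := by rw [hs]; linarith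
  have hs2 : ρ * (k + τ) ≤ 2 := by rw [hs]; linarith
  refine ⟨by rw [abs_of_nonneg hs0]; linarith, ?_⟩
  rw [abs_div, abs_of_pos hβ, div_le_iff₀ hβ]
  obtain ⟨b1, b2⟩ := hbox (ρ * (k + τ)) ⟨by rw [hs]; linarith, by rw [hs]; linarith⟩
  have e1 : ρ * (k + τ) - k * ρ = ρ * τ := by ring
  rw [e1] at b1 b2
  have hKβ : 0 ≤ K * β := by positivity
  have hη0 : 0 ≤ bmin * η := mul_nonneg hbmin.le hη.1
  have hη1 : bmin * η ≤ bmin := by nlinarith [hη.2]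
  -- affine interpolation
  set s := ρ * (k + τ) with hsdef
  have a0 := abs_le.1 h0
  have a1 := abs_le.1 h1
  have eg : Y0 + Y1 * s - (c0 + c1 * s) = (Y0 - c0) * (1 - s) + (Y0 + Y1 - (c0 + c1)) * s := by ring
  have g1 : |Y0 + Y1 * s - (c0 + c1 * s)| ≤ 3 * (K * β) := by
    rw [eg]
    refine (abs_add_le _ _).trans ?_
    rw [abs_mul, abs_mul, abs_of_nonneg hs0]
    have q1 : |1 - s| ≤ 1 := abs_le.2 ⟨by linarith, by linarith⟩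
    have q2 : |Y0 - c0| * |1 - s| ≤ K * β * 1 := mul_le_mul h0 q1 (abs_nonneg _) hKβ
    have q3 : |Y0 + Y1 - (c0 + c1)| * s ≤ K * β * 2 := mul_le_mul h1 hs2 hs0 hKβ
    linarith
  have g2 := abs_le.1 g1
  have hKβ' : β ≤ K * β := by nlinarith
  rw [abs_le]
  constructor <;> nlinarith [g2.1, g2.2]

/-- norm and Lipschitz constant of a predictor in the normalised coordinates of a long domain -/
theorem k7wa_col_est {F : ℝ → ℝ → ℝ} (hF : K7aQuad F) {K β ρ bmin bmax c0 c1 Y0 Y1 k sb yb : ℝ} (hK : 1 ≤ K) (hρ0 : 0 < ρ) (hρ1 : ρ ≤ 1) (hbmin : 0 < bmin)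
    (hb1 : bmin ≤ β) (hρb : ρ * bmax ≤ bmin) (hnorm : ∀ t ∈ Set.Icc (0 : ℝ) 1, ∀ u ∈ Set.Icc (-1 : ℝ) 1, |F t (c0 + c1 * t + β * u)| ≤ K)
    (h0 : |Y0 - c0| ≤ K * β) (h1 : |Y0 + Y1 - (c0 + c1)| ≤ K * β) (hk0 : 0 ≤ k * ρ) (hk1 : k * ρ ≤ 1) (hsb : Y1 ∈ Set.Ico (sb * bmax) (sb * bmax + bmax))
    (hbox : ∀ t ∈ Set.Icc (k * ρ) (k * ρ + ρ), 0 ≤ Y0 + Y1 * t - (yb * bmin + sb * bmax * (t - k * ρ)) ∧ Y0 + Y1 * t - (yb * bmin + sb * bmax * (t - k * ρ)) ≤ bmin + bmax * ρ) :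
    (∀ τ ∈ Set.Icc (0 : ℝ) 1, ∀ η ∈ Set.Icc (0 : ℝ) 1, |F (ρ * (k + τ)) (yb * bmin + sb * bmax * (ρ * τ) + 2 * bmin * η)| ≤ 1200 * K ^ 3) ∧
    ∀ τ ∈ Set.Icc (0 : ℝ) 1, ∀ η ∈ Set.Icc (0 : ℝ) 1, ∀ τ' ∈ Set.Icc (0 : ℝ) 1, ∀ η' ∈ Set.Icc (0 : ℝ) 1,
      |F (ρ * (k + τ)) (yb * bmin + sb * bmax * (ρ * τ) + 2 * bmin * η) - F (ρ * (k + τ')) (yb * bmin + sb * bmax * (ρ * τ') + 2 * bmin * η')|
        ≤ 960 * K ^ 3 * (|τ - τ'| + |η - η'|) := by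
  have hβ : 0 < β := lt_of_lt_of_le hbmin hb1
  have hK0 : 0 < K := by linarith
  have hG : K7aQuad (fun t w => F (0 + 1 * t) (c0 + c1 * t + β * w)) := k7wa_col_quad_aff hF 0 1 c0 c1 β
  have hGA : ∀ t ∈ Set.Icc (0 : ℝ) 1, ∀ u ∈ Set.Icc (-1 : ℝ) 1, |(fun t w => F (0 + 1 * t) (c0 + c1 * t + β * w)) t u| ≤ K := fun t ht u hu => by
    show |F (0 + 1 * t) (c0 + c1 * t + β * u)| ≤ K
    rw [zero_add, one_mul]
    exact hnorm t ht u hu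
  have key : ∀ τ η : ℝ, F (ρ * (k + τ)) (yb * bmin + sb * bmax * (ρ * τ) + 2 * bmin * η)
      = (fun t w => F (0 + 1 * t) (c0 + c1 * t + β * w)) (ρ * (k + τ)) ((yb * bmin + sb * bmax * (ρ * τ) + 2 * bmin * η - (c0 + c1 * (ρ * (k + τ)))) / β) := fun τ η => by
    show _ = F (0 + 1 * (ρ * (k + τ))) (c0 + c1 * (ρ * (k + τ)) + β * ((yb * bmin + sb * bmax * (ρ * τ) + 2 * bmin * η - (c0 + c1 * (ρ * (k + τ)))) / β))
    rw [zero_add, one_mul, mul_div_cancel₀ _ hβ.ne']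
    congr 1
    ring
  have hpt : ∀ τ ∈ Set.Icc (0 : ℝ) 1, ∀ η ∈ Set.Icc (0 : ℝ) 1, |ρ * (k + τ)| ≤ 5 * K ∧ |(yb * bmin + sb * bmax * (ρ * τ) + 2 * bmin * η - (c0 + c1 * (ρ * (k + τ)))) / β| ≤ 5 * K :=
    fun τ hτ η hη => k7wa_col_pt hK hρ0 hρ1 hbmin hb1 hρb h0 h1 hk0 hk1 hbox hτ hη
  have hl : (1 : ℝ) ≤ 5 * K := by linarith
  constructor
  · intro τ hτ η hη
    rw [key]
    obtain ⟨p1, p2⟩ := hpt τ hτ η hη
    refine (k7a_quad_lip hG hGA hl p1 p1 p2 p2).1.trans (le_of_eq ?_)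
    ring
  · intro τ hτ η hη τ' hτ' η' hη'
    rw [key τ η, key τ' η']
    obtain ⟨p1, p2⟩ := hpt τ hτ η hη
    obtain ⟨p1', p2'⟩ := hpt τ' hτ' η' hη'
    refine (k7a_quad_lip hG hGA hl p1 p1' p2 p2').2.trans ?_
    have d1 : |ρ * (k + τ) - ρ * (k + τ')| ≤ |τ - τ'| := by
      have : ρ * (k + τ) - ρ * (k + τ') = ρ * (τ - τ') := by ring
      rw [this, abs_mul, abs_of_pos hρ0]
      nlinarith [abs_nonneg (τ - τ')]
    have a0 := abs_le.1 h0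
    have a1 := abs_le.1 h1
    have hsl : |sb * bmax - c1| * ρ ≤ (2 * K + 1) * β := by
      have q : |sb * bmax - c1| ≤ bmax + 2 * (K * β) := abs_le.2 ⟨by linarith [hsb.1, hsb.2, a0.1, a0.2, a1.1, a1.2], by linarith [hsb.1, hsb.2, a0.1, a0.2, a1.1, a1.2]⟩
      have hKβ : 0 ≤ K * β := by positivity
      calc |sb * bmax - c1| * ρ ≤ (bmax + 2 * (K * β)) * ρ := mul_le_mul_of_nonneg_right q hρ0.le
        _ = ρ * bmax + 2 * (K * β) * ρ := by ring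
        _ ≤ bmin + 2 * (K * β) * 1 := add_le_add hρb (mul_le_mul_of_nonneg_left hρ1 (by positivity))
        _ ≤ (2 * K + 1) * β := by nlinarith
    have d2 : |(yb * bmin + sb * bmax * (ρ * τ) + 2 * bmin * η - (c0 + c1 * (ρ * (k + τ)))) / β - (yb * bmin + sb * bmax * (ρ * τ') + 2 * bmin * η' - (c0 + c1 * (ρ * (k + τ')))) / β|
        ≤ (2 * K + 1) * |τ - τ'| + 2 * |η - η'| := by
      rw [← sub_div, abs_div, abs_of_pos hβ, div_le_iff₀ hβ]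
      have e : yb * bmin + sb * bmax * (ρ * τ) + 2 * bmin * η - (c0 + c1 * (ρ * (k + τ))) - (yb * bmin + sb * bmax * (ρ * τ') + 2 * bmin * η' - (c0 + c1 * (ρ * (k + τ'))))
          = (sb * bmax - c1) * ρ * (τ - τ') + 2 * bmin * (η - η') := by ring
      rw [e]
      refine (abs_add_le _ _).trans ?_
      rw [abs_mul, abs_mul, abs_mul _ (η - η'), abs_of_pos hρ0, abs_of_pos (by positivity : 0 < 2 * bmin)]
      have r1 : |sb * bmax - c1| * ρ * |τ - τ'| ≤ (2 * K + 1) * β * |τ - τ'| := mul_le_mul_of_nonneg_right hsl (abs_nonneg _)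
      have r2 : 2 * bmin * |η - η'| ≤ 2 * β * |η - η'| := mul_le_mul_of_nonneg_right (by linarith) (abs_nonneg _)
      nlinarith
    have hsum : |ρ * (k + τ) - ρ * (k + τ')| + |(yb * bmin + sb * bmax * (ρ * τ) + 2 * bmin * η - (c0 + c1 * (ρ * (k + τ)))) / β - (yb * bmin + sb * bmax * (ρ * τ') + 2 * bmin * η' - (c0 + c1 * (ρ * (k + τ')))) / β|
        ≤ 4 * K * (|τ - τ'| + |η - η'|) := by
      nlinarith [abs_nonneg (τ - τ'), abs_nonneg (η - η')]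
    calc 48 * K * (5 * K) * (|ρ * (k + τ) - ρ * (k + τ')| + |(yb * bmin + sb * bmax * (ρ * τ) + 2 * bmin * η - (c0 + c1 * (ρ * (k + τ)))) / β - (yb * bmin + sb * bmax * (ρ * τ') + 2 * bmin * η' - (c0 + c1 * (ρ * (k + τ')))) / β|)
        ≤ 48 * K * (5 * K) * (4 * K * (|τ - τ'| + |η - η'|)) := mul_le_mul_of_nonneg_left hsum (by positivity)
      _ = 960 * K ^ 3 * (|τ - τ'| + |η - η'|) := by ring

/-- the geometric facts at an incidence of the selection -/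
theorem k7wa_col_geo (W : K7aLn) (P : K7aLayer W) {N K d S χ ρ bmin bmax th β : ℝ} {Ms Ws : Finset ℝ} (hW : W.Ok N K d S Ms Ws) (hP : P.Ok K χ th β d) (hK : 1 ≤ K)
    (hρ0 : 0 < ρ) (hρ1 : ρ ≤ 1) (hbmin : 0 < bmin) (hb1 : bmin ≤ β) (hb2 : β ≤ bmax) (hρb : ρ * bmax ≤ bmin)
    {p : W.L × ℝ} (hp : p ∈ W.Ev0) {φ : P.Ph} (hφ : P.lab p.1 = some φ) :
    (∀ τ ∈ Set.Icc (0 : ℝ) 1, ∀ η ∈ Set.Icc (0 : ℝ) 1, |k7waFN (P.G φ).F ρ bmin bmax (W.sdom ρ bmax bmin p) τ η| ≤ 1200 * K ^ 3) ∧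
      k7pLip (k7waFN (P.G φ).F ρ bmin bmax (W.sdom ρ bmax bmin p)) (960 * K ^ 3) := by
  have hbmax : 0 < bmax := lt_of_lt_of_le (lt_of_lt_of_le hbmin hb1) hb2
  obtain ⟨-, ht⟩ := hW.Ev0_sub hp
  have ht' : p.2 ∈ Set.Icc (0 : ℝ) 1 := ht
  obtain ⟨b1, b2, b3⟩ := k7wc_sdom_box W hρ0 hbmax hbmin p (W.sdom ρ bmax bmin p).1 (W.sdom ρ bmax bmin p).2.1 (W.sdom ρ bmax bmin p).2.2 rfl
  have f0 := (hP.fit p.1 φ hφ 0 (by norm_num)).1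
  have f1 := (hP.fit p.1 φ hφ 1 (by norm_num)).1
  unfold K7aLn.Y K7aLab.cen at f0 f1
  rw [mul_zero, mul_zero, add_zero, add_zero] at f0
  rw [mul_one, mul_one] at f1
  have hk0 : (0 : ℝ) ≤ ((W.sdom ρ bmax bmin p).1 : ℝ) * ρ := by
    have : (0 : ℤ) ≤ (W.sdom ρ bmax bmin p).1 := Int.floor_nonneg.2 (div_nonneg ht'.1 hρ0.le)
    have h' : (0 : ℝ) ≤ ((W.sdom ρ bmax bmin p).1 : ℝ) := by exact_mod_cast this
    exact mul_nonneg h' hρ0.le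
  have hk1 : ((W.sdom ρ bmax bmin p).1 : ℝ) * ρ ≤ 1 := b1.1.trans ht'.2
  exact k7wa_col_est (hP.quad φ) hK hρ0 hρ1 hbmin hb1 hρb (hP.norm φ) f0 f1 hk0 hk1 b2 b3

/-- **L-252-S7w-A2** (~400 l.)  **a layer of projected labels is a colour on the long domains.**
PROOF.  `c := k7waCol W E χ ρ bmin bmax P th d`; fields unfold by `rfl`.   For `p = (l, t) ∈ E`: `t ∈ [0,1]`, `l ∈ Sp` (`hW.Ev0_sub`), `P.lab l = some φ` for some `φ` (`hlab`), `D = sdom p = (k, sb, yb)`, `0 ≤ k ρ ≤ t ≤ 1`.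
`cI` instance (`Option P.Ph` finite).  `m_ix`: preimage of a point = `{bx = κ} ∩ {lab = o}` (`hP.meas` composed with `measurable_fst`; `bx` as in A1).  `box`: `rfl`.  `T_eq`: `if_pos ⟨p, hp, rfl⟩`.
`fit`: IDENTITY `k7waFN F ρ bmin bmax D (u p).1 (u p).2 = F t (Y l t)` (`ρ (k + (t/ρ - k)) = t`, `2 bmin · (../(2 bmin))`, `field_simp`), then `(hP.fit l φ _ t _).2` and `K ≤ Kc`.
`cls`: `F` quadratic ⟹ `k7waFN F ..` quadratic (explicit coefficients, `ring`).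
`nrm`, `lip`: ADAPTED coordinates `G(t', w) := F t' (cen t' + β w)` is `K7aQuad`, `|G| ≤ K` on `[0,1] × [-1,1]` (`hP.norm`).   For `(τ, η) ∈ [0,1]²`: `t' = ρ (k + τ) ∈ [0, 2]`, `Y' = yb bmin + sb bmax ρ τ + 2 bmin η`, `w = (Y' - cen t')/β`.
  `|Y' - Y_l(t')| ≤ 2 bmin ≤ 2 β` (`k7wc_sdom_box` at `t' ∈ [kρ, kρ + ρ]`, `bmin + bmax ρ ≤ 2 bmin`), `|Y_l(t') - cen t'| ≤ 3 K β` (affine, `≤ K β` at `0` and `1`, `t' ∈ [0,2]`): `|w| ≤ 5 K`.   `k7a_quad_lip` with `A = K`, `lam = 5 K`: `|f| ≤ 1200 K³`.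
  `|Δt'| = ρ |Δτ| ≤ |Δτ|`;  `β Δw = (sb bmax - c1) ρ Δτ + 2 bmin Δη`, `|sb bmax - Y1| ≤ bmax`, `|Y1 - c1| ≤ 2 K β`, so `|Δw| ≤ (2K + 1)|Δτ| + 2 |Δη|`:  `|Δf| ≤ 240 K² · 4K (|Δτ| + |Δη|) = 960 K³ (..)`.
`bud`: `k7wc_slice` (`γ = bmax`, `m = bmin`, `Kg = 1`) gives `Ent`.   `T i ≠ 0` ⟹ `i = ix p`, `p ∈ E`, `i = ((vi φ, zi φ, D), some φ)` (`hP.grp`) with `(φ, D) ∈ Ent`, and `T i = P.cT χ th d ρ bmin φ` (`ENNReal.ofReal_mul`).   So `∑' T = ∑_{i ∈ Ent.image (fun e => ((vi e.1, zi e.1, e.2), some e.1))} T i`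
  (`tsum_eq_sum`) `≤ ∑_{e ∈ Ent} cT e.1 ≤ 48 K³` (`Finset.sum_image` (the map is injective); `T (img e) ≤ cT e.1` in both cases of the `if`). -/
theorem k7wa_col_ok (W : K7aLn) (P : K7aLayer W) {N K d S χ ρ bmin bmax th β ϑ Kc : ℝ} {Ms Ws : Finset ℝ} (hW : W.Ok N K d S Ms Ws) (hP : P.Ok K χ th β d) (hK : 1 ≤ K)
    {E : Set (W.L × ℝ)} (hE : E ⊆ W.Ev0) (hlab : ∀ p ∈ E, P.lab p.1 ≠ none) (hχ : 0 < χ) (hth : 0 < th) (hρ0 : 0 < ρ) (hρ1 : ρ ≤ 1) (hbmin : 0 < bmin)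
    (hb1 : bmin ≤ β) (hb2 : β ≤ bmax) (hρb : ρ * bmax ≤ bmin) (hKc : 1344 * K ^ 3 ≤ Kc) (htiny : Kc * ϑ ≤ th) :
    (k7waCol W E χ ρ bmin bmax P th d).Ok k7pQuad Kc d th ϑ := by
  classical
  have hbmax : 0 < bmax := lt_of_lt_of_le (lt_of_lt_of_le hbmin hb1) hb2
  have hK3 : 1 ≤ K ^ 3 := one_le_pow₀ hK
  have hKK : K ≤ K ^ 3 := by nlinarith [mul_nonneg (by linarith : (0:ℝ) ≤ K) (by linarith : (0:ℝ) ≤ K - 1), sq_nonneg K]
  have hsome : ∀ p ∈ E, ∃ φ, P.lab p.1 = some φ := fun p hp => Option.ne_none_iff_exists'.1 (hlab p hp)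
  have hf : ∀ (p : W.L × ℝ) (φ : P.Ph), P.lab p.1 = some φ →
      (k7waCol W E χ ρ bmin bmax P th d).f ((k7waCol W E χ ρ bmin bmax P th d).ix p) = k7waFN (P.G φ).F ρ bmin bmax (W.sdom ρ bmax bmin p) := fun p φ hφ => by
    show (match (k7waIx W χ ρ bmin bmax P p).2 with
      | some φ => k7waFN (P.G φ).F ρ bmin bmax (k7waIx W χ ρ bmin bmax P p).1.2.2
      | none => fun _ _ => 0) = _
    have e2 : (k7waIx W χ ρ bmin bmax P p).2 = some φ := hφ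
    rw [e2]
    rfl
  refine
    { cI := ?_, m_ix := ?_, a_pos := hth, box := fun _ _ => rfl, T_eq := ?_, bud := ?_, fit := ?_, cls := ?_, nrm := ?_, lip := ?_, tiny := htiny }
  · show Countable ((ℤ × ℤ × (ℤ × ℤ × ℤ)) × Option P.Ph)
    infer_instance
  · rintro ⟨κ, o⟩
    have e : k7waIx W χ ρ bmin bmax P ⁻¹' {(κ, o)} = k7waBx W χ ρ bmin bmax ⁻¹' {κ} ∩ {z : W.L × ℝ | P.lab z.1 = o} := by
      ext p
      show (k7waBx W χ ρ bmin bmax p, P.lab p.1) = (κ, o) ↔ k7waBx W χ ρ bmin bmax p = κ ∧ P.lab p.1 = o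
      exact Prod.mk.injEq _ _ _ _ ▸ Iff.rfl
    show MeasurableSet (k7waIx W χ ρ bmin bmax P ⁻¹' {(κ, o)})
    rw [e]
    exact (k7wa_col_meas_bx W hW χ ρ bmin bmax (measurableSet_singleton κ)).inter (k7wc_meas_lab W P hP o)
  · intro p hp
    have hp' : p ∈ E := hp
    show (if ∃ q ∈ E, k7waIx W χ ρ bmin bmax P q = k7waIx W χ ρ bmin bmax P p then
      ENNReal.ofReal (ρ * bmin * χ) * W.palχ χ (k7waIx W χ ρ bmin bmax P p).1.1 * ENNReal.ofReal (th ^ d) else 0) = _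
    rw [if_pos ⟨p, hp', rfl⟩]
    rfl
  · obtain ⟨Ent, hEnt, hsum⟩ := k7wc_slice W P (d := d) hW hP hK hχ.le hth.le hρ0 hρ1 hbmax hbmin hb1 le_rfl (by linarith : β ≤ 1 * bmax)
    obtain ⟨g, hg⟩ : ∃ g : P.Ph × (ℤ × ℤ × ℤ) → (ℤ × ℤ × (ℤ × ℤ × ℤ)) × Option P.Ph, g = fun e => ((P.vi e.1, P.zi e.1, e.2), some e.1) := ⟨_, rfl⟩
    have hinj : Function.Injective g := by
      rintro ⟨φ, D⟩ ⟨φ', D'⟩ h
      rw [hg] at h
      simp only [Prod.mk.injEq, Option.some.injEq] at h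
      obtain ⟨⟨-, -, h2⟩, h1⟩ := h
      rw [h1, h2]
    obtain ⟨T, hTdef⟩ : ∃ T : (ℤ × ℤ × (ℤ × ℤ × ℤ)) × Option P.Ph → ℝ≥0∞, T = fun i =>
        if ∃ q ∈ E, k7waIx W χ ρ bmin bmax P q = i then ENNReal.ofReal (ρ * bmin * χ) * W.palχ χ i.1.1 * ENNReal.ofReal (th ^ d) else 0 := ⟨_, rfl⟩
    have hT0 : ∀ i : (ℤ × ℤ × (ℤ × ℤ × ℤ)) × Option P.Ph, i ∉ Ent.image g → T i = 0 := fun i hi => by
      rw [hTdef]
      show (if ∃ q ∈ E, k7waIx W χ ρ bmin bmax P q = i then ENNReal.ofReal (ρ * bmin * χ) * W.palχ χ i.1.1 * ENNReal.ofReal (th ^ d) else 0) = 0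
      rw [if_neg]
      rintro ⟨q, hq, rfl⟩
      obtain ⟨φ, hφ⟩ := hsome q hq
      obtain ⟨-, g1, g2⟩ := hP.grp q.1 φ hφ
      refine hi (Finset.mem_image.2 ⟨(φ, W.sdom ρ bmax bmin q), hEnt q (hE hq) φ hφ, ?_⟩)
      rw [hg]
      show ((P.vi φ, P.zi φ, W.sdom ρ bmax bmin q), some φ) = ((kbBin χ (W.v q.1), kbBin χ (W.Z0 q.1), W.sdom ρ bmax bmin q), P.lab q.1)
      rw [g1, g2, hφ]
    have hgoal : ∑' i, T i ≤ ENNReal.ofReal Kc := by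
      rw [tsum_eq_sum hT0, Finset.sum_image hinj.injOn]
      refine (Finset.sum_le_sum fun e _ => ?_).trans (hsum.trans (ENNReal.ofReal_le_ofReal (by nlinarith)))
      rw [hTdef, hg]
      show (if ∃ q ∈ E, k7waIx W χ ρ bmin bmax P q = ((P.vi e.1, P.zi e.1, e.2), some e.1) then ENNReal.ofReal (ρ * bmin * χ) * W.palχ χ (P.vi e.1) * ENNReal.ofReal (th ^ d) else 0)
        ≤ ENNReal.ofReal (ρ * bmin * (χ * th ^ d)) * W.palχ χ (P.vi e.1)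
      split_ifs with h
      · have e1 : ρ * bmin * (χ * th ^ d) = ρ * bmin * χ * th ^ d := by ring
        have e2 : ENNReal.ofReal (ρ * bmin * (χ * th ^ d)) = ENNReal.ofReal (ρ * bmin * χ) * ENNReal.ofReal (th ^ d) := by
          rw [e1, ENNReal.ofReal_mul (by positivity)]
        rw [e2]
        exact le_of_eq (by ring)
      · exact zero_le
    rw [hTdef] at hgoal
    exact hgoal
  · intro p hp
    have hp' : p ∈ E := hp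
    obtain ⟨φ, hφ⟩ := hsome p hp'
    rw [hf p φ hφ]
    show |W.X p.1 p.2 - k7waFN (P.G φ).F ρ bmin bmax (W.sdom ρ bmax bmin p) (k7waU W ρ bmin bmax p).1 (k7waU W ρ bmin bmax p).2| ≤ Kc * th
    rw [k7wa_col_fn_id W _ bmax hρ0 hbmin p]
    refine ((hP.fit p.1 φ hφ p.2 (hW.Ev0_sub (hE hp')).2).2).trans (mul_le_mul_of_nonneg_right (by linarith) hth.le)
  · intro p hp
    have hp' : p ∈ E := hp
    obtain ⟨φ, hφ⟩ := hsome p hp'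
    rw [hf p φ hφ]
    exact k7wa_col_fn_quad (hP.quad φ) ρ bmin bmax _
  · intro p hp t ht y hy
    have hp' : p ∈ E := hp
    obtain ⟨φ, hφ⟩ := hsome p hp'
    rw [hf p φ hφ]
    exact ((k7wa_col_geo W P hW hP hK hρ0 hρ1 hbmin hb1 hb2 hρb (hE hp') hφ).1 t ht y hy).trans (by linarith)
  · intro p hp
    have hp' : p ∈ E := hp
    obtain ⟨φ, hφ⟩ := hsome p hp'
    rw [hf p φ hφ]
    intro t ht y hy t' ht' y' hy'
    refine ((k7wa_col_geo W P hW hP hK hρ0 hρ1 hbmin hb1 hb2 hρb (hE hp') hφ).2 t ht y hy t' ht' y' hy').trans (mul_le_mul_of_nonneg_right (by linarith) (by positivity))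

theorem k7wa_v_comp {F : ℝ → ℝ → ℝ} (hF : K7aQuad F) (a0 a1 b0 b1 b2 : ℝ) : K7aQuad fun τ u => F (a0 + a1 * τ) (b0 + b1 * τ + b2 * u) := by
  obtain ⟨e0, e1, e2, e3, e4, e5, h⟩ := hF
  refine ⟨e0 + e1 * a0 + e2 * b0 + e3 * a0 ^ 2 + e4 * a0 * b0 + e5 * b0 ^ 2, e1 * a1 + e2 * b1 + 2 * e3 * a0 * a1 + e4 * (a0 * b1 + a1 * b0) + 2 * e5 * b0 * b1,
    e2 * b2 + e4 * a0 * b2 + 2 * e5 * b0 * b2, e3 * a1 ^ 2 + e4 * a1 * b1 + e5 * b1 ^ 2, e4 * a1 * b2 + 2 * e5 * b1 * b2, e5 * b2 ^ 2, fun τ u => ?_⟩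
  simp only [h]
  ring

theorem k7wa_v_sub {F G : ℝ → ℝ → ℝ} (hF : K7aQuad F) (hG : K7aQuad G) : K7aQuad fun t y => F t y - G t y := by
  obtain ⟨e0, e1, e2, e3, e4, e5, h⟩ := hF
  obtain ⟨f0, f1, f2, f3, f4, f5, g⟩ := hG
  exact ⟨e0 - f0, e1 - f1, e2 - f2, e3 - f3, e4 - f4, e5 - f5, fun t y => by simp only [h, g]; ring⟩

/-- **L-252-S7w-A4** (~150 l.)  **from closeness on the long domain to constancy near the line.**
PROOF.  `D = sdom p = (k, sb, yb)`, `l = p.1`.   `τ_j := t_j/ρ - k`, `η_j := (y_j - (yb bmin + sb bmax (t_j - kρ)))/(2 bmin)`: IDENTITY `F t_j y_j = k7waFN F ρ bmin bmax D τ_j η_j`.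
`p.2 ∈ [kρ, kρ + ρ)`, so `τ_j ∈ [-1, 2]`;   `Y_l(t) - (yb bmin + sb bmax (t - kρ)) = (Y_l(kρ) - yb bmin) + (Y1 - sb bmax)(t - kρ)` with `t - kρ ∈ [-q, ρ + q]`: it lies in `[- bmax q, 2 bmin + bmax q]`, so `η_j ∈ [-1/2, 3/2]`.
`G(τ, w) := k7waFN Fi .. τ ((w+1)/2) - k7waFN F0 .. τ ((w+1)/2)` is `K7aQuad`, `|G| ≤ A` on `[0,1] × [-1,1]`; `k7a_quad_lip` with `lam = 3` at `w_j = 2 η_j - 1 ∈ [-2, 2]`: variation `≤ 144 A (|Δτ| + 2 |Δη|)`.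
`|Δτ| ≤ 2q/ρ`;   `2 bmin Δη = (y₁ - Y(t₁)) - (y₂ - Y(t₂)) + (Y1 - sb bmax)(t₁ - t₂)`, so `|Δη| ≤ (w + bmax q)/bmin`. -/
theorem k7wa_var_pt (W : K7aLn) {F0 Fi : ℝ → ℝ → ℝ} (h0 : K7aQuad F0) (hi : K7aQuad Fi) {ρ bmin bmax A q w : ℝ} (hρ : 0 < ρ) (hbmin : 0 < bmin) (hbmax : 0 < bmax) (hρb : ρ * bmax ≤ bmin)
    (p : W.L × ℝ) (hcl : k7pClose (k7waFN Fi ρ bmin bmax (W.sdom ρ bmax bmin p)) (k7waFN F0 ρ bmin bmax (W.sdom ρ bmax bmin p)) A)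
    (hq0 : 0 ≤ q) (hq : q ≤ ρ) (hw0 : 0 ≤ w) (hw : w + bmax * q ≤ bmin) {t1 t2 y1 y2 : ℝ} (ht1 : |t1 - p.2| ≤ q) (ht2 : |t2 - p.2| ≤ q)
    (hy1 : |y1 - W.Y p.1 t1| ≤ w) (hy2 : |y2 - W.Y p.1 t2| ≤ w) :
    |(Fi t1 y1 - F0 t1 y1) - (Fi t2 y2 - F0 t2 y2)| ≤ 288 * A * (q / ρ + (w + bmax * q) / bmin) := by
  obtain ⟨k, sb, yb, hD⟩ : ∃ k sb yb : ℤ, W.sdom ρ bmax bmin p = (k, sb, yb) := ⟨_, _, _, rfl⟩
  rw [hD] at hcl
  obtain ⟨hp2, hY1, hbox⟩ := k7wc_sdom_box W hρ hbmax hbmin p k sb yb hD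
  have hbox0 := hbox (k * ρ) ⟨le_rfl, by linarith⟩
  have hA0 : 0 ≤ A := (abs_nonneg _).trans (hcl 0 ⟨le_rfl, zero_le_one⟩ 0 ⟨le_rfl, zero_le_one⟩)
  obtain ⟨H, hH⟩ : ∃ H : ℝ → ℝ → ℝ, H = fun τ u => Fi (ρ * k + ρ * τ) ((yb * bmin + bmin) + sb * bmax * ρ * τ + bmin * u) - F0 (ρ * k + ρ * τ) ((yb * bmin + bmin) + sb * bmax * ρ * τ + bmin * u) := ⟨_, rfl⟩
  have hHq : K7aQuad H := by
    rw [hH]
    exact k7wa_v_sub (k7wa_v_comp hi _ _ _ _ _) (k7wa_v_comp h0 _ _ _ _ _)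
  have hHA : ∀ τ ∈ Set.Icc (0 : ℝ) 1, ∀ u ∈ Set.Icc (-1 : ℝ) 1, |H τ u| ≤ A := by
    intro τ hτ u hu
    have := hcl τ hτ ((u + 1) / 2) ⟨by linarith [hu.1], by linarith [hu.2]⟩
    unfold k7waFN at this
    simp only at this
    have e1 : ρ * ((k : ℝ) + τ) = ρ * k + ρ * τ := by ring
    have e2 : (yb : ℝ) * bmin + sb * bmax * (ρ * τ) + 2 * bmin * ((u + 1) / 2) = (yb * bmin + bmin) + sb * bmax * ρ * τ + bmin * u := by ring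
    rw [e1, e2] at this
    rw [hH]
    exact this
  obtain ⟨s, hs⟩ : ∃ s : ℝ, s = W.Y1 p.1 - sb * bmax := ⟨_, rfl⟩
  have hs0 : 0 ≤ s := by rw [hs]; linarith [hY1.1]
  have hs1 : s ≤ bmax := by rw [hs]; linarith [hY1.2]
  obtain ⟨a, ha⟩ : ∃ a : ℝ, a = W.Y p.1 (k * ρ) - yb * bmin := ⟨_, rfl⟩
  have ha0 : 0 ≤ a := by rw [ha]; linarith [hbox0.1]
  have ha1 : a ≤ 2 * bmin := by rw [ha]; linarith [hbox0.2]
  have hYe : ∀ t, W.Y p.1 t = a + yb * bmin + (s + sb * bmax) * (t - k * ρ) := by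
    intro t
    rw [ha, hs]
    unfold K7aLn.Y
    ring
  have key : ∀ t y : ℝ, |t - p.2| ≤ q → |y - W.Y p.1 t| ≤ w →
      |t / ρ - k| ≤ 3 ∧ |(y - (yb * bmin + bmin) - sb * bmax * (t - k * ρ)) / bmin| ≤ 3 ∧
        Fi t y - F0 t y = H (t / ρ - k) ((y - (yb * bmin + bmin) - sb * bmax * (t - k * ρ)) / bmin) := by
    intro t y ht hy
    obtain ⟨t1', t2'⟩ := abs_le.1 ht
    obtain ⟨y1', y2'⟩ := abs_le.1 hy
    rw [hYe] at y1' y2'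
    have x1 : -q ≤ t - k * ρ := by linarith [hp2.1]
    have x2 : t - k * ρ ≤ ρ + q := by linarith [hp2.2]
    have p1 : 0 ≤ s * (t - k * ρ) + bmax * q := by nlinarith [mul_nonneg hs0 (by linarith : 0 ≤ (t - k * ρ) + q), mul_nonneg (by linarith : 0 ≤ bmax - s) hq0]
    have p2 : s * (t - k * ρ) ≤ bmax * (ρ + q) := by nlinarith [mul_nonneg hs0 (by linarith : 0 ≤ ρ + q - (t - k * ρ)), mul_nonneg (by linarith : 0 ≤ bmax - s) (by linarith : 0 ≤ ρ + q)]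
    refine ⟨?_, ?_, ?_⟩
    · rw [abs_le]
      constructor
      · rw [le_sub_iff_add_le, le_div_iff₀ hρ]
        linarith
      · rw [sub_le_iff_le_add, div_le_iff₀ hρ]
        linarith
    · rw [abs_le]
      constructor
      · rw [le_div_iff₀ hbmin]
        linarith
      · rw [div_le_iff₀ hbmin]
        linarith
    · rw [hH]
      have e1 : ρ * k + ρ * (t / ρ - k) = t := by
        field_simp
        ring
      have e2 : (yb * bmin + bmin) + sb * bmax * ρ * (t / ρ - k) + bmin * ((y - (yb * bmin + bmin) - sb * bmax * (t - k * ρ)) / bmin) = y := by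
        field_simp
        ring
      simp only [e1, e2]
  obtain ⟨a1, b1, c1⟩ := key t1 y1 ht1 hy1
  obtain ⟨a2, b2, c2⟩ := key t2 y2 ht2 hy2
  rw [c1, c2]
  refine (k7a_quad_lip hHq hHA (by norm_num : (1 : ℝ) ≤ 3) a1 a2 b1 b2).2.trans ?_
  obtain ⟨u1, u2⟩ := abs_le.1 ht1
  obtain ⟨u3, u4⟩ := abs_le.1 ht2
  obtain ⟨v1, v2⟩ := abs_le.1 hy1
  obtain ⟨v3, v4⟩ := abs_le.1 hy2
  rw [hYe] at v1 v2 v3 v4
  have d1 : |t1 / ρ - k - (t2 / ρ - k)| ≤ 2 * (q / ρ) := by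
    have e : t1 / ρ - k - (t2 / ρ - k) = (t1 - t2) / ρ := by ring
    have e' : 2 * (q / ρ) = 2 * q / ρ := by ring
    rw [e, e', abs_div, abs_of_pos hρ]
    refine div_le_div_of_nonneg_right ?_ hρ.le
    rw [abs_le]
    constructor <;> linarith
  have hst : |s * (t1 - t2)| ≤ bmax * (2 * q) := by
    rw [abs_mul, abs_of_nonneg hs0]
    refine mul_le_mul hs1 ?_ (abs_nonneg _) hbmax.le
    rw [abs_le]
    constructor <;> linarith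
  obtain ⟨w1, w2⟩ := abs_le.1 hst
  have d2 : |(y1 - (yb * bmin + bmin) - sb * bmax * (t1 - k * ρ)) / bmin - (y2 - (yb * bmin + bmin) - sb * bmax * (t2 - k * ρ)) / bmin| ≤ 2 * ((w + bmax * q) / bmin) := by
    have e : (y1 - (yb * bmin + bmin) - sb * bmax * (t1 - k * ρ)) / bmin - (y2 - (yb * bmin + bmin) - sb * bmax * (t2 - k * ρ)) / bmin
        = ((y1 - y2) - sb * bmax * (t1 - t2)) / bmin := by ring
    have e' : 2 * ((w + bmax * q) / bmin) = 2 * (w + bmax * q) / bmin := by ring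
    rw [e, e', abs_div, abs_of_pos hbmin]
    refine div_le_div_of_nonneg_right ?_ hbmin.le
    rw [abs_le]
    constructor <;> linarith
  calc 48 * A * 3 * (|t1 / ρ - k - (t2 / ρ - k)| + |(y1 - (yb * bmin + bmin) - sb * bmax * (t1 - k * ρ)) / bmin - (y2 - (yb * bmin + bmin) - sb * bmax * (t2 - k * ρ)) / bmin|)
      ≤ 48 * A * 3 * (2 * (q / ρ) + 2 * ((w + bmax * q) / bmin)) := mul_le_mul_of_nonneg_left (add_le_add d1 d2) (by positivity)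
    _ = 288 * A * (q / ρ + (w + bmax * q) / bmin) := by ring

end

end Claimed.Agent.R252

/-!
# ROW 252 (S0492), unit S7w, STAGE A (helper89), file 3: ASSEMBLY OF STAGE A  (`k7wa_stageA : k7a_Match → K7wStageA`).
-/

set_option autoImplicit false

namespace Claimed.Agent.R252

open MeasureTheory
open scoped ENNReal BigOperators

noncomputable section

/-- **one pair of layers on the long domains**: `k7p_core` for the colours `Pi` (thickness `ai ≤ a`) and `P0` (thickness `a`) -/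
theorem k7wa_pair (hM : k7a_Match) (d0 : ℝ) (hd0 : d0 < 1) :
    ∃ ε C : ℝ, 0 < ε ∧ 1 ≤ C ∧ ∀ (W : K7aLn) (P0 Pi : K7aLayer W) (N K d S χ ρ bmin bmax a ai β0 βi ϑ lamW M Θ K1 δ Kc : ℝ) (Ms Ws : Finset ℝ) (Lg : ℕ)
      (E : Set (W.L × ℝ)), W.Ok N K d S Ms Ws → 1 < N → 1 ≤ K → 0 ≤ d → d ≤ d0 → P0.Ok K χ a β0 d → Pi.Ok K χ ai βi d → MeasurableSet E → E ⊆ W.Ev0 →
      (∀ p ∈ E, P0.lab p.1 ≠ none) → (∀ p ∈ E, Pi.lab p.1 ≠ none) → W.χ0 ≤ χ → χ ≤ 1 → 0 < ρ → ρ ≤ 1 → 0 < bmin → bmin ≤ β0 → β0 ≤ bmax → bmin ≤ βi → βi ≤ bmax →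
      ρ * bmax ≤ bmin → (∃ k : ℕ, ϑ = (1 / 2 : ℝ) ^ k) → M ∈ Ms → 2 * N ^ (-M) ≤ ρ * ϑ → 2 * K * N ^ (-M) ≤ χ → 2 * (K + bmax + 1) * N ^ (-M) ≤ bmin * ϑ →
      0 < ai → ai ≤ a → a ≤ 1 → 1 ≤ lamW → (∀ p ∈ Set.Icc ai 1, ∃ r ∈ Ws, p ≤ N ^ (-r) ∧ N ^ (-r) ≤ lamW * p) → Kc = 1344 * K ^ 3 * lamW → Kc * ϑ ≤ ai →
      1 ≤ K1 → 0 < δ → δ ≤ 1 → 1 ≤ Θ → 2 * Kc ≤ 2 ^ Lg * (Θ * a) → (∀ x, Θ ≤ x → (x * a / ai) ^ d ≤ x ^ d0) → C * (Kc ^ 4 * K1 / δ) ≤ Θ ^ ε →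
      ∃ Zx : Set (W.L × ℝ), MeasurableSet Zx ∧ W.law E Zx ≤ ENNReal.ofReal (2 * Kc / K1 + Lg * δ) ∧
        ∀ p ∈ E \ Zx, ∀ φ0 φ, P0.lab p.1 = some φ0 → Pi.lab p.1 = some φ →
          k7pClose (k7waFN (Pi.G φ).F ρ bmin bmax (W.sdom ρ bmax bmin p)) (k7waFN (P0.G φ0).F ρ bmin bmax (W.sdom ρ bmax bmin p)) (Θ * a) := by
  obtain ⟨ε, C, hε, hC, hcore⟩ := k7p_core k7pQuad k7pQuad (k7p_match_quad.1 hM) 6 37 (by norm_num) k8l_code_quad d0 hd0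
  refine ⟨ε, C, hε, hC, ?_⟩
  intro W P0 Pi N K d S χ ρ bmin bmax a ai β0 βi ϑ lamW M Θ K1 δ Kc Ms Ws Lg E hW hN hK hd hdd hP0 hPi mE hE hl0 hli hχ0 hχ1 hρ0 hρ1 hbmin hb0 hb0' hbi hbi' hρb hϑ hMs hM1 hM2 hM3
    hai haa ha1 hlam hWs hKc htiny hK1 hδ hδ1 hΘ hLg hex hsm
  have hd1 : d ≤ 1 := hdd.trans hd0.le
  have hbmax : 0 < bmax := hbmin.trans_le (hb0.trans hb0')
  have hχ : 0 < χ := hW.χ0_pos.trans_le hχ0
  have ha : 0 < a := hai.trans_le haa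
  have hK3 : 1 ≤ K ^ 3 := one_le_pow₀ hK
  have hKc1 : 1344 * K ^ 3 ≤ Kc := by
    rw [hKc]
    nlinarith
  have hKc1' : 1 ≤ Kc := by linarith
  have hϑ0 : 0 < ϑ := by
    obtain ⟨k, rfl⟩ := hϑ
    positivity
  have hZ : (k7waBs W E χ ρ bmin bmax).Ok Kc d ai ϑ := by
    rw [hKc]
    exact k7wa_base_ok W hW hN hK hd hd1 mE hE hχ0 hχ1 hρ0 hbmin hbmax hρb hϑ hMs hM1 hM2 hM3 hai (haa.trans ha1) hlam hWs
  have hc1 : (k7waCol W E χ ρ bmin bmax Pi ai d).Ok k7pQuad Kc d ai ϑ :=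
    k7wa_col_ok W Pi hW hPi hK hE hli hχ hai hρ0 hρ1 hbmin hbi hbi' hρb hKc1 htiny
  have hc2 : (k7waCol W E χ ρ bmin bmax P0 a d).Ok k7pQuad Kc d a ϑ :=
    k7wa_col_ok W P0 hW hP0 hK hE hl0 hχ ha hρ0 hρ1 hbmin hb0 hb0' hρb hKc1 (htiny.trans haa)
  have hmax : max ai a = a := max_eq_right haa
  have hmin : min ai a = ai := min_eq_left haa
  obtain ⟨Zx, mZ, hZx, hcl, -, -⟩ := hcore (k7waBs W E χ ρ bmin bmax) (k7waCol W E χ ρ bmin bmax Pi ai d) (k7waCol W E χ ρ bmin bmax P0 a d) Kc d ai ai a ϑ Θ K1 δ Lg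
    hZ hc1 hc2 hKc1' hd hd1 (by rw [hmin]) hK1 hδ hδ1 hΘ (by rw [hmax]; exact hLg)
    (by
      intro x hx
      rw [hmax]
      refine ⟨hex x hx, ?_⟩
      rw [mul_div_assoc, div_self ha.ne', mul_one]
      exact Real.rpow_le_rpow_of_exponent_le (hΘ.trans hx) hdd) hsm
  refine ⟨Zx, mZ, hZx, ?_⟩
  intro p hp φ0 φ h0 hi
  have h := hcl p hp
  rw [hmax] at h
  have e1 : (k7waCol W E χ ρ bmin bmax Pi ai d).f ((k7waCol W E χ ρ bmin bmax Pi ai d).ix p) = k7waFN (Pi.G φ).F ρ bmin bmax (W.sdom ρ bmax bmin p) := by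
    show (match (k7waIx W χ ρ bmin bmax Pi p).2 with
      | some φ => k7waFN (Pi.G φ).F ρ bmin bmax (k7waIx W χ ρ bmin bmax Pi p).1.2.2
      | none => fun _ _ => 0) = _
    have : (k7waIx W χ ρ bmin bmax Pi p).2 = some φ := hi
    rw [this]
    rfl
  have e2 : (k7waCol W E χ ρ bmin bmax P0 a d).f ((k7waCol W E χ ρ bmin bmax P0 a d).ix p) = k7waFN (P0.G φ0).F ρ bmin bmax (W.sdom ρ bmax bmin p) := by
    show (match (k7waIx W χ ρ bmin bmax P0 p).2 with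
      | some φ => k7waFN (P0.G φ).F ρ bmin bmax (k7waIx W χ ρ bmin bmax P0 p).1.2.2
      | none => fun _ _ => 0) = _
    have : (k7waIx W χ ρ bmin bmax P0 p).2 = some φ0 := h0
    rw [this]
    rfl
  rw [e1, e2] at h
  exact h

/-! ## The one-scale statement with explicit slack -/

theorem k7wa_dyad {y : ℝ} (h0 : 0 < y) (h1 : y ≤ 1) : ∃ k : ℕ, y / 2 ≤ (1 / 2 : ℝ) ^ k ∧ (1 / 2 : ℝ) ^ k ≤ y := by
  obtain ⟨n, hn1, hn2⟩ := exists_nat_pow_near_of_lt_one h0 h1 (by norm_num : (0 : ℝ) < 1 / 2) (by norm_num)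
  exact ⟨n + 1, by rw [pow_succ]; linarith, hn1.le⟩

theorem k7wa_st0 (x : K7wExp) : x.st 0 = x.s := by simp [K7wExp.st]
theorem k7wa_st1 (x : K7wExp) : x.st 1 = x.s + x.u := by simp [K7wExp.st]
theorem k7wa_st2 (x : K7wExp) : x.st 2 = x.s + x.c2 := by simp [K7wExp.st]

/-- the arithmetic of the passage to the short neighbourhoods -/
theorem k7wa_arith {K h b bmin bmax ρ q Λ X A ε : ℝ} (hK : 1 ≤ K) (hh : 0 < h) (hb : 0 < b) (hbmin : 0 < bmin) (hbmax : 0 < bmax) (hρ : 0 < ρ) (hΛ : 1 ≤ Λ) (hX : 0 < X)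
    (hA : 0 ≤ A) (hq : q ≤ K * h) (h1 : h * bmax ≤ K ^ 2 * X * bmin) (h2 : b ≤ K * X * bmin) (hρ2 : bmin ≤ 2 * bmax * ρ) (hY : 4 * (K ^ 3 * Λ * X) ≤ 1)
    (hfin : 1152 * A * (K ^ 3 * Λ * X) ≤ ε) :
    q ≤ ρ ∧ Λ * b + bmax * q ≤ bmin ∧ 288 * A * (q / ρ + (Λ * b + bmax * q) / bmin) ≤ ε := by
  set Y : ℝ := K ^ 3 * Λ * X with hYd
  have hK0 : 0 < K := by linarith
  have hY0 : 0 < Y := by positivity
  have hKX : K ^ 3 * X ≤ Y := by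
    rw [hYd]
    have : 0 < K ^ 3 * X := by positivity
    nlinarith
  have a1 : q ≤ 2 * Y * ρ := by
    have e1 : q * bmin ≤ (2 * (K ^ 3 * X) * ρ) * bmin := by
      calc q * bmin ≤ (K * h) * (2 * bmax * ρ) := mul_le_mul hq hρ2 hbmin.le (by positivity)
        _ = 2 * K * ρ * (h * bmax) := by ring
        _ ≤ 2 * K * ρ * (K ^ 2 * X * bmin) := mul_le_mul_of_nonneg_left h1 (by positivity)
        _ = (2 * (K ^ 3 * X) * ρ) * bmin := by ring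
    have e2 : q ≤ 2 * (K ^ 3 * X) * ρ := le_of_mul_le_mul_right e1 hbmin
    nlinarith
  have a2 : bmax * q ≤ Y * bmin := by
    calc bmax * q ≤ bmax * (K * h) := mul_le_mul_of_nonneg_left hq hbmax.le
      _ = K * (h * bmax) := by ring
      _ ≤ K * (K ^ 2 * X * bmin) := mul_le_mul_of_nonneg_left h1 hK0.le
      _ = (K ^ 3 * X) * bmin := by ring
      _ ≤ Y * bmin := mul_le_mul_of_nonneg_right hKX hbmin.le
  have a3 : Λ * b ≤ Y * bmin := by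
    calc Λ * b ≤ Λ * (K * X * bmin) := mul_le_mul_of_nonneg_left h2 (by linarith)
      _ = (K * (Λ * X)) * bmin := by ring
      _ ≤ (K ^ 3 * (Λ * X)) * bmin := by
          refine mul_le_mul_of_nonneg_right (mul_le_mul_of_nonneg_right ?_ (by positivity)) hbmin.le
          nlinarith [one_le_pow₀ hK (n := 2)]
      _ = Y * bmin := by rw [hYd]; ring
  refine ⟨by nlinarith, by nlinarith, ?_⟩
  have b1 : q / ρ ≤ 2 * Y := by
    rw [div_le_iff₀ hρ]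
    exact a1
  have b2 : (Λ * b + bmax * q) / bmin ≤ 2 * Y := by
    rw [div_le_iff₀ hbmin]
    linarith
  calc 288 * A * (q / ρ + (Λ * b + bmax * q) / bmin) ≤ 288 * A * (4 * Y) := mul_le_mul_of_nonneg_left (by linarith) (by positivity)
    _ = 1152 * A * Y := by ring
    _ ≤ ε := hfin

theorem k7wa_st_bd (x : K7wExp) (hx : x.Adm) (i : Fin 3) : x.s ≤ x.st i ∧ x.st i ≤ x.s + x.u := by
  have hc : x.c2 ≤ x.u := by nlinarith [hx.c1, mul_nonneg hx.d0 hx.u0.le, hx.u0]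
  have h0 := hx.u0
  have h2 := hx.c0
  fin_cases i
  · show x.s ≤ x.st 0 ∧ x.st 0 ≤ _
    rw [k7wa_st0]
    constructor <;> linarith
  · show x.s ≤ x.st 1 ∧ x.st 1 ≤ _
    rw [k7wa_st1]
    constructor <;> linarith
  · show x.s ≤ x.st 2 ∧ x.st 2 ≤ _
    rw [k7wa_st2]
    constructor <;> linarith

theorem k7wa_B_le (x : K7wExp) (hx : x.Adm) (i : Fin 3) : 0 < x.B i ∧ x.B i ≤ x.B 0 + x.B 1 + x.B 2 := by
  have h0 := hx.Bg 0
  have h1 := hx.Bg 1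
  have h2 := hx.Bg 2
  have hg := hx.eg0
  fin_cases i
  · show 0 < x.B 0 ∧ x.B 0 ≤ _
    constructor <;> linarith
  · show 0 < x.B 1 ∧ x.B 1 ≤ _
    constructor <;> linarith
  · show 0 < x.B 2 ∧ x.B 2 ≤ _
    constructor <;> linarith

/-- the arithmetic of the mesh -/
theorem k7wa_mesh {K Kc σ nB a1 χ bmin bmax ρ ϑ : ℝ} (hK : 1 ≤ K) (hKc1 : 1 ≤ Kc) (hσ0 : 0 < σ) (hnB0 : 0 < nB) (hnBle : nB ≤ 1) (ha1 : 0 < a1) (ha1le : a1 ≤ 1)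
    (hχ0 : 0 < χ) (hχle : χ ≤ 1) (hbmin : 0 < bmin) (hρ0 : 0 < ρ) (hmesh : 12 * K ^ 2 * Kc * σ ≤ nB * a1 * χ) (hnB1 : nB ≤ K * bmin)
    (hbmaxK : bmax ≤ K) (hρlo : bmin ≤ 2 * bmax * ρ) (hϑlo : a1 ≤ 2 * Kc * ϑ) :
    2 * σ ≤ ρ * ϑ ∧ 2 * K * σ ≤ χ ∧ 2 * (K + bmax + 1) * σ ≤ bmin * ϑ := by
  have hK0 : 0 < K := by linarith
  have hKc0 : 0 < Kc := by linarith
  have hK2 : 1 ≤ K ^ 2 := one_le_pow₀ hK
  have hT1 : 12 * K ^ 2 * Kc * σ ≤ nB * a1 := hmesh.trans (mul_le_of_le_one_right (by positivity) hχle)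
  have hT2 : 12 * K ^ 2 * Kc * σ ≤ χ := hmesh.trans (mul_le_of_le_one_left hχ0.le (mul_le_one₀ hnBle ha1.le ha1le))
  refine ⟨?_, ?_, ?_⟩
  · have e1 : nB ≤ 2 * K ^ 2 * ρ := by
      calc nB ≤ K * bmin := hnB1
        _ ≤ K * (2 * bmax * ρ) := mul_le_mul_of_nonneg_left hρlo hK0.le
        _ ≤ K * (2 * K * ρ) := by
            refine mul_le_mul_of_nonneg_left ?_ hK0.le
            exact mul_le_mul_of_nonneg_right (by linarith) hρ0.le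
        _ = 2 * K ^ 2 * ρ := by ring
    have e2 : nB * a1 ≤ (2 * K ^ 2 * ρ) * (2 * Kc * ϑ) := mul_le_mul e1 hϑlo ha1.le (by positivity)
    have e3 : (K ^ 2 * Kc) * (12 * σ) ≤ (K ^ 2 * Kc) * (4 * (ρ * ϑ)) := by
      calc (K ^ 2 * Kc) * (12 * σ) = 12 * K ^ 2 * Kc * σ := by ring
        _ ≤ (2 * K ^ 2 * ρ) * (2 * Kc * ϑ) := hT1.trans e2
        _ = (K ^ 2 * Kc) * (4 * (ρ * ϑ)) := by ring
    have e4 := le_of_mul_le_mul_left e3 (by positivity)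
    linarith
  · refine le_trans ?_ hT2
    have h1 : K ≤ K ^ 2 * Kc := by
      calc K = K * 1 * 1 := by ring
        _ ≤ K * K * Kc := mul_le_mul (mul_le_mul_of_nonneg_left hK hK0.le) hKc1 (by norm_num) (by positivity)
        _ = K ^ 2 * Kc := by ring
    calc 2 * K * σ ≤ 2 * (K ^ 2 * Kc) * σ := mul_le_mul_of_nonneg_right (by linarith) hσ0.le
      _ ≤ 12 * K ^ 2 * Kc * σ := by
          have : 0 < K ^ 2 * Kc * σ := by positivity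
          linarith
  · have e2 : nB * a1 ≤ (K * bmin) * (2 * Kc * ϑ) := mul_le_mul hnB1 hϑlo ha1.le (by positivity)
    have e3 : (K * Kc) * (12 * K * σ) ≤ (K * Kc) * (2 * (bmin * ϑ)) := by
      calc (K * Kc) * (12 * K * σ) = 12 * K ^ 2 * Kc * σ := by ring
        _ ≤ (K * bmin) * (2 * Kc * ϑ) := hT1.trans e2
        _ = (K * Kc) * (2 * (bmin * ϑ)) := by ring
    have e4 := le_of_mul_le_mul_left e3 (by positivity)
    have e5 : 2 * (K + bmax + 1) * σ ≤ 6 * K * σ := mul_le_mul_of_nonneg_right (by linarith) hσ0.le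
    linarith

/-- **stage A at one scale, explicit slack** -/
theorem k7wa_var (hM : k7a_Match) (x : K7wExp) (hx : x.Adm) :
    ∃ ε C : ℝ, 0 < ε ∧ 1 ≤ C ∧ ∀ (Mχ N K lamW M K1 δ Kc : ℝ) (Ms Ws : Finset ℝ) (Lg : ℕ) (W : K7aW) (P : Fin 3 → K7aLayer W.toK7aLn) (β : Fin 3 → ℝ)
      (E : Set (W.L × ℝ)), K7wHyp x Mχ N K Ms Ws W P β E → 1 < N → 1 ≤ K → 0 ≤ Mχ → W.χ0 ≤ N ^ (-Mχ) → M ∈ Ms → 1 ≤ lamW → Kc = 1344 * K ^ 3 * lamW →
      12 * K ^ 2 * Kc * N ^ (-M) ≤ N ^ (-(x.B 0 + x.B 1 + x.B 2 + x.s + x.u + Mχ)) →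
      (∀ p ∈ Set.Icc (N ^ (-x.s - x.u)) 1, ∃ r ∈ Ws, p ≤ N ^ (-r) ∧ N ^ (-r) ≤ lamW * p) →
      1 ≤ K1 → 0 < δ → δ ≤ 1 → 2 * Kc ≤ 2 ^ Lg * (N ^ (10 / (1 - x.d) * x.u) * N ^ (-x.s)) → C * (Kc ^ 4 * K1 / δ) ≤ (N ^ (10 / (1 - x.d) * x.u)) ^ ε →
      1152 * K ^ 3 ≤ N ^ (3 * x.u / 2) →
      ∃ E' : Set (W.L × ℝ), E' ⊆ E ∧ MeasurableSet E' ∧ W.prior E ≤ W.prior E' + ENNReal.ofReal (3 * (2 * Kc / K1 + Lg * δ)) ∧
        K7wVar W P (N ^ (-x.eh - x.eg)) (N ^ (-x.s - x.u)) (N ^ (x.u / 2)) E' := by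
  obtain ⟨ε, C, hε, hC, hpair⟩ := k7wa_pair hM ((1 + x.d) / 2) (by linarith [hx.d1])
  refine ⟨ε, C, hε, hC, ?_⟩
  intro Mχ N K lamW M K1 δ Kc Ms Ws Lg W P β E H hN hK hMχ hχ0 hMs hlam hKc hmesh hWs hK1 hδ hδ1 hLg hsm hfin
  have hN0 : 0 < N := by linarith
  have hK0 : 0 < K := by linarith
  have h1d : 0 < 1 - x.d := by linarith [hx.d1]
  have hu := hx.u0
  have hs := hx.s0
  set Cd : ℝ := 10 / (1 - x.d) with hCd
  have hCd0 : 0 < Cd := by positivity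
  have hpos : ∀ e : ℝ, 0 < N ^ e := fun e => Real.rpow_pos_of_pos hN0 e
  have hmono : ∀ {e e' : ℝ}, e ≤ e' → N ^ e ≤ N ^ e' := fun h => Real.rpow_le_rpow_of_exponent_le hN.le h
  have hβ0 : ∀ i, 0 < β i := fun i => by
    have h1 := H.βlo i
    have h2 := hpos (-x.B i)
    exact (pos_iff_pos_of_mul_pos (h2.trans_le h1)).1 hK0
  obtain ⟨i0, hi0⟩ := Finite.exists_min β
  obtain ⟨j0, hj0⟩ := Finite.exists_max β
  obtain ⟨bmin, hbmin_def⟩ : ∃ b, b = β i0 := ⟨_, rfl⟩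
  obtain ⟨bmax, hbmax_def⟩ : ∃ b, b = β j0 := ⟨_, rfl⟩
  have hbmin : 0 < bmin := hbmin_def ▸ hβ0 i0
  have hbmax : 0 < bmax := hbmax_def ▸ hβ0 j0
  have hlo : ∀ i, bmin ≤ β i := fun i => hbmin_def ▸ hi0 i
  have hhi : ∀ i, β i ≤ bmax := fun i => hbmax_def ▸ hj0 i
  have hbb : bmin ≤ bmax := (hlo 0).trans (hhi 0)
  obtain ⟨kρ, hρ1, hρ2⟩ := k7wa_dyad (y := bmin / bmax) (by positivity) ((div_le_one hbmax).2 hbb)
  obtain ⟨ρ, hρdef⟩ : ∃ r : ℝ, r = (1 / 2 : ℝ) ^ kρ := ⟨_, rfl⟩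
  rw [← hρdef] at hρ1 hρ2
  have hρ0 : 0 < ρ := by rw [hρdef]; positivity
  have hρle : ρ ≤ 1 := by rw [hρdef]; exact pow_le_one₀ (by norm_num) (by norm_num)
  have hρb : ρ * bmax ≤ bmin := (le_div_iff₀ hbmax).1 hρ2
  have hρlo : bmin ≤ 2 * bmax * ρ := by
    have h1 := (div_le_iff₀ (by norm_num : (0 : ℝ) < 2)).1 hρ1
    have h2 := (div_le_iff₀ hbmax).1 h1
    linarith
  have hK3 : 1 ≤ K ^ 3 := one_le_pow₀ hK
  have hKc1 : 1 ≤ Kc := by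
    rw [hKc]
    have : 1 ≤ K ^ 3 * lamW := one_le_mul_of_one_le_of_one_le hK3 hlam
    linarith
  have hKc0 : 0 < Kc := by linarith
  obtain ⟨a1, ha1def⟩ : ∃ r : ℝ, r = N ^ (-x.s - x.u) := ⟨_, rfl⟩
  have ha1 : 0 < a1 := ha1def ▸ hpos _
  have ha1le : a1 ≤ 1 := by
    rw [ha1def]
    exact Real.rpow_le_one_of_one_le_of_nonpos hN.le (by linarith)
  obtain ⟨kϑ, hϑ1, hϑ2⟩ := k7wa_dyad (y := a1 / Kc) (by positivity) (by rw [div_le_one hKc0]; linarith)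
  obtain ⟨ϑ, hϑdef⟩ : ∃ r : ℝ, r = (1 / 2 : ℝ) ^ kϑ := ⟨_, rfl⟩
  rw [← hϑdef] at hϑ1 hϑ2
  have hϑ0 : 0 < ϑ := by rw [hϑdef]; positivity
  have hϑK : Kc * ϑ ≤ a1 := by
    have := (le_div_iff₀ hKc0).1 hϑ2
    linarith
  have hϑlo : a1 ≤ 2 * Kc * ϑ := by
    have h1 := (div_le_iff₀ (by norm_num : (0 : ℝ) < 2)).1 hϑ1
    have h2 := (div_le_iff₀ hKc0).1 h1
    linarith
  -- the mesh
  obtain ⟨σ, hσdef⟩ : ∃ r : ℝ, r = N ^ (-M) := ⟨_, rfl⟩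
  rw [← hσdef] at hmesh
  have hσ0 : 0 < σ := hσdef ▸ hpos _
  obtain ⟨nB, hnB⟩ : ∃ r : ℝ, r = N ^ (-(x.B 0 + x.B 1 + x.B 2)) := ⟨_, rfl⟩
  have hnB0 : 0 < nB := hnB ▸ hpos _
  have hnB1 : nB ≤ K * bmin := by
    rw [hnB, hbmin_def]
    exact (hmono (by linarith [(k7wa_B_le x hx i0).2])).trans (H.βlo i0)
  have hbmaxK : bmax ≤ K := by
    rw [hbmax_def]
    refine (H.βhi j0).trans ?_
    have : N ^ (-x.B j0) ≤ 1 := Real.rpow_le_one_of_one_le_of_nonpos hN.le (by linarith [(k7wa_B_le x hx j0).1])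
    exact mul_le_of_le_one_right hK0.le this
  have hχle : N ^ (-Mχ) ≤ 1 := Real.rpow_le_one_of_one_le_of_nonpos hN.le (by linarith)
  have hT : N ^ (-(x.B 0 + x.B 1 + x.B 2 + x.s + x.u + Mχ)) = nB * a1 * N ^ (-Mχ) := by
    rw [hnB, ha1def, ← Real.rpow_add hN0, ← Real.rpow_add hN0]
    congr 1
    ring
  have hnBle : nB ≤ 1 := by
    rw [hnB]
    exact Real.rpow_le_one_of_one_le_of_nonpos hN.le (by linarith [(k7wa_B_le x hx 0).1, (k7wa_B_le x hx 1).1, (k7wa_B_le x hx 2).1])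
  rw [hT] at hmesh
  obtain ⟨hM1, hM2, hM3⟩ := k7wa_mesh hK hKc1 hσ0 hnB0 hnBle ha1 ha1le (hpos _) hχle hbmin hρ0 hmesh hnB1 hbmaxK hρlo hϑlo
  have hΘ1 : 1 ≤ N ^ (Cd * x.u) := Real.one_le_rpow hN.le (by positivity)
  have hP0 := H.lay 0
  rw [k7wa_st0] at hP0
  have key : ∀ i : Fin 3, ∃ Zx : Set (W.L × ℝ), MeasurableSet Zx ∧ W.law E Zx ≤ ENNReal.ofReal (2 * Kc / K1 + Lg * δ) ∧
      ∀ p ∈ E \ Zx, ∀ φ0 φ, (P 0).lab p.1 = some φ0 → (P i).lab p.1 = some φ →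
        k7pClose (k7waFN ((P i).G φ).F ρ bmin bmax (W.sdom ρ bmax bmin p)) (k7waFN ((P 0).G φ0).F ρ bmin bmax (W.sdom ρ bmax bmin p)) (N ^ (Cd * x.u) * N ^ (-x.s)) := by
    intro i
    obtain ⟨hst1, hst2⟩ := k7wa_st_bd x hx i
    have hai : a1 ≤ N ^ (-x.st i) := by
      rw [ha1def]
      exact hmono (by linarith)
    refine hpair W.toK7aLn (P 0) (P i) N K x.d x.S (N ^ (-Mχ)) ρ bmin bmax (N ^ (-x.s)) (N ^ (-x.st i)) (β 0) (β i) ϑ lamW M (N ^ (Cd * x.u)) K1 δ Kc Ms Ws Lg E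
      H.w.ln hN hK hx.d0 (by linarith [hx.d1]) hP0 (H.lay i) H.mE H.sub (fun p hp => H.lab p hp 0) (fun p hp => H.lab p hp i) hχ0 hχle hρ0 hρle hbmin (hlo 0) (hhi 0) (hlo i) (hhi i)
      hρb ⟨kϑ, hϑdef⟩ hMs (hσdef ▸ hM1) (hσdef ▸ hM2) (hσdef ▸ hM3) (hpos _) (hmono (by linarith)) (Real.rpow_le_one_of_one_le_of_nonpos hN.le (by linarith)) hlam
      (fun p hp => hWs p ⟨(ha1def ▸ hai).trans hp.1, hp.2⟩) hKc (hϑK.trans hai) hK1 hδ hδ1 hΘ1 hLg ?_ hsm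
    intro y hy
    have hy0 : 0 < y := lt_of_lt_of_le (hpos _) hy
    have e1 : y * N ^ (-x.s) / N ^ (-x.st i) ≤ y * N ^ x.u := by
      rw [mul_div_assoc, ← Real.rpow_sub hN0]
      exact mul_le_mul_of_nonneg_left (hmono (by linarith)) hy0.le
    calc (y * N ^ (-x.s) / N ^ (-x.st i)) ^ x.d ≤ (y * N ^ x.u) ^ x.d :=
          Real.rpow_le_rpow (div_nonneg (mul_nonneg hy0.le (hpos _).le) (hpos _).le) e1 hx.d0
      _ = y ^ x.d * N ^ (x.d * x.u) := by rw [Real.mul_rpow hy0.le (hpos _).le, ← Real.rpow_mul hN0.le, mul_comm x.u]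
      _ ≤ y ^ ((1 + x.d) / 2) := k7a_exp_room hN.le hx.d0 hx.d1 hu.le hy
  choose Zx mZ hZx hcl using key
  refine ⟨E \ ⋃ i, Zx i, Set.sdiff_subset, H.mE.diff (MeasurableSet.iUnion mZ), ?_, ?_⟩
  · have hsub : E ⊆ (E \ ⋃ i, Zx i) ∪ ⋃ i, (Zx i ∩ E) := by
      intro p hp
      by_cases h : p ∈ ⋃ i, Zx i
      · obtain ⟨i, hi⟩ := Set.mem_iUnion.1 h
        exact Or.inr (Set.mem_iUnion.2 ⟨i, hi, hp⟩)
      · exact Or.inl ⟨hp, h⟩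
    refine (measure_mono hsub).trans ((measure_union_le _ _).trans (add_le_add le_rfl ?_))
    refine (measure_iUnion_fintype_le _ _).trans ?_
    have h1 : ∀ i, W.prior (Zx i ∩ E) ≤ ENNReal.ofReal (2 * Kc / K1 + Lg * δ) := fun i => by
      have := hZx i
      unfold K7aLn.law at this
      rwa [Measure.restrict_apply (mZ i)] at this
    refine (Finset.sum_le_sum fun i _ => h1 i).trans ?_
    rw [Finset.sum_const, Finset.card_univ, Fintype.card_fin, nsmul_eq_mul, ENNReal.ofReal_mul (by norm_num)]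
    norm_num
  · intro p hp i φ0 φ h0 hi t1 ht1 t2 ht2 y1 y2 hy1 hy2
    have hpE : p ∈ E := hp.1
    have hpZ : p ∈ E \ Zx i := ⟨hpE, fun h => hp.2 (Set.mem_iUnion.2 ⟨i, h⟩)⟩
    have hpb : p.2 ∈ W.blk (W.labQ p) := ((H.w.lab p (H.sub hpE)).2).2
    have hq : ∀ t ∈ W.blk (W.labQ p), |t - p.2| ≤ W.q := by
      intro t ht
      unfold K7aW.blk at ht hpb
      rw [abs_le]
      constructor <;> linarith [ht.1, ht.2, hpb.1, hpb.2]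
    have hq0 : 0 < W.q := by
      unfold K7aW.q
      positivity
    obtain ⟨X, hXdef⟩ : ∃ r : ℝ, r = N ^ (-((Cd + 3) * x.u)) := ⟨_, rfl⟩
    have hX0 : 0 < X := hXdef ▸ hpos _
    have g1 : N ^ (-x.eh) * bmax ≤ K ^ 2 * X * bmin := by
      calc N ^ (-x.eh) * bmax ≤ N ^ (-x.eh) * (K * N ^ (-x.B j0)) := mul_le_mul_of_nonneg_left (hbmax_def ▸ H.βhi j0) (hpos _).le
        _ = K * N ^ (-x.eh + -x.B j0) := by rw [Real.rpow_add hN0]; ring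
        _ ≤ K * N ^ (-((Cd + 3) * x.u) + -x.B i0) := mul_le_mul_of_nonneg_left (hmono (by linarith [hx.Bh j0 i0])) hK0.le
        _ = K * X * N ^ (-x.B i0) := by rw [Real.rpow_add hN0, hXdef]; ring
        _ ≤ K * X * (K * bmin) := mul_le_mul_of_nonneg_left (hbmin_def ▸ H.βlo i0) (by positivity)
        _ = K ^ 2 * X * bmin := by ring
    have g2 : N ^ (-x.eh - x.eg) ≤ K * X * bmin := by
      calc N ^ (-x.eh - x.eg) ≤ N ^ (-((Cd + 3) * x.u) + -x.B i0) := hmono (by linarith [hx.Bb i0])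
        _ = X * N ^ (-x.B i0) := by rw [Real.rpow_add hN0, hXdef]
        _ ≤ X * (K * bmin) := mul_le_mul_of_nonneg_left (hbmin_def ▸ H.βlo i0) hX0.le
        _ = K * X * bmin := by ring
    have g3 : N ^ (x.u / 2) * X ≤ N ^ (-(3 * x.u / 2)) := by
      rw [hXdef, ← Real.rpow_add hN0]
      refine hmono ?_
      have : 0 < Cd * x.u := by positivity
      linarith
    have g4 : N ^ (3 * x.u / 2) * N ^ (-(3 * x.u / 2)) = 1 := by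
      rw [← Real.rpow_add hN0, add_neg_cancel, Real.rpow_zero]
    have g5 : 4 * (K ^ 3 * N ^ (x.u / 2) * X) ≤ 1 := by
      calc 4 * (K ^ 3 * N ^ (x.u / 2) * X) = (4 * K ^ 3) * (N ^ (x.u / 2) * X) := by ring
        _ ≤ N ^ (3 * x.u / 2) * N ^ (-(3 * x.u / 2)) := mul_le_mul (by linarith) g3 (by positivity) (hpos _).le
        _ = 1 := g4
    have g6 : 1152 * (N ^ (Cd * x.u) * N ^ (-x.s)) * (K ^ 3 * N ^ (x.u / 2) * X) ≤ N ^ (-x.s - x.u) := by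
      calc 1152 * (N ^ (Cd * x.u) * N ^ (-x.s)) * (K ^ 3 * N ^ (x.u / 2) * X)
          = (1152 * K ^ 3) * (N ^ (Cd * x.u) * N ^ (-x.s) * (N ^ (x.u / 2) * X)) := by ring
        _ ≤ N ^ (3 * x.u / 2) * (N ^ (Cd * x.u) * N ^ (-x.s) * (N ^ (x.u / 2) * X)) := mul_le_mul_of_nonneg_right hfin (by positivity)
        _ = N ^ (-x.s - x.u) := by
            rw [hXdef, ← Real.rpow_add hN0, ← Real.rpow_add hN0, ← Real.rpow_add hN0, ← Real.rpow_add hN0]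
            congr 1
            ring
    obtain ⟨r1, r2, r3⟩ := k7wa_arith (K := K) (h := N ^ (-x.eh)) (b := N ^ (-x.eh - x.eg)) (bmin := bmin) (bmax := bmax) (ρ := ρ) (q := W.q) (Λ := N ^ (x.u / 2)) (X := X)
      (A := N ^ (Cd * x.u) * N ^ (-x.s)) (ε := N ^ (-x.s - x.u)) hK (hpos _) (hpos _) hbmin hbmax hρ0 (Real.one_le_rpow hN.le (by positivity)) hX0 (by positivity)
      H.w.q_hi g1 g2 hρlo g5 g6
    exact (k7wa_var_pt W.toK7aLn ((H.lay 0).quad φ0) ((H.lay i).quad φ) hρ0 hbmin hbmax hρb p (hcl i p hpZ φ0 φ h0 hi) hq0.le r1 (by positivity) r2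
      (hq t1 ht1) (hq t2 ht2) hy1 hy2).trans r3

/-! ## Exponent bookkeeping -/

/-- a `θ`-grid of width exponents -/
theorem k7wa_grid {N θ T : ℝ} (hN : 1 < N) (hθ : 0 < θ) :
    ∀ p ∈ Set.Icc (N ^ (-T)) 1, ∃ r ∈ (Finset.range (⌊T / θ⌋₊ + 1)).image (fun j : ℕ => (j : ℝ) * θ), p ≤ N ^ (-r) ∧ N ^ (-r) ≤ N ^ θ * p := by
  intro p hp
  have hN0 : 0 < N := by linarith
  have hp0 : 0 < p := (Real.rpow_pos_of_pos hN0 _).trans_le hp.1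
  obtain ⟨e, he⟩ : ∃ e : ℝ, e = -Real.logb N p := ⟨_, rfl⟩
  have hpe : p = N ^ (-e) := by rw [he, neg_neg, Real.rpow_logb hN0 hN.ne' hp0]
  have he0 : 0 ≤ e := by
    rw [he]
    linarith [Real.logb_nonpos hN hp0.le hp.2]
  have heT : e ≤ T := by
    have := (Real.le_logb_iff_rpow_le hN hp0).2 hp.1
    rw [he]
    linarith
  have h1 : ((⌊e / θ⌋₊ : ℕ) : ℝ) * θ ≤ e := by
    have := Nat.floor_le (div_nonneg he0 hθ.le)
    rwa [le_div_iff₀ hθ] at this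
  have h2 : e < (((⌊e / θ⌋₊ : ℕ) : ℝ) + 1) * θ := by
    have := Nat.lt_floor_add_one (e / θ)
    rwa [div_lt_iff₀ hθ] at this
  refine ⟨((⌊e / θ⌋₊ : ℕ) : ℝ) * θ, Finset.mem_image.2 ⟨⌊e / θ⌋₊, ?_, rfl⟩, ?_, ?_⟩
  · rw [Finset.mem_range, Nat.lt_succ_iff]
    exact Nat.floor_mono (div_le_div_of_nonneg_right heT hθ.le)
  · rw [hpe]
    exact Real.rpow_le_rpow_of_exponent_le hN.le (by linarith)
  · rw [hpe, ← Real.rpow_add hN0]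
    exact Real.rpow_le_rpow_of_exponent_le hN.le (by linarith)

/-- logarithmically many dyadic scales -/
theorem k7wa_Lg {N θ c A : ℝ} (hN : 1 < N) (hθ : 0 < θ) (hc : θ ≤ c) (hA : 1 ≤ A) :
    ∃ Lg : ℕ, A * N ^ c ≤ 2 ^ Lg ∧ (Lg : ℝ) ≤ (2 * A * c / θ + 1) * N ^ θ := by
  have hN0 : 0 < N := by linarith
  have hc0 : 0 < c := hθ.trans_le hc
  have hA0 : 0 < A := by linarith
  obtain ⟨Y, hY⟩ : ∃ Y : ℝ, Y = A * N ^ c := ⟨_, rfl⟩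
  have hNc : 1 ≤ N ^ c := Real.one_le_rpow hN.le hc0.le
  have hNθ : 1 ≤ N ^ θ := Real.one_le_rpow hN.le hθ.le
  have hY1 : 1 ≤ Y := by
    rw [hY]
    exact one_le_mul_of_one_le_of_one_le hA hNc
  have hY0 : 0 < Y := by linarith
  refine ⟨⌈Real.logb 2 Y⌉₊, ?_, ?_⟩
  · rw [← hY]
    calc Y = (2 : ℝ) ^ (Real.logb 2 Y) := (Real.rpow_logb (by norm_num) (by norm_num) hY0).symm
      _ ≤ (2 : ℝ) ^ ((⌈Real.logb 2 Y⌉₊ : ℕ) : ℝ) := Real.rpow_le_rpow_of_exponent_le (by norm_num) (Nat.le_ceil _)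
      _ = 2 ^ ⌈Real.logb 2 Y⌉₊ := Real.rpow_natCast _ _
  · have h1 : ((⌈Real.logb 2 Y⌉₊ : ℕ) : ℝ) ≤ Real.logb 2 Y + 1 := (Nat.ceil_lt_add_one (Real.logb_nonneg (by norm_num) hY1)).le
    have hl2 : (1 / 2 : ℝ) < Real.log 2 := by
      have := Real.log_two_gt_d9
      linarith
    have hlY : 0 ≤ Real.log Y := Real.log_nonneg hY1
    have h2 : Real.logb 2 Y ≤ 2 * Real.log Y := by
      unfold Real.logb
      rw [div_le_iff₀ (by linarith)]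
      nlinarith
    have hη : 0 < θ / c := by positivity
    have hη1 : θ / c ≤ 1 := (div_le_one hc0).2 hc
    have h3 : Real.log Y ≤ Y ^ (θ / c) / (θ / c) := Real.log_le_rpow_div hY0.le hη
    have h4 : Y ^ (θ / c) ≤ A * N ^ θ := by
      rw [hY, Real.mul_rpow hA0.le (Real.rpow_nonneg hN0.le _), ← Real.rpow_mul hN0.le, mul_div_cancel₀ _ hc0.ne']
      refine mul_le_mul_of_nonneg_right ?_ (by positivity)
      calc A ^ (θ / c) ≤ A ^ (1 : ℝ) := Real.rpow_le_rpow_of_exponent_le hA hη1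
        _ = A := Real.rpow_one A
    have h5 : Y ^ (θ / c) / (θ / c) ≤ A * N ^ θ / (θ / c) := div_le_div_of_nonneg_right h4 hη.le
    have h6 : A * N ^ θ / (θ / c) = A * c / θ * N ^ θ := by
      field_simp
    have h7 : (2 * A * c / θ + 1) * N ^ θ = 2 * (A * c / θ * N ^ θ) + N ^ θ := by ring
    rw [h7]
    linarith

/-- a dense selection survives a small loss -/
theorem k7wa_mass {m m' : ℝ≥0∞} {T L : ℝ} (hT : 0 ≤ T) (h1 : 1 ≤ ENNReal.ofReal T * m) (h2 : m ≤ m' + ENNReal.ofReal L) (h3 : 2 * T * L ≤ 1) :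
    1 ≤ ENNReal.ofReal (2 * T) * m' := by
  have h4 : (1 : ℝ≥0∞) + 1 ≤ ENNReal.ofReal (2 * T) * m' + 1 := by
    calc (1 : ℝ≥0∞) + 1 = 2 * 1 := by norm_num
      _ ≤ 2 * (ENNReal.ofReal T * m) := by gcongr
      _ = ENNReal.ofReal (2 * T) * m := by
          rw [ENNReal.ofReal_mul (by norm_num), ← mul_assoc]
          norm_num
      _ ≤ ENNReal.ofReal (2 * T) * (m' + ENNReal.ofReal L) := by gcongr
      _ = ENNReal.ofReal (2 * T) * m' + ENNReal.ofReal (2 * T) * ENNReal.ofReal L := mul_add _ _ _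
      _ ≤ ENNReal.ofReal (2 * T) * m' + 1 := by
          gcongr
          rw [← ENNReal.ofReal_mul (by positivity), ← ENNReal.ofReal_one]
          exact ENNReal.ofReal_le_ofReal h3
  exact ENNReal.le_of_add_le_add_right ENNReal.one_ne_top h4

/-- all smallness conditions in terms of `T = N^θ` -/
theorem k7wa_T {T C cL : ℝ} {Lg : ℕ} (hC : 1 ≤ C) (hcL : 0 ≤ cL) (hT : C * 1344 ^ 4 + 16128 + 6 * cL ≤ T) (hLg : (Lg : ℝ) ≤ cL * T) :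
    2 ≤ T ∧ 12 * T ^ 2 * (1344 * T ^ 3 * T) ≤ T ^ 7 ∧ C * ((1344 * T ^ 3 * T) ^ 4 * T ^ 6 / (T ^ 6)⁻¹) ≤ T ^ 29 ∧ 1152 * T ^ 3 ≤ T ^ 4 ∧
      2 * T * (3 * (2 * (1344 * T ^ 3 * T) / T ^ 6 + Lg * (T ^ 6)⁻¹)) ≤ 1 := by
  have hC0 : 0 ≤ C * 1344 ^ 4 := by positivity
  have h1 : 16128 ≤ T := by linarith
  have h2 : C * 1344 ^ 4 ≤ T := by linarith
  have h3 : 16128 + 6 * cL ≤ T := by linarith
  have hT0 : 0 < T := by linarith
  have hT1 : 1 ≤ T := by linarith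
  refine ⟨by linarith, ?_, ?_, ?_, ?_⟩
  · calc 12 * T ^ 2 * (1344 * T ^ 3 * T) = 16128 * T ^ 6 := by ring
      _ ≤ T * T ^ 6 := mul_le_mul_of_nonneg_right h1 (by positivity)
      _ = T ^ 7 := by ring
  · calc C * ((1344 * T ^ 3 * T) ^ 4 * T ^ 6 / (T ^ 6)⁻¹) = (C * 1344 ^ 4) * T ^ 28 := by
          rw [div_inv_eq_mul]
          ring
      _ ≤ T * T ^ 28 := mul_le_mul_of_nonneg_right h2 (by positivity)
      _ = T ^ 29 := by ring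
  · calc 1152 * T ^ 3 ≤ T * T ^ 3 := mul_le_mul_of_nonneg_right (by linarith) (by positivity)
      _ = T ^ 4 := by ring
  · have e1 : 2 * T * (3 * (2 * (1344 * T ^ 3 * T) / T ^ 6 + Lg * (T ^ 6)⁻¹)) = (6 * T * (2688 * T ^ 4 + Lg)) / T ^ 6 := by
      field_simp
      ring
    rw [e1, div_le_one (by positivity)]
    have e2 : (Lg : ℝ) ≤ cL * T ^ 4 := by
      refine hLg.trans (mul_le_mul_of_nonneg_left ?_ hcL)
      calc T = T * 1 := (mul_one T).symm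
        _ ≤ T * T ^ 3 := mul_le_mul_of_nonneg_left (one_le_pow₀ hT1) hT0.le
        _ = T ^ 4 := by ring
    calc 6 * T * (2688 * T ^ 4 + Lg) ≤ 6 * T * (2688 * T ^ 4 + cL * T ^ 4) := mul_le_mul_of_nonneg_left (by linarith) (by positivity)
      _ = (16128 + 6 * cL) * T ^ 5 := by ring
      _ ≤ T * T ^ 5 := mul_le_mul_of_nonneg_right h3 (by positivity)
      _ = T ^ 6 := by ring

/-- **STAGE A of P7.3** -/
theorem k7wa_stageA (hM : k7a_Match) : K7wStageA := by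
  intro x hx
  obtain ⟨ε, C, hε, hC, hvar⟩ := k7wa_var hM x hx
  refine ⟨0, fun Mχ hMχ => ?_⟩
  have hB0 := (k7wa_B_le x hx 0).1
  have hB1 := (k7wa_B_le x hx 1).1
  have hB2 := (k7wa_B_le x hx 2).1
  have hs := hx.s0
  have hu := hx.u0
  have h1d : 0 < 1 - x.d := by linarith [hx.d1]
  obtain ⟨M, hMdef⟩ : ∃ M : ℝ, M = x.B 0 + x.B 1 + x.B 2 + x.s + x.u + Mχ + 1 := ⟨_, rfl⟩
  refine ⟨M, fun τ' hτ' => ?_⟩
  obtain ⟨Cd, hCd⟩ : ∃ c : ℝ, c = 10 / (1 - x.d) := ⟨_, rfl⟩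
  have hCd0 : 0 < Cd := by rw [hCd]; positivity
  obtain ⟨θ, hθ0, hθ1, hθ2, hθ3, hθ4⟩ : ∃ θ : ℝ, 0 < θ ∧ θ ≤ Cd * x.u * ε / 29 ∧ θ ≤ x.u / 4 ∧ θ ≤ 1 / 7 ∧ θ ≤ τ' / 2 :=
    ⟨min (min (Cd * x.u * ε / 29) (x.u / 4)) (min (1 / 7) (τ' / 2)), lt_min (lt_min (by positivity) (by positivity)) (lt_min (by norm_num) (by positivity)),
      (min_le_left _ _).trans (min_le_left _ _), (min_le_left _ _).trans (min_le_right _ _), (min_le_right _ _).trans (min_le_left _ _),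
      (min_le_right _ _).trans (min_le_right _ _)⟩
  obtain ⟨cL, hcL⟩ : ∃ c : ℝ, c = 2 * 2688 * (4 * θ + x.s) / θ + 1 := ⟨_, rfl⟩
  have hcL0 : 0 ≤ cL := by rw [hcL]; positivity
  obtain ⟨G, hG⟩ : ∃ c : ℝ, c = C * 1344 ^ 4 + 16128 + 6 * cL := ⟨_, rfl⟩
  have hG0 : 0 < G := by rw [hG]; positivity
  refine ⟨θ, max 2 (G ^ (1 / θ)), {M}, (Finset.range (⌊(x.s + x.u) / θ⌋₊ + 1)).image (fun j : ℕ => (j : ℝ) * θ), hθ0, ?_, ?_, ?_⟩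
  · intro M' hM'
    rw [Finset.mem_singleton] at hM'
    rw [hM']
    exact ⟨by rw [hMdef]; linarith, le_rfl⟩
  · intro r hr
    obtain ⟨j, hj, rfl⟩ := Finset.mem_image.1 hr
    rw [Finset.mem_range, Nat.lt_succ_iff] at hj
    refine ⟨by positivity, ?_⟩
    have h1 : (j : ℝ) ≤ (x.s + x.u) / θ := (Nat.cast_le.2 hj).trans (Nat.floor_le (by positivity))
    rw [le_div_iff₀ hθ0] at h1
    rw [hMdef]
    linarith
  intro N hN1 W P β E H hχ0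
  have hN2 : 2 ≤ N := (le_max_left _ _).trans hN1
  have hN : 1 < N := by linarith
  have hN0 : 0 < N := by linarith
  obtain ⟨T, hTdef⟩ : ∃ T : ℝ, T = N ^ θ := ⟨_, rfl⟩
  have hmono : ∀ {e e' : ℝ}, e ≤ e' → N ^ e ≤ N ^ e' := fun h => Real.rpow_le_rpow_of_exponent_le hN.le h
  have hTG : G ≤ T := by
    have h1 : G ^ (1 / θ) ≤ N := (le_max_right _ _).trans hN1
    have h2 := Real.rpow_le_rpow (Real.rpow_nonneg hG0.le _) h1 hθ0.le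
    rwa [← Real.rpow_mul hG0.le, one_div_mul_cancel hθ0.ne', Real.rpow_one, ← hTdef] at h2
  have hTpow : ∀ n : ℕ, T ^ n = N ^ ((n : ℝ) * θ) := fun n => by
    rw [hTdef, ← Real.rpow_natCast, ← Real.rpow_mul hN0.le, mul_comm]
  obtain ⟨Lg, hLg1, hLg2⟩ := k7wa_Lg (c := 4 * θ + x.s) (A := 2688) hN hθ0 (by linarith) (by norm_num)
  rw [← hcL, ← hTdef] at hLg2
  obtain ⟨t2, t7, t29, t4, tL⟩ := k7wa_T hC hcL0 (hG ▸ hTG) hLg2
  have hT1 : 1 ≤ T := by linarith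
  have hT0 : 0 < T := by linarith
  rw [← hTdef] at H
  have c1 : 12 * T ^ 2 * (1344 * T ^ 3 * T) * N ^ (-M) ≤ N ^ (-(x.B 0 + x.B 1 + x.B 2 + x.s + x.u + Mχ)) := by
    have e1 : T ^ 7 ≤ N := by
      rw [hTpow 7]
      calc N ^ (((7 : ℕ) : ℝ) * θ) ≤ N ^ (1 : ℝ) := hmono (by push_cast; linarith)
        _ = N := Real.rpow_one N
    calc 12 * T ^ 2 * (1344 * T ^ 3 * T) * N ^ (-M) ≤ N * N ^ (-M) := mul_le_mul_of_nonneg_right (t7.trans e1) (Real.rpow_nonneg hN0.le _)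
      _ = N ^ (-(x.B 0 + x.B 1 + x.B 2 + x.s + x.u + Mχ)) := by
          nth_rewrite 1 [← Real.rpow_one N]
          rw [← Real.rpow_add hN0, hMdef]
          congr 1
          ring
  have c4 : 2 * (1344 * T ^ 3 * T) ≤ 2 ^ Lg * (N ^ (10 / (1 - x.d) * x.u) * N ^ (-x.s)) := by
    have e1 : 2688 * N ^ (4 * θ + x.s) = 2 * (1344 * T ^ 3 * T) * N ^ x.s := by
      rw [Real.rpow_add hN0]
      have := hTpow 4
      push_cast at this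
      rw [← this]
      ring
    rw [e1] at hLg1
    have e2 : N ^ x.s * N ^ (-x.s) = 1 := by rw [← Real.rpow_add hN0, add_neg_cancel, Real.rpow_zero]
    have e3 : 1 ≤ N ^ (10 / (1 - x.d) * x.u) := Real.one_le_rpow hN.le (by positivity)
    calc 2 * (1344 * T ^ 3 * T) = 2 * (1344 * T ^ 3 * T) * N ^ x.s * N ^ (-x.s) := by rw [mul_assoc _ (N ^ x.s), e2, mul_one]
      _ ≤ 2 ^ Lg * N ^ (-x.s) := mul_le_mul_of_nonneg_right hLg1 (Real.rpow_nonneg hN0.le _)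
      _ = 2 ^ Lg * (1 * N ^ (-x.s)) := by rw [one_mul]
      _ ≤ 2 ^ Lg * (N ^ (10 / (1 - x.d) * x.u) * N ^ (-x.s)) :=
          mul_le_mul_of_nonneg_left (mul_le_mul_of_nonneg_right e3 (Real.rpow_nonneg hN0.le _)) (by positivity)
  have c5 : C * ((1344 * T ^ 3 * T) ^ 4 * T ^ 6 / (T ^ 6)⁻¹) ≤ (N ^ (10 / (1 - x.d) * x.u)) ^ ε := by
    refine t29.trans ?_
    rw [hTpow 29, ← Real.rpow_mul hN0.le, ← hCd]
    refine hmono ?_
    push_cast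
    linarith
  have c6 : 1152 * T ^ 3 ≤ N ^ (3 * x.u / 2) := by
    refine t4.trans ?_
    rw [hTpow 4]
    refine hmono ?_
    push_cast
    linarith
  have hgrid : ∀ p ∈ Set.Icc (N ^ (-x.s - x.u)) 1, ∃ r ∈ (Finset.range (⌊(x.s + x.u) / θ⌋₊ + 1)).image (fun j : ℕ => (j : ℝ) * θ), p ≤ N ^ (-r) ∧ N ^ (-r) ≤ T * p := by
    have := k7wa_grid (T := x.s + x.u) hN hθ0
    rw [neg_add, ← sub_eq_add_neg, ← hTdef] at this
    exact this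
  have hχ : W.χ0 ≤ N ^ (-Mχ) := hχ0.trans (hmono (by rw [hMdef]; linarith))
  have hT6 : 1 ≤ T ^ 6 := one_le_pow₀ hT1
  obtain ⟨E', hsub, mE', hmass, hv⟩ := hvar Mχ N T T M (T ^ 6) (T ^ 6)⁻¹ (1344 * T ^ 3 * T) {M} _ Lg W P β E H hN hT1 hMχ hχ (Finset.mem_singleton_self M) hT1 rfl c1 hgrid
    hT6 (by positivity) (inv_le_one_of_one_le₀ hT6) c4 c5 c6
  refine ⟨E', ⟨hsub, mE', ?_⟩, hv⟩
  refine (k7wa_mass hT0.le H.mass hmass tL).trans ?_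
  gcongr
  calc 2 * T ≤ T * T := mul_le_mul_of_nonneg_right t2 hT0.le
    _ = T ^ 2 := by ring
    _ = N ^ (((2 : ℕ) : ℝ) * θ) := hTpow 2
    _ ≤ N ^ τ' := hmono (by push_cast; linarith)

end

end Claimed.Agent.R252
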