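import Claimed.Agent.R252.S7a.WideContract
import Claimed.Agent.R252.S7a.WideGlue

/-!
# ROW 252 (S0492), unit S7w, stage B (post BP-252-S7w-B, helper252), file 1: ENTRIES, SLICE BUDGET, PRUNING TO WITNESS FLOORS.      Complete proofs.

One scale, explicit slack `K`.  `D = W.sdom qd g m z` (time block of length `qd = 2^{-lev}`, slope bin `g`, position bin `m` at the left end of the block).
* `k7wbWit P qd g m φ D`  the witness set of the entry `(φ, D)` of a layer;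
* `k7wbKeep P qd g m θ`   the incidences whose entry has witness mass `> θ φ` under `lam0`;
* `k7wb_slice`            a label `φ` meets `≤ 2 (4Kβ/g + 2)(2Kβ + 2m)/(qd m)` domains;
* `k7wb_loss`             `lam0 (Keepᶜ) ≤ Σ_φ #𝒟(φ) θ φ`;   `k7wb_budget` : with `θ φ = (qd m χ th^d / K₁) π_χ(vi φ)` this is `≤ 48 K⁴ / K₁`.
-/

set_option autoImplicit false

namespace Claimed.Agent.R252

open MeasureTheory
open scoped ENNReal BigOperators

noncomputable section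

/-! ## elementary tools -/

theorem k7wb_dy_pos (x : ℝ) : 0 < kbDy x := by
  unfold kbDy
  exact zpow_pos (by norm_num) _

theorem k7wb_dy_lt {x : ℝ} (hx : 0 < x) : kbDy x < 2 * x := by
  unfold kbDy
  rw [← Real.rpow_intCast]
  calc (2 : ℝ) ^ ((⌈Real.logb 2 x⌉ : ℤ) : ℝ) < (2 : ℝ) ^ (Real.logb 2 x + 1) :=
        Real.rpow_lt_rpow_of_exponent_lt (by norm_num) (Int.ceil_lt_add_one _)
    _ = 2 * x := by
        rw [Real.rpow_add (by norm_num), Real.rpow_logb (by norm_num) (by norm_num) hx, Real.rpow_one, mul_comm]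

theorem k7wb_bin_iff (wd x : ℝ) (d : ℤ) : kbBin wd x = d ↔ (d : ℝ) * kbDy wd ≤ x ∧ x < ((d : ℝ) + 1) * kbDy wd := by
  unfold kbBin
  rw [Int.floor_eq_iff, le_div_iff₀ (k7wb_dy_pos wd), div_lt_iff₀ (k7wb_dy_pos wd)]

/-- a point of the bin `d` of requested width `wd` is within `2 wd` of the left end of the bin -/
theorem k7wb_bin_near {wd x : ℝ} {d : ℤ} (hwd : 0 < wd) (h : kbBin wd x = d) : |x - (d : ℝ) * kbDy wd| ≤ 2 * wd := by
  obtain ⟨h1, h2⟩ := (k7wb_bin_iff wd x d).1 h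
  have h3 := k7wb_dy_lt hwd
  rw [abs_le]
  constructor <;> nlinarith

/-- number of integers between two floors -/
theorem k7wb_card_floor (x y : ℝ) (hxy : x ≤ y) : ((Finset.Icc ⌊x⌋ ⌊y⌋).card : ℝ) ≤ y - x + 2 := by
  have h1 : (⌊y⌋ : ℝ) ≤ y := Int.floor_le _
  have h2 : x < ⌊x⌋ + 1 := Int.lt_floor_add_one _
  have hpos : 0 ≤ ⌊y⌋ + 1 - ⌊x⌋ := by
    have := Int.floor_le_floor hxy
    omega
  rw [Int.card_Icc]
  have e : (((⌊y⌋ + 1 - ⌊x⌋).toNat : ℕ) : ℝ) = ((⌊y⌋ + 1 - ⌊x⌋ : ℤ) : ℝ) := by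
    have : (((⌊y⌋ + 1 - ⌊x⌋).toNat : ℕ) : ℤ) = ⌊y⌋ + 1 - ⌊x⌋ := Int.toNat_of_nonneg hpos
    exact_mod_cast this
  rw [e]
  push_cast
  linarith

/-- the floor of a point near `c` -/
theorem k7wb_floor_mem {x c ρ w : ℝ} (hw : 0 < w) (h : |x - c| ≤ ρ) : ⌊x / w⌋ ∈ Finset.Icc ⌊(c - ρ) / w⌋ ⌊(c + ρ) / w⌋ := by
  obtain ⟨h1, h2⟩ := abs_le.1 h
  refine Finset.mem_Icc.2 ⟨Int.floor_le_floor ?_, Int.floor_le_floor ?_⟩
  · exact div_le_div_of_nonneg_right (by linarith) hw.le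
  · exact div_le_div_of_nonneg_right (by linarith) hw.le

theorem k7wb_card_near {c ρ w : ℝ} (hw : 0 < w) (hρ : 0 ≤ ρ) :
    ((Finset.Icc ⌊(c - ρ) / w⌋ ⌊(c + ρ) / w⌋).card : ℝ) ≤ 2 * ρ / w + 2 := by
  have h := k7wb_card_floor ((c - ρ) / w) ((c + ρ) / w) (div_le_div_of_nonneg_right (by linarith) hw.le)
  have e : (c + ρ) / w - (c - ρ) / w = 2 * ρ / w := by ring
  linarith

/-! ## entries -/

variable {W : K7aLn}

/-- the witness set of the entry `(φ, D)` -/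
def k7wbWit (P : K7aLayer W) (qd g m : ℝ) (φ : P.Ph) (D : ℤ × ℤ × ℤ) : Set (W.L × ℝ) :=
  {z | P.lab z.1 = some φ ∧ W.sdom qd g m z = D}

/-- the incidences whose entry has witness mass above the floor `θ` -/
def k7wbKeep (P : K7aLayer W) (qd g m : ℝ) (θ : P.Ph → ℝ≥0∞) : Set (W.L × ℝ) :=
  {z | ∀ φ, P.lab z.1 = some φ → θ φ < W.lam0 (k7wbWit P qd g m φ (W.sdom qd g m z))}

theorem k7wb_meas_Y {N K d S : ℝ} {Ms Ws : Finset ℝ} (hW : W.Ok N K d S Ms Ws) {τ : W.L × ℝ → ℝ} (hτ : Measurable τ) :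
    Measurable fun z : W.L × ℝ => W.Y z.1 (τ z) := by
  obtain ⟨-, -, h3, h4, -⟩ := hW.m_co
  exact (h3.comp measurable_fst).add ((h4.comp measurable_fst).mul hτ)

theorem k7wb_meas_sdom {N K d S : ℝ} {Ms Ws : Finset ℝ} (hW : W.Ok N K d S Ms Ws) (qd g m : ℝ) : Measurable (W.sdom qd g m) := by
  obtain ⟨-, -, h3, h4, -⟩ := hW.m_co
  have h1 : Measurable fun z : W.L × ℝ => ⌊z.2 / qd⌋ := (measurable_snd.div_const _).floor
  have h1' : Measurable fun z : W.L × ℝ => ((⌊z.2 / qd⌋ : ℤ) : ℝ) * qd :=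
    ((measurable_from_top (f := fun n : ℤ => (n : ℝ))).comp h1).mul_const _
  have h2 : Measurable fun z : W.L × ℝ => ⌊W.Y1 z.1 / g⌋ := ((h4.comp measurable_fst).div_const _).floor
  have h5 : Measurable fun z : W.L × ℝ => ⌊W.Y z.1 (⌊z.2 / qd⌋ * qd) / m⌋ := ((k7wb_meas_Y hW h1').div_const _).floor
  exact h1.prodMk (h2.prodMk h5)

theorem k7wb_meas_wit {N K d S χ th β : ℝ} {Ms Ws : Finset ℝ} (hW : W.Ok N K d S Ms Ws) {P : K7aLayer W} (hP : P.Ok K χ th β d)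
    (qd g m : ℝ) (φ : P.Ph) (D : ℤ × ℤ × ℤ) : MeasurableSet (k7wbWit P qd g m φ D) := by
  have h1 : MeasurableSet {z : W.L × ℝ | P.lab z.1 = some φ} := measurable_fst (hP.meas (some φ))
  have h2 : MeasurableSet {z : W.L × ℝ | W.sdom qd g m z = D} := k7wb_meas_sdom hW qd g m (measurableSet_singleton D)
  exact h1.inter h2

theorem k7wb_keep_compl (P : K7aLayer W) (qd g m : ℝ) (θ : P.Ph → ℝ≥0∞) :
    (k7wbKeep P qd g m θ)ᶜ = ⋃ φ : P.Ph, ⋃ D ∈ {D : ℤ × ℤ × ℤ | W.lam0 (k7wbWit P qd g m φ D) ≤ θ φ}, k7wbWit P qd g m φ D := by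
  ext z
  simp only [k7wbKeep, Set.mem_compl_iff, Set.mem_ofPred_eq, not_forall, not_lt, Set.mem_iUnion, k7wbWit, exists_prop]
  constructor
  · rintro ⟨φ, h1, h2⟩
    exact ⟨φ, _, h2, h1, rfl⟩
  · rintro ⟨φ, D, h2, h1, rfl⟩
    exact ⟨φ, h1, h2⟩

theorem k7wb_meas_keep {N K d S χ th β : ℝ} {Ms Ws : Finset ℝ} (hW : W.Ok N K d S Ms Ws) {P : K7aLayer W} (hP : P.Ok K χ th β d)
    (qd g m : ℝ) (θ : P.Ph → ℝ≥0∞) : MeasurableSet (k7wbKeep P qd g m θ) := by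
  rw [← MeasurableSet.compl_iff, k7wb_keep_compl]
  refine MeasurableSet.iUnion fun φ => MeasurableSet.biUnion (Set.to_countable _) fun D _ => k7wb_meas_wit hW hP qd g m φ D

theorem k7wb_lam0_apply {N K d S : ℝ} {Ms Ws : Finset ℝ} (hW : W.Ok N K d S Ms Ws) (A : Set (W.L × ℝ)) :
    W.lam0 A = W.prior (A ∩ W.Ev0) := by
  unfold K7aLn.lam0 K7aLn.law
  exact Measure.restrict_apply' hW.m_Ev0

theorem k7wb_prior_univ {N K d S : ℝ} {Ms Ws : Finset ℝ} (hW : W.Ok N K d S Ms Ws) : W.prior Set.univ = 1 := by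
  have := hW.prob
  unfold K7aLn.prior k7aTm
  rw [← Set.univ_prod_univ, Measure.prod_prod, measure_univ, one_mul, Measure.restrict_apply MeasurableSet.univ, Set.univ_inter,
    Real.volume_Icc]
  simp

theorem k7wb_lam0_univ {N K d S : ℝ} {Ms Ws : Finset ℝ} (hW : W.Ok N K d S Ms Ws) : W.lam0 Set.univ ≤ 1 := by
  rw [k7wb_lam0_apply hW, ← k7wb_prior_univ hW]
  exact measure_mono (Set.subset_univ _)

/-- **PRUNE**: the loss -/
theorem k7wb_loss {N K d S : ℝ} {Ms Ws : Finset ℝ} (hW : W.Ok N K d S Ms Ws) (P : K7aLayer W) (qd g m : ℝ) (θ : P.Ph → ℝ≥0∞)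
    (Dm : P.Ph → Finset (ℤ × ℤ × ℤ)) (hDm : ∀ φ, ∀ z ∈ W.Ev0, P.lab z.1 = some φ → W.sdom qd g m z ∈ Dm φ) :
    W.lam0 (k7wbKeep P qd g m θ)ᶜ ≤ ∑ φ, ((Dm φ).card : ℝ≥0∞) * θ φ := by
  classical
  have hsub : (k7wbKeep P qd g m θ)ᶜ ∩ W.Ev0 ⊆
      ⋃ φ ∈ (Finset.univ : Finset P.Ph), ⋃ D ∈ (Dm φ).filter (fun D => W.lam0 (k7wbWit P qd g m φ D) ≤ θ φ), k7wbWit P qd g m φ D := by
    rintro z ⟨hz, hz0⟩
    rw [k7wb_keep_compl] at hz
    simp only [Set.mem_iUnion, Set.mem_ofPred_eq, exists_prop] at hz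
    obtain ⟨φ, D, hD, hzD⟩ := hz
    simp only [Set.mem_iUnion, exists_prop, Finset.mem_filter, Finset.mem_univ, true_and]
    refine ⟨φ, D, ⟨?_, hD⟩, hzD⟩
    rw [← hzD.2]
    exact hDm φ z hz0 hzD.1
  have e : W.lam0 (k7wbKeep P qd g m θ)ᶜ = W.lam0 ((k7wbKeep P qd g m θ)ᶜ ∩ W.Ev0) := by
    rw [k7wb_lam0_apply hW, k7wb_lam0_apply hW, Set.inter_assoc, Set.inter_self]
  rw [e]
  refine (measure_mono hsub).trans ((measure_biUnion_finset_le _ _).trans (Finset.sum_le_sum fun φ _ => ?_))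
  refine (measure_biUnion_finset_le _ _).trans ?_
  calc ∑ D ∈ (Dm φ).filter (fun D => W.lam0 (k7wbWit P qd g m φ D) ≤ θ φ), W.lam0 (k7wbWit P qd g m φ D)
      ≤ ∑ _D ∈ (Dm φ).filter (fun D => W.lam0 (k7wbWit P qd g m φ D) ≤ θ φ), θ φ :=
        Finset.sum_le_sum fun D hD => (Finset.mem_filter.1 hD).2
    _ = (((Dm φ).filter (fun D => W.lam0 (k7wbWit P qd g m φ D) ≤ θ φ)).card : ℝ≥0∞) * θ φ := by
        rw [Finset.sum_const, nsmul_eq_mul]
    _ ≤ ((Dm φ).card : ℝ≥0∞) * θ φ := by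
        gcongr
        exact Finset.filter_subset _ _

/-- **SLICE**: the domains met by one label -/
theorem k7wb_slice {N K d S χ th β : ℝ} {Ms Ws : Finset ℝ} (hW : W.Ok N K d S Ms Ws) {P : K7aLayer W} (hP : P.Ok K χ th β d)
    (hK : 1 ≤ K) (hβ : 0 ≤ β) (lev : ℕ) {g m : ℝ} (hg : 0 < g) (hm : 0 < m) (φ : P.Ph) :
    ∃ Dm : Finset (ℤ × ℤ × ℤ), (∀ z ∈ W.Ev0, P.lab z.1 = some φ → W.sdom ((1 / 2 : ℝ) ^ lev) g m z ∈ Dm) ∧
      (Dm.card : ℝ) * ((1 / 2 : ℝ) ^ lev * m) ≤ 2 * (4 * K * β / g + 2) * (2 * K * β + 2 * m) := by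
  classical
  set q : ℝ := (1 / 2 : ℝ) ^ lev with hq
  have hq0 : 0 < q := by positivity
  have hq1 : q ≤ 1 := pow_le_one₀ (by norm_num) (by norm_num)
  have hq2 : (2 : ℝ) ^ lev * q = 1 := by
    rw [hq, ← mul_pow]
    norm_num
  have hKβ : 0 ≤ K * β := by positivity
  set c1 := (P.G φ).c1
  set SB : Finset ℤ := Finset.Icc ⌊(c1 - 2 * (K * β)) / g⌋ ⌊(c1 + 2 * (K * β)) / g⌋ with hSB
  set PB : ℤ → Finset ℤ := fun k => Finset.Icc ⌊((P.G φ).cen (k * q) - K * β) / m⌋ ⌊((P.G φ).cen (k * q) + K * β) / m⌋ with hPB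
  set TB : Finset ℤ := Finset.Icc 0 (2 ^ lev) with hTB
  refine ⟨TB.biUnion fun k => ({k} : Finset ℤ) ×ˢ (SB ×ˢ PB k), ?_, ?_⟩
  · intro z hz hl
    have hz2 : z.2 ∈ Set.Icc (0 : ℝ) 1 := (hW.Ev0_sub hz).2
    have hfit := hP.fit z.1 φ hl
    set k : ℤ := ⌊z.2 / q⌋ with hk
    have hk0 : 0 ≤ k := Int.floor_nonneg.2 (div_nonneg hz2.1 hq0.le)
    have hk1 : k ≤ 2 ^ lev := by
      have : z.2 / q ≤ ((2 ^ lev : ℤ) : ℝ) := by
        rw [div_le_iff₀ hq0]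
        push_cast
        rw [hq2]
        exact hz2.2
      exact Int.floor_le_iff.2 (lt_of_le_of_lt this (by linarith)) |> fun h => by omega
    have hkq : (k : ℝ) * q ∈ Set.Icc (0 : ℝ) 1 := by
      constructor
      · have : (0 : ℝ) ≤ k := by exact_mod_cast hk0
        positivity
      · have h1 : (k : ℝ) ≤ z.2 / q := Int.floor_le _
        have h2 : (k : ℝ) * q ≤ z.2 := (le_div_iff₀ hq0).1 h1
        linarith [hz2.2]
    refine Finset.mem_biUnion.2 ⟨k, Finset.mem_Icc.2 ⟨hk0, hk1⟩, ?_⟩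
    refine Finset.mem_product.2 ⟨Finset.mem_singleton.2 rfl, Finset.mem_product.2 ⟨?_, ?_⟩⟩
    · refine k7wb_floor_mem hg ?_
      have a0 := abs_le.1 (hfit 0 (by norm_num)).1
      have a1 := abs_le.1 (hfit 1 (by norm_num)).1
      unfold K7aLn.Y K7aLab.cen at a0 a1
      rw [abs_le]
      constructor <;> linarith [a0.1, a0.2, a1.1, a1.2]
    · exact k7wb_floor_mem hm (hfit _ hkq).1
  · have hcS : (SB.card : ℝ) ≤ 4 * K * β / g + 2 := by
      have := k7wb_card_near (c := c1) (ρ := 2 * (K * β)) hg (by positivity)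
      have e : 2 * (2 * (K * β)) / g = 4 * K * β / g := by ring
      rw [e] at this
      exact this
    have hcP : ∀ k, ((PB k).card : ℝ) ≤ 2 * (K * β) / m + 2 := fun k => k7wb_card_near hm hKβ
    have hcT : (TB.card : ℝ) = 2 ^ lev + 1 := by
      rw [hTB, Int.card_Icc]
      have : ((2 : ℤ) ^ lev + 1 - 0).toNat = 2 ^ lev + 1 := by
        have h : ((2 : ℤ) ^ lev + 1 - 0) = ((2 ^ lev + 1 : ℕ) : ℤ) := by push_cast; ring
        rw [h, Int.toNat_natCast]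
      rw [this]
      push_cast
      ring
    have hS0 : (0 : ℝ) ≤ 4 * K * β / g + 2 := by positivity
    have hcard : ((TB.biUnion fun k => ({k} : Finset ℤ) ×ˢ (SB ×ˢ PB k)).card : ℝ) ≤
        (2 ^ lev + 1) * ((4 * K * β / g + 2) * (2 * (K * β) / m + 2)) := by
      calc ((TB.biUnion fun k => ({k} : Finset ℤ) ×ˢ (SB ×ˢ PB k)).card : ℝ)
          ≤ ((∑ k ∈ TB, (({k} : Finset ℤ) ×ˢ (SB ×ˢ PB k)).card : ℕ) : ℝ) := by
            exact_mod_cast Finset.card_biUnion_le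
        _ = ∑ k ∈ TB, (SB.card : ℝ) * ((PB k).card : ℝ) := by
            push_cast
            refine Finset.sum_congr rfl fun k _ => ?_
            rw [Finset.card_product, Finset.card_product, Finset.card_singleton]
            push_cast
            ring
        _ ≤ ∑ _k ∈ TB, (4 * K * β / g + 2) * (2 * (K * β) / m + 2) :=
            Finset.sum_le_sum fun k _ => mul_le_mul hcS (hcP k) (Nat.cast_nonneg _) hS0
        _ = (2 ^ lev + 1) * ((4 * K * β / g + 2) * (2 * (K * β) / m + 2)) := by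
            rw [Finset.sum_const, nsmul_eq_mul, hcT]
    have hqm : 0 ≤ q * m := by positivity
    calc ((TB.biUnion fun k => ({k} : Finset ℤ) ×ˢ (SB ×ˢ PB k)).card : ℝ) * (q * m)
        ≤ ((2 ^ lev + 1) * ((4 * K * β / g + 2) * (2 * (K * β) / m + 2))) * (q * m) := mul_le_mul_of_nonneg_right hcard hqm
      _ = (2 ^ lev * q + q) * (4 * K * β / g + 2) * ((2 * (K * β) / m + 2) * m) := by ring
      _ = (1 + q) * (4 * K * β / g + 2) * (2 * K * β + 2 * m) := by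
          rw [hq2]
          congr 1
          field_simp
      _ ≤ 2 * (4 * K * β / g + 2) * (2 * K * β + 2 * m) := by
          have : 0 ≤ (4 * K * β / g + 2) * (2 * K * β + 2 * m) := by positivity
          nlinarith

/-- the labels of a layer are disjoint -/
theorem k7wb_sum_lab {N K d S χ th β : ℝ} {Ms Ws : Finset ℝ} (hW : W.Ok N K d S Ms Ws) {P : K7aLayer W} (hP : P.Ok K χ th β d) :
    ∑ φ, W.lam0 {z | P.lab z.1 = some φ} ≤ 1 := by
  rw [← measure_biUnion_finset]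
  · exact (measure_mono (Set.subset_univ _)).trans (k7wb_lam0_univ hW)
  · intro φ _ φ' _ hne
    refine Set.disjoint_left.2 fun z h1 h2 => hne ?_
    have h1' : P.lab z.1 = some φ := h1
    have h2' : P.lab z.1 = some φ' := h2
    rw [h1'] at h2'
    exact Option.some.inj h2'
  · exact fun φ _ => measurable_fst (hP.meas (some φ))

/-- the floor of the entries of a layer: `θ φ = (qd m χ th^d / K₁) π_χ(vi φ)` -/
def k7wbTh (P : K7aLayer W) (c χ : ℝ) (φ : P.Ph) : ℝ≥0∞ := ENNReal.ofReal c * W.palχ χ (P.vi φ)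

/-- **SLICE + PRUNE**: the loss of the pruning to the witness floors `T/K₁`, `T = qd m χ th^d π_χ` -/
theorem k7wb_budget {N K d S χ th β : ℝ} {Ms Ws : Finset ℝ} (hW : W.Ok N K d S Ms Ws) {P : K7aLayer W} (hP : P.Ok K χ th β d)
    (hK : 1 ≤ K) (hβ : 0 < β) (lev : ℕ) {g m K1 : ℝ} (hg : 0 < g) (hm : 0 < m) (hβg : β ≤ K * g) (hmβ : m ≤ β) (hχ : 0 ≤ χ) (hth : 0 ≤ th)
    (hK1 : 0 < K1) :
    W.lam0 (k7wbKeep P ((1 / 2 : ℝ) ^ lev) g m (k7wbTh P ((1 / 2 : ℝ) ^ lev * m * (χ * th ^ d) / K1) χ))ᶜ ≤ ENNReal.ofReal (48 * K ^ 4 / K1) := by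
  choose Dm hDm hcard using fun φ => k7wb_slice hW hP hK hβ.le lev hg hm φ
  set q : ℝ := (1 / 2 : ℝ) ^ lev with hq
  have hq0 : 0 < q := by positivity
  have hw0 : 0 ≤ χ * th ^ d := mul_nonneg hχ (Real.rpow_nonneg hth _)
  refine (k7wb_loss hW P q g m _ Dm hDm).trans ?_
  have hnum : ∀ φ, ((Dm φ).card : ℝ) * (q * m) ≤ 48 * K ^ 3 * β := by
    intro φ
    refine (hcard φ).trans ?_
    have h1 : 4 * K * β / g ≤ 4 * K ^ 2 := by
      rw [div_le_iff₀ hg]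
      nlinarith
    have h2 : 2 * K * β + 2 * m ≤ 4 * K * β := by nlinarith
    have h3 : 4 * K * β / g + 2 ≤ 6 * K ^ 2 := by nlinarith
    have h4 : 0 ≤ 4 * K * β / g + 2 := by positivity
    have h5 : 0 ≤ 2 * K * β + 2 * m := by positivity
    calc 2 * (4 * K * β / g + 2) * (2 * K * β + 2 * m) ≤ 2 * (6 * K ^ 2) * (4 * K * β) := by
          apply mul_le_mul _ h2 h5 (by positivity)
          linarith
      _ = 48 * K ^ 3 * β := by ring
  have hterm : ∀ φ, ((Dm φ).card : ℝ≥0∞) * k7wbTh P (q * m * (χ * th ^ d) / K1) χ φ ≤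
      ENNReal.ofReal (48 * K ^ 4 / K1) * W.lam0 {z | P.lab z.1 = some φ} := by
    intro φ
    unfold k7wbTh
    rw [← ENNReal.ofReal_natCast, ← mul_assoc, ← ENNReal.ofReal_mul (Nat.cast_nonneg _)]
    have e1 : ((Dm φ).card : ℝ) * (q * m * (χ * th ^ d) / K1) ≤ (48 * K ^ 3 / K1) * (χ * th ^ d * β) := by
      have : ((Dm φ).card : ℝ) * (q * m * (χ * th ^ d) / K1) = (((Dm φ).card : ℝ) * (q * m)) * ((χ * th ^ d) / K1) := by ring
      rw [this]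
      calc (((Dm φ).card : ℝ) * (q * m)) * ((χ * th ^ d) / K1) ≤ (48 * K ^ 3 * β) * ((χ * th ^ d) / K1) :=
            mul_le_mul_of_nonneg_right (hnum φ) (by positivity)
        _ = (48 * K ^ 3 / K1) * (χ * th ^ d * β) := by ring
    calc ENNReal.ofReal (((Dm φ).card : ℝ) * (q * m * (χ * th ^ d) / K1)) * W.palχ χ (P.vi φ)
        ≤ ENNReal.ofReal ((48 * K ^ 3 / K1) * (χ * th ^ d * β)) * W.palχ χ (P.vi φ) := by
          gcongr
      _ = ENNReal.ofReal (48 * K ^ 3 / K1) * (ENNReal.ofReal (χ * th ^ d * β) * W.palχ χ (P.vi φ)) := by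
          rw [ENNReal.ofReal_mul (by positivity), mul_assoc]
      _ ≤ ENNReal.ofReal (48 * K ^ 3 / K1) * (ENNReal.ofReal K * W.lam0 {z | P.lab z.1 = some φ}) :=
          mul_le_mul' le_rfl (hP.floor φ)
      _ = ENNReal.ofReal (48 * K ^ 4 / K1) * W.lam0 {z | P.lab z.1 = some φ} := by
          rw [← mul_assoc, ← ENNReal.ofReal_mul (by positivity)]
          congr 2
          ring
  calc ∑ φ, ((Dm φ).card : ℝ≥0∞) * k7wbTh P (q * m * (χ * th ^ d) / K1) χ φ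
      ≤ ∑ φ, ENNReal.ofReal (48 * K ^ 4 / K1) * W.lam0 {z | P.lab z.1 = some φ} := Finset.sum_le_sum fun φ _ => hterm φ
    _ = ENNReal.ofReal (48 * K ^ 4 / K1) * ∑ φ, W.lam0 {z | P.lab z.1 = some φ} := by rw [Finset.mul_sum]
    _ ≤ ENNReal.ofReal (48 * K ^ 4 / K1) * 1 := by
        gcongr
        exact k7wb_sum_lab hW hP
    _ = ENNReal.ofReal (48 * K ^ 4 / K1) := mul_one _

end

end Claimed.Agent.R252

/-!
# ROW 252 (S0492), unit S7w, stage B (post BP-252-S7w-B, helper252), file 2: GEOMETRY OF THE SHORT DOMAINS AND THE PACKING COUNT.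

One scale, explicit slack `K`; `q = W.q`, short domains `D = W.sdom q g (q g)`.
* `k7wb_lip`        variation of a predictor near a line carrying its label;
* `k7wb_blk_iff`, `k7wb_dom_count`   given `(Q, α)` at most `(2K+4)(2K²+4)` short domains occur;
* `k7wb_count`      two layers `Pi` (counted), `Pj` (centre): the labels `φ` of `Pi` which occur together with `(ψ, D)` in a selection pruned to the witness floors of `Pi`:
                    their witnesses are disjoint and lie in the BAND of width `4 K a` about `F_ψ` over the box of `D` (`k7wc_band_dom`).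
-/

set_option autoImplicit false

namespace Claimed.Agent.R252

open MeasureTheory
open scoped ENNReal BigOperators

noncomputable section

/-! ## the predictors -/

theorem k7wb_quad_adapt {F : ℝ → ℝ → ℝ} (hF : K7aQuad F) (c0 c1 β : ℝ) : K7aQuad fun t u => F t (c0 + c1 * t + β * u) := by
  obtain ⟨e0, e1, e2, e3, e4, e5, h⟩ := hF
  refine ⟨e0 + e2 * c0 + e5 * c0 ^ 2, e1 + e2 * c1 + e4 * c0 + 2 * e5 * c0 * c1, e2 * β + 2 * e5 * c0 * β, e3 + e4 * c1 + e5 * c1 ^ 2,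
    e4 * β + 2 * e5 * c1 * β, e5 * β ^ 2, fun t u => ?_⟩
  simp only [h]
  ring

/-- variation of the predictor of `ψ` in the `β`-neighbourhood of a line with the label `ψ` -/
theorem k7wb_lip {W : K7aLn} {P : K7aLayer W} {N K d S χ th β : ℝ} {Ms Ws : Finset ℝ} (hW : W.Ok N K d S Ms Ws) (hP : P.Ok K χ th β d)
    (hK : 1 ≤ K) (hβ0 : 0 < β) (hβ1 : β ≤ 1) {l : W.L} {ψ : P.Ph} (hl : P.lab l = some ψ) {t t' y y' : ℝ}
    (ht : t ∈ Set.Icc (0 : ℝ) 1) (ht' : t' ∈ Set.Icc (0 : ℝ) 1) (hy : |y - W.Y l t| ≤ β) (hy' : |y' - W.Y l t'| ≤ β) :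
    |(P.G ψ).F t y - (P.G ψ).F t' y'| ≤ 48 * K * (K + 1) * (|t - t'| + (|y - y'| + 3 * K * |t - t'|) / β) := by
  set c0 := (P.G ψ).c0 with hc0
  set c1 := (P.G ψ).c1 with hc1
  have hcen : ∀ s, (P.G ψ).cen s = c0 + c1 * s := fun s => rfl
  have hq : K7aQuad fun t u => (P.G ψ).F t (c0 + c1 * t + β * u) := k7wb_quad_adapt (hP.quad ψ) c0 c1 β
  have hA : ∀ t ∈ Set.Icc (0 : ℝ) 1, ∀ u ∈ Set.Icc (-1 : ℝ) 1, |(P.G ψ).F t (c0 + c1 * t + β * u)| ≤ K := hP.norm ψ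
  have hfit := hP.fit l ψ hl
  have hSp : l ∈ W.Sp := (hP.grp l ψ hl).1
  have hY1 : |W.Y1 l| ≤ K := (hW.bd l hSp).2.2.2.1
  have hc1b : |c1| ≤ 3 * K := by
    have a0 := abs_le.1 (hfit 0 (by norm_num)).1
    have a1 := abs_le.1 (hfit 1 (by norm_num)).1
    have a2 := abs_le.1 hY1
    rw [hcen] at a0 a1
    unfold K7aLn.Y at a0 a1
    have hKβ : K * β ≤ K := by nlinarith
    rw [abs_le]
    constructor <;> linarith [a0.1, a0.2, a1.1, a1.2, a2.1, a2.2]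
  have hu : ∀ s ∈ Set.Icc (0 : ℝ) 1, ∀ w, |w - W.Y l s| ≤ β → |(w - (c0 + c1 * s)) / β| ≤ K + 1 := by
    intro s hs w hw
    rw [abs_div, abs_of_pos hβ0, div_le_iff₀ hβ0]
    have h1 := (hfit s hs).1
    rw [hcen] at h1
    calc |w - (c0 + c1 * s)| = |(w - W.Y l s) + (W.Y l s - (c0 + c1 * s))| := by ring_nf
      _ ≤ |w - W.Y l s| + |W.Y l s - (c0 + c1 * s)| := abs_add_le _ _
      _ ≤ β + K * β := add_le_add hw h1
      _ = (K + 1) * β := by ring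
  have hlam : (1 : ℝ) ≤ K + 1 := by linarith
  have habs : ∀ s ∈ Set.Icc (0 : ℝ) 1, |s| ≤ K + 1 := by
    intro s hs
    rw [abs_of_nonneg hs.1]
    linarith [hs.2]
  have key := (k7a_quad_lip hq hA hlam (habs t ht) (habs t' ht') (hu t ht y hy) (hu t' ht' y' hy')).2
  have e1 : c0 + c1 * t + β * ((y - (c0 + c1 * t)) / β) = y := by field_simp; ring
  have e2 : c0 + c1 * t' + β * ((y' - (c0 + c1 * t')) / β) = y' := by field_simp; ring
  simp only [e1, e2] at key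
  refine key.trans ?_
  have h3 : |(y - (c0 + c1 * t)) / β - (y' - (c0 + c1 * t')) / β| ≤ (|y - y'| + 3 * K * |t - t'|) / β := by
    rw [← sub_div, abs_div, abs_of_pos hβ0]
    refine div_le_div_of_nonneg_right ?_ hβ0.le
    calc |y - (c0 + c1 * t) - (y' - (c0 + c1 * t'))| = |(y - y') + (-(c1 * (t - t')))| := by ring_nf
      _ ≤ |y - y'| + |-(c1 * (t - t'))| := abs_add_le _ _
      _ = |y - y'| + |c1| * |t - t'| := by rw [abs_neg, abs_mul]
      _ ≤ |y - y'| + 3 * K * |t - t'| := by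
          have := mul_le_mul_of_nonneg_right hc1b (abs_nonneg (t - t'))
          linarith
  have h4 : 0 ≤ 48 * K * (K + 1) := by positivity
  exact mul_le_mul_of_nonneg_left (by linarith) h4

/-! ## blocks and short domains -/

theorem k7wb_q_pos (W : K7aW) : 0 < W.q := by
  unfold K7aW.q
  positivity

theorem k7wb_q_le_one (W : K7aW) : W.q ≤ 1 := by
  unfold K7aW.q
  exact pow_le_one₀ (by norm_num) (by norm_num)

theorem k7wb_blk_iff (W : K7aW) (Q : W.Q) (t : ℝ) : t ∈ W.blk Q ↔ ⌊t / W.q⌋ = (W.iv Q : ℤ) := by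
  unfold K7aW.blk
  rw [Int.floor_eq_iff, le_div_iff₀ (k7wb_q_pos W), div_lt_iff₀ (k7wb_q_pos W), Set.mem_Ico]
  push_cast
  rfl

/-- given `(Q, α)` few short domains occur -/
theorem k7wb_dom_count {W : K7aW} {N K d S a h g χ : ℝ} {Ms Ws : Finset ℝ} (hW : W.Ok N K d S a h g Ms Ws) (hK : 1 ≤ K) (hg : 0 < g)
    (hχ0 : 0 < χ) (hχg : 4 * K * χ ≤ g) (hχm : 4 * K * χ ≤ W.q * g) (Q : W.Q) (mv zv : ℤ) :
    ∃ Dm : Finset (ℤ × ℤ × ℤ), (Dm.card : ℝ) ≤ 36 * K ^ 3 ∧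
      ∀ p ∈ W.Ev0, W.labQ p = Q → kbBin χ (W.v p.1) = mv → kbBin χ (W.Z0 p.1) = zv → W.sdom W.q g (W.q * g) p ∈ Dm := by
  classical
  have hq0 := k7wb_q_pos W
  have hm0 : 0 < W.q * g := by positivity
  set χ' := kbDy χ with hχ'
  set tQ : ℝ := (W.iv Q : ℝ) * W.q with htQ
  set cS : ℝ := W.r1 Q + W.r2 Q * (mv * χ') with hcS
  set cP : ℝ := W.YQ Q tQ (zv * χ' + mv * χ' * tQ) with hcP
  set SB : Finset ℤ := Finset.Icc ⌊(cS - (K + 1) * g) / g⌋ ⌊(cS + (K + 1) * g) / g⌋ with hSB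
  set PB : Finset ℤ := Finset.Icc ⌊(cP - (K ^ 2 + 1) * (W.q * g)) / (W.q * g)⌋ ⌊(cP + (K ^ 2 + 1) * (W.q * g)) / (W.q * g)⌋ with hPB
  refine ⟨({(W.iv Q : ℤ)} : Finset ℤ) ×ˢ (SB ×ˢ PB), ?_, ?_⟩
  · rw [Finset.card_product, Finset.card_product, Finset.card_singleton]
    push_cast
    have h1 : (SB.card : ℝ) ≤ 2 * ((K + 1) * g) / g + 2 := k7wb_card_near hg (by positivity)
    have h2 : (PB.card : ℝ) ≤ 2 * ((K ^ 2 + 1) * (W.q * g)) / (W.q * g) + 2 := k7wb_card_near hm0 (by positivity)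
    have e1 : 2 * ((K + 1) * g) / g + 2 = 2 * K + 4 := by field_simp; ring
    have e2 : 2 * ((K ^ 2 + 1) * (W.q * g)) / (W.q * g) + 2 = 2 * K ^ 2 + 4 := by field_simp; ring
    rw [e1] at h1
    rw [e2] at h2
    have h3 : 2 * K + 4 ≤ 6 * K := by linarith
    have h4 : 2 * K ^ 2 + 4 ≤ 6 * K ^ 2 := by nlinarith
    calc 1 * ((SB.card : ℝ) * (PB.card : ℝ)) ≤ 1 * ((6 * K) * (6 * K ^ 2)) := by
          gcongr
          · exact h1.trans h3
          · exact h2.trans h4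
      _ = 36 * K ^ 3 := by ring
  · intro p hp hQ hv hz
    obtain ⟨hQa, hinc⟩ := hW.lab p hp
    rw [hQ] at hQa hinc
    have hl : p.1 ∈ W.asg Q := hinc.1
    have ht : p.2 ∈ W.blk Q := hinc.2
    have hk : ⌊p.2 / W.q⌋ = (W.iv Q : ℤ) := (k7wb_blk_iff W Q p.2).1 ht
    obtain ⟨-, -, -, hr2⟩ := hW.row_bd Q hQa
    have hvn := k7wb_bin_near hχ0 hv
    have hzn := k7wb_bin_near hχ0 hz
    have htQ_mem : tQ ∈ W.blk Q := by
      unfold K7aW.blk
      refine ⟨le_rfl, ?_⟩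
      rw [htQ]
      nlinarith
    have htQ0 : 0 ≤ tQ := by positivity
    have htQ1 : tQ ≤ 1 := by
      have h1 := (hW.ln.Ev0_sub hp).2.2
      have h2 : tQ ≤ p.2 := ht.1
      linarith
    refine Finset.mem_product.2 ⟨Finset.mem_singleton.2 hk, Finset.mem_product.2 ⟨?_, ?_⟩⟩
    · refine k7wb_floor_mem hg ?_
      have h1 := hW.slope Q hQa p.1 hl
      calc |W.Y1 p.1 - cS| = |(W.Y1 p.1 - (W.r1 Q + W.r2 Q * W.v p.1)) + W.r2 Q * (W.v p.1 - mv * χ')| := by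
            rw [hcS]; ring_nf
        _ ≤ |W.Y1 p.1 - (W.r1 Q + W.r2 Q * W.v p.1)| + |W.r2 Q * (W.v p.1 - mv * χ')| := abs_add_le _ _
        _ ≤ K * g + K * (2 * χ) := by
            rw [abs_mul]
            exact add_le_add h1 (mul_le_mul hr2 hvn (abs_nonneg _) (by linarith))
        _ ≤ (K + 1) * g := by nlinarith
    · have e : ((⌊p.2 / W.q⌋ : ℤ) : ℝ) * W.q = tQ := by
        rw [hk, htQ]
        push_cast
        rfl
      show ⌊W.Y p.1 (⌊p.2 / W.q⌋ * W.q) / (W.q * g)⌋ ∈ PB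
      rw [e]
      refine k7wb_floor_mem hm0 ?_
      have h1 := (hW.box Q hQa p.1 hl tQ htQ_mem).2
      have h2 : |W.Z p.1 tQ - (zv * χ' + mv * χ' * tQ)| ≤ 4 * χ := by
        calc |W.Z p.1 tQ - (zv * χ' + mv * χ' * tQ)| = |(W.Z0 p.1 - zv * χ') + (W.v p.1 - mv * χ') * tQ| := by
              unfold K7aLn.Z; ring_nf
          _ ≤ |W.Z0 p.1 - zv * χ'| + |(W.v p.1 - mv * χ') * tQ| := abs_add_le _ _
          _ ≤ 2 * χ + 2 * χ * 1 := by
              rw [abs_mul, abs_of_nonneg htQ0]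
              exact add_le_add hzn (mul_le_mul hvn htQ1 htQ0 (by positivity))
          _ = 4 * χ := by ring
      have h3 : K * (h * g) ≤ K ^ 2 * (W.q * g) := by
        have := hW.q_lo
        have h4 : h * g ≤ K * W.q * g := mul_le_mul_of_nonneg_right this hg.le
        nlinarith
      calc |W.Y p.1 tQ - cP| = |(W.Y p.1 tQ - W.YQ Q tQ (W.Z p.1 tQ)) + W.r2 Q * (W.Z p.1 tQ - (zv * χ' + mv * χ' * tQ))| := by
            rw [hcP]; unfold K7aW.YQ; ring_nf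
        _ ≤ |W.Y p.1 tQ - W.YQ Q tQ (W.Z p.1 tQ)| + |W.r2 Q * (W.Z p.1 tQ - (zv * χ' + mv * χ' * tQ))| := abs_add_le _ _
        _ ≤ K * (h * g) + K * (4 * χ) := by
            rw [abs_mul]
            exact add_le_add h1 (mul_le_mul hr2 h2 (abs_nonneg _) (by linarith))
        _ ≤ (K ^ 2 + 1) * (W.q * g) := by nlinarith

/-! ## the packing count -/

/-- **the packing count**: the labels `φ` of `Pi` occurring together with `(ψ, D)`, `ψ` a label of `Pj` -/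
theorem k7wb_count {W : K7aW} {N K d S a' h g χ M r c ε Λb thi thj βi βj : ℝ} {Ms Ws : Finset ℝ} (hW : W.Ok N K d S a' h g Ms Ws)
    {Pi Pj : K7aLayer W.toK7aLn} (hPi : Pi.Ok K χ thi βi d) (hPj : Pj.Ok K χ thj βj d)
    (hN : 1 < N) (hK : 1 ≤ K) (hM : M ∈ Ms) (hr : r ∈ Ws) (hg : 0 < g)
    (hχ0 : W.χ0 ≤ χ) (hχ1 : χ ≤ 1)
    (hσq : 2 * N ^ (-M) ≤ W.q) (hσχ : 2 * K * N ^ (-M) ≤ χ) (hσm : 2 * (K + g + 1) * N ^ (-M) ≤ W.q * g)
    (hβ0 : 0 < βj) (hβ1 : βj ≤ 1) (hmβ : 4 * (W.q * g) ≤ βj)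
    (hlip : 48 * K * (K + 1) * (2 + 8 * K / βj) * N ^ (-M) ≤ N ^ (-r))
    (hthi : thi ≤ N ^ (-r)) (hthj : thj ≤ N ^ (-r)) (hε : ε ≤ N ^ (-r)) (hΛ : 2 * (W.q * g) ≤ Λb)
    {E' : Set (W.L × ℝ)} (hE' : E' ⊆ W.Ev0) (hkeep : E' ⊆ k7wbKeep Pi W.q g (W.q * g) (k7wbTh Pi c χ))
    (hvar : ∀ p ∈ E', ∀ φ ψ, Pi.lab p.1 = some φ → Pj.lab p.1 = some ψ → ∀ t1 ∈ W.blk (W.labQ p), ∀ y1 : ℝ, |y1 - W.Y p.1 t1| ≤ Λb →
      |((Pi.G φ).F t1 y1 - (Pj.G ψ).F t1 y1) - ((Pi.G φ).F p.2 (W.Y p.1 p.2) - (Pj.G ψ).F p.2 (W.Y p.1 p.2))| ≤ ε)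
    (ψ : Pj.Ph) (D : ℤ × ℤ × ℤ) :
    ∃ S : Finset Pi.Ph, (S.card : ℝ) * c ≤ 192 * K * (2 * (4 * K) + 5) * (N ^ (-r)) ^ d * (χ * W.q * (W.q * g + g * W.q)) ∧
      ∀ p ∈ E', Pj.lab p.1 = some ψ → W.sdom W.q g (W.q * g) p = D → ∀ φ, Pi.lab p.1 = some φ → φ ∈ S := by
  classical
  obtain ⟨k, sb, yb⟩ := D
  have hq0 := k7wb_q_pos W
  have hm0 : 0 < W.q * g := by positivity
  have hN0 : 0 < N := by linarith
  set σ : ℝ := N ^ (-M) with hσ
  set a : ℝ := N ^ (-r) with ha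
  have hσ0 : 0 < σ := Real.rpow_pos_of_pos hN0 _
  have ha0 : 0 < a := Real.rpow_pos_of_pos hN0 _
  have hχpos : 0 < χ := lt_of_lt_of_le (by positivity) hσχ
  have hCb0 : 0 ≤ 192 * K * (2 * (4 * K) + 5) * a ^ d * (χ * W.q * (W.q * g + g * W.q)) := by positivity
  set S : Finset Pi.Ph := Finset.univ.filter fun φ =>
    ∃ p ∈ E', Pj.lab p.1 = some ψ ∧ W.sdom W.q g (W.q * g) p = (k, sb, yb) ∧ Pi.lab p.1 = some φ with hS
  refine ⟨S, ?_, fun p hp h1 h2 φ h3 => Finset.mem_filter.2 ⟨Finset.mem_univ _, p, hp, h1, h2, h3⟩⟩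
  rcases S.eq_empty_or_nonempty with hSe | ⟨φ₀, hφ₀⟩
  · rw [hSe]
    simpa using hCb0
  obtain ⟨-, p₀, hp₀, hp₀ψ, hp₀D, -⟩ := Finset.mem_filter.1 hφ₀
  set B : Set (W.L × ℝ) := {z | kbBin χ (W.v z.1) = Pj.vi ψ ∧ kbBin χ (W.Z0 z.1) = Pj.zi ψ ∧ W.sdom W.q g (W.q * g) z = (k, sb, yb) ∧
        |W.X z.1 z.2 - (fun (t : ℝ) (_ : ℝ) (y : ℝ) => (Pj.G ψ).F t y) z.2 (W.Z z.1 z.2) (W.Y z.1 z.2)| ≤ (4 * K) * a} with hBdef
  have hB : W.lam0 B ≤ ENNReal.ofReal (192 * K * (2 * (4 * K) + 5) * a ^ d * (χ * W.q * (W.q * g + g * W.q))) * W.palχ χ (Pj.vi ψ) := by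
    refine k7wc_band_dom W.toK7aLn hW.ln hN hK hM hr (by positivity) hχ0 hχ1 hσq hσχ hg hσm _ _ k sb yb
      (fun (t : ℝ) (_ : ℝ) (y : ℝ) => (Pj.G ψ).F t y) ?_
    intro t Z Y t' Z' Y' ht ht' ht1 ht1' _ _ hY hY' htt _ hYY
    have hbox := (k7wc_sdom_box W.toK7aLn hq0 hg hm0 p₀ k sb yb hp₀D).2.2
    have b1 := hbox t ⟨ht.1, ht.2.le⟩
    have b2 := hbox t' ⟨ht'.1, ht'.2.le⟩
    have hy : |Y - W.Y p₀.1 t| ≤ βj := by
      have h1 := abs_le.1 hY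
      rw [abs_le]
      constructor <;> linarith [h1.1, h1.2, b1.1, b1.2]
    have hy' : |Y' - W.Y p₀.1 t'| ≤ βj := by
      have h1 := abs_le.1 hY'
      rw [abs_le]
      constructor <;> linarith [h1.1, h1.2, b2.1, b2.2]
    have h2 := k7wb_lip hW.ln hPj hK hβ0 hβ1 hp₀ψ ht1 ht1' hy hy'
    refine h2.trans (le_trans ?_ hlip)
    have h3 : (|Y - Y'| + 3 * K * |t - t'|) / βj ≤ 8 * K / βj * σ := by
      rw [div_mul_eq_mul_div]
      refine div_le_div_of_nonneg_right ?_ hβ0.le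
      have : 3 * K * |t - t'| ≤ 3 * K * (2 * σ) := mul_le_mul_of_nonneg_left htt (by positivity)
      nlinarith
    have h4 : 0 ≤ 48 * K * (K + 1) := by positivity
    calc 48 * K * (K + 1) * (|t - t'| + (|Y - Y'| + 3 * K * |t - t'|) / βj) ≤ 48 * K * (K + 1) * (2 * σ + 8 * K / βj * σ) :=
          mul_le_mul_of_nonneg_left (add_le_add htt h3) h4
      _ = 48 * K * (K + 1) * (2 + 8 * K / βj) * σ := by ring
  have hsubB : ∀ φ ∈ S, k7wbWit Pi W.q g (W.q * g) φ (k, sb, yb) ∩ W.Ev0 ⊆ B := by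
    rintro φ hφ z ⟨⟨hzl, hzD⟩, hz0⟩
    obtain ⟨-, p, hp, hpψ, hpD, hpφ⟩ := Finset.mem_filter.1 hφ
    have hp0 := hE' hp
    obtain ⟨-, gv, gz⟩ := hPi.grp z.1 φ hzl
    obtain ⟨-, gv', gz'⟩ := hPi.grp p.1 φ hpφ
    obtain ⟨-, gv'', gz''⟩ := hPj.grp p.1 ψ hpψ
    refine ⟨by rw [gv, ← gv', gv''], by rw [gz, ← gz', gz''], hzD, ?_⟩
    have hz2 := (hW.ln.Ev0_sub hz0).2
    have hp2 := (hW.ln.Ev0_sub hp0).2
    have f1 := abs_le.1 (hPi.fit z.1 φ hzl z.2 hz2).2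
    have f2 := abs_le.1 (hPi.fit p.1 φ hpφ p.2 hp2).2
    have f3 := abs_le.1 (hPj.fit p.1 ψ hpψ p.2 hp2).2
    have hblk : z.2 ∈ W.blk (W.labQ p) := by
      rw [k7wb_blk_iff]
      have h1 : ⌊p.2 / W.q⌋ = (W.iv (W.labQ p) : ℤ) := (k7wb_blk_iff W _ _).1 (hW.lab p hp0).2.2
      have h2 : ⌊z.2 / W.q⌋ = k := congrArg Prod.fst hzD
      have h3 : ⌊p.2 / W.q⌋ = k := congrArg Prod.fst hpD
      rw [h2, ← h3, h1]
    have bz := k7wc_sdom_box W.toK7aLn hq0 hg hm0 z k sb yb hzD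
    have bp := k7wc_sdom_box W.toK7aLn hq0 hg hm0 p k sb yb hpD
    have tz : z.2 ∈ Set.Icc ((k : ℝ) * W.q) (k * W.q + W.q) := ⟨bz.1.1, bz.1.2.le⟩
    have c1 := bz.2.2 z.2 tz
    have c2 := bp.2.2 z.2 tz
    have hyy : |W.Y z.1 z.2 - W.Y p.1 z.2| ≤ Λb := by
      rw [abs_le]
      constructor <;> linarith [c1.1, c1.2, c2.1, c2.2]
    have v := abs_le.1 (hvar p hp φ ψ hpφ hpψ z.2 hblk _ hyy)
    have k1 : K * thi ≤ K * a := mul_le_mul_of_nonneg_left hthi (by linarith)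
    have k2 : K * thj ≤ K * a := mul_le_mul_of_nonneg_left hthj (by linarith)
    have k3 : a ≤ K * a := by nlinarith
    show |W.X z.1 z.2 - (Pj.G ψ).F z.2 (W.Y z.1 z.2)| ≤ 4 * K * a
    rw [abs_le]
    constructor <;> linarith [f1.1, f1.2, f2.1, f2.2, f3.1, f3.2, v.1, v.2]
  have hpal_top : W.palχ χ (Pj.vi ψ) ≠ ⊤ :=
    ne_top_of_le_ne_top ENNReal.one_ne_top ((measure_mono (Set.subset_univ _)).trans hW.ln.pal_le)
  have hθ : ∀ φ ∈ S, ENNReal.ofReal c * W.palχ χ (Pj.vi ψ) < W.lam0 (k7wbWit Pi W.q g (W.q * g) φ (k, sb, yb)) := by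
    intro φ hφ
    obtain ⟨-, p, hp, hpψ, hpD, hpφ⟩ := Finset.mem_filter.1 hφ
    have h1 := hkeep hp φ hpφ
    rw [hpD] at h1
    have h2 : Pi.vi φ = Pj.vi ψ := by rw [← (hPi.grp p.1 φ hpφ).2.1, (hPj.grp p.1 ψ hpψ).2.1]
    unfold k7wbTh at h1
    rwa [h2] at h1
  have hsum : ∑ φ ∈ S, W.lam0 (k7wbWit Pi W.q g (W.q * g) φ (k, sb, yb)) ≤ W.lam0 B := by
    rw [← measure_biUnion_finset]
    · rw [k7wb_lam0_apply hW.ln, k7wb_lam0_apply hW.ln B]
      refine measure_mono ?_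
      rintro z ⟨hz, hz0⟩
      simp only [Set.mem_iUnion] at hz
      obtain ⟨φ, hφ, hzφ⟩ := hz
      exact ⟨hsubB φ hφ ⟨hzφ, hz0⟩, hz0⟩
    · intro φ _ φ' _ hne
      refine Set.disjoint_left.2 fun z h1 h2 => hne ?_
      have h1' : Pi.lab z.1 = some φ := h1.1
      have h2' : Pi.lab z.1 = some φ' := h2.1
      rw [h1'] at h2'
      exact Option.some.inj h2'
    · exact fun φ _ => k7wb_meas_wit hW.ln hPi _ _ _ φ _
  have hcard : (S.card : ℝ≥0∞) * (ENNReal.ofReal c * W.palχ χ (Pj.vi ψ)) ≤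
      ENNReal.ofReal (192 * K * (2 * (4 * K) + 5) * a ^ d * (χ * W.q * (W.q * g + g * W.q))) * W.palχ χ (Pj.vi ψ) := by
    calc (S.card : ℝ≥0∞) * (ENNReal.ofReal c * W.palχ χ (Pj.vi ψ)) = ∑ _φ ∈ S, ENNReal.ofReal c * W.palχ χ (Pj.vi ψ) := by
          rw [Finset.sum_const, nsmul_eq_mul]
      _ ≤ ∑ φ ∈ S, W.lam0 (k7wbWit Pi W.q g (W.q * g) φ (k, sb, yb)) := Finset.sum_le_sum fun φ hφ => (hθ φ hφ).le
      _ ≤ W.lam0 B := hsum
      _ ≤ _ := hB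
  have hpal0 : W.palχ χ (Pj.vi ψ) ≠ 0 := by
    intro h0
    have h1 := hθ φ₀ hφ₀
    have h2 : W.lam0 (k7wbWit Pi W.q g (W.q * g) φ₀ (k, sb, yb)) ≤ W.lam0 B :=
      (Finset.single_le_sum (f := fun φ => W.lam0 (k7wbWit Pi W.q g (W.q * g) φ (k, sb, yb))) (fun _ _ => zero_le) hφ₀).trans hsum
    rw [h0, mul_zero] at hB h1
    exact absurd (h1.trans_le (h2.trans hB)) (lt_irrefl _)
  rw [← mul_assoc] at hcard
  have h5 := (ENNReal.mul_le_mul_iff_left hpal0 hpal_top).1 hcard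
  by_cases hc : 0 ≤ c
  · rw [← ENNReal.ofReal_natCast, ← ENNReal.ofReal_mul (Nat.cast_nonneg _)] at h5
    exact (ENNReal.ofReal_le_ofReal_iff hCb0).1 h5
  · have : (S.card : ℝ) * c ≤ 0 := mul_nonpos_of_nonneg_of_nonpos (Nat.cast_nonneg _) (not_le.1 hc).le
    exact this.trans hCb0

end

end Claimed.Agent.R252

/-!
# ROW 252 (S0492), unit S7w, stage B (post BP-252-S7w-B, helper252), file 3: THE ONE-SCALE CORE OF STAGE B, explicit slack `K`.

`k7wb_core`: prune the selection to the witness floors `T_j / K₁`, `K₁ = 288 K⁵`, of the three layers (loss `≤ 1/(2K)`); then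
 `fine` : `≤ 36 K³` short domains per `(Q, α)`, `≤ 1437696 K⁷ (a/a_i)^d` labels per domain (`k7wb_count` with centre `F_{φ0}`);
 `back` : `k7wb_count` with the roles exchanged (centre `F_{φ1}`).
`K7wbNum` = the numeric side conditions; `k7wb_num_of` derives them from pure inequalities between `K, χ, σ, h, g, N^{-B i}, a`.
-/

set_option autoImplicit false

namespace Claimed.Agent.R252

open MeasureTheory
open scoped ENNReal BigOperators

noncomputable section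

/-- numeric side conditions of stage B at one scale -/
structure K7wbNum (W : K7aW) (N K g χ M r ε Λb : ℝ) (th β : Fin 3 → ℝ) : Prop where
  N1 : 1 < N
  K1 : 1 ≤ K
  g0 : 0 < g
  χ0 : W.χ0 ≤ χ
  χ1 : χ ≤ 1
  χg : 4 * K * χ ≤ g
  χm : 4 * K * χ ≤ W.q * g
  σq : 2 * N ^ (-M) ≤ W.q
  σχ : 2 * K * N ^ (-M) ≤ χ
  σm : 2 * (K + g + 1) * N ^ (-M) ≤ W.q * g
  β0 : ∀ i, 0 < β i
  β1 : ∀ i, β i ≤ 1
  βg : ∀ i, β i ≤ K * g
  mβ : ∀ i, 4 * (W.q * g) ≤ β i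
  lip : ∀ i, 48 * K * (K + 1) * (2 + 8 * K / β i) * N ^ (-M) ≤ N ^ (-r)
  th0 : ∀ i, 0 < th i
  th1 : ∀ i, th i ≤ N ^ (-r)
  ε1 : ε ≤ N ^ (-r)
  Λ : 2 * (W.q * g) ≤ Λb

/-- from a count against the floor to a count -/
theorem k7wb_card_of {n K a th d u : ℝ} (hK : 1 ≤ K) (ha : 0 < a) (hth : 0 < th) (hu : 0 < u)
    (h : n * (u * th ^ d / (288 * K ^ 5)) ≤ 192 * K * (2 * (4 * K) + 5) * a ^ d * (2 * u)) :
    n ≤ 1437696 * K ^ 7 * (a ^ d / th ^ d) := by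
  have hthd : 0 < th ^ d := Real.rpow_pos_of_pos hth _
  have had : 0 < a ^ d := Real.rpow_pos_of_pos ha _
  have hK5 : 0 < 288 * K ^ 5 := by positivity
  have h1 : n * (u * th ^ d) ≤ 192 * K * (2 * (4 * K) + 5) * a ^ d * (2 * u) * (288 * K ^ 5) := by
    have e : n * (u * th ^ d / (288 * K ^ 5)) = n * (u * th ^ d) / (288 * K ^ 5) := by ring
    rw [e, div_le_iff₀ hK5] at h
    exact h
  have h2 : 2 * (4 * K) + 5 ≤ 13 * K := by linarith
  have h3 : 192 * K * (2 * (4 * K) + 5) * a ^ d * (2 * u) * (288 * K ^ 5) ≤ 1437696 * K ^ 7 * a ^ d * u := by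
    have : 192 * K * (2 * (4 * K) + 5) * a ^ d * (2 * u) * (288 * K ^ 5) = (2 * (4 * K) + 5) * (110592 * K ^ 6 * a ^ d * u) := by ring
    rw [this]
    calc (2 * (4 * K) + 5) * (110592 * K ^ 6 * a ^ d * u) ≤ (13 * K) * (110592 * K ^ 6 * a ^ d * u) :=
          mul_le_mul_of_nonneg_right h2 (by positivity)
      _ = 1437696 * K ^ 7 * a ^ d * u := by ring
  have e4 : (1437696 * K ^ 7 * (a ^ d / th ^ d)) * (u * th ^ d) = 1437696 * K ^ 7 * a ^ d * u := by field_simp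
  have h4 : n * (u * th ^ d) ≤ (1437696 * K ^ 7 * (a ^ d / th ^ d)) * (u * th ^ d) := by
    rw [e4]
    exact h1.trans h3
  exact le_of_mul_le_mul_right h4 (by positivity)

/-- **the one-scale core of stage B** -/
theorem k7wb_core {W : K7aW} {P : Fin 3 → K7aLayer W.toK7aLn} {β th : Fin 3 → ℝ} {E : Set (W.L × ℝ)} {N K d S a' h g χ M r ε Λb : ℝ}
    {Ms Ws : Finset ℝ} (hW : W.Ok N K d S a' h g Ms Ws) (hlay : ∀ i, (P i).Ok K χ (th i) (β i) d) (hM : M ∈ Ms) (hr : r ∈ Ws)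
    (hn : K7wbNum W N K g χ M r ε Λb th β) (mE : MeasurableSet E) (sub : E ⊆ W.Ev0) (mass : 1 ≤ ENNReal.ofReal K * W.prior E)
    (hvar : ∀ p ∈ E, ∀ (i : Fin 3) (φ0 : (P 0).Ph) (φ : (P i).Ph), (P 0).lab p.1 = some φ0 → (P i).lab p.1 = some φ →
      ∀ t1 ∈ W.blk (W.labQ p), ∀ t2 ∈ W.blk (W.labQ p), ∀ y1 y2 : ℝ, |y1 - W.Y p.1 t1| ≤ Λb → |y2 - W.Y p.1 t2| ≤ Λb →
      |(((P i).G φ).F t1 y1 - ((P 0).G φ0).F t1 y1) - (((P i).G φ).F t2 y2 - ((P 0).G φ0).F t2 y2)| ≤ ε) :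
    ∃ E', E' ⊆ E ∧ MeasurableSet E' ∧ 1 ≤ ENNReal.ofReal (2 * K) * W.prior E' ∧
      (∀ (i : Fin 3) (Q : W.Q) (φ0 : (P 0).Ph), ∃ S : Finset (P i).Ph, (S.card : ℝ) ≤ 51757056 * K ^ 10 * ((N ^ (-r)) ^ d / th i ^ d) ∧
        ∀ p ∈ E', W.labQ p = Q → (P 0).lab p.1 = some φ0 → ∀ φ, (P i).lab p.1 = some φ → φ ∈ S) ∧
      (∀ (φ1 : (P 1).Ph) (D : ℤ × ℤ × ℤ), ∃ S : Finset (P 0).Ph, (S.card : ℝ) ≤ 1437696 * K ^ 7 * ((N ^ (-r)) ^ d / th 0 ^ d) ∧
        ∀ p ∈ E', (P 1).lab p.1 = some φ1 → W.sdom W.q g (W.q * g) p = D → ∀ φ, (P 0).lab p.1 = some φ → φ ∈ S) := by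
  classical
  have hK := hn.K1
  have hK0 : 0 < K := by linarith
  have hN0 : 0 < N := by linarith [hn.N1]
  have hq0 := k7wb_q_pos W
  have hg := hn.g0
  have hm0 : 0 < W.q * g := by positivity
  have hσ0 : 0 < N ^ (-M) := Real.rpow_pos_of_pos hN0 _
  have ha0 : 0 < N ^ (-r) := Real.rpow_pos_of_pos hN0 _
  have hχpos : 0 < χ := lt_of_lt_of_le (by positivity) hn.σχ
  have hΛ0 : 0 ≤ Λb := le_trans (by positivity) hn.Λ
  set c : Fin 3 → ℝ := fun i => W.q * (W.q * g) * (χ * th i ^ d) / (288 * K ^ 5) with hc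
  set Kp : Fin 3 → Set (W.L × ℝ) := fun i => k7wbKeep (P i) W.q g (W.q * g) (k7wbTh (P i) (c i) χ) with hKp
  have mKp : ∀ i, MeasurableSet (Kp i) := fun i => k7wb_meas_keep hW.ln (hlay i) _ _ _ _
  have hloss : ∀ i, W.lam0 (Kp i)ᶜ ≤ ENNReal.ofReal (1 / (6 * K)) := by
    intro i
    have h1 := k7wb_budget hW.ln (hlay i) hK (hn.β0 i) W.lev (g := g) (m := W.q * g) (K1 := 288 * K ^ 5) hg hm0 (hn.βg i)
      (by linarith [hn.mβ i]) hχpos.le (hn.th0 i).le (by positivity)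
    have e : 48 * K ^ 4 / (288 * K ^ 5) = 1 / (6 * K) := by
      field_simp
      ring
    rw [e] at h1
    exact h1
  refine ⟨E ∩ ⋂ i, Kp i, Set.inter_subset_left, mE.inter (MeasurableSet.iInter mKp), ?_, ?_, ?_⟩
  · -- the mass
    have hcov : E ⊆ (E ∩ ⋂ i, Kp i) ∪ ⋃ i, ((Kp i)ᶜ ∩ W.Ev0) := by
      intro z hz
      by_cases hzk : ∀ i, z ∈ Kp i
      · exact Or.inl ⟨hz, Set.mem_iInter.2 hzk⟩
      · push Not at hzk
        obtain ⟨i, hi⟩ := hzk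
        exact Or.inr (Set.mem_iUnion.2 ⟨i, hi, sub hz⟩)
    have h1 : W.prior E ≤ W.prior (E ∩ ⋂ i, Kp i) + ∑ i : Fin 3, ENNReal.ofReal (1 / (6 * K)) := by
      refine (measure_mono hcov).trans ((measure_union_le _ _).trans (add_le_add le_rfl ?_))
      refine (measure_iUnion_fintype_le _ _).trans (Finset.sum_le_sum fun i _ => ?_)
      rw [← k7wb_lam0_apply hW.ln]
      exact hloss i
    have h2 : ∑ _i : Fin 3, ENNReal.ofReal (1 / (6 * K)) = ENNReal.ofReal (1 / (2 * K)) := by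
      rw [Finset.sum_const, Finset.card_univ, Fintype.card_fin, nsmul_eq_mul, ← ENNReal.ofReal_natCast,
        ← ENNReal.ofReal_mul (Nat.cast_nonneg _)]
      congr 1
      push_cast
      field_simp
      norm_num
    rw [h2] at h1
    have h3 : (1 : ℝ≥0∞) ≤ ENNReal.ofReal K * W.prior (E ∩ ⋂ i, Kp i) + 2⁻¹ := by
      calc (1 : ℝ≥0∞) ≤ ENNReal.ofReal K * W.prior E := mass
        _ ≤ ENNReal.ofReal K * (W.prior (E ∩ ⋂ i, Kp i) + ENNReal.ofReal (1 / (2 * K))) := mul_le_mul' le_rfl h1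
        _ = ENNReal.ofReal K * W.prior (E ∩ ⋂ i, Kp i) + 2⁻¹ := by
            rw [mul_add, ← ENNReal.ofReal_mul hK0.le]
            congr 1
            have : K * (1 / (2 * K)) = 2⁻¹ := by field_simp
            rw [this, ENNReal.ofReal_inv_of_pos (by norm_num)]
            norm_num
    have h4 : (2⁻¹ : ℝ≥0∞) ≤ ENNReal.ofReal K * W.prior (E ∩ ⋂ i, Kp i) := by
      rw [← ENNReal.inv_two_add_inv_two] at h3
      exact ENNReal.le_of_add_le_add_right (by simp) h3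
    calc (1 : ℝ≥0∞) = 2 * 2⁻¹ := (ENNReal.mul_inv_cancel (by norm_num) (by norm_num)).symm
      _ ≤ 2 * (ENNReal.ofReal K * W.prior (E ∩ ⋂ i, Kp i)) := mul_le_mul' le_rfl h4
      _ = ENNReal.ofReal (2 * K) * W.prior (E ∩ ⋂ i, Kp i) := by
          rw [ENNReal.ofReal_mul (by norm_num), ENNReal.ofReal_ofNat, mul_assoc]
  · -- fine
    intro i Q φ0
    obtain ⟨Dm, hDmc, hDm⟩ := k7wb_dom_count hW hK hg hχpos hn.χg hn.χm Q ((P 0).vi φ0) ((P 0).zi φ0)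
    have hcnt := fun D => k7wb_count (c := c i) (ε := ε) (Λb := Λb) hW (hlay i) (hlay 0) hn.N1 hK hM hr hg hn.χ0 hn.χ1 hn.σq hn.σχ hn.σm (hn.β0 0) (hn.β1 0)
      (hn.mβ 0) (hn.lip 0) (hn.th1 i) (hn.th1 0) hn.ε1 hn.Λ (E' := E ∩ ⋂ i, Kp i) (fun z hz => sub hz.1)
      (fun z hz => Set.mem_iInter.1 hz.2 i)
      (fun p hp φ ψ h1 h2 t1 ht1 y1 hy1 => hvar p hp.1 i ψ φ h2 h1 t1 ht1 p.2 (hW.lab p (sub hp.1)).2.2 y1 (W.Y p.1 p.2) hy1 (by simpa using hΛ0)) φ0 D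
    choose SD hSDc hSD using hcnt
    refine ⟨Dm.biUnion SD, ?_, ?_⟩
    · have hone : ∀ D, ((SD D).card : ℝ) ≤ 1437696 * K ^ 7 * ((N ^ (-r)) ^ d / th i ^ d) := by
        intro D
        refine k7wb_card_of (u := χ * W.q * (W.q * g)) hK ha0 (hn.th0 i) (by positivity) ?_
        have h1 := hSDc D
        have e1 : c i = χ * W.q * (W.q * g) * th i ^ d / (288 * K ^ 5) := by
          simp only [hc]
          ring
        have e2 : χ * W.q * (W.q * g + g * W.q) = 2 * (χ * W.q * (W.q * g)) := by ring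
        rw [e1, e2] at h1
        exact h1
      have hr0 : 0 ≤ 1437696 * K ^ 7 * ((N ^ (-r)) ^ d / th i ^ d) := by
        have := Real.rpow_pos_of_pos ha0 d
        have := Real.rpow_pos_of_pos (hn.th0 i) d
        positivity
      calc ((Dm.biUnion SD).card : ℝ) ≤ ((∑ D ∈ Dm, (SD D).card : ℕ) : ℝ) := by exact_mod_cast Finset.card_biUnion_le
        _ = ∑ D ∈ Dm, ((SD D).card : ℝ) := by push_cast; rfl
        _ ≤ ∑ _D ∈ Dm, 1437696 * K ^ 7 * ((N ^ (-r)) ^ d / th i ^ d) := Finset.sum_le_sum fun D _ => hone D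
        _ = (Dm.card : ℝ) * (1437696 * K ^ 7 * ((N ^ (-r)) ^ d / th i ^ d)) := by rw [Finset.sum_const, nsmul_eq_mul]
        _ ≤ (36 * K ^ 3) * (1437696 * K ^ 7 * ((N ^ (-r)) ^ d / th i ^ d)) := mul_le_mul_of_nonneg_right hDmc hr0
        _ = 51757056 * K ^ 10 * ((N ^ (-r)) ^ d / th i ^ d) := by ring
    · intro p hp hQ h0 φ hφ
      obtain ⟨-, gv, gz⟩ := (hlay 0).grp p.1 φ0 h0
      exact Finset.mem_biUnion.2 ⟨_, hDm p (sub hp.1) hQ gv gz, hSD _ p hp h0 rfl φ hφ⟩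
  · -- back
    intro φ1 D
    obtain ⟨S, hSc, hS⟩ := k7wb_count (c := c 0) (ε := ε) (Λb := Λb) hW (hlay 0) (hlay 1) hn.N1 hK hM hr hg hn.χ0 hn.χ1 hn.σq hn.σχ hn.σm (hn.β0 1) (hn.β1 1)
      (hn.mβ 1) (hn.lip 1) (hn.th1 0) (hn.th1 1) hn.ε1 hn.Λ (E' := E ∩ ⋂ i, Kp i) (fun z hz => sub hz.1)
      (fun z hz => Set.mem_iInter.1 hz.2 0)
      (fun p hp φ ψ h1 h2 t1 ht1 y1 hy1 => by
        have h3 := abs_le.1 (hvar p hp.1 1 φ ψ h1 h2 t1 ht1 p.2 (hW.lab p (sub hp.1)).2.2 y1 (W.Y p.1 p.2) hy1 (by simpa using hΛ0))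
        rw [abs_le]
        constructor <;> linarith [h3.1, h3.2]) φ1 D
    refine ⟨S, ?_, hS⟩
    refine k7wb_card_of (u := χ * W.q * (W.q * g)) hK ha0 (hn.th0 0) (by positivity) ?_
    have e1 : c 0 = χ * W.q * (W.q * g) * th 0 ^ d / (288 * K ^ 5) := by
      simp only [hc]
      ring
    have e2 : χ * W.q * (W.q * g + g * W.q) = 2 * (χ * W.q * (W.q * g)) := by ring
    rw [e1, e2] at hSc
    exact hSc

end

end Claimed.Agent.R252

/-!
# ROW 252 (S0492), unit S7w, stage B (post BP-252-S7w-B, helper252), file 4: THE EXPONENT FORM.      `k7wb_stageB : K7wStageB`.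

`Mχ0 = eh + eg + 1`;  mesh exponent `M = M0 = Mχ + s + eh + eg + B 0 + B 1 + B 2 + 1`, `Ms = {M}`, `Ws = {s}`;  `τ = min (τ'/11, u/4, eg, 1/5)`;  `N1` : `N^τ ≥ 51757056` (every numerical constant is `≤ K = N^τ`).
-/

set_option autoImplicit false

namespace Claimed.Agent.R252

open MeasureTheory
open scoped ENNReal BigOperators

noncomputable section

/-- absorbing a constant and powers of `K = N^τ` -/
theorem k7wb_pw {N τ c e1 e2 : ℝ} (hN : 1 < N) (n : ℕ) (hc : c ≤ N ^ τ) (h : ((n : ℝ) + 1) * τ + e1 ≤ e2) :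
    c * (N ^ τ) ^ n * N ^ e1 ≤ N ^ e2 := by
  have hN0 : 0 < N := by linarith
  have hK0 : 0 < N ^ τ := Real.rpow_pos_of_pos hN0 _
  have h1 : 0 < N ^ e1 := Real.rpow_pos_of_pos hN0 _
  calc c * (N ^ τ) ^ n * N ^ e1 ≤ N ^ τ * (N ^ τ) ^ n * N ^ e1 := by gcongr
    _ = N ^ (((n : ℝ) + 1) * τ + e1) := by
        rw [← Real.rpow_natCast (N ^ τ) n, ← Real.rpow_mul hN0.le, ← Real.rpow_add hN0, ← Real.rpow_add hN0]
        congr 1
        ring
    _ ≤ N ^ e2 := Real.rpow_le_rpow_of_exponent_le hN.le h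

/-- the numeric side conditions from pure inequalities -/
theorem k7wb_num_of {W : K7aW} {N K d S a' h g χ M r ε Λb : ℝ} {th β Bn : Fin 3 → ℝ} {Ms Ws : Finset ℝ} (hW : W.Ok N K d S a' h g Ms Ws)
    (hN : 1 < N) (hK : 1 ≤ K) (hg0 : 0 < g) (hg1 : g ≤ 1) (hχ0 : W.χ0 ≤ χ) (hχ1 : χ ≤ 1)
    (bl : ∀ i, Bn i ≤ K * β i) (bh : ∀ i, β i ≤ K * Bn i) (hB0 : ∀ i, 0 < Bn i)
    (p1 : 4 * K * χ ≤ g) (p2 : 4 * K ^ 2 * χ ≤ h * g) (p3 : 2 * K * N ^ (-M) ≤ h) (p4 : 2 * K * N ^ (-M) ≤ χ) (p5 : 6 * K ^ 2 * N ^ (-M) ≤ h * g)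
    (p6 : ∀ i, K * Bn i ≤ 1) (p7 : ∀ i, Bn i ≤ g) (p8 : ∀ i, 4 * K ^ 2 * (h * g) ≤ Bn i) (p9 : ∀ i, 960 * K ^ 4 * N ^ (-M) ≤ N ^ (-r) * Bn i)
    (p10 : 2 * K * (h * g) ≤ Λb) (th0 : ∀ i, 0 < th i) (th1 : ∀ i, th i ≤ N ^ (-r)) (ε1 : ε ≤ N ^ (-r)) :
    K7wbNum W N K g χ M r ε Λb th β := by
  have hK0 : 0 < K := by linarith
  have hN0 : 0 < N := by linarith
  have hσ0 : 0 < N ^ (-M) := Real.rpow_pos_of_pos hN0 _
  have hq0 := k7wb_q_pos W
  have hlo : h * g ≤ K * (W.q * g) := by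
    have := mul_le_mul_of_nonneg_right hW.q_lo hg0.le
    linarith
  have hhi : W.q * g ≤ K * (h * g) := by
    have := mul_le_mul_of_nonneg_right hW.q_hi hg0.le
    linarith
  have hβ0 : ∀ i, 0 < β i := fun i => by
    have h1 : 0 < K * β i := lt_of_lt_of_le (hB0 i) (bl i)
    exact (mul_pos_iff_of_pos_left hK0).1 h1
  refine ⟨hN, hK, hg0, hχ0, hχ1, p1, ?_, ?_, p4, ?_, hβ0, fun i => (bh i).trans (p6 i), ?_, ?_, ?_, th0, th1, ε1, ?_⟩
  · refine le_of_mul_le_mul_left ?_ hK0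
    calc K * (4 * K * χ) = 4 * K ^ 2 * χ := by ring
      _ ≤ K * (W.q * g) := p2.trans hlo
  · refine le_of_mul_le_mul_left ?_ hK0
    calc K * (2 * N ^ (-M)) = 2 * K * N ^ (-M) := by ring
      _ ≤ K * W.q := p3.trans hW.q_lo
  · refine le_of_mul_le_mul_left ?_ hK0
    have h1 : 2 * (K + g + 1) ≤ 6 * K := by linarith
    calc K * (2 * (K + g + 1) * N ^ (-M)) ≤ K * (6 * K * N ^ (-M)) := by gcongr
      _ = 6 * K ^ 2 * N ^ (-M) := by ring
      _ ≤ K * (W.q * g) := p5.trans hlo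
  · exact fun i => (bh i).trans (mul_le_mul_of_nonneg_left (p7 i) hK0.le)
  · intro i
    refine le_of_mul_le_mul_left ?_ hK0
    calc K * (4 * (W.q * g)) ≤ K * (4 * (K * (h * g))) := by gcongr
      _ = 4 * K ^ 2 * (h * g) := by ring
      _ ≤ K * β i := (p8 i).trans (bl i)
  · intro i
    have hB1 : Bn i ≤ 1 := by
      have := p6 i
      nlinarith [hB0 i]
    have h1 : 8 * K / β i ≤ 8 * K ^ 2 / Bn i := by
      rw [div_le_div_iff₀ (hβ0 i) (hB0 i)]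
      have := bl i
      nlinarith
    have h2 : (2 : ℝ) ≤ 2 * K ^ 2 / Bn i := by
      rw [le_div_iff₀ (hB0 i)]
      nlinarith
    have h3 : 2 + 8 * K / β i ≤ 10 * K ^ 2 / Bn i := by
      have : 10 * K ^ 2 / Bn i = 2 * K ^ 2 / Bn i + 8 * K ^ 2 / Bn i := by ring
      linarith
    have h4 : 0 ≤ 2 + 8 * K / β i := by
      have := hβ0 i
      positivity
    calc 48 * K * (K + 1) * (2 + 8 * K / β i) * N ^ (-M) ≤ 48 * K * (2 * K) * (10 * K ^ 2 / Bn i) * N ^ (-M) := by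
          gcongr
          linarith
      _ = (960 * K ^ 4 * N ^ (-M)) / Bn i := by ring
      _ ≤ N ^ (-r) := by
          rw [div_le_iff₀ (hB0 i)]
          exact p9 i
  · calc 2 * (W.q * g) ≤ 2 * (K * (h * g)) := by gcongr
      _ = 2 * K * (h * g) := by ring
      _ ≤ Λb := p10

theorem k7wb_st_ge (x : K7wExp) (hx : x.Adm) (i : Fin 3) : x.s ≤ x.st i := by
  have h1 := hx.u0
  have h2 := hx.c0
  unfold K7wExp.st
  fin_cases i <;> simp <;> linarith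

theorem k7wb_st_zero (x : K7wExp) : x.st 0 = x.s := by
  unfold K7wExp.st
  simp

/-- **STAGE B** -/
theorem k7wb_stageB : K7wStageB := by
  intro x hx
  refine ⟨x.eh + x.eg + 1, fun Mχ hMχ => ?_⟩
  obtain ⟨M, hMdef⟩ : ∃ M, M = Mχ + x.s + x.eh + x.eg + x.B 0 + x.B 1 + x.B 2 + 1 := ⟨_, rfl⟩
  refine ⟨M, fun τ' hτ' => ?_⟩
  obtain ⟨τ, hτdef⟩ : ∃ τ, τ = min (τ' / 11) (min (x.u / 4) (min x.eg (1 / 5))) := ⟨_, rfl⟩
  have hu0 := hx.u0
  have hs0 := hx.s0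
  have heh0 := hx.eh0
  have heg0 := hx.eg0
  have hτ0 : 0 < τ := by
    rw [hτdef]
    exact lt_min (by positivity) (lt_min (by linarith) (lt_min heg0 (by norm_num)))
  have hτ1 : τ ≤ τ' / 11 := by rw [hτdef]; exact min_le_left _ _
  have hτ2 : τ ≤ x.u / 4 := by rw [hτdef]; exact (min_le_right _ _).trans (min_le_left _ _)
  have hτ3 : τ ≤ x.eg := by rw [hτdef]; exact (min_le_right _ _).trans ((min_le_right _ _).trans (min_le_left _ _))
  have hτ4 : τ ≤ 1 / 5 := by rw [hτdef]; exact (min_le_right _ _).trans ((min_le_right _ _).trans (min_le_right _ _))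
  have hBpos : ∀ i, 0 < x.B i := fun i => lt_of_lt_of_le heg0 (hx.Bg i)
  have hBsum : ∀ i, x.B i ≤ x.B 0 + x.B 1 + x.B 2 := by
    intro i
    have h0 := hBpos 0
    have h1 := hBpos 1
    have h2 := hBpos 2
    fin_cases i <;> simp <;> linarith
  have hgap : ∀ i, 3 * x.u ≤ x.eh + x.eg - x.B i := by
    intro i
    have h1 : 0 ≤ 10 / (1 - x.d) := by
      have := hx.d1
      exact div_nonneg (by norm_num) (by linarith)
    have h2 := hx.Bb i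
    nlinarith
  refine ⟨τ, max 2 ((51757056 : ℝ) ^ (1 / τ)), {M}, {x.s}, hτ0, ?_, ?_, ?_⟩
  · intro M' hM'
    rw [Finset.mem_singleton.1 hM']
    refine ⟨?_, le_rfl⟩
    have := hBsum 0
    have := hBpos 0
    linarith
  · intro r hr
    rw [Finset.mem_singleton.1 hr]
    refine ⟨hs0.le, ?_⟩
    have := hBsum 0
    have := hBpos 0
    linarith
  intro N hN W P β E hyp hχ0 hvar
  have hN1 : 1 < N := lt_of_lt_of_le (by norm_num) ((le_max_left _ _).trans hN)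
  have hN0 : 0 < N := by linarith
  have hC : (51757056 : ℝ) ≤ N ^ τ := by
    calc (51757056 : ℝ) = ((51757056 : ℝ) ^ (1 / τ)) ^ τ := by
          rw [← Real.rpow_mul (by norm_num), one_div, inv_mul_cancel₀ hτ0.ne', Real.rpow_one]
      _ ≤ N ^ τ := Real.rpow_le_rpow (by positivity) ((le_max_right _ _).trans hN) hτ0.le
  have hK : 1 ≤ N ^ τ := by linarith
  have hmono : ∀ {e1 e2 : ℝ}, e1 ≤ e2 → N ^ e1 ≤ N ^ e2 := fun h => Real.rpow_le_rpow_of_exponent_le hN1.le h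
  have hpos : ∀ e : ℝ, 0 < N ^ e := fun e => Real.rpow_pos_of_pos hN0 e
  have hnum : K7wbNum W N (N ^ τ) (N ^ (-x.eg)) (N ^ (-Mχ)) M x.s (N ^ (-x.s - x.u)) (N ^ (x.u / 2) * N ^ (-x.eh - x.eg))
      (fun i => N ^ (-x.st i)) β := by
    refine k7wb_num_of (Bn := fun i => N ^ (-x.B i)) hyp.w hN1 hK (hpos _) ?_ ?_ ?_ hyp.βlo hyp.βhi (fun i => hpos _) ?_ ?_ ?_ ?_ ?_ ?_ ?_ ?_ ?_ ?_
      (fun i => hpos _) ?_ ?_
    · exact Real.rpow_le_one_of_one_le_of_nonpos hN1.le (by linarith)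
    · refine hχ0.trans (hmono ?_)
      have := hBsum 0
      have := hBpos 0
      linarith
    · exact Real.rpow_le_one_of_one_le_of_nonpos hN1.le (by linarith)
    · simpa using k7wb_pw (c := 4) (e1 := -Mχ) (e2 := -x.eg) hN1 1 (by linarith) (by push_cast; linarith)
    · rw [← Real.rpow_add hN0]
      exact k7wb_pw hN1 2 (by linarith) (by push_cast; linarith)
    · have := hBsum 0
      have := hBpos 0
      simpa using k7wb_pw (c := 2) (e1 := -M) (e2 := -x.eh) hN1 1 (by linarith) (by push_cast; linarith)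
    · have := hBsum 0
      have := hBpos 0
      simpa using k7wb_pw (c := 2) (e1 := -M) (e2 := -Mχ) hN1 1 (by linarith) (by push_cast; linarith)
    · have := hBsum 0
      have := hBpos 0
      rw [← Real.rpow_add hN0]
      exact k7wb_pw hN1 2 (by linarith) (by push_cast; linarith)
    · intro i
      rw [← Real.rpow_add hN0]
      exact Real.rpow_le_one_of_one_le_of_nonpos hN1.le (by linarith [hx.Bg i])
    · exact fun i => hmono (by linarith [hx.Bg i])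
    · intro i
      rw [← Real.rpow_add hN0]
      exact k7wb_pw hN1 2 (by linarith) (by push_cast; linarith [hgap i])
    · intro i
      rw [← Real.rpow_add hN0]
      exact k7wb_pw hN1 4 (by linarith) (by push_cast; linarith [hBsum i])
    · rw [← Real.rpow_add hN0, ← Real.rpow_add hN0]
      simpa using k7wb_pw (c := 2) (e1 := -x.eh + -x.eg) (e2 := x.u / 2 + (-x.eh - x.eg)) hN1 1 (by linarith) (by push_cast; linarith)
    · exact fun i => hmono (by linarith [k7wb_st_ge x hx i])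
    · exact hmono (by linarith)
  obtain ⟨E', hsub, hmeas, hmass, hfine, hback⟩ := k7wb_core hyp.w hyp.lay (Finset.mem_singleton_self M) (Finset.mem_singleton_self x.s) hnum
    hyp.mE hyp.sub hyp.mass hvar
  have hratio : ∀ i, (N ^ (-x.s)) ^ x.d / (N ^ (-x.st i)) ^ x.d = N ^ (x.d * (x.st i - x.s)) := by
    intro i
    rw [← Real.rpow_mul hN0.le, ← Real.rpow_mul hN0.le, ← Real.rpow_sub hN0]
    congr 1
    ring
  refine ⟨E', ⟨hsub, hmeas, ?_⟩, ⟨?_, ?_⟩⟩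
  · refine hmass.trans (mul_le_mul' (ENNReal.ofReal_le_ofReal ?_) le_rfl)
    simpa using k7wb_pw (c := 2) (e1 := 0) (e2 := τ') hN1 1 (by linarith) (by push_cast; linarith)
  · intro i Q φ0
    obtain ⟨S, hS, hS'⟩ := hfine i Q φ0
    refine ⟨S, hS.trans ?_, hS'⟩
    rw [hratio i]
    refine mul_le_mul_of_nonneg_right ?_ (hpos _).le
    simpa using k7wb_pw (c := 51757056) (e1 := 0) (e2 := τ') hN1 10 hC (by push_cast; linarith)
  · intro φ1 D
    obtain ⟨S, hS, hS'⟩ := hback φ1 D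
    refine ⟨S, hS.trans ?_, hS'⟩
    rw [hratio 0, k7wb_st_zero, sub_self, mul_zero, Real.rpow_zero, mul_one]
    simpa using k7wb_pw (c := 1437696) (e1 := 0) (e2 := τ') hN1 7 (by linarith) (by push_cast; linarith)

end

end Claimed.Agent.R252
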