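import Claimed.Agent.R252.S7a.WideGeoContract
import Claimed.Agent.R252.S7a.WideGlue
import Claimed.Agent.R252.S7a.WideContract
import Claimed.Agent.R252.S2s.Api

/-!
# ROW 252 (S0492), unit S7w, post BP-252-S7w-C (helper22; chief helper89), file 2 of 3: **STAGE C OF P7.3, THE GEOMETRY** (07 l.666-760).      CONTRACT file: every `sorry` is a LEAF `L-252-S7wC-*` (name in the docstring).

PAPER-FREE.  ONE scale, explicit slack `K`, explicit constants.   Statements frozen (tell helper22 if one looks false or inconvenient; a missing smallness condition may be ADDED as a field of `K7wccPar.Sm`: ask); prove IN PLACE, helper lemmas directly above, prefix `k7wcc_`.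
* `K7wccPar`  the real parameters `c`;  `c.a1 = N^{-r1}` (thickness of the fine layer), `c.σ = N^{-M}` (THE mesh: of the fine state and of the source cells), `c.pw = N^{-rw}` (`X`-width of the state), `c.b = h g`, `c.ϑ = θ + n₁ a₁/(e θ)` (the gain).
* `c.Sm`      positivity and separation of the scales:  `σ ≪ χ ≪ b`, `σ ≪ a₁ β_i`, `χ b ≪ e β₀²`, `K b ≤ β₁ ≤ K g`, `K^22 ϑ ≪ 1`.
* `K7wccHyp c W P0 P1 E Ms Ws`   the standing hypotheses of stage C for the coarse layer `P0` and the fine layer `P1` (= `K7wHyp` + `K7wVar` + `K7wCnt` of `S7a/WideStage` for `i = 0, 1`).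
Dyadic bins: `σ'' = kbDy σ ∈ [σ, 2σ)`, `χ' = kbDy χ ∈ [χ, 2χ)`; tools `k2s_bin_iff`, `k2s_dy_pos/ge/lt`, `k2s_bin_ball`, `k2s_bin_nested`, `k2s_bin_meas` (S2s/Api), `k7wc_*` (S7a/WideCapContract).
* s1 quadratics in adapted coordinates.   s2 lines, centres, offsets.   s3 the lists of target labels.   s4 two incidences in one fine state: the frozen polynomial.
-/

set_option autoImplicit false

namespace Claimed.Agent.R252

open MeasureTheory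
open scoped ENNReal BigOperators

noncomputable section

/-! ## 0. Parameters and hypotheses -/

/-- the real parameters of stage C at one scale -/
structure K7wccPar where
  N : ℝ
  K : ℝ
  d : ℝ
  S : ℝ
  a : ℝ
  r1 : ℝ
  h : ℝ
  g : ℝ
  χ : ℝ
  β0 : ℝ
  β1 : ℝ
  Λ : ℝ
  n1 : ℝ
  e : ℝ
  θ : ℝ
  M : ℝ
  rw : ℝ

namespace K7wccPar

variable (c : K7wccPar)

/-- thickness of the fine layer -/
def a1 : ℝ := c.N ^ (-c.r1)
/-- the mesh -/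
def σ : ℝ := c.N ^ (-c.M)
/-- the `X`-width of the fine state -/
def pw : ℝ := c.N ^ (-c.rw)
def b : ℝ := c.h * c.g
/-- the gain -/
def ϑ : ℝ := c.θ + c.n1 * c.a1 / (c.e * c.θ)
/-- left end of the time cell `i` -/
def ti (i : ℤ) : ℝ := (i : ℝ) * kbDy c.σ

/-- positivity and separation of the scales -/
structure Sm : Prop where
  N1 : 1 < c.N
  K1 : 1 ≤ c.K
  d0 : 0 ≤ c.d
  r10 : 0 ≤ c.r1
  h0 : 0 < c.h
  h1 : c.h ≤ 1
  g0 : 0 < c.g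
  g1 : c.g ≤ 1
  χ0 : 0 < c.χ
  β00 : 0 < c.β0
  β0K : c.β0 ≤ c.K
  β10 : 0 < c.β1
  β1K : c.β1 ≤ c.K * c.g
  e0 : 0 < c.e
  θ0 : 0 < c.θ
  θ1 : c.θ ≤ 1 / 2
  n10 : 0 ≤ c.n1
  pwa : c.pw ≤ c.a1
  Λb : c.K + 1 ≤ c.Λ
  χb : 100 * c.K ^ 2 * c.χ ≤ c.b
  χe : 1000 * c.K ^ 2 * c.χ * c.b ≤ c.e * c.β0 ^ 2
  bβ1 : c.K * c.b ≤ c.β1
  σχ : 100 * c.K ^ 2 * c.σ ≤ c.χ
  σ0 : 2000 * c.K ^ 4 * c.σ ≤ c.a1 * c.β0
  σ1 : 2000 * c.K ^ 4 * c.σ ≤ c.a1 * c.β1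
  fin : 10 ^ 13 * c.K ^ 22 * c.ϑ ≤ 1

end K7wccPar

namespace K7aW

/-- left end of the block of a true label -/
def tq (W : K7aW) (Q : W.Q) : ℝ := (W.iv Q : ℝ) * W.q

end K7aW

namespace K7aLayer

/-- the central fibre `Z_α(t)` of the group `α = (vi φ, zi φ)` -/
def zc {W : K7aLn} (P : K7aLayer W) (χ : ℝ) (φ : P.Ph) (t : ℝ) : ℝ := (P.zi φ : ℝ) * kbDy χ + (P.vi φ : ℝ) * kbDy χ * t

end K7aLayer

/-- **the standing hypotheses of stage C**, coarse layer `P0` (thickness `a`), fine layer `P1` (thickness `a₁`), current selection `E` -/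
structure K7wccHyp (c : K7wccPar) (W : K7aW) (P0 P1 : K7aLayer W.toK7aLn) (E : Set (W.L × ℝ)) (Ms Ws : Finset ℝ) : Prop where
  w : W.Ok c.N c.K c.d c.S c.a c.h c.g Ms Ws
  hM : c.M ∈ Ms
  hrw : c.rw ∈ Ws
  hr1 : c.r1 ∈ Ws
  χ0 : W.χ0 ≤ c.χ
  l0 : P0.Ok c.K c.χ c.a c.β0 c.d
  l1 : P1.Ok c.K c.χ c.a1 c.β1 c.d
  mE : MeasurableSet E
  sub : E ⊆ W.Ev0
  lab0 : ∀ p ∈ E, P0.lab p.1 ≠ none
  lab1 : ∀ p ∈ E, P1.lab p.1 ≠ none
  mass : 1 ≤ ENNReal.ofReal c.K * W.prior E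
  lists : K7aLists W P0 E c.K c.χ W.q c.g (W.q * c.g)
  /-- `K7wVar` for `i = 1` -/
  var : ∀ p ∈ E, ∀ (φ0 : P0.Ph) (φ1 : P1.Ph), P0.lab p.1 = some φ0 → P1.lab p.1 = some φ1 →
    ∀ t1 ∈ W.blk (W.labQ p), ∀ t2 ∈ W.blk (W.labQ p), ∀ y1 y2 : ℝ, |y1 - W.Y p.1 t1| ≤ c.Λ * c.b → |y2 - W.Y p.1 t2| ≤ c.Λ * c.b →
      |((P1.G φ1).F t1 y1 - (P0.G φ0).F t1 y1) - ((P1.G φ1).F t2 y2 - (P0.G φ0).F t2 y2)| ≤ c.a1
  /-- `K7wCnt.fine 1` -/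
  fine : ∀ (Q : W.Q) (φ0 : P0.Ph), ∃ S : Finset P1.Ph, (S.card : ℝ) ≤ c.n1 ∧
    ∀ p ∈ E, W.labQ p = Q → P0.lab p.1 = some φ0 → ∀ φ, P1.lab p.1 = some φ → φ ∈ S
  /-- `K7wCnt.back` -/
  back : ∀ (φ1 : P1.Ph) (D : ℤ × ℤ × ℤ), ∃ S : Finset P0.Ph, (S.card : ℝ) ≤ c.K ∧
    ∀ p ∈ E, P1.lab p.1 = some φ1 → W.sdom W.q c.g (W.q * c.g) p = D → ∀ φ, P0.lab p.1 = some φ → φ ∈ S

/-- the offset `D(Q, Φ, Φ₁) = (F_{Φ₁} - F_Φ)(t_Q, Y_Q(t_Q, Z_α(t_Q)))` (07 l.641-645) -/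
def k7wccD (χ : ℝ) (W : K7aW) (P0 P1 : K7aLayer W.toK7aLn) (Q : W.Q) (φ0 : P0.Ph) (φ1 : P1.Ph) : ℝ :=
  (P1.G φ1).F (W.tq Q) (W.YQ Q (W.tq Q) (P0.zc χ φ0 (W.tq Q))) - (P0.G φ0).F (W.tq Q) (W.YQ Q (W.tq Q) (P0.zc χ φ0 (W.tq Q)))

/-- the first nonconstant coefficient `f₁^Φ` at an incidence -/
def k7wccF1 (W : K7aW) (P0 : K7aLayer W.toK7aLn) (b : ℝ) (p : W.L × ℝ) : ℝ :=
  (P0.lab p.1).elim 0 fun φ => k7wF1 (P0.G φ).F b p.2 (W.yq p)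

/-- the second nonconstant coefficient `f₂^Φ` at an incidence -/
def k7wccF2 (W : K7aW) (P0 : K7aLayer W.toK7aLn) (b : ℝ) (p : W.L × ℝ) : ℝ :=
  (P0.lab p.1).elim 0 fun φ => k7wF2 (P0.G φ).F b p.2 (W.yq p)

/-- the frozen base point of the source entry `(Q, Φ)` in the time cell `i` : `Y_Q(t_i, Z_α(t_i))` -/
def k7wccY0 (c : K7wccPar) (W : K7aW) (P0 : K7aLayer W.toK7aLn) (Q : W.Q) (φ0 : P0.Ph) (i : ℤ) : ℝ :=
  W.YQ Q (c.ti i) (P0.zc c.χ φ0 (c.ti i))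

/-- the frozen polynomial `H(U) = (F_Φ - F_Φ')(t_i, y₀ + b U) = H₀ + H₁ U + H₂ U²` -/
def k7wccH0 (c : K7wccPar) (W : K7aW) (P0 : K7aLayer W.toK7aLn) (Q : W.Q) (φ0 φ0' : P0.Ph) (i : ℤ) : ℝ :=
  (P0.G φ0).F (c.ti i) (k7wccY0 c W P0 Q φ0 i) - (P0.G φ0').F (c.ti i) (k7wccY0 c W P0 Q φ0 i)

def k7wccH1 (c : K7wccPar) (W : K7aW) (P0 : K7aLayer W.toK7aLn) (Q : W.Q) (φ0 φ0' : P0.Ph) (i : ℤ) : ℝ :=
  k7wF1 (P0.G φ0).F c.b (c.ti i) (k7wccY0 c W P0 Q φ0 i) - k7wF1 (P0.G φ0').F c.b (c.ti i) (k7wccY0 c W P0 Q φ0 i)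

def k7wccH2 (c : K7wccPar) (W : K7aW) (P0 : K7aLayer W.toK7aLn) (Q : W.Q) (φ0 φ0' : P0.Ph) (i : ℤ) : ℝ :=
  k7wF2 (P0.G φ0).F c.b (c.ti i) (k7wccY0 c W P0 Q φ0 i) - k7wF2 (P0.G φ0').F c.b (c.ti i) (k7wccY0 c W P0 Q φ0 i)

theorem k7wcc_defs_cite : True := by
  have := @K7wccPar.a1.eq_1; have := @K7wccPar.σ.eq_1; have := @K7wccPar.pw.eq_1; have := @K7wccPar.b.eq_1; have := @K7wccPar.ϑ.eq_1; have := @K7wccPar.ti.eq_1
  have := @K7aW.tq.eq_1; have := @K7aLayer.zc.eq_1; have := @k7wccD.eq_1; have := @k7wccF1.eq_1; have := @k7wccF2.eq_1; have := @k7wccY0.eq_1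
  have := @k7wccH0.eq_1; have := @k7wccH1.eq_1; have := @k7wccH2.eq_1
  trivial

/-! ## 1. Quadratics in adapted coordinates -/

/-- **L-252-S7wC-QA** (the next two statements, ~120 l.).   `F t y = e0 + e1 t + e2 y + e3 t² + e4 t y + e5 y²` : `k7wF1 F b t y = b (e2 + e4 t + 2 e5 y)`, `k7wF2 F b t y = e5 b²`; `ring`. -/
theorem k7wcc_expand {F : ℝ → ℝ → ℝ} (hF : K7aQuad F) (b t y U : ℝ) : F t (y + b * U) = F t y + k7wF1 F b t y * U + k7wF2 F b t y * U ^ 2 := by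
  obtain ⟨e0, e1, e2, e3, e4, e5, hF⟩ := hF
  unfold k7wF1 k7wF2
  simp only [hF]
  ring

/-- the predictor in adapted coordinates is a quadratic -/
theorem k7wcc_adapt_quad (L : K7aLab) (β : ℝ) (hF : K7aQuad L.F) : K7aQuad fun t u => L.F t (L.cen t + β * u) := by
  obtain ⟨e0, e1, e2, e3, e4, e5, hF⟩ := hF
  refine ⟨e0 + e2 * L.c0 + e5 * L.c0 ^ 2, e1 + e2 * L.c1 + e4 * L.c0 + 2 * e5 * L.c0 * L.c1, e2 * β + 2 * e5 * L.c0 * β,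
    e3 + e4 * L.c1 + e5 * L.c1 ^ 2, e4 * β + 2 * e5 * L.c1 * β, e5 * β ^ 2, fun t u => ?_⟩
  simp only [hF, K7aLab.cen]
  ring

theorem k7wcc_adapt_back (L : K7aLab) {β : ℝ} (hβ : 0 < β) (t y : ℝ) : L.cen t + β * ((y - L.cen t) / β) = y := by
  field_simp
  ring

/-- adapted coordinates `u = (y - cen t)/β` : `G t u = F t (cen t + β u)` is `K7aQuad` (explicit coefficients, `ring`), `k7a_quad_coeff` -/
theorem k7wcc_adapt (L : K7aLab) {K β : ℝ} (hF : K7aQuad L.F) (hβ : 0 < β)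
    (hn : ∀ t ∈ Set.Icc (0 : ℝ) 1, ∀ u ∈ Set.Icc (-1 : ℝ) 1, |L.F t (L.cen t + β * u)| ≤ K) :
    ∃ e0 e1 e2 e3 e4 e5 : ℝ, (∀ t y, L.F t y = e0 + e1 * t + e2 * ((y - L.cen t) / β) + e3 * t ^ 2 + e4 * t * ((y - L.cen t) / β) + e5 * ((y - L.cen t) / β) ^ 2) ∧
      |e0| ≤ 8 * K ∧ |e1| ≤ 8 * K ∧ |e2| ≤ 8 * K ∧ |e3| ≤ 8 * K ∧ |e4| ≤ 8 * K ∧ |e5| ≤ 8 * K := by
  obtain ⟨e0, e1, e2, e3, e4, e5, he, hb⟩ := k7a_quad_coeff (k7wcc_adapt_quad L β hF) hn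
  refine ⟨e0, e1, e2, e3, e4, e5, fun t y => ?_, hb⟩
  have := he t ((y - L.cen t) / β)
  rwa [k7wcc_adapt_back L hβ] at this

/-- the difference of the adapted coordinates -/
theorem k7wcc_adapt_diff (L : K7aLab) {β : ℝ} (hβ : 0 < β) (t t' y y' : ℝ) :
    |(y - L.cen t) / β - (y' - L.cen t') / β| ≤ (|y - y'| + |L.c1| * |t - t'|) / β := by
  rw [← sub_div, abs_div, abs_of_pos hβ]
  refine div_le_div_of_nonneg_right ?_ hβ.le
  have e : y - L.cen t - (y' - L.cen t') = (y - y') - L.c1 * (t - t') := by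
    simp only [K7aLab.cen]; ring
  rw [e, ← abs_mul]
  exact abs_sub _ _

/-- **L-252-S7wC-QL** (the next two statements, ~200 l.).   `k7a_quad_lip` for `G t u = F t (cen t + β u)` at `u = (y - cen t)/β`, `u' = (y' - cen t')/β`; `|u - u'| ≤ (|y - y'| + |c1| |t - t'|)/β`. -/
theorem k7wcc_lip (L : K7aLab) {K β lam : ℝ} (hF : K7aQuad L.F) (hβ : 0 < β)
    (hn : ∀ t ∈ Set.Icc (0 : ℝ) 1, ∀ u ∈ Set.Icc (-1 : ℝ) 1, |L.F t (L.cen t + β * u)| ≤ K) (hl : 1 ≤ lam) {t t' y y' : ℝ}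
    (ht : |t| ≤ lam) (ht' : |t'| ≤ lam) (hy : |y - L.cen t| ≤ lam * β) (hy' : |y' - L.cen t'| ≤ lam * β) :
    |L.F t y - L.F t' y'| ≤ 48 * K * lam * (|t - t'| + (|y - y'| + |L.c1| * |t - t'|) / β) := by
  have hK0 : 0 ≤ K := (abs_nonneg _).trans (hn 0 (by norm_num) 0 (by norm_num))
  have hu : |(y - L.cen t) / β| ≤ lam := by
    rw [abs_div, abs_of_pos hβ, div_le_iff₀ hβ]; exact hy
  have hu' : |(y' - L.cen t') / β| ≤ lam := by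
    rw [abs_div, abs_of_pos hβ, div_le_iff₀ hβ]; exact hy'
  have h1 := (k7a_quad_lip (k7wcc_adapt_quad L β hF) hn hl ht ht' hu hu').2
  simp only [k7wcc_adapt_back L hβ] at h1
  refine h1.trans ?_
  have h2 := k7wcc_adapt_diff L hβ t t' y y'
  have h3 : 0 ≤ 48 * K * lam := by positivity
  exact mul_le_mul_of_nonneg_left (by linarith) h3

/-- by `k7wcc_adapt` : `k7wF1 F b t y = (b/β)(e2 + e4 t + 2 e5 u)`, `k7wF2 F b t y = (b/β)² e5` -/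
theorem k7wcc_f_lip (L : K7aLab) {K β b : ℝ} (hF : K7aQuad L.F) (hβ : 0 < β) (hb : 0 ≤ b)
    (hn : ∀ t ∈ Set.Icc (0 : ℝ) 1, ∀ u ∈ Set.Icc (-1 : ℝ) 1, |L.F t (L.cen t + β * u)| ≤ K) (t t' y y' : ℝ) :
    |k7wF1 L.F b t y - k7wF1 L.F b t' y'| ≤ 8 * K * (b / β) * (|t - t'| + 2 * ((|y - y'| + |L.c1| * |t - t'|) / β)) ∧
      k7wF2 L.F b t y = k7wF2 L.F b t' y' := by
  have hK0 : 0 ≤ K := (abs_nonneg _).trans (hn 0 (by norm_num) 0 (by norm_num))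
  obtain ⟨e0, e1, e2, e3, e4, e5, he, -, -, -, -, b4, b5⟩ := k7wcc_adapt L hF hβ hn
  have f1 : ∀ t y, k7wF1 L.F b t y = (b / β) * (e2 + e4 * t + 2 * e5 * ((y - L.cen t) / β)) := by
    intro t y
    unfold k7wF1
    simp only [he]
    field_simp
    ring
  have f2 : ∀ t y, k7wF2 L.F b t y = (b / β) ^ 2 * e5 := by
    intro t y
    unfold k7wF2
    simp only [he]
    field_simp
    ring
  refine ⟨?_, by rw [f2, f2]⟩
  rw [f1, f1]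
  have e : b / β * (e2 + e4 * t + 2 * e5 * ((y - L.cen t) / β)) - b / β * (e2 + e4 * t' + 2 * e5 * ((y' - L.cen t') / β))
      = (b / β) * (e4 * (t - t') + 2 * (e5 * ((y - L.cen t) / β - (y' - L.cen t') / β))) := by ring
  have hbβ : 0 ≤ b / β := by positivity
  rw [e, abs_mul, abs_of_nonneg hbβ]
  have h2 := k7wcc_adapt_diff L hβ t t' y y'
  have h3 : |e4 * (t - t')| ≤ 8 * K * |t - t'| := by
    rw [abs_mul]; exact mul_le_mul_of_nonneg_right b4 (abs_nonneg _)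
  have h4 : |e5 * ((y - L.cen t) / β - (y' - L.cen t') / β)| ≤ 8 * K * ((|y - y'| + |L.c1| * |t - t'|) / β) := by
    rw [abs_mul]
    exact mul_le_mul b5 h2 (abs_nonneg _) (by positivity)
  have h5 : |e4 * (t - t') + 2 * (e5 * ((y - L.cen t) / β - (y' - L.cen t') / β))|
      ≤ 8 * K * (|t - t'| + 2 * ((|y - y'| + |L.c1| * |t - t'|) / β)) := by
    refine (abs_add_le _ _).trans ?_
    rw [abs_mul 2, abs_of_pos (two_pos : (0 : ℝ) < 2)]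
    linarith
  calc b / β * |e4 * (t - t') + 2 * (e5 * ((y - L.cen t) / β - (y' - L.cen t') / β))|
      ≤ b / β * (8 * K * (|t - t'| + 2 * ((|y - y'| + |L.c1| * |t - t'|) / β))) := mul_le_mul_of_nonneg_left h5 hbβ
    _ = 8 * K * (b / β) * (|t - t'| + 2 * ((|y - y'| + |L.c1| * |t - t'|) / β)) := by ring

/-! ## 2. Lines, centres, offsets -/

section geo

variable {c : K7wccPar} {W : K7aW} {P0 P1 : K7aLayer W.toK7aLn} {E : Set (W.L × ℝ)} {Ms Ws : Finset ℝ}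

/-- **L-252-S7wC-LN** (the next four statements, ~200 l.).   `Z0 ∈ [z χ', (z+1) χ')`, `v ∈ [m χ', (m+1) χ')` (`k2s_bin_iff`), `χ' < 2χ`. -/
theorem k7wcc_group_line (W : K7aLn) {χ : ℝ} (hχ : 0 < χ) (l : W.L) (m z : ℤ) (hv : kbBin χ (W.v l) = m) (hz : kbBin χ (W.Z0 l) = z) {t : ℝ} (ht : t ∈ Set.Icc (0 : ℝ) 1) :
    |W.Z l t - ((z : ℝ) * kbDy χ + (m : ℝ) * kbDy χ * t)| ≤ 4 * χ := by
  have h1 := (k2s_bin_iff χ (W.v l) m).mp hv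
  have h2 := (k2s_bin_iff χ (W.Z0 l) z).mp hz
  have h3 := k2s_dy_lt hχ
  have h4 := k2s_dy_pos χ
  obtain ⟨t0, t1⟩ := ht
  have e : W.Z l t - ((z : ℝ) * kbDy χ + (m : ℝ) * kbDy χ * t) = (W.Z0 l - (z : ℝ) * kbDy χ) + (W.v l - (m : ℝ) * kbDy χ) * t := by
    unfold K7aLn.Z
    ring
  have a1 : 0 ≤ W.v l - (m : ℝ) * kbDy χ := by linarith [h1.1]
  have a2 : W.v l - (m : ℝ) * kbDy χ ≤ kbDy χ := by linarith [h1.2]
  have a3 : 0 ≤ (W.v l - (m : ℝ) * kbDy χ) * t := mul_nonneg a1 t0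
  have a4 : (W.v l - (m : ℝ) * kbDy χ) * t ≤ kbDy χ * 1 := mul_le_mul a2 t1 t0 h4.le
  rw [e, abs_le]
  constructor <;> linarith [h2.1, h2.2]

/-- the centre of an occurring label: `|Y_l(0) - c0| ≤ K β`, `|Y_l(1) - c0 - c1| ≤ K β`, `|Y1| ≤ K` -/
theorem k7wcc_cen_bd (W : K7aLn) (P : K7aLayer W) {N K d S χ th β : ℝ} {Ms Ws : Finset ℝ} (hW : W.Ok N K d S Ms Ws) (hP : P.Ok K χ th β d) {l : W.L} {φ : P.Ph}
    (h : P.lab l = some φ) : |(P.G φ).c1| ≤ K + 2 * (K * β) := by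
  have hl := (hP.grp l φ h).1
  obtain ⟨-, -, -, hY1, -⟩ := hW.bd l hl
  have f0 := (hP.fit l φ h 0 ⟨le_rfl, zero_le_one⟩).1
  have f1 := (hP.fit l φ h 1 ⟨zero_le_one, le_rfl⟩).1
  unfold K7aLn.Y K7aLab.cen at f0 f1
  rw [abs_le] at f0 f1 hY1 ⊢
  constructor <;> linarith [f0.1, f0.2, f1.1, f1.2, hY1.1, hY1.2]

/-- basic facts on a retained incidence -/
theorem k7wcc_inc (H : K7wccHyp c W P0 P1 E Ms Ws) (hs : c.Sm) {p : W.L × ℝ} (hp : p ∈ E) :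
    p.1 ∈ W.Sp ∧ p.2 ∈ Set.Icc (0 : ℝ) 1 ∧ W.labQ p ∈ W.Qa ∧ p.1 ∈ W.asg (W.labQ p) ∧ p.2 ∈ W.blk (W.labQ p) ∧ W.tq (W.labQ p) ∈ W.blk (W.labQ p) ∧
      W.tq (W.labQ p) ∈ Set.Icc (0 : ℝ) 1 ∧ (⌊p.2 / W.q⌋ : ℝ) * W.q = W.tq (W.labQ p) := by
  have hp0 : p ∈ W.Ev0 := H.sub hp
  have h1 := H.w.ln.Ev0_sub hp0
  obtain ⟨h2, h3⟩ := H.w.lab p hp0
  have hq : 0 < W.q := by unfold K7aW.q; positivity
  have hiv := H.w.iv_lt _ h2
  have hb : p.2 ∈ W.blk (W.labQ p) := h3.2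
  have hiv0 : (0 : ℝ) ≤ (W.iv (W.labQ p) : ℝ) := Nat.cast_nonneg _
  have htq : W.tq (W.labQ p) ∈ W.blk (W.labQ p) := by
    unfold K7aW.tq K7aW.blk
    constructor
    · exact le_rfl
    · nlinarith
  have htq1 : W.tq (W.labQ p) ∈ Set.Icc (0 : ℝ) 1 := by
    unfold K7aW.tq
    constructor
    · positivity
    · have e : (2 : ℝ) ^ W.lev * W.q = 1 := by
        unfold K7aW.q
        rw [← mul_pow]
        norm_num
      have h5 : (W.iv (W.labQ p) : ℝ) ≤ (2 : ℝ) ^ W.lev := by exact_mod_cast hiv.le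
      calc (W.iv (W.labQ p) : ℝ) * W.q ≤ (2 : ℝ) ^ W.lev * W.q := mul_le_mul_of_nonneg_right h5 hq.le
        _ = 1 := e
  refine ⟨h1.1, h1.2, h2, h3.1, hb, htq, htq1, ?_⟩
  unfold K7aW.tq
  congr 1
  have : ⌊p.2 / W.q⌋ = (W.iv (W.labQ p) : ℤ) := by
    rw [Int.floor_eq_iff, le_div_iff₀ hq, div_lt_iff₀ hq]
    unfold K7aW.blk at hb
    push_cast
    exact hb
  rw [this]
  push_cast
  rfl

/-- the line stays within `(K+1) b` of the plane of `Q` over the central fibre, at all times of the block (`box`, `row_bd`, `k7wcc_group_line`, `4 K χ ≤ b`) -/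
theorem k7wcc_fibre (H : K7wccHyp c W P0 P1 E Ms Ws) (hs : c.Sm) {p : W.L × ℝ} (hp : p ∈ E) {m z : ℤ} (hv : kbBin c.χ (W.v p.1) = m) (hz : kbBin c.χ (W.Z0 p.1) = z)
    {t : ℝ} (ht : t ∈ W.blk (W.labQ p)) (ht1 : t ∈ Set.Icc (0 : ℝ) 1) :
    |W.Y p.1 t - W.YQ (W.labQ p) t ((z : ℝ) * kbDy c.χ + (m : ℝ) * kbDy c.χ * t)| ≤ (c.K + 1) * c.b := by
  obtain ⟨-, -, hQa, hasg, -, -, -, -⟩ := k7wcc_inc H hs hp
  have hbox := (H.w.box _ hQa _ hasg t ht).2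
  obtain ⟨-, -, -, hr2⟩ := H.w.row_bd _ hQa
  have hgl := k7wcc_group_line W.toK7aLn hs.χ0 p.1 m z hv hz ht1
  have hK := hs.K1
  have hχ := hs.χ0
  have e : W.Y p.1 t - W.YQ (W.labQ p) t ((z : ℝ) * kbDy c.χ + (m : ℝ) * kbDy c.χ * t)
      = (W.Y p.1 t - W.YQ (W.labQ p) t (W.Z p.1 t)) + W.r2 (W.labQ p) * (W.Z p.1 t - ((z : ℝ) * kbDy c.χ + (m : ℝ) * kbDy c.χ * t)) := by
    unfold K7aW.YQ
    ring
  have h2 : |W.r2 (W.labQ p) * (W.Z p.1 t - ((z : ℝ) * kbDy c.χ + (m : ℝ) * kbDy c.χ * t))| ≤ c.K * (4 * c.χ) := by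
    rw [abs_mul]
    exact mul_le_mul hr2 hgl (abs_nonneg _) (by linarith)
  have h3 : c.K * (4 * c.χ) ≤ c.b := by
    refine le_trans ?_ hs.χb
    have : c.K * c.χ ≤ c.K ^ 2 * c.χ := mul_le_mul_of_nonneg_right (by nlinarith) hχ.le
    nlinarith
  rw [e]
  calc _ ≤ |W.Y p.1 t - W.YQ (W.labQ p) t (W.Z p.1 t)| + |W.r2 (W.labQ p) * (W.Z p.1 t - ((z : ℝ) * kbDy c.χ + (m : ℝ) * kbDy c.χ * t))| := abs_add_le _ _
    _ ≤ c.K * (c.h * c.g) + c.b := add_le_add hbox (le_trans h2 h3)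
    _ = (c.K + 1) * c.b := by unfold K7wccPar.b; ring

/-- **L-252-S7wC-OFF** (~120 l.), plan C2.   `|X - F_{Φ₁}(t,Y)| ≤ K a₁` (`l1.fit`); `var` at `(t, Y_l(t))` and `(t_Q, Y_Q(t_Q, Z_α(t_Q)))` (`k7wcc_inc`, `k7wcc_fibre` at `t_Q`, `l0.grp`, `K + 1 ≤ Λ`). -/
theorem k7wcc_offset (H : K7wccHyp c W P0 P1 E Ms Ws) (hs : c.Sm) {p : W.L × ℝ} (hp : p ∈ E) {φ0 : P0.Ph} {φ1 : P1.Ph} (h0 : P0.lab p.1 = some φ0) (h1 : P1.lab p.1 = some φ1) :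
    |W.X p.1 p.2 - ((P0.G φ0).F p.2 (W.Y p.1 p.2) + k7wccD c.χ W P0 P1 (W.labQ p) φ0 φ1)| ≤ (c.K + 1) * c.a1 := by
  obtain ⟨-, ht, -, -, hblk, htq, htq1, -⟩ := k7wcc_inc H hs hp
  obtain ⟨-, hv, hz⟩ := H.l0.grp p.1 φ0 h0
  have hb0 : 0 ≤ c.b := by
    unfold K7wccPar.b
    exact (mul_pos hs.h0 hs.g0).le
  have hfit := (H.l1.fit p.1 φ1 h1 p.2 ht).2
  have hfib := k7wcc_fibre H hs hp hv hz htq htq1
  have hΛ : (c.K + 1) * c.b ≤ c.Λ * c.b := mul_le_mul_of_nonneg_right hs.Λb hb0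
  have hvar := H.var p hp φ0 φ1 h0 h1 p.2 hblk (W.tq (W.labQ p)) htq (W.Y p.1 p.2)
    (W.YQ (W.labQ p) (W.tq (W.labQ p)) (P0.zc c.χ φ0 (W.tq (W.labQ p))))
    (by rw [sub_self, abs_zero]; exact le_trans (mul_nonneg (by linarith [hs.K1]) hb0) hΛ)
    (by
      rw [abs_sub_comm]
      exact hfib.trans hΛ)
  unfold k7wccD
  have e : W.X p.1 p.2 - ((P0.G φ0).F p.2 (W.Y p.1 p.2) + ((P1.G φ1).F (W.tq (W.labQ p)) (W.YQ (W.labQ p) (W.tq (W.labQ p)) (P0.zc c.χ φ0 (W.tq (W.labQ p))))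
        - (P0.G φ0).F (W.tq (W.labQ p)) (W.YQ (W.labQ p) (W.tq (W.labQ p)) (P0.zc c.χ φ0 (W.tq (W.labQ p))))))
      = (W.X p.1 p.2 - (P1.G φ1).F p.2 (W.Y p.1 p.2)) + (((P1.G φ1).F p.2 (W.Y p.1 p.2) - (P0.G φ0).F p.2 (W.Y p.1 p.2))
        - ((P1.G φ1).F (W.tq (W.labQ p)) (W.YQ (W.labQ p) (W.tq (W.labQ p)) (P0.zc c.χ φ0 (W.tq (W.labQ p))))
        - (P0.G φ0).F (W.tq (W.labQ p)) (W.YQ (W.labQ p) (W.tq (W.labQ p)) (P0.zc c.χ φ0 (W.tq (W.labQ p)))))) := by ring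
  rw [e]
  refine (abs_add_le _ _).trans ?_
  linarith

/-! ## 3. The lists of target labels -/

/-- **L-252-S7wC-LAB** (~250 l.)  (07 l.577-583; useful for the stages B, D, E too).   Given `(Q, α)` at most `36 K³` short domains occur, hence `≤ 36 K⁴` coarse labels (`lists.fwd`).
For `p = (l,t) ∈ E` with `labQ p = Q`, group `(mv, z)` : `W.sdom W.q g (W.q g) p = (⌊t/q⌋, ⌊Y1/g⌋, ⌊Y_l(t_Q)/(q g)⌋)`, `⌊t/q⌋ = iv Q` (`k7wcc_inc`);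
`|Y1 - (r1 + r2 mv χ')| ≤ K g + K χ' ≤ (K+1) g` (`slope`, `row_bd`): `≤ 2K + 4 ≤ 6K` bins (`k7wcc_floor_ball`);   `|Y_l(t_Q) - Y_Q(t_Q, Z_α(t_Q))| ≤ (K+1) b ≤ (K+1) K q g` (`k7wcc_fibre`, `q_lo`): `≤ 2(K+1)K + 2 ≤ 6K²` bins.
`S = (S₂ ×ˢ S₃).biUnion fun D => S_fwd Q mv z (iv Q, D.1, D.2)`. -/
theorem k7wcc_labels (H : K7wccHyp c W P0 P1 E Ms Ws) (hs : c.Sm) (Q : W.Q) (mv z : ℤ) :
    ∃ S : Finset P0.Ph, (S.card : ℝ) ≤ 36 * c.K ^ 4 ∧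
      ∀ p ∈ E, W.labQ p = Q → kbBin c.χ (W.v p.1) = mv → kbBin c.χ (W.Z0 p.1) = z → ∀ φ, P0.lab p.1 = some φ → φ ∈ S := by
  classical
  have hK := hs.K1
  have hg := hs.g0
  have hχ := hs.χ0
  have hq : 0 < W.q := by unfold K7aW.q; positivity
  obtain ⟨S2, hS2c, hS2⟩ := k7wcc_floor_ball (w := c.g) (ρ := (c.K + 1) * c.g) hg (by positivity) (W.r1 Q + W.r2 Q * ((mv : ℝ) * kbDy c.χ))
  obtain ⟨S3, hS3c, hS3⟩ := k7wcc_floor_ball (w := W.q * c.g) (ρ := (c.K + 1) * c.K * (W.q * c.g)) (by positivity) (by positivity)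
    (W.YQ Q (W.tq Q) ((z : ℝ) * kbDy c.χ + (mv : ℝ) * kbDy c.χ * W.tq Q))
  choose Sf hSfc hSf using fun D : ℤ × ℤ × ℤ => H.lists.fwd Q mv z D
  refine ⟨(S2 ×ˢ S3).biUnion fun D => Sf ((W.iv Q : ℤ), D.1, D.2), ?_, ?_⟩
  · have h1 : ((((S2 ×ˢ S3).biUnion fun D => Sf ((W.iv Q : ℤ), D.1, D.2)).card : ℕ) : ℝ) ≤ ∑ D ∈ S2 ×ˢ S3, ((Sf ((W.iv Q : ℤ), D.1, D.2)).card : ℝ) := by
      exact_mod_cast Finset.card_biUnion_le
    have h2 : ∑ D ∈ S2 ×ˢ S3, ((Sf ((W.iv Q : ℤ), D.1, D.2)).card : ℝ) ≤ ∑ _D ∈ S2 ×ˢ S3, c.K := Finset.sum_le_sum fun D _ => hSfc _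
    rw [Finset.sum_const, nsmul_eq_mul, Finset.card_product] at h2
    push_cast at h2
    have e2 : 2 * ((c.K + 1) * c.g) / c.g + 2 = 2 * c.K + 4 := by field_simp; ring
    have e3 : 2 * ((c.K + 1) * c.K * (W.q * c.g)) / (W.q * c.g) + 2 = 2 * (c.K + 1) * c.K + 2 := by field_simp
    rw [e2] at hS2c
    rw [e3] at hS3c
    have b2 : (S2.card : ℝ) ≤ 6 * c.K := by linarith
    have b3 : (S3.card : ℝ) ≤ 6 * c.K ^ 2 := by nlinarith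
    calc _ ≤ (S2.card : ℝ) * (S3.card : ℝ) * c.K := le_trans h1 h2
      _ ≤ (6 * c.K) * (6 * c.K ^ 2) * c.K := by
        refine mul_le_mul_of_nonneg_right (mul_le_mul b2 b3 (Nat.cast_nonneg _) (by positivity)) (by linarith)
      _ = 36 * c.K ^ 4 := by ring
  · intro p hp hQ hv hz φ hφ
    subst hQ
    obtain ⟨hSp, ht1, hQa, hasg, hblk, htqb, htq1, hfl⟩ := k7wcc_inc H hs hp
    obtain ⟨-, -, -, hr2⟩ := H.w.row_bd _ hQa
    have hb : c.b ≤ c.g := by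
      unfold K7wccPar.b
      have := mul_le_mul_of_nonneg_right hs.h1 hg.le
      linarith
    refine Finset.mem_biUnion.mpr ⟨(⌊W.Y1 p.1 / c.g⌋, ⌊W.Y p.1 (W.tq (W.labQ p)) / (W.q * c.g)⌋), Finset.mem_product.mpr ⟨hS2 _ ?_, hS3 _ ?_⟩,
      hSf _ p hp rfl hv hz ?_ φ hφ⟩
    · have h1 := H.w.slope _ hQa _ hasg
      have h2 := (k2s_bin_iff c.χ (W.v p.1) mv).mp hv
      have h3 := k2s_dy_lt hχ
      have h4 : |W.v p.1 - (mv : ℝ) * kbDy c.χ| ≤ 2 * c.χ := by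
        rw [abs_le]
        constructor <;> linarith [h2.1, h2.2]
      have h5 : |W.r2 (W.labQ p) * (W.v p.1 - (mv : ℝ) * kbDy c.χ)| ≤ c.K * (2 * c.χ) := by
        rw [abs_mul]
        exact mul_le_mul hr2 h4 (abs_nonneg _) (by linarith)
      have h6 : c.K * (2 * c.χ) ≤ c.g := by
        refine le_trans (le_trans ?_ hs.χb) hb
        have : c.K * c.χ ≤ c.K ^ 2 * c.χ := mul_le_mul_of_nonneg_right (by nlinarith) hχ.le
        nlinarith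
      have e : W.Y1 p.1 - (W.r1 (W.labQ p) + W.r2 (W.labQ p) * ((mv : ℝ) * kbDy c.χ))
          = (W.Y1 p.1 - (W.r1 (W.labQ p) + W.r2 (W.labQ p) * W.v p.1)) + W.r2 (W.labQ p) * (W.v p.1 - (mv : ℝ) * kbDy c.χ) := by ring
      rw [e]
      calc _ ≤ |W.Y1 p.1 - (W.r1 (W.labQ p) + W.r2 (W.labQ p) * W.v p.1)| + |W.r2 (W.labQ p) * (W.v p.1 - (mv : ℝ) * kbDy c.χ)| := abs_add_le _ _
        _ ≤ c.K * c.g + c.g := add_le_add h1 (le_trans h5 h6)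
        _ = (c.K + 1) * c.g := by ring
    · refine le_trans (k7wcc_fibre H hs hp hv hz htqb htq1) ?_
      have h1 : c.b ≤ c.K * (W.q * c.g) := by
        unfold K7wccPar.b
        have := mul_le_mul_of_nonneg_right H.w.q_lo hg.le
        linarith
      calc (c.K + 1) * c.b ≤ (c.K + 1) * (c.K * (W.q * c.g)) := mul_le_mul_of_nonneg_left h1 (by linarith)
        _ = (c.K + 1) * c.K * (W.q * c.g) := by ring
    · have hf : ⌊p.2 / W.q⌋ = (W.iv (W.labQ p) : ℤ) := by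
        unfold K7aW.tq at hfl
        have := mul_right_cancel₀ hq.ne' hfl
        exact_mod_cast this
      unfold K7aLn.sdom
      rw [hfl, hf]

/-- two points of one dyadic bin -/
theorem k7wcc_close_same {wd : ℝ} (hwd : 0 < wd) {x y : ℝ} (h : kbBin wd y = kbBin wd x) : |y - x| ≤ 2 * wd := by
  have h1 := (k2s_bin_iff wd x _).1 rfl
  have h2 := (k2s_bin_iff wd y _).1 h
  have h3 := k2s_dy_lt hwd
  rw [abs_le]
  constructor <;> linarith [h1.1, h1.2, h2.1, h2.2]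

/-- **L-252-S7wC-CLOSE** (~200 l.).   Two incidences in one fine state, the source in the time cell `i` and in the group of `Φ`.   `W.stt σ pw p = (labQ p, kbBin σ t, kbBin σ Z, kbBin σ Y, kbBin pw X)`; two points of one dyadic bin differ by `< kbDy wd < 2 wd` (`k2s_bin_iff`, `k2s_dy_lt`);
`t_i = i σ'' ∈ [0, t_x]`;  `|Z_x(t_x) - Z_α(t_i)| ≤ 4χ + |vi χ'| σ''`, `|vi χ'| ≤ K + χ'`. -/
theorem k7wcc_close (H : K7wccHyp c W P0 P1 E Ms Ws) (hs : c.Sm) {x y : W.L × ℝ} (hx : x ∈ E) (hy : y ∈ E) {φ0 : P0.Ph} {i : ℤ} (h0 : P0.lab x.1 = some φ0)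
    (hi : kbBin c.σ x.2 = i) (hst : W.stt c.σ c.pw y = W.stt c.σ c.pw x) :
    W.labQ y = W.labQ x ∧ c.ti i ∈ Set.Icc (0 : ℝ) 1 ∧ |x.2 - c.ti i| ≤ 2 * c.σ ∧ |y.2 - c.ti i| ≤ 2 * c.σ ∧ |W.Z y.1 y.2 - W.Z x.1 x.2| ≤ 2 * c.σ ∧
      kbBin c.σ (W.Y y.1 y.2) = kbBin c.σ (W.Y x.1 x.2) ∧ |W.X y.1 y.2 - W.X x.1 x.2| ≤ 2 * c.a1 ∧ |W.Z x.1 x.2 - P0.zc c.χ φ0 (c.ti i)| ≤ 5 * c.χ := by
  have hN0 : 0 < c.N := lt_trans one_pos hs.N1
  have hσ : 0 < c.σ := Real.rpow_pos_of_pos hN0 _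
  have hpw : 0 < c.pw := Real.rpow_pos_of_pos hN0 _
  have hK := hs.K1
  have hχ := hs.χ0
  obtain ⟨hxSp, hx01, -, -, -, -, -, -⟩ := k7wcc_inc H hs hx
  have hst' : (W.labQ y, kbBin c.σ y.2, kbBin c.σ (W.Z y.1 y.2), kbBin c.σ (W.Y y.1 y.2), kbBin c.pw (W.X y.1 y.2))
      = (W.labQ x, kbBin c.σ x.2, kbBin c.σ (W.Z x.1 x.2), kbBin c.σ (W.Y x.1 x.2), kbBin c.pw (W.X x.1 x.2)) := hst
  simp only [Prod.mk.injEq] at hst'
  obtain ⟨e1, e2, e3, e4, e5⟩ := hst'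
  have hD0 := k2s_dy_pos c.σ
  have hD1 := k2s_dy_lt hσ
  obtain ⟨b1, b2⟩ := (k2s_bin_iff c.σ x.2 i).1 hi
  obtain ⟨b3, b4⟩ := (k2s_bin_iff c.σ y.2 i).1 (e2.trans hi)
  have hi0 : (0 : ℝ) ≤ (i : ℝ) := by
    have h1 : 0 < ((i : ℝ) + 1) * kbDy c.σ := lt_of_le_of_lt hx01.1 b2
    have h2 : 0 < (i : ℝ) + 1 := (mul_pos_iff_of_pos_right hD0).1 h1
    have h3 : (0 : ℤ) < i + 1 := by exact_mod_cast h2
    have h4 : (0 : ℤ) ≤ i := by omega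
    exact_mod_cast h4
  have hxt : |x.2 - c.ti i| ≤ 2 * c.σ := by
    unfold K7wccPar.ti
    rw [abs_le]
    constructor <;> linarith
  refine ⟨e1, ⟨?_, ?_⟩, hxt, ?_, k7wcc_close_same hσ e3, e4, ?_, ?_⟩
  · unfold K7wccPar.ti
    positivity
  · unfold K7wccPar.ti
    linarith [hx01.2]
  · unfold K7wccPar.ti
    rw [abs_le]
    constructor <;> linarith
  · refine (k7wcc_close_same hpw e5).trans ?_
    linarith [hs.pwa]
  · obtain ⟨-, hv, hz⟩ := H.l0.grp x.1 φ0 h0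
    have hgl := k7wcc_group_line W.toK7aLn hχ x.1 _ _ hv hz hx01
    obtain ⟨-, hvK, -⟩ := H.w.ln.bd x.1 hxSp
    obtain ⟨v1, v2⟩ := (k2s_bin_iff c.χ (W.v x.1) _).1 hv
    have hDχ0 := k2s_dy_pos c.χ
    have hDχ1 := k2s_dy_lt hχ
    have hb1 : c.b ≤ 1 := by
      unfold K7wccPar.b
      exact mul_le_one₀ hs.h1 hs.g0.le hs.g1
    have hK2 : 1 ≤ c.K ^ 2 := one_le_pow₀ hK
    have hχ1 : c.χ ≤ 1 / 100 := by
      have h1 := hs.χb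
      nlinarith
    have hvi : |(P0.vi φ0 : ℝ) * kbDy c.χ| ≤ c.K + 2 * c.χ := by
      obtain ⟨w1, w2⟩ := abs_le.1 hvK
      rw [abs_le]
      constructor <;> linarith
    have e : W.Z x.1 x.2 - P0.zc c.χ φ0 (c.ti i)
        = (W.Z x.1 x.2 - ((P0.zi φ0 : ℝ) * kbDy c.χ + (P0.vi φ0 : ℝ) * kbDy c.χ * x.2)) + (P0.vi φ0 : ℝ) * kbDy c.χ * (x.2 - c.ti i) := by
      unfold K7aLayer.zc
      ring
    have h2 : |(P0.vi φ0 : ℝ) * kbDy c.χ * (x.2 - c.ti i)| ≤ (c.K + 2 * c.χ) * (2 * c.σ) := by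
      rw [abs_mul]
      exact mul_le_mul hvi hxt (abs_nonneg _) (by positivity)
    have h3 : (c.K + 2 * c.χ) * (2 * c.σ) ≤ c.χ := by
      refine le_trans ?_ hs.σχ
      have h4 : c.K + 2 * c.χ ≤ 2 * c.K ^ 2 := by nlinarith
      calc (c.K + 2 * c.χ) * (2 * c.σ) ≤ (2 * c.K ^ 2) * (2 * c.σ) := mul_le_mul_of_nonneg_right h4 (by positivity)
        _ ≤ 100 * c.K ^ 2 * c.σ := by nlinarith [mul_pos (pow_pos (lt_of_lt_of_le one_pos hK) 2) hσ]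
    rw [e]
    refine (abs_add_le _ _).trans ?_
    linarith

/-- **L-252-S7wC-TGT** (~200 l.), plan C4 (07 l.716-728).   The target labels for a source entry, a target velocity bin and a source time cell.
`kbBin χ (v_y) = ψ bn` (`k2s_bin_nested`, `H.χ0`).   With `v* = bn · kbDy χ0`, `x₀ = Z_α(t_i) - v* t_i` : `Z0_y = Z_y(t_y) - v_y t_y`, `|Z_y(t_y) - Z_α(t_i)| ≤ 2σ + 5χ` (`k7wcc_close`), `|v_y t_y - v* t_i| ≤ K · 2σ + 2 χ0`; so `|Z0_y - x₀| ≤ 8χ` :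
`≤ 18` bins (`k2s_bin_ball`), `k7wcc_labels` for each. -/
theorem k7wcc_targets (H : K7wccHyp c W P0 P1 E Ms Ws) (hs : c.Sm) (Q : W.Q) (φ0 : P0.Ph) (bn i : ℤ) :
    ∃ Lst : Finset P0.Ph, (Lst.card : ℝ) ≤ 648 * c.K ^ 4 ∧
      ∀ x ∈ E, ∀ y ∈ E, W.labQ x = Q → P0.lab x.1 = some φ0 → kbBin c.σ x.2 = i → W.stt c.σ c.pw y = W.stt c.σ c.pw x → W.vbin y.1 = bn →
        ∀ φ, P0.lab y.1 = some φ → φ ∈ Lst := by
  classical
  have hK := hs.K1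
  have hχ := hs.χ0
  have hχ0 := H.w.ln.χ0_pos
  have hσ0 : 0 < c.σ := by unfold K7wccPar.σ; exact Real.rpow_pos_of_pos (by linarith [hs.N1]) _
  obtain ⟨ψ, hψ⟩ := k2s_bin_nested hχ0 H.χ0
  obtain ⟨S, hSc, hS⟩ := k2s_bin_ball (wd := c.χ) (ρ := 8 * c.χ) hχ (by positivity) (P0.zc c.χ φ0 (c.ti i) - (bn : ℝ) * kbDy W.χ0 * c.ti i)
  choose Sl hSlc hSl using fun z : ℤ => k7wcc_labels H hs Q (ψ bn) z
  refine ⟨S.biUnion Sl, ?_, ?_⟩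
  · have h1 : (((S.biUnion Sl).card : ℕ) : ℝ) ≤ ∑ z ∈ S, ((Sl z).card : ℝ) := by exact_mod_cast Finset.card_biUnion_le
    have h2 : ∑ z ∈ S, ((Sl z).card : ℝ) ≤ ∑ _z ∈ S, 36 * c.K ^ 4 := Finset.sum_le_sum fun z _ => hSlc z
    rw [Finset.sum_const, nsmul_eq_mul] at h2
    have e : 2 * (8 * c.χ) / c.χ + 2 = 18 := by field_simp; norm_num
    rw [e] at hSc
    calc _ ≤ (S.card : ℝ) * (36 * c.K ^ 4) := le_trans h1 h2
      _ ≤ 18 * (36 * c.K ^ 4) := mul_le_mul_of_nonneg_right hSc (by positivity)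
      _ = 648 * c.K ^ 4 := by ring
  · intro x hx y hy hQ h0 hi hst hbn φ hφ
    obtain ⟨c1, c2, c3, c4, c5, -, -, c8⟩ := k7wcc_close H hs hx hy h0 hi hst
    obtain ⟨hSp, -, -, -, -, -, -, -⟩ := k7wcc_inc H hs hy
    obtain ⟨-, hv, -, -, -⟩ := H.w.ln.bd _ hSp
    have hvb : kbBin c.χ (W.v y.1) = ψ bn := by rw [hψ, ← hbn]; rfl
    refine Finset.mem_biUnion.mpr ⟨kbBin c.χ (W.Z0 y.1), hS _ ?_, hSl _ y hy (by rw [c1, hQ]) hvb rfl φ hφ⟩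
    have hb1 := (k2s_bin_iff W.χ0 (W.v y.1) bn).mp hbn
    have hb2 := k2s_dy_lt hχ0
    have d1 : |W.v y.1 - (bn : ℝ) * kbDy W.χ0| ≤ 2 * W.χ0 := by
      rw [abs_le]
      constructor <;> linarith [hb1.1, hb1.2]
    have d2 : |W.v y.1 * (y.2 - c.ti i)| ≤ c.K * (2 * c.σ) := by
      rw [abs_mul]
      exact mul_le_mul hv c4 (abs_nonneg _) (by linarith)
    have d3 : |(W.v y.1 - (bn : ℝ) * kbDy W.χ0) * c.ti i| ≤ 2 * W.χ0 * 1 := by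
      rw [abs_mul]
      refine mul_le_mul d1 ?_ (abs_nonneg _) (by positivity)
      rw [abs_le]
      constructor <;> linarith [c2.1, c2.2]
    have e : W.Z0 y.1 - (P0.zc c.χ φ0 (c.ti i) - (bn : ℝ) * kbDy W.χ0 * c.ti i)
        = (W.Z y.1 y.2 - W.Z x.1 x.2) + (W.Z x.1 x.2 - P0.zc c.χ φ0 (c.ti i)) - W.v y.1 * (y.2 - c.ti i) - (W.v y.1 - (bn : ℝ) * kbDy W.χ0) * c.ti i := by
      unfold K7aLn.Z
      ring
    have hσχ : 4 * c.K * c.σ ≤ c.χ := by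
      refine le_trans ?_ hs.σχ
      have : c.K * c.σ ≤ c.K ^ 2 * c.σ := mul_le_mul_of_nonneg_right (by nlinarith) hσ0.le
      nlinarith
    have hσK : c.σ ≤ c.K * c.σ := le_mul_of_one_le_left hσ0.le hK
    have hχχ := H.χ0
    rw [e]
    rw [abs_le] at c5 c8 d2 d3 ⊢
    constructor <;> linarith [c5.1, c5.2, c8.1, c8.2, d2.1, d2.2, d3.1, d3.2]

/-! ## 4. Two incidences in one fine state: the frozen polynomial -/

/-- two points of one dyadic bin -/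
theorem k7wcc_mbin_close {wd x y : ℝ} (hwd : 0 < wd) (h : kbBin wd x = kbBin wd y) : |x - y| ≤ 2 * wd := by
  have h1 := (k2s_bin_iff wd x (kbBin wd y)).1 h
  have h2 := (k2s_bin_iff wd y (kbBin wd y)).1 rfl
  have h3 := k2s_dy_lt hwd
  rw [abs_le]
  constructor <;> nlinarith [h1.1, h1.2, h2.1, h2.2]

/-- elementary consequences of the separation of scales -/
theorem k7wcc_msm (hs : c.Sm) : 0 < c.σ ∧ 0 < c.a1 ∧ c.a1 ≤ 1 ∧ 0 < c.b ∧ 0 < c.K := by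
  have hN : 0 < c.N := by linarith [hs.N1]
  refine ⟨Real.rpow_pos_of_pos hN _, Real.rpow_pos_of_pos hN _, ?_, mul_pos hs.h0 hs.g0, by linarith [hs.K1]⟩
  unfold K7wccPar.a1
  exact Real.rpow_le_one_of_one_le_of_nonpos hs.N1.le (by linarith [hs.r10])

/-- **L-252-S7wC-MA** (~150 l.).   `U = (Y - y₀)/b`, `y₀ = Y_Q(t_i, Z_α(t_i))`, `Y` in the `Y`-cell of the source.
`|Y - Y_x| ≤ 2σ`;  `|Y_x - Y_Q(t_x, Z_x)| ≤ K b` (`box`);  `|Y_Q(t_x, Z_x) - y₀| ≤ K · 2σ + K · 5χ` (`row_bd`, `k7wcc_close`);  `2σ + 2Kσ + 5Kχ ≤ b`. -/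
theorem k7wcc_match_U (H : K7wccHyp c W P0 P1 E Ms Ws) (hs : c.Sm) {x : W.L × ℝ} (hx : x ∈ E) {φ0 : P0.Ph} {i : ℤ} (h0 : P0.lab x.1 = some φ0)
    (hi : kbBin c.σ x.2 = i) {Y : ℝ} (hY : kbBin c.σ Y = kbBin c.σ (W.Y x.1 x.2)) :
    |(Y - k7wccY0 c W P0 (W.labQ x) φ0 i) / c.b| ≤ c.K + 2 := by
  obtain ⟨hσ, -, -, hb, hK0⟩ := k7wcc_msm hs
  obtain ⟨-, -, hQa, hasg, hblk, -, -, -⟩ := k7wcc_inc H hs hx
  obtain ⟨-, -, hti, -, -, -, -, hZ⟩ := k7wcc_close H hs hx hx h0 hi rfl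
  have h1 := k7wcc_mbin_close hσ hY
  have h2 := (H.w.box _ hQa _ hasg _ hblk).2
  obtain ⟨-, -, hr1, hr2⟩ := H.w.row_bd _ hQa
  have hK1 := hs.K1
  rw [abs_div, abs_of_pos hb, div_le_iff₀ hb]
  unfold k7wccY0
  have h3 : |W.YQ (W.labQ x) x.2 (W.Z x.1 x.2) - W.YQ (W.labQ x) (c.ti i) (P0.zc c.χ φ0 (c.ti i))| ≤ c.K * (2 * c.σ) + c.K * (5 * c.χ) := by
    have e : W.YQ (W.labQ x) x.2 (W.Z x.1 x.2) - W.YQ (W.labQ x) (c.ti i) (P0.zc c.χ φ0 (c.ti i))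
        = W.r1 (W.labQ x) * (x.2 - c.ti i) + W.r2 (W.labQ x) * (W.Z x.1 x.2 - P0.zc c.χ φ0 (c.ti i)) := by
      unfold K7aW.YQ; ring
    rw [e]
    refine (abs_add_le _ _).trans (add_le_add ?_ ?_)
    · rw [abs_mul]; exact mul_le_mul hr1 hti (abs_nonneg _) hK0.le
    · rw [abs_mul]; exact mul_le_mul hr2 hZ (abs_nonneg _) hK0.le
  have h4 : |Y - W.YQ (W.labQ x) (c.ti i) (P0.zc c.χ φ0 (c.ti i))| ≤ 2 * c.σ + c.K * (c.h * c.g) + (c.K * (2 * c.σ) + c.K * (5 * c.χ)) := by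
    have e : Y - W.YQ (W.labQ x) (c.ti i) (P0.zc c.χ φ0 (c.ti i)) = (Y - W.Y x.1 x.2) + (W.Y x.1 x.2 - W.YQ (W.labQ x) x.2 (W.Z x.1 x.2))
        + (W.YQ (W.labQ x) x.2 (W.Z x.1 x.2) - W.YQ (W.labQ x) (c.ti i) (P0.zc c.χ φ0 (c.ti i))) := by ring
    rw [e]
    refine (abs_add_le _ _).trans (add_le_add ((abs_add_le _ _).trans (add_le_add h1 h2)) h3)
  refine h4.trans ?_
  have hbe : c.h * c.g = c.b := rfl
  rw [hbe]
  have hχb := hs.χb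
  have hσχ := hs.σχ
  have hχ0 := hs.χ0
  have hK2 : c.K ≤ c.K ^ 2 := by nlinarith
  have hK21 : 1 ≤ c.K ^ 2 := by nlinarith
  have a1 : c.K * c.χ ≤ c.K ^ 2 * c.χ := mul_le_mul_of_nonneg_right hK2 hχ0.le
  have a2 : c.K * c.σ ≤ c.K ^ 2 * c.σ := mul_le_mul_of_nonneg_right hK2 hσ.le
  have a3 : c.σ ≤ c.K ^ 2 * c.σ := by nlinarith
  have a4 : c.χ ≤ c.K ^ 2 * c.χ := by nlinarith
  nlinarith

/-- the slope of the centre of an occurring coarse label -/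
theorem k7wcc_mc1 (H : K7wccHyp c W P0 P1 E Ms Ws) (hs : c.Sm) {l : W.L} {φ : P0.Ph} (h0 : P0.lab l = some φ) : |(P0.G φ).c1| ≤ 3 * c.K ^ 2 := by
  have h1 := k7wcc_cen_bd W.toK7aLn P0 H.w.ln H.l0 h0
  have hK1 := hs.K1
  have h2 : c.K * c.β0 ≤ c.K * c.K := mul_le_mul_of_nonneg_left hs.β0K (by linarith)
  nlinarith

/-- **L-252-S7wC-MF** (~200 l.).   Freezing a coarse predictor: `z ∈ E` with label `Φ`, `|t_z - t'| ≤ 2σ`, `|Y_z - Y| ≤ 2σ`, `t' ∈ [0,1]`.   `k7wcc_lip` with `lam = K + 1` : `|Y_z - cen t_z| ≤ K β₀`, `|c1| ≤ K + 2Kβ₀ ≤ 3K²` (`k7wcc_cen_bd`),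
`|Y - cen t'| ≤ K β₀ + (1 + 3K²) 2σ ≤ (K+1) β₀`;   `48 K (K+1) (2σ + (2σ + 3K² 2σ)/β₀) ≤ 960 K⁴ σ/β₀ ≤ a₁` (`β₀ ≤ K`, `hs.σ0`). -/
theorem k7wcc_freeze (H : K7wccHyp c W P0 P1 E Ms Ws) (hs : c.Sm) {z : W.L × ℝ} (hz : z ∈ E) {φ : P0.Ph} (h0 : P0.lab z.1 = some φ) {t' Y : ℝ} (ht' : t' ∈ Set.Icc (0 : ℝ) 1)
    (ht : |z.2 - t'| ≤ 2 * c.σ) (hY : |W.Y z.1 z.2 - Y| ≤ 2 * c.σ) : |(P0.G φ).F z.2 (W.Y z.1 z.2) - (P0.G φ).F t' Y| ≤ c.a1 := by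
  obtain ⟨hσ, ha1, ha11, hb, hK0⟩ := k7wcc_msm hs
  obtain ⟨-, hz2, -, -, -, -, -, -⟩ := k7wcc_inc H hs hz
  have hK1 := hs.K1
  have hβ := hs.β00
  have hc1 := k7wcc_mc1 H hs h0
  have hfit := (H.l0.fit z.1 φ h0 z.2 hz2).1
  have hσ0 := hs.σ0
  have hK2 : 1 ≤ c.K ^ 2 := by nlinarith
  have hK4 : c.K ^ 2 ≤ c.K ^ 4 := by nlinarith
  have hσβ : 2000 * c.K ^ 4 * c.σ ≤ c.β0 := hσ0.trans (by nlinarith)
  have hcen : |(P0.G φ).cen z.2 - (P0.G φ).cen t'| ≤ 3 * c.K ^ 2 * (2 * c.σ) := by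
    have e : (P0.G φ).cen z.2 - (P0.G φ).cen t' = (P0.G φ).c1 * (z.2 - t') := by
      simp only [K7aLab.cen]; ring
    rw [e, abs_mul]
    exact mul_le_mul hc1 ht (abs_nonneg _) (by positivity)
  have hy' : |Y - (P0.G φ).cen t'| ≤ (c.K + 1) * c.β0 := by
    have e : Y - (P0.G φ).cen t' = -(W.Y z.1 z.2 - Y) + (W.Y z.1 z.2 - (P0.G φ).cen z.2) + ((P0.G φ).cen z.2 - (P0.G φ).cen t') := by ring
    rw [e]
    refine ((abs_add_le _ _).trans (add_le_add ((abs_add_le _ _).trans (add_le_add ((abs_neg _).trans_le hY) hfit)) hcen)).trans ?_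
    have a1 : c.K ^ 2 * c.σ ≤ c.K ^ 4 * c.σ := mul_le_mul_of_nonneg_right hK4 hσ.le
    have a2 : c.σ ≤ c.K ^ 2 * c.σ := by nlinarith
    nlinarith
  have h1 := k7wcc_lip (P0.G φ) (K := c.K) (β := c.β0) (lam := c.K + 1) (H.l0.quad φ) hβ (H.l0.norm φ) (by linarith)
    (t := z.2) (t' := t') (y := W.Y z.1 z.2) (y' := Y)
    (by rw [abs_of_nonneg hz2.1]; linarith [hz2.2]) (by rw [abs_of_nonneg ht'.1]; linarith [ht'.2])
    (hfit.trans (mul_le_mul_of_nonneg_right (by linarith) hβ.le)) hy'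
  refine h1.trans ?_
  -- the arithmetic
  have hnum : |W.Y z.1 z.2 - Y| + |(P0.G φ).c1| * |z.2 - t'| ≤ 2 * c.σ + 3 * c.K ^ 2 * (2 * c.σ) :=
    add_le_add hY (mul_le_mul hc1 ht (abs_nonneg _) (by positivity))
  have h2 : |z.2 - t'| + (|W.Y z.1 z.2 - Y| + |(P0.G φ).c1| * |z.2 - t'|) / c.β0 ≤ 10 * c.K ^ 2 * c.σ / c.β0 := by
    rw [le_div_iff₀ hβ, add_mul, div_mul_cancel₀ _ hβ.ne']
    have a1 : |z.2 - t'| * c.β0 ≤ 2 * c.σ * c.K := mul_le_mul ht hs.β0K hβ.le (by positivity)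
    have a2 : c.σ * c.K ≤ c.K ^ 2 * c.σ := by nlinarith
    have a3 : c.σ ≤ c.K ^ 2 * c.σ := by nlinarith
    nlinarith
  have h3 : 0 ≤ 48 * c.K * (c.K + 1) := by positivity
  refine (mul_le_mul_of_nonneg_left h2 h3).trans ?_
  rw [← mul_div_assoc, div_le_iff₀ hβ]
  have a4 : 48 * c.K * (c.K + 1) ≤ 96 * c.K ^ 2 := by nlinarith
  have a5 : 0 ≤ 10 * c.K ^ 2 * c.σ := by positivity
  calc 48 * c.K * (c.K + 1) * (10 * c.K ^ 2 * c.σ) ≤ 96 * c.K ^ 2 * (10 * c.K ^ 2 * c.σ) := mul_le_mul_of_nonneg_right a4 a5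
    _ = 960 * c.K ^ 4 * c.σ := by ring
    _ ≤ 2000 * c.K ^ 4 * c.σ := by
        have : 0 ≤ c.K ^ 4 * c.σ := by positivity
        nlinarith
    _ ≤ c.a1 * c.β0 := hσ0

/-- **L-252-S7wC-MB** (~200 l.), plan C4 (07 l.729-732).   `X_x = F_Φ(x) + D ± (K+1) a₁`, `X_y = F_Φ'(y) + D' ± (K+1) a₁` (`k7wcc_offset`, same `Q`), `|X_x - X_y| ≤ 2 a₁` (`k7wcc_close`), `k7wcc_freeze` twice (to `(t_i, Y)`),
`k7wcc_expand` twice at `y₀` with `Y = y₀ + b U`. -/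
theorem k7wcc_match_val (H : K7wccHyp c W P0 P1 E Ms Ws) (hs : c.Sm) {x y : W.L × ℝ} (hx : x ∈ E) (hy : y ∈ E) {φ0 φ0' : P0.Ph} {φ1 φ1' : P1.Ph} {i : ℤ}
    (h0 : P0.lab x.1 = some φ0) (h1 : P1.lab x.1 = some φ1) (h0' : P0.lab y.1 = some φ0') (h1' : P1.lab y.1 = some φ1')
    (hi : kbBin c.σ x.2 = i) (hst : W.stt c.σ c.pw y = W.stt c.σ c.pw x) {Y : ℝ} (hY : kbBin c.σ Y = kbBin c.σ (W.Y x.1 x.2)) :
    |k7wccH1 c W P0 (W.labQ x) φ0 φ0' i * ((Y - k7wccY0 c W P0 (W.labQ x) φ0 i) / c.b) + k7wccH2 c W P0 (W.labQ x) φ0 φ0' i * ((Y - k7wccY0 c W P0 (W.labQ x) φ0 i) / c.b) ^ 2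
      - (k7wccD c.χ W P0 P1 (W.labQ x) φ0' φ1' - k7wccD c.χ W P0 P1 (W.labQ x) φ0 φ1 - k7wccH0 c W P0 (W.labQ x) φ0 φ0' i)| ≤ (2 * c.K + 6) * c.a1 := by
  obtain ⟨hσ, ha1, ha11, hb, hK0⟩ := k7wcc_msm hs
  obtain ⟨hQ, hti, htx, hty, -, hYb, hX, -⟩ := k7wcc_close H hs hx hy h0 hi hst
  have o1 := k7wcc_offset H hs hx h0 h1
  have o2 := k7wcc_offset H hs hy h0' h1'
  rw [hQ] at o2
  have f1 := k7wcc_freeze H hs hx h0 hti htx (k7wcc_mbin_close hσ hY.symm)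
  have f2 := k7wcc_freeze H hs hy h0' hti hty (k7wcc_mbin_close hσ (hYb.trans hY.symm))
  obtain ⟨U, hU⟩ : ∃ U : ℝ, U = (Y - k7wccY0 c W P0 (W.labQ x) φ0 i) / c.b := ⟨_, rfl⟩
  have hYU : Y = k7wccY0 c W P0 (W.labQ x) φ0 i + c.b * U := by
    rw [hU]; field_simp; ring
  have e1 := k7wcc_expand (H.l0.quad φ0) c.b (c.ti i) (k7wccY0 c W P0 (W.labQ x) φ0 i) U
  have e2 := k7wcc_expand (H.l0.quad φ0') c.b (c.ti i) (k7wccY0 c W P0 (W.labQ x) φ0 i) U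
  rw [← hYU] at e1 e2
  rw [← hU]
  unfold k7wccH0 k7wccH1 k7wccH2
  have e : (k7wF1 (P0.G φ0).F c.b (c.ti i) (k7wccY0 c W P0 (W.labQ x) φ0 i) - k7wF1 (P0.G φ0').F c.b (c.ti i) (k7wccY0 c W P0 (W.labQ x) φ0 i)) * U
        + (k7wF2 (P0.G φ0).F c.b (c.ti i) (k7wccY0 c W P0 (W.labQ x) φ0 i) - k7wF2 (P0.G φ0').F c.b (c.ti i) (k7wccY0 c W P0 (W.labQ x) φ0 i)) * U ^ 2
        - (k7wccD c.χ W P0 P1 (W.labQ x) φ0' φ1' - k7wccD c.χ W P0 P1 (W.labQ x) φ0 φ1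
          - ((P0.G φ0).F (c.ti i) (k7wccY0 c W P0 (W.labQ x) φ0 i) - (P0.G φ0').F (c.ti i) (k7wccY0 c W P0 (W.labQ x) φ0 i)))
      = -((P0.G φ0).F x.2 (W.Y x.1 x.2) - (P0.G φ0).F (c.ti i) Y)
        + -(W.X x.1 x.2 - ((P0.G φ0).F x.2 (W.Y x.1 x.2) + k7wccD c.χ W P0 P1 (W.labQ x) φ0 φ1))
        + -(W.X y.1 y.2 - W.X x.1 x.2)
        + (W.X y.1 y.2 - ((P0.G φ0').F y.2 (W.Y y.1 y.2) + k7wccD c.χ W P0 P1 (W.labQ x) φ0' φ1'))
        + ((P0.G φ0').F y.2 (W.Y y.1 y.2) - (P0.G φ0').F (c.ti i) Y) := by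
    rw [e1, e2]; ring
  rw [e]
  refine (abs_add_le _ _).trans ?_
  refine (add_le_add ((abs_add_le _ _).trans (add_le_add ((abs_add_le _ _).trans (add_le_add ((abs_add_le _ _).trans
    (add_le_add ((abs_neg _).trans_le f1) ((abs_neg _).trans_le o1))) ((abs_neg _).trans_le hX))) o2)) f2).trans ?_
  linarith

/-- the arithmetic of one transport of the first coefficient -/
theorem k7wcc_mkey (hs : c.Sm) {dt dy c1 : ℝ} (h1 : |dt| ≤ 2 * c.σ) (h2 : |dy| ≤ c.K * (2 * c.σ) + c.K * (2 * c.σ + 5 * c.χ)) (h3 : |c1| ≤ 3 * c.K ^ 2) :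
    8 * c.K * (c.b / c.β0) * (|dt| + 2 * ((|dy| + |c1| * |dt|) / c.β0)) ≤ c.e / 4 := by
  obtain ⟨hσ, -, -, hb, hK0⟩ := k7wcc_msm hs
  have hK1 := hs.K1
  have hβ := hs.β00
  have hχ0 := hs.χ0
  have hσχ := hs.σχ
  have hχe := hs.χe
  have hβK := hs.β0K
  obtain ⟨K, hK⟩ : ∃ K : ℝ, K = c.K := ⟨_, rfl⟩
  obtain ⟨σ, hσe⟩ : ∃ σ : ℝ, σ = c.σ := ⟨_, rfl⟩
  obtain ⟨χ, hχ⟩ : ∃ χ : ℝ, χ = c.χ := ⟨_, rfl⟩
  obtain ⟨b, hbe⟩ : ∃ b : ℝ, b = c.b := ⟨_, rfl⟩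
  obtain ⟨β, hβe⟩ : ∃ β : ℝ, β = c.β0 := ⟨_, rfl⟩
  obtain ⟨e, hee⟩ : ∃ e : ℝ, e = c.e := ⟨_, rfl⟩
  rw [← hK, ← hσe, ← hχ] at h2 hσχ
  rw [← hσe] at h1 hσ
  rw [← hK] at h3 hK1 hK0 hβK
  rw [← hβe] at hβ hβK
  rw [← hK, ← hχ, ← hbe, ← hβe, ← hee] at hχe
  rw [← hχ] at hχ0
  rw [← hbe] at hb
  rw [← hK, ← hbe, ← hβe, ← hee]
  clear hK hσe hχ hbe hβe hee hs
  have hK2 : K ≤ K ^ 2 := by nlinarith
  have hK21 : 1 ≤ K ^ 2 := by nlinarith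
  have a0 : |c1| * |dt| ≤ 3 * K ^ 2 * (2 * σ) := mul_le_mul h3 h1 (abs_nonneg _) (by positivity)
  have a1 : K ^ 2 * σ ≤ χ / 100 := by linarith
  have a2 : K * σ ≤ K ^ 2 * σ := mul_le_mul_of_nonneg_right hK2 hσ.le
  have a3 : χ ≤ K * χ := by nlinarith
  have h4 : |dt| + 2 * ((|dy| + |c1| * |dt|) / β) ≤ 11 * K * χ / β := by
    rw [le_div_iff₀ hβ, add_mul, mul_assoc 2, div_mul_cancel₀ _ hβ.ne']
    have b1 : |dt| * β ≤ 2 * σ * K := mul_le_mul h1 hβK hβ.le (by positivity)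
    linarith
  have h5 : 0 ≤ 8 * K * (b / β) := by positivity
  refine (mul_le_mul_of_nonneg_left h4 h5).trans ?_
  have e' : 8 * K * (b / β) * (11 * K * χ / β) = 88 * (K ^ 2 * χ * b) / β ^ 2 := by ring
  rw [e', div_le_iff₀ (by positivity)]
  have : 0 ≤ K ^ 2 * χ * b := by positivity
  linarith

/-- **L-252-S7wC-MC** (~250 l.), plan C4 (transport of the coefficients).   `k7wcc_f_lip` for `Φ` between `(t_i, y₀)` and `(t_x, yq x)`, for `Φ'` between `(t_i, y₀)` and `(t_y, yq y)`: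
`|y₀ - yq x| ≤ K 2σ + K 5χ`, `|y₀ - yq y| ≤ K 2σ + K (2σ + 5χ)` (`row_bd`, `k7wcc_close`), `|c1| ≤ 3K²`; each difference is `≤ 8K (b/β₀)(2σ + 2 (6Kχ + 6K²σ)/β₀) ≤ 120 K² χ b/β₀² ≤ e/4` (`β₀ ≤ K`, `hs.σχ`, `hs.χe`). -/
theorem k7wcc_match_gap (H : K7wccHyp c W P0 P1 E Ms Ws) (hs : c.Sm) {x y : W.L × ℝ} (hx : x ∈ E) (hy : y ∈ E) {φ0 φ0' : P0.Ph} {i : ℤ}
    (h0 : P0.lab x.1 = some φ0) (h0' : P0.lab y.1 = some φ0') (hi : kbBin c.σ x.2 = i) (hst : W.stt c.σ c.pw y = W.stt c.σ c.pw x) :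
    |k7wccH1 c W P0 (W.labQ x) φ0 φ0' i - (k7wccF1 W P0 c.b x - k7wccF1 W P0 c.b y)| ≤ c.e / 2 ∧
      k7wccH2 c W P0 (W.labQ x) φ0 φ0' i = k7wccF2 W P0 c.b x - k7wccF2 W P0 c.b y := by
  obtain ⟨hσ, ha1, ha11, hb, hK0⟩ := k7wcc_msm hs
  obtain ⟨hQ, hti, htx, hty, hZZ, -, -, hZ⟩ := k7wcc_close H hs hx hy h0 hi hst
  obtain ⟨-, -, hQa, -, -, -, -, -⟩ := k7wcc_inc H hs hx
  obtain ⟨-, -, hr1, hr2⟩ := H.w.row_bd _ hQa
  have hK1 := hs.K1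
  have hβ := hs.β00
  have hχ0 := hs.χ0
  have eF1x : k7wccF1 W P0 c.b x = k7wF1 (P0.G φ0).F c.b x.2 (W.yq x) := by unfold k7wccF1; rw [h0]; rfl
  have eF1y : k7wccF1 W P0 c.b y = k7wF1 (P0.G φ0').F c.b y.2 (W.yq y) := by unfold k7wccF1; rw [h0']; rfl
  have eF2x : k7wccF2 W P0 c.b x = k7wF2 (P0.G φ0).F c.b x.2 (W.yq x) := by unfold k7wccF2; rw [h0]; rfl
  have eF2y : k7wccF2 W P0 c.b y = k7wF2 (P0.G φ0').F c.b y.2 (W.yq y) := by unfold k7wccF2; rw [h0']; rfl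
  obtain ⟨y₀, hy₀⟩ : ∃ y₀ : ℝ, y₀ = k7wccY0 c W P0 (W.labQ x) φ0 i := ⟨_, rfl⟩
  have l1 := k7wcc_f_lip (P0.G φ0) (K := c.K) (β := c.β0) (b := c.b) (H.l0.quad φ0) hβ hb.le (H.l0.norm φ0) (c.ti i) x.2 y₀ (W.yq x)
  have l2 := k7wcc_f_lip (P0.G φ0') (K := c.K) (β := c.β0) (b := c.b) (H.l0.quad φ0') hβ hb.le (H.l0.norm φ0') (c.ti i) y.2 y₀ (W.yq y)
  unfold k7wccH1 k7wccH2
  rw [← hy₀, eF1x, eF1y, eF2x, eF2y]
  refine ⟨?_, by rw [l1.2, l2.2]⟩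
  have hc1 := k7wcc_mc1 H hs h0
  have hc1' := k7wcc_mc1 H hs h0'
  -- distances of the base points
  have dx : |y₀ - W.yq x| ≤ c.K * (2 * c.σ) + c.K * (5 * c.χ) := by
    have e : y₀ - W.yq x = -(W.r1 (W.labQ x) * (x.2 - c.ti i)) + -(W.r2 (W.labQ x) * (W.Z x.1 x.2 - P0.zc c.χ φ0 (c.ti i))) := by
      rw [hy₀]; unfold k7wccY0 K7aW.yq K7aW.YQ; ring
    rw [e]
    refine (abs_add_le _ _).trans (add_le_add ?_ ?_)
    · rw [abs_neg, abs_mul]; exact mul_le_mul hr1 htx (abs_nonneg _) hK0.le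
    · rw [abs_neg, abs_mul]; exact mul_le_mul hr2 hZ (abs_nonneg _) hK0.le
  have dy : |y₀ - W.yq y| ≤ c.K * (2 * c.σ) + c.K * (2 * c.σ + 5 * c.χ) := by
    have e : y₀ - W.yq y = -(W.r1 (W.labQ x) * (y.2 - c.ti i)) + -(W.r2 (W.labQ x) * ((W.Z y.1 y.2 - W.Z x.1 x.2) + (W.Z x.1 x.2 - P0.zc c.χ φ0 (c.ti i)))) := by
      rw [hy₀]; unfold k7wccY0 K7aW.yq; rw [hQ]; unfold K7aW.YQ; ring
    rw [e]
    refine (abs_add_le _ _).trans (add_le_add ?_ ?_)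
    · rw [abs_neg, abs_mul]; exact mul_le_mul hr1 hty (abs_nonneg _) hK0.le
    · rw [abs_neg, abs_mul]
      exact mul_le_mul hr2 ((abs_add_le _ _).trans (add_le_add hZZ hZ)) (abs_nonneg _) hK0.le
  have k1 := l1.1.trans (k7wcc_mkey hs (by rw [abs_sub_comm]; exact htx) (dx.trans (by nlinarith)) hc1)
  have k2 := l2.1.trans (k7wcc_mkey hs (by rw [abs_sub_comm]; exact hty) dy hc1')
  have e : k7wF1 (P0.G φ0).F c.b (c.ti i) y₀ - k7wF1 (P0.G φ0').F c.b (c.ti i) y₀ - (k7wF1 (P0.G φ0).F c.b x.2 (W.yq x) - k7wF1 (P0.G φ0').F c.b y.2 (W.yq y))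
      = (k7wF1 (P0.G φ0).F c.b (c.ti i) y₀ - k7wF1 (P0.G φ0).F c.b x.2 (W.yq x)) + -(k7wF1 (P0.G φ0').F c.b (c.ti i) y₀ - k7wF1 (P0.G φ0').F c.b y.2 (W.yq y)) := by ring
  rw [e]
  refine (abs_add_le _ _).trans ?_
  rw [abs_neg]
  linarith

end geo

end

end Claimed.Agent.R252

/-!
# ROW 252 (S0492), unit S7w, post BP-252-S7w-C (helper22; chief helper89), file 3 of 3: **STAGE C OF P7.3, THE ASSEMBLY** (07 l.666-780).      CONTRACT file: every `sorry` is a LEAF `L-252-S7wC-*` (name in the docstring).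

PAPER-FREE.   Vocabulary and geometry: `S7a/WideCB`; abstract cores: `S7a/WideCA`; caps and budgets: `S7a/WideCapContract` (`k7wc_cells_var`, `k7wc_pal_sum`, `k7wc_slice`).
* s1 measurability, the reference budget of the histories, the palette.
* s2 the bad cells of a source entry `ε = (Q, Φ, Φ₁)` and a target velocity bin: `k7wcc_ycells`, `k7wcc_cells`.
* s3 the cap of an entry on a set of cells, the budget of the entries, the covering sets `Bd bn` : `k7wcc_ecap`, `k7wcc_budget`, `k7wcc_bd`.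
* s4 `k7wcc_core` : stage C with explicit slack.     The `∀ τ' ∃ τ` form `k7wcc_stageC : K7wStageC` is in `S7a/WideCD.lean`.
-/

set_option autoImplicit false

namespace Claimed.Agent.R252

open MeasureTheory
open scoped ENNReal BigOperators

noncomputable section

variable {c : K7wccPar} {W : K7aW} {P0 P1 : K7aLayer W.toK7aLn} {E : Set (W.L × ℝ)} {Ms Ws : Finset ℝ}

/-- the incidences of a source entry `ε = (Q, Φ, Φ₁)` -/
def k7wccEnt (W : K7aW) (P0 P1 : K7aLayer W.toK7aLn) (ε : W.Q × P0.Ph × P1.Ph) : Set (W.L × ℝ) :=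
  {z | W.labQ z = ε.1 ∧ P0.lab z.1 = some ε.2.1 ∧ P1.lab z.1 = some ε.2.2}

/-- coefficient gap `> e` -/
def k7wccGap (c : K7wccPar) (W : K7aW) (P0 : K7aLayer W.toK7aLn) (x y : W.L × ℝ) : Prop :=
  c.e < |k7wccF1 W P0 c.b x - k7wccF1 W P0 c.b y| ∨ c.e < |k7wccF2 W P0 c.b x - k7wccF2 W P0 c.b y|

theorem k7wcc_defs_cite2 : True := by
  have := @k7wccEnt.eq_1; have := @k7wccGap.eq_1
  trivial

/-! ## 1. Measurability, reference budget, palette -/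

/-- **L-252-S7wC-MEAS** (the next three statements, ~200 l.) -/
theorem k7wcc_fin (H : K7wccHyp c W P0 P1 E Ms Ws) : IsFiniteMeasure W.prior ∧ W.prior Set.univ ≤ 1 := by
  have := H.w.ln.prob
  have hsf : SFinite k7aTm := by
    unfold k7aTm
    infer_instance
  have h1 : W.prior Set.univ ≤ 1 := by
    unfold K7aLn.prior
    rw [← Set.univ_prod_univ, Measure.prod_prod, measure_univ, one_mul]
    unfold k7aTm
    rw [Measure.restrict_apply MeasurableSet.univ, Set.univ_inter, Real.volume_Icc]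
    norm_num
  exact ⟨⟨lt_of_le_of_lt h1 ENNReal.one_lt_top⟩, h1⟩

/-- the coordinates of an incidence are measurable -/
theorem k7wcc_meas_co (H : K7wccHyp c W P0 P1 E Ms Ws) :
    (Measurable fun z : W.L × ℝ => W.Z z.1 z.2) ∧ (Measurable fun z : W.L × ℝ => W.Y z.1 z.2) ∧ Measurable fun z : W.L × ℝ => W.X z.1 z.2 := by
  obtain ⟨hZ0, hv, hY0, hY1, hx0, hx1, hx2⟩ := H.w.ln.m_co
  have hf : ∀ f : W.L → ℝ, Measurable f → Measurable fun z : W.L × ℝ => f z.1 := fun f hf => hf.comp measurable_fst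
  refine ⟨?_, ?_, ?_⟩
  · unfold K7aLn.Z
    exact (hf _ hZ0).add ((hf _ hv).mul measurable_snd)
  · unfold K7aLn.Y
    exact (hf _ hY0).add ((hf _ hY1).mul measurable_snd)
  · unfold K7aLn.X
    exact ((hf _ hx0).add ((hf _ hx1).mul measurable_snd)).add ((hf _ hx2).mul (measurable_snd.pow_const 2))

/-- `W.stt σ pw ⁻¹' {s} = labQ ⁻¹' {s.1} ∩ (pt ⁻¹' ..)`; `m_labQ`, `m_co`, `k2s_bin_meas` -/
theorem k7wcc_lab_stt (H : K7wccHyp c W P0 P1 E Ms Ws) (σ pw : ℝ) : KsLab (W.stt σ pw) := by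
  obtain ⟨hZ, hY, hX⟩ := k7wcc_meas_co H
  intro s0
  have hpt : Measurable (W.pt σ pw) := by
    unfold K7aLn.pt
    exact ((k2s_bin_meas σ).comp measurable_snd).prodMk (((k2s_bin_meas σ).comp hZ).prodMk
      (((k2s_bin_meas σ).comp hY).prodMk ((k2s_bin_meas pw).comp hX)))
  have e : W.stt σ pw ⁻¹' {s0} = W.labQ ⁻¹' {s0.1} ∩ W.pt σ pw ⁻¹' {s0.2} := by
    ext z
    simp only [K7aW.stt, Set.mem_preimage, Set.mem_singleton_iff, Set.mem_inter_iff, Prod.ext_iff]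
  rw [e]
  exact (H.w.m_labQ s0.1).inter (hpt (measurableSet_singleton s0.2))

/-- gluing countably many measurable functions along a label -/
theorem k7wcc_meas_glue {Ω A : Type} [MeasurableSpace Ω] [Countable A] (s : Ω → A) (hs : KsLab s) (g : A → Ω → ℝ) (hg : ∀ a, Measurable (g a)) :
    Measurable fun ω => g (s ω) ω := by
  intro T hT
  have e : (fun ω => g (s ω) ω) ⁻¹' T = ⋃ a, s ⁻¹' {a} ∩ g a ⁻¹' T := by
    ext ω
    simp only [Set.mem_preimage, Set.mem_iUnion, Set.mem_inter_iff, Set.mem_singleton_iff]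
    constructor
    · intro h
      exact ⟨s ω, rfl, h⟩
    · rintro ⟨a, rfl, h⟩
      exact h
  rw [e]
  exact MeasurableSet.iUnion fun a => (hs a).inter (hg a hT)

/-- `k7wccF1 = g ∘ fun p => ((P0.lab p.1, W.labQ p), p)` with the discrete σ-algebra `⊤` on the countable type `Option P0.Ph × W.Q` (`measurable_from_prod_countable_right`, `measurable_to_countable'`, `l0.meas`, `m_labQ`);
for fixed `(some φ, Q)` the function is a polynomial (`l0.quad`) in the measurable functions `p.2`, `W.Z0 p.1`, `W.v p.1`. -/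
theorem k7wcc_meas_F (H : K7wccHyp c W P0 P1 E Ms Ws) (b : ℝ) : Measurable (k7wccF1 W P0 b) ∧ Measurable (k7wccF2 W P0 b) := by
  obtain ⟨hZ, -, -⟩ := k7wcc_meas_co H
  have hlab : KsLab fun p : W.L × ℝ => (P0.lab p.1, W.labQ p) := fun s0 => by
    have e : (fun p : W.L × ℝ => (P0.lab p.1, W.labQ p)) ⁻¹' {s0} = {z : W.L × ℝ | P0.lab z.1 = s0.1} ∩ W.labQ ⁻¹' {s0.2} := by
      ext z
      simp only [Set.mem_preimage, Set.mem_singleton_iff, Set.mem_inter_iff, Prod.ext_iff, Set.mem_ofPred_eq]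
    rw [e]
    exact (k7wc_meas_lab W.toK7aLn P0 H.l0 s0.1).inter (H.w.m_labQ s0.2)
  have hyq : ∀ Q : W.Q, Measurable fun p : W.L × ℝ => W.YQ Q p.2 (W.Z p.1 p.2) := fun Q => by
    unfold K7aW.YQ
    exact (measurable_const.add (measurable_const.mul measurable_snd)).add (measurable_const.mul hZ)
  have hq : ∀ (φ : P0.Ph) (u : W.L × ℝ → ℝ), Measurable u → Measurable fun p : W.L × ℝ => (P0.G φ).F p.2 (u p) := fun φ u hu => by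
    obtain ⟨e0, e1, e2, e3, e4, e5, hF⟩ := H.l0.quad φ
    simp only [hF]
    exact ((((measurable_const.add (measurable_const.mul measurable_snd)).add (measurable_const.mul hu)).add
      (measurable_const.mul (measurable_snd.pow_const 2))).add ((measurable_const.mul measurable_snd).mul hu)).add (measurable_const.mul (hu.pow_const 2))
  constructor
  · have h1 := k7wcc_meas_glue (fun p : W.L × ℝ => (P0.lab p.1, W.labQ p)) hlab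
      (fun a p => a.1.elim 0 fun φ => k7wF1 (P0.G φ).F b p.2 (W.YQ a.2 p.2 (W.Z p.1 p.2))) (fun a => by
        obtain ⟨o, Q⟩ := a
        cases o with
        | none => exact measurable_const
        | some φ =>
          show Measurable fun p : W.L × ℝ => k7wF1 (P0.G φ).F b p.2 (W.YQ Q p.2 (W.Z p.1 p.2))
          unfold k7wF1
          exact ((hq φ _ ((hyq Q).add_const b)).sub (hq φ _ ((hyq Q).sub_const b))).div_const 2)
    exact h1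
  · have h1 := k7wcc_meas_glue (fun p : W.L × ℝ => (P0.lab p.1, W.labQ p)) hlab
      (fun a p => a.1.elim 0 fun φ => k7wF2 (P0.G φ).F b p.2 (W.YQ a.2 p.2 (W.Z p.1 p.2))) (fun a => by
        obtain ⟨o, Q⟩ := a
        cases o with
        | none => exact measurable_const
        | some φ =>
          show Measurable fun p : W.L × ℝ => k7wF2 (P0.G φ).F b p.2 (W.YQ Q p.2 (W.Z p.1 p.2))
          unfold k7wF2
          exact (((hq φ _ ((hyq Q).add_const b)).add (hq φ _ ((hyq Q).sub_const b))).sub (measurable_const.mul (hq φ _ (hyq Q)))).div_const 2)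
    exact h1

/-- the masses of the true labels: at most `1` per block, `2^lev` blocks -/
theorem k7wcc_sum_nu (H : K7wccHyp c W P0 P1 E Ms Ws) (R : Finset W.Q) (hR : ∀ Q ∈ R, Q ∈ W.Qa) : ∑ Q ∈ R, W.νQ Q ≤ ((2 ^ W.lev : ℕ) : ℝ≥0∞) := by
  classical
  have hprob := H.w.ln.prob
  have hblock : ∀ n : ℕ, ∑ Q ∈ R.filter (fun Q => W.iv Q = n), W.νQ Q ≤ 1 := by
    intro n
    unfold K7aW.νQ
    rw [← measure_biUnion_finset ?_ (fun Q _ => H.w.m_asg Q)]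
    · exact prob_le_one
    · intro Q hQ Q' hQ' hQQ
      have h1 := Finset.mem_filter.1 hQ
      have h2 := Finset.mem_filter.1 hQ'
      exact H.w.disj Q (hR Q h1.1) Q' (hR Q' h2.1) (h1.2.trans h2.2.symm) hQQ
  have hmaps : ∀ Q ∈ R, W.iv Q ∈ Finset.range (2 ^ W.lev) := fun Q hQ => Finset.mem_range.2 (H.w.iv_lt Q (hR Q hQ))
  rw [← Finset.sum_fiberwise_of_maps_to hmaps]
  calc ∑ n ∈ Finset.range (2 ^ W.lev), ∑ Q ∈ R.filter (fun Q => W.iv Q = n), W.νQ Q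
      ≤ ∑ _n ∈ Finset.range (2 ^ W.lev), 1 := Finset.sum_le_sum fun n _ => hblock n
    _ = ((2 ^ W.lev : ℕ) : ℝ≥0∞) := by
        rw [Finset.sum_const, Finset.card_range, nsmul_eq_mul, mul_one]

/-- **L-252-S7wC-REF** (~250 l.), plan C1.   `Ref e = if lam0 (hist ⁻¹' {e}) = 0 then 0 else W.ref e`.   The ceiling persists (`dom`; the left side vanishes when `Ref e = 0`).
If `lam0 {hist = e} ≠ 0` then `lam0 ({hist = e} ∩ {labQ = Q}) ≠ 0` for some `Q`, and `Q ∈ Qa` (`lab`, `k7wc_lam0_null`); so `∑ Ref ≤ ∑_{Q ∈ Qa} refIn Q ≤ K h ∑_{Q ∈ Qa} ν_Q` (`ref_in`).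
`∑_{Q ∈ Qa, iv Q = j} ν_Q ≤ 1` (`disj`, `m_asg`, `prob`), `j < 2^lev` (`iv_lt`): `∑_{Q ∈ Qa} ν_Q ≤ 2^lev = 1/q`;  `h ≤ K q`. -/
theorem k7wcc_ref (H : K7wccHyp c W P0 P1 E Ms Ws) (hs : c.Sm) :
    ∃ Ref : W.H → ℝ≥0∞, KsDom W.lam0 W.hist W.vT (fun _ b => W.pi b) Ref (ENNReal.ofReal c.K) ∧ ∑' e, Ref e ≤ ENNReal.ofReal (c.K ^ 2) := by
  classical
  have hK0 : 0 < c.K := lt_of_lt_of_le one_pos hs.K1
  refine ⟨fun e => if W.lam0 (W.hist ⁻¹' {e}) = 0 then 0 else W.ref e, fun s0 i => ?_, ?_⟩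
  · show W.lam0 (W.hist ⁻¹' {s0} ∩ W.vT i) ≤ ENNReal.ofReal c.K * W.pi i * (if W.lam0 (W.hist ⁻¹' {s0}) = 0 then 0 else W.ref s0)
    split_ifs with h0
    · exact ((measure_mono Set.inter_subset_left).trans h0.le).trans zero_le
    · exact H.w.ln.dom s0 i
  · rw [tsum_fintype]
    obtain ⟨R, hR⟩ : ∃ R : Finset W.Q, R = Finset.univ.filter (fun Q => Q ∈ W.Qa) := ⟨_, rfl⟩
    have hRmem : ∀ Q, Q ∈ R ↔ Q ∈ W.Qa := by
      intro Q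
      rw [hR]
      simp
    have hone : ∀ e : W.H, (if W.lam0 (W.hist ⁻¹' {e}) = 0 then 0 else W.ref e)
        ≤ ∑ Q ∈ R, if W.lam0 (W.hist ⁻¹' {e} ∩ W.labQ ⁻¹' {Q}) ≠ 0 then W.ref e else 0 := fun e => by
      split_ifs with h0
      · exact zero_le
      · obtain ⟨Q, hQ, hQ0⟩ : ∃ Q ∈ R, W.lam0 (W.hist ⁻¹' {e} ∩ W.labQ ⁻¹' {Q}) ≠ 0 := by
          by_contra hcon
          push Not at hcon
          apply h0
          have hcov : W.hist ⁻¹' {e} ⊆ ⋃ Q : W.Q, W.hist ⁻¹' {e} ∩ W.labQ ⁻¹' {Q} := fun z hz => Set.mem_iUnion.2 ⟨W.labQ z, hz, rfl⟩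
          refine le_antisymm ((measure_mono hcov).trans ((measure_iUnion_fintype_le _ _).trans ?_)) zero_le
          refine (Finset.sum_eq_zero fun Q _ => ?_).le
          by_cases hQ : Q ∈ R
          · exact hcon Q hQ
          · refine k7wc_lam0_null W.toK7aLn H.w.ln fun z hz hz0 => hQ ((hRmem Q).2 ?_)
            have h1 : W.labQ z = Q := hz.2
            rw [← h1]
            exact (H.w.lab z hz0).1
        calc W.ref e = if W.lam0 (W.hist ⁻¹' {e} ∩ W.labQ ⁻¹' {Q}) ≠ 0 then W.ref e else 0 := by rw [if_pos hQ0]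
          _ ≤ _ := Finset.single_le_sum (f := fun Q => if W.lam0 (W.hist ⁻¹' {e} ∩ W.labQ ⁻¹' {Q}) ≠ 0 then W.ref e else 0) (fun _ _ => zero_le) hQ
    have hrefIn : ∀ Q : W.Q, (∑ e : W.H, if W.lam0 (W.hist ⁻¹' {e} ∩ W.labQ ⁻¹' {Q}) ≠ 0 then W.ref e else 0) = W.refIn Q := fun Q => by
      unfold K7aW.refIn
      rw [Finset.sum_filter]
    have hq : 0 < W.q := by
      unfold K7aW.q
      positivity
    calc ∑ e : W.H, (if W.lam0 (W.hist ⁻¹' {e}) = 0 then 0 else W.ref e)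
        ≤ ∑ e : W.H, ∑ Q ∈ R, if W.lam0 (W.hist ⁻¹' {e} ∩ W.labQ ⁻¹' {Q}) ≠ 0 then W.ref e else 0 := Finset.sum_le_sum fun e _ => hone e
      _ = ∑ Q ∈ R, W.refIn Q := by
          rw [Finset.sum_comm]
          exact Finset.sum_congr rfl fun Q _ => hrefIn Q
      _ ≤ ∑ Q ∈ R, ENNReal.ofReal (c.K * c.h) * W.νQ Q := Finset.sum_le_sum fun Q hQ => H.w.ref_in Q ((hRmem Q).1 hQ)
      _ = ENNReal.ofReal (c.K * c.h) * ∑ Q ∈ R, W.νQ Q := by rw [Finset.mul_sum]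
      _ ≤ ENNReal.ofReal (c.K * c.h) * ((2 ^ W.lev : ℕ) : ℝ≥0∞) := mul_le_mul' le_rfl (k7wcc_sum_nu H R fun Q hQ => (hRmem Q).1 hQ)
      _ = ENNReal.ofReal (c.K * c.h * ((2 ^ W.lev : ℕ) : ℝ)) := by
          rw [ENNReal.ofReal_mul (mul_pos hK0 hs.h0).le, ENNReal.ofReal_natCast]
      _ ≤ ENNReal.ofReal (c.K ^ 2) := by
          refine ENNReal.ofReal_le_ofReal ?_
          have e1 : W.q * ((2 ^ W.lev : ℕ) : ℝ) = 1 := by
            unfold K7aW.q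
            push_cast
            rw [← mul_pow]
            norm_num
          have h2 : (0 : ℝ) ≤ ((2 ^ W.lev : ℕ) : ℝ) := Nat.cast_nonneg _
          calc c.K * c.h * ((2 ^ W.lev : ℕ) : ℝ) ≤ c.K * (c.K * W.q) * ((2 ^ W.lev : ℕ) : ℝ) :=
                mul_le_mul_of_nonneg_right (mul_le_mul_of_nonneg_left H.w.q_lo hK0.le) h2
            _ = c.K ^ 2 * (W.q * ((2 ^ W.lev : ℕ) : ℝ)) := by ring
            _ = c.K ^ 2 := by rw [e1, mul_one]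

/-- **L-252-S7wC-PAL** (~60 l.): the finest bins `k7aBinI χ0 b` are disjoint measurable sets (`measure_iUnion`), `pal_le` -/
theorem k7wcc_pal (H : K7wccHyp c W P0 P1 E Ms Ws) : ∑' b, W.pi b ≤ 1 := by
  have hd : Pairwise (Function.onFun Disjoint (k7aBinI W.χ0)) := by
    intro b b' hbb
    refine Set.disjoint_left.2 fun x hx hx' => hbb ?_
    rw [← k7wc_bin_iff] at hx hx'
    rw [← hx, hx']
  unfold K7aLn.pi K7aLn.palχ
  rw [← measure_iUnion hd (fun b => k7wc_meas_binI W.χ0 b)]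
  exact (measure_mono (Set.subset_univ _)).trans H.w.ln.pal_le

/-! ## 2. The bad cells of a source entry -/

/-- the arithmetic of `k7wcc_ycells` -/
theorem k7wcc_yc_arith (hs : c.Sm) {n m : ℝ} (hn0 : 0 ≤ n) (hm : m ≤ 648 * c.K ^ 4)
    (h : n * kbDy c.σ ≤ c.b * (m * (4 * (c.K + 2) * c.θ + 6 * c.n1 * ((2 * c.K + 6) * c.a1) / (c.e / 2 * c.θ)))) :
    n * c.σ ≤ 70000 * c.K ^ 5 * c.b * c.ϑ := by
  obtain ⟨hσ, ha1, -, hb, hK0⟩ := k7wcc_msm hs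
  have hK1 := hs.K1
  have hθ0 := hs.θ0
  have he0 := hs.e0
  have hn1 := hs.n10
  have h1 : n * c.σ ≤ n * kbDy c.σ := mul_le_mul_of_nonneg_left (k2s_dy_ge hσ) hn0
  set q : ℝ := c.n1 * c.a1 / (c.e * c.θ) with hq
  have hq0 : 0 ≤ q := by positivity
  have e1 : 6 * c.n1 * ((2 * c.K + 6) * c.a1) / (c.e / 2 * c.θ) = 12 * (2 * c.K + 6) * q := by
    rw [hq]
    field_simp
    ring
  have hϑ : c.ϑ = c.θ + q := rfl
  have h2 : 4 * (c.K + 2) * c.θ + 12 * (2 * c.K + 6) * q ≤ 96 * c.K * c.ϑ := by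
    rw [hϑ]
    have a1 : 4 * (c.K + 2) * c.θ ≤ 96 * c.K * c.θ := mul_le_mul_of_nonneg_right (by linarith) hθ0.le
    have a2 : 12 * (2 * c.K + 6) * q ≤ 96 * c.K * q := mul_le_mul_of_nonneg_right (by linarith) hq0
    linarith
  have hϑ0 : 0 ≤ c.ϑ := by rw [hϑ]; linarith
  rw [e1] at h
  calc n * c.σ ≤ c.b * (m * (4 * (c.K + 2) * c.θ + 12 * (2 * c.K + 6) * q)) := h1.trans h
    _ ≤ c.b * (648 * c.K ^ 4 * (96 * c.K * c.ϑ)) := by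
        refine mul_le_mul_of_nonneg_left ?_ hb.le
        exact mul_le_mul hm h2 (by positivity) (by positivity)
    _ = 62208 * (c.K ^ 5 * c.b * c.ϑ) := by ring
    _ ≤ 70000 * c.K ^ 5 * c.b * c.ϑ := by
        have : 0 ≤ c.K ^ 5 * c.b * c.ϑ := by positivity
        linarith

/-- **L-252-S7wC-YC** (~300 l.), plan C4 (07 l.733-760).   Fix `ε = (Q, Φ, Φ₁)`, `bn`, the time cell `i`.   `A` = the set of the `Y`-cells `kbBin σ (Y_x)` of the sources `x` as below.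
`k7wcc_targets` : `Lst`; `J = Lst.filter (e/2 ≤ max |H₁ Φ'| |H₂ Φ'|)`, `α = k7wccH1 c W P0 Q Φ ·  i`, `γ = k7wccH2 ..`, `Off Φ' = (S_fine Q Φ').image fun Φ₁' => D(Q,Φ',Φ₁') - D(Q,Φ,Φ₁) - k7wccH0 ..` (`H.fine`, `Finset.card_image_le`).
For `x, y` as below with labels `Φ', Φ₁'` of `y` (`H.lab0`, `H.lab1`): `Φ' ∈ J` (`k7wcc_match_gap` + the gap), and EVERY `Y` of the cell (`k2s_bin_iff`) satisfies `k7wcc_match_U`, `k7wcc_match_val`.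
`k7wcc_ycount` with `w = kbDy σ ≥ σ`, `Kc = K + 2`, `e := e/2`, `δ = (2K+6) a₁`, `n = n₁` :  `#A σ ≤ b · 648 K⁴ (4 (K+2) θ + 12 n₁ (2K+6) a₁/(e θ)) ≤ b · 648 K⁴ · 96 K ϑ`. -/
theorem k7wcc_ycells (H : K7wccHyp c W P0 P1 E Ms Ws) (hs : c.Sm) (ε : W.Q × P0.Ph × P1.Ph) (bn i : ℤ) :
    ∃ Yc : Finset ℤ, (Yc.card : ℝ) * c.σ ≤ 70000 * c.K ^ 5 * c.b * c.ϑ ∧
      ∀ x ∈ E, ∀ y ∈ E, x ∈ k7wccEnt W P0 P1 ε → kbBin c.σ x.2 = i → W.stt c.σ c.pw y = W.stt c.σ c.pw x → W.vbin y.1 = bn → k7wccGap c W P0 x y →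
        kbBin c.σ (W.Y x.1 x.2) ∈ Yc := by
  classical
  obtain ⟨Q, Φ, Φ₁⟩ := ε
  obtain ⟨hσ, ha1, -, hb, hK0⟩ := k7wcc_msm hs
  have hK1 := hs.K1
  obtain ⟨Lst, hLc, hLst⟩ := k7wcc_targets H hs Q Φ bn i
  choose Sf hSfc hSf using fun φ0' : P0.Ph => H.fine Q φ0'
  set J : Finset P0.Ph := Lst.filter fun Φ' => c.e / 2 ≤ max |k7wccH1 c W P0 Q Φ Φ' i| |k7wccH2 c W P0 Q Φ Φ' i| with hJ
  set Off : P0.Ph → Finset ℝ := fun Φ' => (Sf Φ').image fun Φ₁' =>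
    k7wccD c.χ W P0 P1 Q Φ' Φ₁' - k7wccD c.χ W P0 P1 Q Φ Φ₁ - k7wccH0 c W P0 Q Φ Φ' i with hOff
  set A : Set ℤ := {k | ∃ x ∈ E, ∃ y ∈ E, x ∈ k7wccEnt W P0 P1 (Q, Φ, Φ₁) ∧ kbBin c.σ x.2 = i ∧ W.stt c.σ c.pw y = W.stt c.σ c.pw x ∧
    W.vbin y.1 = bn ∧ k7wccGap c W P0 x y ∧ kbBin c.σ (W.Y x.1 x.2) = k} with hA
  obtain ⟨F, hF, hFc⟩ := k7wcc_ycount J (fun Φ' => k7wccH1 c W P0 Q Φ Φ' i) (fun Φ' => k7wccH2 c W P0 Q Φ Φ' i) Off
    (w := kbDy c.σ) (b := c.b) (y0 := k7wccY0 c W P0 Q Φ i) (Kc := c.K + 2) (e := c.e / 2) (δ := (2 * c.K + 6) * c.a1) (θ := c.θ) (n := c.n1)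
    (k2s_dy_pos _) hb (by linarith) (by linarith [hs.e0]) hs.θ0 hs.θ1 (by positivity)
    (fun j hj => (Finset.mem_filter.1 hj).2)
    (fun j _ => le_trans (by exact_mod_cast Finset.card_image_le) (hSfc j)) A
    (by
      rintro k ⟨x, hx, y, hy, ⟨hQ, h0, h1⟩, hi, hst, hbn, hgap, hk⟩ Y hY
      have hQ' : W.labQ x = Q := hQ
      have h0' : P0.lab x.1 = some Φ := h0
      have h1' : P1.lab x.1 = some Φ₁ := h1
      have hYk : kbBin c.σ Y = kbBin c.σ (W.Y x.1 x.2) := by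
        rw [hk]
        exact (k2s_bin_iff _ _ _).2 hY
      obtain ⟨Φ', g0⟩ := Option.ne_none_iff_exists'.1 (H.lab0 y hy)
      obtain ⟨Φ₁', g1⟩ := Option.ne_none_iff_exists'.1 (H.lab1 y hy)
      have hU := k7wcc_match_U H hs hx h0' hi hYk
      have hV := k7wcc_match_val H hs hx hy h0' h1' g0 g1 hi hst hYk
      obtain ⟨hG1, hG2⟩ := k7wcc_match_gap H hs hx hy h0' g0 hi hst
      have hQy : W.labQ y = Q := (k7wcc_close H hs hx hy h0' hi hst).1.trans hQ'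
      rw [hQ'] at hU hV hG1 hG2
      refine ⟨hU, Φ', Finset.mem_filter.2 ⟨hLst x hx y hy hQ' h0' hi hst hbn Φ' g0, ?_⟩, _,
        Finset.mem_image.2 ⟨Φ₁', hSf Φ' y hy hQy g0 Φ₁' g1, rfl⟩, hV⟩
      rcases hgap with hg | hg
      · refine le_max_of_le_left ?_
        have h3 := abs_sub_abs_le_abs_sub (k7wccF1 W P0 c.b x - k7wccF1 W P0 c.b y) (k7wccH1 c W P0 Q Φ Φ' i)
        rw [abs_sub_comm _ (k7wccH1 c W P0 Q Φ Φ' i)] at h3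
        linarith
      · refine le_max_of_le_right ?_
        rw [hG2]
        linarith [hs.e0])
  refine ⟨F, ?_, fun x hx y hy hxε hi hst hbn hgap => ?_⟩
  · refine k7wcc_yc_arith hs (Nat.cast_nonneg _) ?_ hFc
    refine le_trans ?_ hLc
    exact_mod_cast Finset.card_filter_le _ _
  · have : kbBin c.σ (W.Y x.1 x.2) ∈ (↑F : Set ℤ) := by
      rw [hF]
      exact ⟨x, hx, y, hy, hxε, hi, hst, hbn, hgap, rfl⟩
    exact this

/-- elementary consequences of `c.Sm` -/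
theorem k7wcc_sm_pos (hs : c.Sm) : 0 < c.σ ∧ 0 < c.a1 ∧ c.a1 ≤ 1 ∧ 0 < c.b ∧ 0 ≤ c.ϑ ∧ 0 < c.K := by
  have hN0 : 0 < c.N := lt_trans one_pos hs.N1
  refine ⟨Real.rpow_pos_of_pos hN0 _, Real.rpow_pos_of_pos hN0 _, ?_, mul_pos hs.h0 hs.g0, ?_, lt_of_lt_of_le one_pos hs.K1⟩
  · exact Real.rpow_le_one_of_one_le_of_nonpos hs.N1.le (by linarith [hs.r10])
  · have h1 : 0 < c.a1 := Real.rpow_pos_of_pos hN0 _
    have h2 : 0 ≤ c.n1 * c.a1 / (c.e * c.θ) := div_nonneg (mul_nonneg hs.n10 h1.le) (mul_pos hs.e0 hs.θ0).le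
    unfold K7wccPar.ϑ
    linarith [hs.θ0]

/-- **the bad cells** (proved from the leaves): time cells of the block, `Z`-cells around the central fibre, `k7wcc_ycells` -/
theorem k7wcc_cells (H : K7wccHyp c W P0 P1 E Ms Ws) (hs : c.Sm) (ε : W.Q × P0.Ph × P1.Ph) (bn : ℤ) :
    ∃ Cs : Finset (ℤ × ℤ × ℤ), (Cs.card : ℝ) * c.σ ^ 3 ≤ 2 * 10 ^ 6 * c.K ^ 6 * (W.q * (W.q * c.g) * c.χ) * c.ϑ ∧
      ∀ x ∈ E, ∀ y ∈ E, x ∈ k7wccEnt W P0 P1 ε → W.stt c.σ c.pw y = W.stt c.σ c.pw x → W.vbin y.1 = bn → k7wccGap c W P0 x y → W.bc c.σ x ∈ Cs := by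
  obtain ⟨hσ, ha1, ha1', hb, hϑ, hK0⟩ := k7wcc_sm_pos hs
  have hK1 := hs.K1
  have hq0 : 0 < W.q := by unfold K7aW.q; positivity
  have hχ0 := hs.χ0
  obtain ⟨Ti, hTi, hTi'⟩ := k2s_bin_ball hσ (by positivity : 0 ≤ W.q / 2) (W.tq ε.1 + W.q / 2)
  choose Zc hZc hZc' using fun i : ℤ => k2s_bin_ball hσ (by positivity : 0 ≤ 5 * c.χ) (P0.zc c.χ ε.2.1 (c.ti i))
  choose Yc hYc hYc' using fun i : ℤ => k7wcc_ycells H hs ε bn i
  -- smallness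
  have hK2 : 1 ≤ c.K ^ 2 := one_le_pow₀ hK1
  have hσχ : 100 * c.σ ≤ c.χ := by nlinarith [hs.σχ]
  have hχb : 100 * c.K * c.χ ≤ c.b := by nlinarith [hs.χb]
  have hbh : c.b ≤ c.h := by unfold K7wccPar.b; nlinarith [hs.g1, hs.h0]
  have hqlo : c.h ≤ c.K * W.q := H.w.q_lo
  have hσq : 2 * c.σ ≤ W.q := by nlinarith
  have hnT : (Ti.card : ℝ) ≤ 2 * W.q / c.σ := by
    refine hTi.trans ?_
    rw [div_add' _ _ _ hσ.ne', div_le_div_iff_of_pos_right hσ]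
    linarith
  have hnZ : ∀ i ∈ Ti, ((Zc i).card : ℝ) ≤ 11 * c.χ / c.σ := fun i _ => by
    refine (hZc i).trans ?_
    rw [div_add' _ _ _ hσ.ne', div_le_div_iff_of_pos_right hσ]
    linarith
  have hnY : ∀ i ∈ Ti, ((Yc i).card : ℝ) ≤ 70000 * c.K ^ 5 * c.b * c.ϑ / c.σ := fun i _ => by
    rw [le_div_iff₀ hσ]
    exact hYc i
  obtain ⟨Cs, hCs, hcard⟩ := k7wcc_card3 Ti Zc Yc (by positivity) (by positivity) hnT hnZ hnY
  refine ⟨Cs, ?_, fun x hx y hy hxε hst hbn hgap => ?_⟩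
  · have e1 : 2 * W.q / c.σ * (11 * c.χ / c.σ) * (70000 * c.K ^ 5 * c.b * c.ϑ / c.σ) * c.σ ^ 3 = 1540000 * c.K ^ 5 * (W.q * c.b * c.χ) * c.ϑ := by
      field_simp
      ring
    have hbq : c.b ≤ c.K * (W.q * c.g) := by
      unfold K7wccPar.b
      nlinarith [hs.g0]
    calc (Cs.card : ℝ) * c.σ ^ 3 ≤ 2 * W.q / c.σ * (11 * c.χ / c.σ) * (70000 * c.K ^ 5 * c.b * c.ϑ / c.σ) * c.σ ^ 3 :=
          mul_le_mul_of_nonneg_right hcard (by positivity)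
      _ = 1540000 * c.K ^ 5 * (W.q * c.b * c.χ) * c.ϑ := e1
      _ ≤ 1540000 * c.K ^ 5 * (W.q * (c.K * (W.q * c.g)) * c.χ) * c.ϑ := by gcongr
      _ = 1540000 * c.K ^ 6 * (W.q * (W.q * c.g) * c.χ) * c.ϑ := by ring
      _ ≤ 2 * 10 ^ 6 * c.K ^ 6 * (W.q * (W.q * c.g) * c.χ) * c.ϑ := by
          have := hs.g0
          gcongr
          norm_num
  · obtain ⟨hQ, h0, h1⟩ := hxε
    obtain ⟨-, -, -, -, hblk, -, -, -⟩ := k7wcc_inc H hs hx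
    obtain ⟨-, -, -, -, -, -, -, hZ⟩ := k7wcc_close H hs hx hy h0 rfl hst
    refine hCs _ _ _ (hTi' _ ?_) (hZc' _ _ hZ) (hYc' _ x hx y hy ⟨hQ, h0, h1⟩ rfl hst hbn hgap)
    rw [hQ] at hblk
    have h2 : W.tq ε.1 ≤ x.2 := hblk.1
    have h3 : x.2 < ((W.iv ε.1 : ℝ) + 1) * W.q := hblk.2
    have h4 : ((W.iv ε.1 : ℝ) + 1) * W.q = W.tq ε.1 + W.q := by unfold K7aW.tq; ring
    rw [abs_le]
    constructor <;> linarith

/-! ## 3. Caps, budget, covering sets -/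

/-- the numerics of `k7wcc_ecap` -/
theorem k7wcc_ecap_num {K σ β g a dt dy c1 : ℝ} (hK : 1 ≤ K) (hσ : 0 < σ) (hβ : 0 < β) (hβK : β ≤ K * g) (hg : g ≤ 1) (hs : 2000 * K ^ 4 * σ ≤ a * β)
    (hdt0 : 0 ≤ dt) (hdt : dt ≤ 2 * σ) (hdy0 : 0 ≤ dy) (hdy : dy ≤ 2 * σ) (hc0 : 0 ≤ c1) (hc1 : c1 ≤ K + 2 * (K * β)) :
    48 * K * K * (dt + (dy + c1 * dt) / β) ≤ a := by
  have hK0 : 0 < K := lt_of_lt_of_le one_pos hK
  have hβ1 : β ≤ K := hβK.trans (by nlinarith)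
  have hK2 : K ≤ K ^ 2 := by nlinarith
  have hc2 : c1 ≤ 3 * K ^ 2 := by nlinarith
  have h1 : c1 * dt ≤ 3 * K ^ 2 * (2 * σ) := mul_le_mul hc2 hdt hdt0 (by positivity)
  have h2 : dt * β ≤ 2 * σ * K := mul_le_mul hdt hβ1 hβ.le (by positivity)
  have h3 : dt + (dy + c1 * dt) / β = (dt * β + (dy + c1 * dt)) / β := by
    field_simp
  have h4 : dt * β + (dy + c1 * dt) ≤ 10 * K ^ 2 * σ := by nlinarith
  rw [h3, ← mul_div_assoc, div_le_iff₀ hβ]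
  calc 48 * K * K * (dt * β + (dy + c1 * dt)) ≤ 48 * K * K * (10 * K ^ 2 * σ) := mul_le_mul_of_nonneg_left h4 (by positivity)
    _ = 480 * K ^ 4 * σ := by ring
    _ ≤ 2000 * K ^ 4 * σ := by
        have : 0 ≤ K ^ 4 * σ := by positivity
        nlinarith
    _ ≤ a * β := hs

/-- **L-252-S7wC-ECAP** (~250 l.)  (07 l.772-776).   `k7wc_cells_var` with `M = c.M`, `r = c.r1`, `κ = K`, `Rg = {z ∈ Ev0 | lab₁ = Φ₁, bc ∈ Cs}`, `G z = F_{Φ₁}(t, Y_z(t))`, `V` from `k7wc_pal_sum` (`m = vi Φ₁`, `l1.grp`, `H.χ0`, `χ0_pos`).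
`|X - G| ≤ K a₁` on `Rg` (`l1.fit`, `Ev0_sub`).   Two points of `Rg` in one cell: `|t - t'|, |Y - Y'| ≤ 2σ`; `k7wcc_lip` with `lam = K` (`|t| ≤ 1 ≤ K`), `|c1| ≤ K + 2Kβ₁ ≤ 3K²` (`k7wcc_cen_bd`, `β₁ ≤ K g ≤ K`):
`48 K² (2σ + (2σ + 6K²σ)/β₁) ≤ 480 K⁴ σ/β₁ ≤ a₁` (`hs.σ1`).   `lam0 A = lam0 (A ∩ Ev0)` (`k7wc_lam0_apply`). -/
theorem k7wcc_ecap (H : K7wccHyp c W P0 P1 E Ms Ws) (hs : c.Sm) (φ1 : P1.Ph) (Cs : Finset (ℤ × ℤ × ℤ)) :
    W.lam0 {z | P1.lab z.1 = some φ1 ∧ W.bc c.σ z ∈ Cs}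
      ≤ ENNReal.ofReal (c.K * (2 * c.K + 5) * c.a1 ^ c.d * c.σ ^ 3) * Cs.card * W.palχ c.χ (P1.vi φ1) := by
  obtain ⟨hσ, ha1, ha1', hb, hϑ, hK0⟩ := k7wcc_sm_pos hs
  have hK1 := hs.K1
  obtain ⟨V, hV, hVsum⟩ := k7wc_pal_sum W.toK7aLn H.w.ln.χ0_pos H.χ0 (P1.vi φ1)
  have hmain := k7wc_cells_var W.toK7aLn H.w.ln hs.N1 hK1 H.hM H.hr1 hK0.le
    {z | z ∈ W.Ev0 ∧ P1.lab z.1 = some φ1 ∧ W.bc c.σ z ∈ Cs} Cs (fun z => (P1.G φ1).F z.2 (W.Y z.1 z.2)) V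
    (fun z hz => hz.2.2) (fun z hz => hV _ (H.l1.grp z.1 φ1 hz.2.1).2.1)
    (fun z hz z' hz' hbc => by
      have ht := (H.w.ln.Ev0_sub hz.1).2
      have ht' := (H.w.ln.Ev0_sub hz'.1).2
      have hbc' : W.bc c.σ z = W.bc c.σ z' := hbc
      unfold K7aLn.bc at hbc'
      rw [Prod.mk.injEq, Prod.mk.injEq] at hbc'
      have d1 := k7wc_bin_close hσ hbc'.1
      have d2 := k7wc_bin_close hσ hbc'.2.2
      have hc1 := k7wcc_cen_bd W.toK7aLn P1 H.w.ln H.l1 hz.2.1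
      have hlip := k7wcc_lip (P1.G φ1) (H.l1.quad φ1) hs.β10 (H.l1.norm φ1) hK1 (t := z.2) (t' := z'.2) (y := W.Y z.1 z.2) (y' := W.Y z'.1 z'.2)
        (by rw [abs_of_nonneg ht.1]; exact ht.2.trans hK1) (by rw [abs_of_nonneg ht'.1]; exact ht'.2.trans hK1)
        (H.l1.fit z.1 φ1 hz.2.1 z.2 ht).1 (H.l1.fit z'.1 φ1 hz'.2.1 z'.2 ht').1
      exact hlip.trans (k7wcc_ecap_num hK1 hσ hs.β10 hs.β1K hs.g1 hs.σ1 (abs_nonneg _) d1 (abs_nonneg _) d2 (abs_nonneg _) hc1))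
  have e0 : W.lam0 {z | P1.lab z.1 = some φ1 ∧ W.bc c.σ z ∈ Cs}
      ≤ W.lam0 ({z | z ∈ W.Ev0 ∧ P1.lab z.1 = some φ1 ∧ W.bc c.σ z ∈ Cs} ∩ {z | |W.X z.1 z.2 - (P1.G φ1).F z.2 (W.Y z.1 z.2)| ≤ c.K * c.N ^ (-c.r1)}) := by
    rw [k7wc_lam0_apply W.toK7aLn H.w.ln, k7wc_lam0_apply W.toK7aLn H.w.ln]
    refine measure_mono ?_
    rintro z ⟨⟨h1, h2⟩, h3⟩
    exact ⟨⟨⟨h3, h1, h2⟩, (H.l1.fit z.1 φ1 h1 z.2 (H.w.ln.Ev0_sub h3).2).2⟩, h3⟩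
  refine e0.trans (hmain.trans ?_)
  exact mul_le_mul' le_rfl hVsum

open Classical in
/-- **L-252-S7wC-BUD** (~250 l.), plan C3 (07 l.655-660, 706-708).   The occurring source entries.   `k7wc_slice` for `P1` with `ρ = q`, `γ = g`, `m = q g`, `Kg = K` (`q g ≤ K b ≤ β₁ ≤ K g`, `q ≤ 1`) : `Ent`, `∑_Ent cT ≤ 48 K⁴`.
Choose a witness `p_ε ∈ E` of every occurring `ε`; `f ε = (ε.2.2, sdom p_ε) ∈ Ent`.   Fibre over `(Φ₁, D)` : `Φ ∈ S_back Φ₁ D` (`H.back`), `Q ∈ S_bwd Φ D` (`H.lists.bwd`): `≤ K²` entries (injection into a `Finset.sigma`/`biUnion`).   `k7wcc_sum_fiber`. -/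
theorem k7wcc_budget (H : K7wccHyp c W P0 P1 E Ms Ws) (hs : c.Sm) :
    ∑ ε ∈ Finset.univ.filter (fun ε : W.Q × P0.Ph × P1.Ph => ∃ p ∈ E, p ∈ k7wccEnt W P0 P1 ε), P1.cT c.χ c.a1 c.d W.q (W.q * c.g) ε.2.2
      ≤ ENNReal.ofReal (48 * c.K ^ 6) := by
  obtain ⟨hσ, ha1, ha1', hb, hϑ, hK0⟩ := k7wcc_sm_pos hs
  have hK1 := hs.K1
  have hq0 : 0 < W.q := by unfold K7aW.q; positivity
  have hq1 : W.q ≤ 1 := by unfold K7aW.q; exact pow_le_one₀ (by norm_num) (by norm_num)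
  have hg0 := hs.g0
  have hqg : W.q * c.g ≤ c.β1 := by
    have h1 : W.q ≤ c.K * c.h := H.w.q_hi
    have h2 : c.K * c.b ≤ c.β1 := hs.bβ1
    unfold K7wccPar.b at h2
    nlinarith
  obtain ⟨Ent, hEnt, hsum⟩ := k7wc_slice W.toK7aLn P1 H.w.ln H.l1 hK1 hs.χ0.le ha1.le hq0 hq1 hg0 (mul_pos hq0 hg0) hqg hK1 hs.β1K
  set S : Finset (W.Q × P0.Ph × P1.Ph) := Finset.univ.filter (fun ε : W.Q × P0.Ph × P1.Ph => ∃ p ∈ E, p ∈ k7wccEnt W P0 P1 ε) with hS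
  set f : W.Q × P0.Ph × P1.Ph → P1.Ph × (ℤ × ℤ × ℤ) := fun ε =>
    if h : ∃ p ∈ E, p ∈ k7wccEnt W P0 P1 ε then (ε.2.2, W.sdom W.q c.g (W.q * c.g) h.choose) else (ε.2.2, (0, 0, 0)) with hf
  have hf1 : ∀ ε, (f ε).1 = ε.2.2 := fun ε => by
    simp only [hf]
    split_ifs <;> rfl
  have hfw : ∀ ε ∈ S, ∃ p ∈ E, p ∈ k7wccEnt W P0 P1 ε ∧ f ε = (ε.2.2, W.sdom W.q c.g (W.q * c.g) p) := fun ε hε => by
    have h : ∃ p ∈ E, p ∈ k7wccEnt W P0 P1 ε := (Finset.mem_filter.1 hε).2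
    refine ⟨h.choose, h.choose_spec.1, h.choose_spec.2, ?_⟩
    simp only [hf]
    rw [dif_pos h]
  have hmap : ∀ ε ∈ S, f ε ∈ Ent := fun ε hε => by
    obtain ⟨p, hp, hpε, hfp⟩ := hfw ε hε
    rw [hfp]
    exact hEnt p (H.sub hp) _ hpε.2.2
  have hfib : ∀ b ∈ Ent, ((S.filter fun ε => f ε = b).card : ℝ) ≤ c.K ^ 2 := fun b _ => by
    obtain ⟨Sb, hSb, hSb'⟩ := H.back b.1 b.2
    choose Sq hSq hSq' using fun φ0 : P0.Ph => H.lists.bwd φ0 b.2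
    have hsub : (S.filter fun ε => f ε = b) ⊆ Sb.biUnion fun φ0 => (Sq φ0).image fun Q => (Q, φ0, b.1) := by
      intro ε hε
      obtain ⟨hεS, hεb⟩ := Finset.mem_filter.1 hε
      obtain ⟨p, hp, ⟨hQ, h0, h1⟩, hfp⟩ := hfw ε hεS
      rw [hεb] at hfp
      have e1 : b.1 = ε.2.2 := congrArg Prod.fst hfp
      have e2 : b.2 = W.sdom W.q c.g (W.q * c.g) p := congrArg Prod.snd hfp
      rw [← e1] at h1
      refine Finset.mem_biUnion.2 ⟨ε.2.1, hSb' p hp h1 e2.symm _ h0, Finset.mem_image.2 ⟨ε.1, ?_, ?_⟩⟩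
      · rw [← hQ]
        exact hSq' _ p hp h0 e2.symm
      · rw [e1]
    have h1 : ((Sb.biUnion fun φ0 => (Sq φ0).image fun Q => (Q, φ0, b.1)).card : ℝ) ≤ c.K ^ 2 := by
      calc ((Sb.biUnion fun φ0 => (Sq φ0).image fun Q => (Q, φ0, b.1)).card : ℝ)
          ≤ ((∑ φ0 ∈ Sb, ((Sq φ0).image fun Q => (Q, φ0, b.1)).card : ℕ) : ℝ) := by exact_mod_cast Finset.card_biUnion_le
        _ = ∑ φ0 ∈ Sb, (((Sq φ0).image fun Q => (Q, φ0, b.1)).card : ℝ) := by push_cast; rfl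
        _ ≤ ∑ _φ0 ∈ Sb, c.K := Finset.sum_le_sum fun φ0 _ => le_trans (by exact_mod_cast Finset.card_image_le) (hSq φ0)
        _ = Sb.card * c.K := by rw [Finset.sum_const, nsmul_eq_mul]
        _ ≤ c.K * c.K := mul_le_mul_of_nonneg_right hSb hK0.le
        _ = c.K ^ 2 := by ring
    exact le_trans (by exact_mod_cast Finset.card_le_card hsub) h1
  have hmain := k7wcc_sum_fiber S Ent f (fun b => P1.cT c.χ c.a1 c.d W.q (W.q * c.g) b.1) hmap hfib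
  calc ∑ ε ∈ S, P1.cT c.χ c.a1 c.d W.q (W.q * c.g) ε.2.2 = ∑ ε ∈ S, P1.cT c.χ c.a1 c.d W.q (W.q * c.g) (f ε).1 :=
        Finset.sum_congr rfl fun ε _ => by rw [hf1]
    _ ≤ ENNReal.ofReal (c.K ^ 2) * ∑ b ∈ Ent, P1.cT c.χ c.a1 c.d W.q (W.q * c.g) b.1 := hmain
    _ ≤ ENNReal.ofReal (c.K ^ 2) * ENNReal.ofReal (48 * c.K ^ 3 * c.K) := mul_le_mul' le_rfl hsum
    _ = ENNReal.ofReal (48 * c.K ^ 6) := by
        rw [← ENNReal.ofReal_mul (by positivity)]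
        congr 1
        ring

/-- **the covering sets** (proved from the leaves): every source with a bad partner of velocity bin `bn` in its state lies in `Bd bn`, and `Bd bn` is power-small -/
theorem k7wcc_bd (H : K7wccHyp c W P0 P1 E Ms Ws) (hs : c.Sm) :
    ∃ Bd : ℤ → Set (W.L × ℝ), (∀ x ∈ E, ∀ y ∈ E, W.stt c.σ c.pw y = W.stt c.σ c.pw x → k7wccGap c W P0 x y → x ∈ Bd (W.vbin y.1)) ∧
      ∀ bn, W.law E (Bd bn) ≤ ENNReal.ofReal (10 ^ 9 * c.K ^ 14 * c.ϑ) := by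
  classical
  obtain ⟨hσ, ha1, ha1', hb, hϑ, hK0⟩ := k7wcc_sm_pos hs
  have hK1 := hs.K1
  have hq0 : 0 < W.q := by unfold K7aW.q; positivity
  choose Cs hCs hCs' using fun (ε : W.Q × P0.Ph × P1.Ph) (bn : ℤ) => k7wcc_cells H hs ε bn
  refine ⟨fun bn => ⋃ ε, k7wccEnt W P0 P1 ε ∩ {z | W.bc c.σ z ∈ Cs ε bn}, fun x hx y hy hst hgap => ?_, fun bn => ?_⟩
  · obtain ⟨φ0, h0⟩ := Option.ne_none_iff_exists'.1 (H.lab0 x hx)
    obtain ⟨φ1, h1⟩ := Option.ne_none_iff_exists'.1 (H.lab1 x hx)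
    exact Set.mem_iUnion.2 ⟨(W.labQ x, φ0, φ1), ⟨rfl, h0, h1⟩, hCs' _ _ x hx y hy ⟨rfl, h0, h1⟩ hst rfl hgap⟩
  · have hone : ∀ ε : W.Q × P0.Ph × P1.Ph, W.law E (k7wccEnt W P0 P1 ε ∩ {z | W.bc c.σ z ∈ Cs ε bn})
        ≤ if (∃ p ∈ E, p ∈ k7wccEnt W P0 P1 ε) then ENNReal.ofReal (14 * 10 ^ 6 * c.K ^ 8 * c.ϑ) * P1.cT c.χ c.a1 c.d W.q (W.q * c.g) ε.2.2 else 0 := fun ε => by
      split_ifs with hocc
      · have hle : W.law E ≤ W.lam0 := Measure.restrict_mono H.sub le_rfl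
        refine (hle _).trans ((measure_mono ?_).trans ((k7wcc_ecap H hs ε.2.2 (Cs ε bn)).trans ?_))
        · rintro z ⟨⟨-, -, h1⟩, h2⟩
          exact ⟨h1, h2⟩
        · unfold K7aLayer.cT
          rw [← mul_assoc]
          refine mul_le_mul' ?_ le_rfl
          rw [← ENNReal.ofReal_natCast, ← ENNReal.ofReal_mul (by positivity), ← ENNReal.ofReal_mul (by positivity)]
          refine ENNReal.ofReal_le_ofReal ?_
          have hd : 0 < c.a1 ^ c.d := Real.rpow_pos_of_pos ha1 _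
          have h7 : c.K * (2 * c.K + 5) ≤ 7 * c.K ^ 2 := by nlinarith
          have hg0 := hs.g0
          have hχ0 := hs.χ0
          calc c.K * (2 * c.K + 5) * c.a1 ^ c.d * c.σ ^ 3 * ((Cs ε bn).card : ℝ)
              = c.K * (2 * c.K + 5) * c.a1 ^ c.d * (((Cs ε bn).card : ℝ) * c.σ ^ 3) := by ring
            _ ≤ 7 * c.K ^ 2 * c.a1 ^ c.d * (2 * 10 ^ 6 * c.K ^ 6 * (W.q * (W.q * c.g) * c.χ) * c.ϑ) :=
                mul_le_mul (mul_le_mul_of_nonneg_right h7 hd.le) (hCs ε bn) (by positivity) (by positivity)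
            _ = 14 * 10 ^ 6 * c.K ^ 8 * c.ϑ * (W.q * (W.q * c.g) * (c.χ * c.a1 ^ c.d)) := by ring
      · have hemp : k7wccEnt W P0 P1 ε ∩ {z | W.bc c.σ z ∈ Cs ε bn} ∩ E = ∅ := by
          apply Set.eq_empty_of_forall_notMem
          rintro z ⟨⟨h1, -⟩, h2⟩
          exact hocc ⟨z, h2, h1⟩
        unfold K7aLn.law
        rw [Measure.restrict_apply' H.mE, hemp, measure_empty]
    calc W.law E (⋃ ε, k7wccEnt W P0 P1 ε ∩ {z | W.bc c.σ z ∈ Cs ε bn})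
        ≤ ∑ ε, W.law E (k7wccEnt W P0 P1 ε ∩ {z | W.bc c.σ z ∈ Cs ε bn}) := measure_iUnion_fintype_le _ _
      _ ≤ ∑ ε : W.Q × P0.Ph × P1.Ph, if (∃ p ∈ E, p ∈ k7wccEnt W P0 P1 ε) then
            ENNReal.ofReal (14 * 10 ^ 6 * c.K ^ 8 * c.ϑ) * P1.cT c.χ c.a1 c.d W.q (W.q * c.g) ε.2.2 else 0 := Finset.sum_le_sum fun ε _ => hone ε
      _ = ENNReal.ofReal (14 * 10 ^ 6 * c.K ^ 8 * c.ϑ) *
            ∑ ε ∈ Finset.univ.filter (fun ε : W.Q × P0.Ph × P1.Ph => ∃ p ∈ E, p ∈ k7wccEnt W P0 P1 ε), P1.cT c.χ c.a1 c.d W.q (W.q * c.g) ε.2.2 := by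
          rw [← Finset.sum_filter, Finset.mul_sum]
      _ ≤ ENNReal.ofReal (14 * 10 ^ 6 * c.K ^ 8 * c.ϑ) * ENNReal.ofReal (48 * c.K ^ 6) := mul_le_mul' le_rfl (k7wcc_budget H hs)
      _ ≤ ENNReal.ofReal (10 ^ 9 * c.K ^ 14 * c.ϑ) := by
          rw [← ENNReal.ofReal_mul (by positivity)]
          refine ENNReal.ofReal_le_ofReal ?_
          have e1 : 14 * 10 ^ 6 * c.K ^ 8 * c.ϑ * (48 * c.K ^ 6) = 672000000 * (c.K ^ 14 * c.ϑ) := by ring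
          have e2 : (10 : ℝ) ^ 9 * c.K ^ 14 * c.ϑ = 1000000000 * (c.K ^ 14 * c.ϑ) := by ring
          rw [e1, e2]
          have : 0 ≤ c.K ^ 14 * c.ϑ := by positivity
          linarith

/-! ## 4. Stage C with explicit slack -/

theorem k7wcc_F1_some {b : ℝ} {p : W.L × ℝ} {φ : P0.Ph} (h : P0.lab p.1 = some φ) : k7wccF1 W P0 b p = k7wF1 (P0.G φ).F b p.2 (W.yq p) := by
  unfold k7wccF1
  rw [h]
  rfl

theorem k7wcc_F2_some {b : ℝ} {p : W.L × ℝ} {φ : P0.Ph} (h : P0.lab p.1 = some φ) : k7wccF2 W P0 b p = k7wF2 (P0.G φ).F b p.2 (W.yq p) := by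
  unfold k7wccF2
  rw [h]
  rfl

/-- **STAGE C, explicit slack** (proved from the leaves) -/
theorem k7wcc_core (H : K7wccHyp c W P0 P1 E Ms Ws) (hs : c.Sm) :
    ∃ (E' : Set (W.L × ℝ)) (c1 c2 : W.Q × (ℤ × ℤ × ℤ × ℤ) → ℝ), E' ⊆ E ∧ MeasurableSet E' ∧ 1 ≤ ENNReal.ofReal (2 * c.K) * W.prior E' ∧
      K7wField W P0 E' (128 * c.K ^ 6) c.e c.b c.σ c.pw c1 c2 := by
  classical
  obtain ⟨hσ, ha1, ha1', hb, hϑ, hK0⟩ := k7wcc_sm_pos hs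
  have hK1 := hs.K1
  obtain ⟨hfin, hpri⟩ := k7wcc_fin H
  have := hfin
  have hst : KsLab (W.stt c.σ c.pw) := k7wcc_lab_stt H _ _
  have hle0 : W.law E ≤ W.lam0 := Measure.restrict_mono H.sub le_rfl
  have : IsFiniteMeasure (W.law E) := by unfold K7aLn.law; infer_instance
  -- C1: domination
  obtain ⟨Ref, hRef, hRsum⟩ := k7wcc_ref H hs
  have hdom0 : KsDom (W.law E) W.hist W.vT (fun _ b => W.pi b) Ref (ENNReal.ofReal c.K) := ks_dom_mono hRef hle0 (fun _ _ => le_rfl) (fun _ => le_rfl) le_rfl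
  obtain ⟨n, hn, hopt⟩ := H.w.opt c.M H.hM c.rw H.hrw
  have hopt0 : KsOpt (W.law E) W.hist (W.stt c.σ c.pw) n := fun s0 => by
    obtain ⟨L, hL, hL0⟩ := hopt s0
    exact ⟨L, hL, fun d0 hd0 => le_antisymm ((hle0 _).trans (hL0 d0 hd0).le) zero_le⟩
  obtain ⟨G1, A, B, hG1, hG1c, hA, hB, hcond1⟩ := k7wcc_dom_prune (W.law E) H.w.ln.m_hist hst hdom0 n hopt0 (ENNReal.ofReal (8 * c.K ^ 4)) (ENNReal.ofReal (8 * c.K))
  have hE1 : MeasurableSet (E ∩ G1) := H.mE.inter hG1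
  have hlaw1 : (W.law E).restrict G1 = W.law (E ∩ G1) := by
    unfold K7aLn.law
    rw [Measure.restrict_restrict hG1, Set.inter_comm]
  rw [hlaw1] at hcond1
  have : IsFiniteMeasure (W.law (E ∩ G1)) := by unfold K7aLn.law; infer_instance
  -- C4: the covering sets
  obtain ⟨Bd, hBd, hBdle⟩ := k7wcc_bd H hs
  obtain ⟨hF1, hF2⟩ := k7wcc_meas_F H (P0 := P0) c.b
  set Bad : Set ((W.L × ℝ) × (W.L × ℝ)) := {z | z.1 ∈ E ∩ G1 ∧ z.2 ∈ E ∩ G1 ∧ k7wccGap c W P0 z.1 z.2} with hBaddef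
  have hBadm : MeasurableSet Bad := by
    have h1 : MeasurableSet {z : (W.L × ℝ) × (W.L × ℝ) | c.e < |k7wccF1 W P0 c.b z.1 - k7wccF1 W P0 c.b z.2|} :=
      measurableSet_lt measurable_const ((hF1.comp measurable_fst).sub (hF1.comp measurable_snd)).abs
    have h2 : MeasurableSet {z : (W.L × ℝ) × (W.L × ℝ) | c.e < |k7wccF2 W P0 c.b z.1 - k7wccF2 W P0 c.b z.2|} :=
      measurableSet_lt measurable_const ((hF2.comp measurable_fst).sub (hF2.comp measurable_snd)).abs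
    exact (measurable_fst hE1).inter ((measurable_snd hE1).inter (h1.union h2))
  have hsub : ∀ z ∈ Bad, W.stt c.σ c.pw z.1 = W.stt c.σ c.pw z.2 → z.1 ∈ Bd ((fun p : W.L × ℝ => W.vbin p.1) z.2) := fun z hz h =>
    hBd z.1 hz.1.1 z.2 hz.2.1.1 h.symm hz.2.2
  have hle1 : W.law (E ∩ G1) ≤ W.law E := Measure.restrict_mono Set.inter_subset_left le_rfl
  have hη : ∑' b, W.pi b * W.law (E ∩ G1) (Bd b) ≤ ENNReal.ofReal (10 ^ 9 * c.K ^ 14 * c.ϑ) := by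
    calc ∑' b, W.pi b * W.law (E ∩ G1) (Bd b) ≤ ∑' b, W.pi b * ENNReal.ofReal (10 ^ 9 * c.K ^ 14 * c.ϑ) :=
          ENNReal.tsum_le_tsum fun b => mul_le_mul' le_rfl ((hle1 _).trans (hBdle b))
      _ = (∑' b, W.pi b) * ENNReal.ofReal (10 ^ 9 * c.K ^ 14 * c.ϑ) := ENNReal.tsum_mul_right
      _ ≤ 1 * ENNReal.ofReal (10 ^ 9 * c.K ^ 14 * c.ϑ) := mul_le_mul' (k7wcc_pal H) le_rfl
      _ = _ := one_mul _
  have hne : Nonempty (W.L × ℝ) := by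
    by_contra hcon
    rw [not_nonempty_iff] at hcon
    have h0 : W.prior E = 0 := by
      rw [Set.eq_empty_of_isEmpty E, measure_empty]
    have := H.mass
    rw [h0, mul_zero] at this
    exact absurd this (by simp)
  have hA0 : W.law (E ∩ G1) (E ∩ G1)ᶜ = 0 := by
    unfold K7aLn.law
    rw [Measure.restrict_apply hE1.compl, Set.compl_inter_self, measure_empty]
  -- C5
  obtain ⟨rep, G2, hG2, hrep, hloss2, hcond2⟩ := k7wcc_select (W.law (E ∩ G1)) (W.stt c.σ c.pw) hst (fun p : W.L × ℝ => W.vbin p.1) (fun b => W.pi b)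
    (ENNReal.ofReal c.K * ENNReal.ofReal (8 * c.K ^ 4) * ENNReal.ofReal (8 * c.K)) hcond1 (E ∩ G1) hE1 hA0 Bad hBadm Bd hsub _ hη
  have hlaw2 : (W.law (E ∩ G1)).restrict G2 = W.law (E ∩ G1 ∩ G2) := by
    unfold K7aLn.law
    rw [Measure.restrict_restrict hG2, Set.inter_comm]
  rw [hlaw2] at hcond2
  have hconst : 2 * (ENNReal.ofReal c.K * ENNReal.ofReal (8 * c.K ^ 4) * ENNReal.ofReal (8 * c.K)) = ENNReal.ofReal (128 * c.K ^ 6) := by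
    rw [← ENNReal.ofReal_mul hK0.le, ← ENNReal.ofReal_mul (by positivity), show (2 : ℝ≥0∞) = ENNReal.ofReal 2 by simp, ← ENNReal.ofReal_mul (by norm_num)]
    congr 1
    ring
  have hK6 : 1 ≤ 128 * c.K ^ 6 := by
    have : 1 ≤ c.K ^ 6 := one_le_pow₀ hK1
    linarith
  refine ⟨E ∩ G1 ∩ G2, fun s => k7wccF1 W P0 c.b (rep s), fun s => k7wccF2 W P0 c.b (rep s), fun p hp => hp.1.1, hE1.inter hG2, ?_, ⟨fun p hp φ hφ => ?_, fun s bn => ?_⟩⟩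
  · -- mass
    have hm : W.prior E ≤ W.prior (E ∩ G1 ∩ G2) + W.law E A + W.law E B + W.law (E ∩ G1) G2ᶜ := by
      have e1 : W.law E A = W.prior (A ∩ E) := by unfold K7aLn.law; rw [Measure.restrict_apply' H.mE]
      have e2 : W.law E B = W.prior (B ∩ E) := by unfold K7aLn.law; rw [Measure.restrict_apply' H.mE]
      have e3 : W.law (E ∩ G1) G2ᶜ = W.prior (G2ᶜ ∩ (E ∩ G1)) := by unfold K7aLn.law; rw [Measure.restrict_apply' hE1]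
      rw [e1, e2, e3]
      have hcov : E ⊆ ((E ∩ G1 ∩ G2 ∪ A ∩ E) ∪ B ∩ E) ∪ G2ᶜ ∩ (E ∩ G1) := by
        intro p hp
        by_cases h1 : p ∈ G1
        · by_cases h2 : p ∈ G2
          · exact Or.inl (Or.inl (Or.inl ⟨⟨hp, h1⟩, h2⟩))
          · exact Or.inr ⟨h2, hp, h1⟩
        · rcases hG1c h1 with h | h
          · exact Or.inl (Or.inl (Or.inr ⟨h, hp⟩))
          · exact Or.inl (Or.inr ⟨h, hp⟩)
      refine (measure_mono hcov).trans ?_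
      refine (measure_union_le _ _).trans (add_le_add ?_ le_rfl)
      refine (measure_union_le _ _).trans (add_le_add ?_ le_rfl)
      exact measure_union_le _ _
    have h8 : (8 : ℝ≥0∞) = ENNReal.ofReal 8 := by simp
    have hKK : ∀ x : ℝ≥0∞, ENNReal.ofReal (c.K ^ 3) * (8 * ENNReal.ofReal c.K * x) = ENNReal.ofReal (8 * c.K ^ 4) * x := fun x => by
      rw [h8, ← ENNReal.ofReal_mul (by norm_num), ← mul_assoc, ← ENNReal.ofReal_mul (by positivity)]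
      congr 2
      ring
    have hK3 : ENNReal.ofReal (c.K ^ 3) ≠ 0 := by
      rw [Ne, ENNReal.ofReal_eq_zero, not_le]
      positivity
    have ha : 8 * ENNReal.ofReal c.K * W.law E A ≤ 1 := by
      have h1 : ENNReal.ofReal (c.K ^ 3) * (8 * ENNReal.ofReal c.K * W.law E A) ≤ ENNReal.ofReal (c.K ^ 3) * 1 := by
        rw [hKK, mul_one]
        refine hA.trans ?_
        calc (n : ℝ≥0∞) * ∑' e, Ref e ≤ ENNReal.ofReal c.K * ENNReal.ofReal (c.K ^ 2) := by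
              refine mul_le_mul' ?_ hRsum
              rw [← ENNReal.ofReal_natCast]
              exact ENNReal.ofReal_le_ofReal hn
          _ = ENNReal.ofReal (c.K ^ 3) := by
              rw [← ENNReal.ofReal_mul hK0.le]
              congr 1
              ring
      exact (ENNReal.mul_le_mul_iff_right hK3 ENNReal.ofReal_ne_top).1 h1
    have hb' : 8 * ENNReal.ofReal c.K * W.law E B ≤ 1 := by
      have e1 : 8 * ENNReal.ofReal c.K = ENNReal.ofReal (8 * c.K) := by rw [h8, ← ENNReal.ofReal_mul (by norm_num)]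
      rw [e1]
      refine hB.trans ?_
      unfold K7aLn.law
      rw [Measure.restrict_apply_univ]
      exact (measure_mono (Set.subset_univ _)).trans hpri
    have hc' : 8 * ENNReal.ofReal c.K * W.law (E ∩ G1) G2ᶜ ≤ 1 := by
      refine (mul_le_mul' le_rfl hloss2).trans ?_
      have e0 : 8 * ENNReal.ofReal c.K * (3 * (ENNReal.ofReal c.K * ENNReal.ofReal (8 * c.K ^ 4) * ENNReal.ofReal (8 * c.K) * ENNReal.ofReal (10 ^ 9 * c.K ^ 14 * c.ϑ)))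
          = ENNReal.ofReal (8 * c.K * (3 * (c.K * (8 * c.K ^ 4) * (8 * c.K) * (10 ^ 9 * c.K ^ 14 * c.ϑ)))) := by
        rw [← ENNReal.ofReal_mul hK0.le, ← ENNReal.ofReal_mul (show 0 ≤ c.K * (8 * c.K ^ 4) by positivity),
          ← ENNReal.ofReal_mul (show 0 ≤ c.K * (8 * c.K ^ 4) * (8 * c.K) by positivity), ENNReal.ofReal_mul (show 0 ≤ 8 * c.K by positivity),
          ENNReal.ofReal_mul (show (0 : ℝ) ≤ 3 by norm_num), ENNReal.ofReal_mul (show (0 : ℝ) ≤ 8 by norm_num) (q := c.K), ENNReal.ofReal_ofNat, ENNReal.ofReal_ofNat]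
      rw [e0, ← ENNReal.ofReal_one]
      refine ENNReal.ofReal_le_ofReal ?_
      have hfin := hs.fin
      have e1 : 8 * c.K * (3 * (c.K * (8 * c.K ^ 4) * (8 * c.K) * (10 ^ 9 * c.K ^ 14 * c.ϑ))) = 1536 * 10 ^ 9 * (c.K ^ 21 * c.ϑ) := by ring
      rw [e1]
      have h21 : c.K ^ 21 ≤ c.K ^ 22 := pow_le_pow_right₀ hK1 (by norm_num)
      have h22 : c.K ^ 21 * c.ϑ ≤ c.K ^ 22 * c.ϑ := mul_le_mul_of_nonneg_right h21 hϑ
      have h23 : 0 ≤ c.K ^ 22 * c.ϑ := by positivity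
      nlinarith
    have := k7wcc_mass ENNReal.ofReal_ne_top H.mass hm ha hb' hc'
    rwa [show (2 : ℝ≥0∞) = ENNReal.ofReal 2 by simp, ← ENNReal.ofReal_mul (by norm_num)] at this
  · -- fit
    obtain ⟨hr1, hr2⟩ := hrep p hp.2
    have hng : ¬ k7wccGap c W P0 p (rep (W.stt c.σ c.pw p)) := fun hg => hr2 ⟨hp.1, hr1, hg⟩
    unfold k7wccGap at hng
    rw [not_or, not_lt, not_lt, k7wcc_F1_some hφ, k7wcc_F2_some hφ] at hng
    have he : c.e ≤ 128 * c.K ^ 6 * c.e := by nlinarith [hs.e0]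
    exact ⟨hng.1.trans he, hng.2.trans he⟩
  · have := hcond2 s bn
    rw [hconst] at this
    exact this

end

end Claimed.Agent.R252

/-!
# ROW 252 (S0492), unit S7w, post BP-252-S7w-C (helper22; chief helper89), file 4: **STAGE C OF P7.3, THE `∀ τ' ∃ τ` FORM.**

`k7wcc_stageC : K7wStageC` (S7a/WideStage) from `k7wcc_core` (S7a/WideCC, explicit slack).   Exponent arithmetic only.
`κ = (1-d)u/8`, `θ = N^{-κ}`, `e = N^{-ee}`, `ee = s + 4κ`;  `m = min (κ, u/2, 1, τ')`, `τ = m/46`, `N₁ = (2·10¹³)^{2/m}` : the MASTER inequality `2·10¹³ K²³ ≤ N^m`, `K = N^τ`.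
Thresholds: `Mχ0 = eh + eg + ee + 2 B₀ + 1`, `Mst0 = Mχ + s + u + B₀ + B₁ + 1`, `rst0 = s + u`, `M0 = Mst + rst + Mχ`; `Ms = {Mst}`, `Ws = {rst, s + u}`.
-/

set_option autoImplicit false

namespace Claimed.Agent.R252

open MeasureTheory
open scoped ENNReal BigOperators

noncomputable section

/-- a power absorbs a factor -/
theorem k7wcc_pw {N X m A B : ℝ} (hN : 1 ≤ N) (hX : X ≤ N ^ m) (hAB : m ≤ A - B) : X * N ^ (-A) ≤ N ^ (-B) := by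
  have hN0 : 0 < N := lt_of_lt_of_le one_pos hN
  calc X * N ^ (-A) ≤ N ^ m * N ^ (-A) := mul_le_mul_of_nonneg_right hX (Real.rpow_nonneg hN0.le _)
    _ = N ^ (m + -A) := (Real.rpow_add hN0 _ _).symm
    _ ≤ N ^ (-B) := Real.rpow_le_rpow_of_exponent_le hN (by linarith)

/-- the master inequality -/
theorem k7wcc_master {m : ℝ} (hm : 0 < m) : ∃ N1 : ℝ, 1 < N1 ∧ ∀ N : ℝ, N1 ≤ N → 2 * 10 ^ 13 * (N ^ (m / 46)) ^ 23 ≤ N ^ m := by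
  refine ⟨(2 * 10 ^ 13 : ℝ) ^ (2 / m), Real.one_lt_rpow (by norm_num) (by positivity), fun N hN => ?_⟩
  have h1 : (1 : ℝ) < (2 * 10 ^ 13 : ℝ) ^ (2 / m) := Real.one_lt_rpow (by norm_num) (by positivity)
  have hN0 : 0 < N := by linarith
  have h2 : (2 * 10 ^ 13 : ℝ) ≤ N ^ (m / 2) := by
    calc (2 * 10 ^ 13 : ℝ) = ((2 * 10 ^ 13 : ℝ) ^ (2 / m)) ^ (m / 2) := by
          rw [← Real.rpow_mul (by norm_num)]
          have : 2 / m * (m / 2) = 1 := by field_simp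
          rw [this, Real.rpow_one]
      _ ≤ N ^ (m / 2) := Real.rpow_le_rpow (by positivity) hN (by positivity)
  have h3 : (N ^ (m / 46)) ^ 23 = N ^ (m / 2) := by
    rw [← Real.rpow_natCast, ← Real.rpow_mul hN0.le]
    congr 1
    push_cast
    ring
  rw [h3]
  calc 2 * 10 ^ 13 * N ^ (m / 2) ≤ N ^ (m / 2) * N ^ (m / 2) := mul_le_mul_of_nonneg_right h2 (Real.rpow_nonneg hN0.le _)
    _ = N ^ m := by
        rw [← Real.rpow_add hN0]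
        congr 1
        ring

/-- a smaller constant and a smaller power of the slack -/
theorem k7wcc_sub_master {K X C : ℝ} {k : ℕ} (hK : 1 ≤ K) (hX : 2 * 10 ^ 13 * K ^ 23 ≤ X) (hC0 : 0 ≤ C) (hC : C ≤ 2 * 10 ^ 13) (hk : k ≤ 23) : C * K ^ k ≤ X := by
  have h1 : K ^ k ≤ K ^ 23 := pow_le_pow_right₀ hK hk
  have h2 : 0 ≤ K ^ k := by positivity
  calc C * K ^ k ≤ 2 * 10 ^ 13 * K ^ 23 := mul_le_mul hC h1 h2 (by norm_num)
    _ ≤ X := hX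

/-- the parameters of stage C at the scale `N` with slack `N^τ` -/
def k7wccMk (x : K7wExp) (Mχ Mst rst τ N : ℝ) (β : Fin 3 → ℝ) : K7wccPar where
  N := N
  K := N ^ τ
  d := x.d
  S := x.S
  a := N ^ (-x.s)
  r1 := x.s + x.u
  h := N ^ (-x.eh)
  g := N ^ (-x.eg)
  χ := N ^ (-Mχ)
  β0 := β 0
  β1 := β 1
  Λ := N ^ (x.u / 2)
  n1 := N ^ τ * N ^ (x.d * x.u)
  e := N ^ (-x.ee)
  θ := N ^ (-((1 - x.d) * x.u / 8))
  M := Mst
  rw := rst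

/-- the separation of the scales -/
theorem k7wcc_mk_sm {x : K7wExp} (hx : x.Adm) {Mχ Mst rst τ N m : ℝ} {β : Fin 3 → ℝ} (hMχ : x.eh + x.eg + x.ee + 2 * x.B 0 + 1 ≤ Mχ)
    (hMst : Mχ + x.s + x.u + x.B 0 + x.B 1 + 1 ≤ Mst) (hrst : x.s + x.u ≤ rst) (hm1 : m ≤ (1 - x.d) * x.u / 8) (hm2 : m ≤ x.u / 2) (hm3 : m ≤ 1)
    (hτ : 0 < τ) (hN : 1 < N) (hmas : 2 * 10 ^ 13 * (N ^ τ) ^ 23 ≤ N ^ m) (βlo : ∀ i, N ^ (-x.B i) ≤ N ^ τ * β i) (βhi : ∀ i, β i ≤ N ^ τ * N ^ (-x.B i)) :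
    (k7wccMk x Mχ Mst rst τ N β).Sm := by
  have hN0 : 0 < N := by linarith
  have hN1 : 1 ≤ N := hN.le
  obtain ⟨K, hKdef⟩ : ∃ K, K = N ^ τ := ⟨_, rfl⟩
  rw [← hKdef] at hmas βlo βhi
  have hK1 : 1 ≤ K := by rw [hKdef]; exact Real.one_le_rpow hN1 hτ.le
  have hK0 : 0 < K := by linarith
  have hpos : ∀ a : ℝ, 0 < N ^ a := fun a => Real.rpow_pos_of_pos hN0 a
  have hmul : ∀ a b : ℝ, N ^ a * N ^ b = N ^ (a + b) := fun a b => (Real.rpow_add hN0 a b).symm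
  have hle1 : ∀ a : ℝ, 0 ≤ a → N ^ (-a) ≤ 1 := fun a ha => Real.rpow_le_one_of_one_le_of_nonpos hN1 (by linarith)
  have hmono : ∀ a b : ℝ, a ≤ b → N ^ a ≤ N ^ b := fun a b h => Real.rpow_le_rpow_of_exponent_le hN1 h
  have hsub : ∀ (C : ℝ) (k : ℕ), 0 ≤ C → C ≤ 2 * 10 ^ 13 → k ≤ 23 → C * K ^ k ≤ N ^ m := fun C k h0 h1 h2 => k7wcc_sub_master hK1 hmas h0 h1 h2
  have hd1 : 0 < 1 - x.d := by linarith [hx.d1]
  have hκ : 0 < (1 - x.d) * x.u / 8 := by have := hx.u0; positivity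
  have hB0 : 0 < x.B 0 := lt_of_lt_of_le hx.eg0 (hx.Bg 0)
  have hB1 : 0 < x.B 1 := lt_of_lt_of_le hx.eg0 (hx.Bg 1)
  have hee : x.ee = x.s + (1 - x.d) * x.u / 2 := rfl
  have hβ0 : 0 < β 0 := by
    have := (hpos (-x.B 0)).trans_le (βlo 0)
    exact (pos_iff_pos_of_mul_pos this).1 hK0
  have hβ1 : 0 < β 1 := by
    have := (hpos (-x.B 1)).trans_le (βlo 1)
    exact (pos_iff_pos_of_mul_pos this).1 hK0
  have hs0 := hx.s0
  have hu0 := hx.u0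
  have heh0 := hx.eh0
  have heg0 := hx.eg0
  have hb : (k7wccMk x Mχ Mst rst τ N β).b = N ^ (-(x.eh + x.eg)) := by
    show N ^ (-x.eh) * N ^ (-x.eg) = _
    rw [hmul]
    congr 1
    ring
  have ha1 : (k7wccMk x Mχ Mst rst τ N β).a1 = N ^ (-(x.s + x.u)) := rfl
  have hσ : (k7wccMk x Mχ Mst rst τ N β).σ = N ^ (-Mst) := rfl
  have hKK : (k7wccMk x Mχ Mst rst τ N β).K = K := hKdef.symm
  refine ⟨hN, by rw [hKK]; exact hK1, hx.d0, by show 0 ≤ x.s + x.u; linarith, hpos _, hle1 _ heh0.le, hpos _, hle1 _ heg0.le, hpos _, hβ0, ?_, hβ1, ?_, hpos _, hpos _, ?_, ?_, ?_, ?_, ?_, ?_, ?_,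
    ?_, ?_, ?_, ?_⟩
  · -- β0 ≤ K
    rw [hKK]
    exact (βhi 0).trans (by nlinarith [hle1 _ hB0.le])
  · -- β1 ≤ K g
    rw [hKK]
    exact (βhi 1).trans (mul_le_mul_of_nonneg_left (hmono _ _ (by linarith [hx.Bg 1])) hK0.le)
  · -- θ ≤ 1/2
    show N ^ (-((1 - x.d) * x.u / 8)) ≤ 1 / 2
    have h1 := k7wcc_pw (A := (1 - x.d) * x.u / 8) (B := 0) hN1 (hsub 2 0 (by norm_num) (by norm_num) (by norm_num)) (by linarith)
    rw [neg_zero, Real.rpow_zero, pow_zero] at h1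
    linarith
  · -- 0 ≤ n1
    show 0 ≤ N ^ τ * N ^ (x.d * x.u)
    exact (mul_pos (hpos _) (hpos _)).le
  · -- pw ≤ a1
    show N ^ (-rst) ≤ N ^ (-(x.s + x.u))
    exact hmono _ _ (by linarith)
  · -- K + 1 ≤ Λ
    rw [hKK]
    show K + 1 ≤ N ^ (x.u / 2)
    have h1 := hsub 2 1 (by norm_num) (by norm_num) (by norm_num)
    have h2 := hmono _ _ hm2
    rw [pow_one] at h1
    linarith
  · -- χb
    rw [hKK, hb]
    show 100 * K ^ 2 * N ^ (-Mχ) ≤ _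
    exact k7wcc_pw hN1 (hsub 100 2 (by norm_num) (by norm_num) (by norm_num)) (by nlinarith)
  · -- χe
    rw [hKK, hb]
    show 1000 * K ^ 2 * N ^ (-Mχ) * N ^ (-(x.eh + x.eg)) ≤ N ^ (-x.ee) * β 0 ^ 2
    have h1 : 1000 * K ^ 4 * N ^ (-(Mχ + (x.eh + x.eg))) ≤ N ^ (-(x.ee + 2 * x.B 0)) :=
      k7wcc_pw hN1 (hsub 1000 4 (by norm_num) (by norm_num) (by norm_num)) (by linarith)
    have h2 : (N ^ (-x.B 0)) ^ 2 ≤ (K * β 0) ^ 2 := pow_le_pow_left₀ (hpos _).le (βlo 0) 2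
    have h3 : N ^ (-(x.ee + 2 * x.B 0)) = N ^ (-x.ee) * (N ^ (-x.B 0)) ^ 2 := by
      rw [pow_two, hmul, hmul]
      congr 1
      ring
    have h4 : N ^ (-(Mχ + (x.eh + x.eg))) = N ^ (-Mχ) * N ^ (-(x.eh + x.eg)) := by
      rw [hmul]
      congr 1
      ring
    have h5 : K ^ 2 * (1000 * K ^ 2 * N ^ (-Mχ) * N ^ (-(x.eh + x.eg))) ≤ K ^ 2 * (N ^ (-x.ee) * β 0 ^ 2) := by
      calc K ^ 2 * (1000 * K ^ 2 * N ^ (-Mχ) * N ^ (-(x.eh + x.eg))) = 1000 * K ^ 4 * N ^ (-(Mχ + (x.eh + x.eg))) := by rw [h4]; ring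
        _ ≤ N ^ (-x.ee) * (N ^ (-x.B 0)) ^ 2 := by rw [← h3]; exact h1
        _ ≤ N ^ (-x.ee) * (K * β 0) ^ 2 := mul_le_mul_of_nonneg_left h2 (hpos _).le
        _ = K ^ 2 * (N ^ (-x.ee) * β 0 ^ 2) := by ring
    exact le_of_mul_le_mul_left h5 (by positivity)
  · -- K b ≤ β1
    rw [hKK, hb]
    show K * N ^ (-(x.eh + x.eg)) ≤ β 1
    have hBb := hx.Bb 1
    have h10 : 0 < 10 / (1 - x.d) := by positivity
    have h1 : 1 * K ^ 2 * N ^ (-(x.eh + x.eg)) ≤ N ^ (-x.B 1) :=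
      k7wcc_pw hN1 (hsub 1 2 (by norm_num) (by norm_num) (by norm_num)) (by nlinarith)
    have h2 : K * (K * N ^ (-(x.eh + x.eg))) ≤ K * β 1 := by
      calc K * (K * N ^ (-(x.eh + x.eg))) = 1 * K ^ 2 * N ^ (-(x.eh + x.eg)) := by ring
        _ ≤ N ^ (-x.B 1) := h1
        _ ≤ K * β 1 := βlo 1
    exact le_of_mul_le_mul_left h2 hK0
  · -- σχ
    rw [hKK, hσ]
    show 100 * K ^ 2 * N ^ (-Mst) ≤ N ^ (-Mχ)
    exact k7wcc_pw hN1 (hsub 100 2 (by norm_num) (by norm_num) (by norm_num)) (by linarith)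
  · -- σ0
    rw [hKK, hσ, ha1]
    show 2000 * K ^ 4 * N ^ (-Mst) ≤ N ^ (-(x.s + x.u)) * β 0
    have h1 : 2000 * K ^ 5 * N ^ (-Mst) ≤ N ^ (-(x.s + x.u + x.B 0)) :=
      k7wcc_pw hN1 (hsub 2000 5 (by norm_num) (by norm_num) (by norm_num)) (by linarith)
    have h3 : N ^ (-(x.s + x.u + x.B 0)) = N ^ (-(x.s + x.u)) * N ^ (-x.B 0) := by
      rw [hmul]
      congr 1
      ring
    have h2 : K * (2000 * K ^ 4 * N ^ (-Mst)) ≤ K * (N ^ (-(x.s + x.u)) * β 0) := by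
      calc K * (2000 * K ^ 4 * N ^ (-Mst)) = 2000 * K ^ 5 * N ^ (-Mst) := by ring
        _ ≤ N ^ (-(x.s + x.u)) * N ^ (-x.B 0) := by rw [← h3]; exact h1
        _ ≤ N ^ (-(x.s + x.u)) * (K * β 0) := mul_le_mul_of_nonneg_left (βlo 0) (hpos _).le
        _ = K * (N ^ (-(x.s + x.u)) * β 0) := by ring
    exact le_of_mul_le_mul_left h2 hK0
  · -- σ1
    rw [hKK, hσ, ha1]
    show 2000 * K ^ 4 * N ^ (-Mst) ≤ N ^ (-(x.s + x.u)) * β 1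
    have h1 : 2000 * K ^ 5 * N ^ (-Mst) ≤ N ^ (-(x.s + x.u + x.B 1)) :=
      k7wcc_pw hN1 (hsub 2000 5 (by norm_num) (by norm_num) (by norm_num)) (by linarith)
    have h3 : N ^ (-(x.s + x.u + x.B 1)) = N ^ (-(x.s + x.u)) * N ^ (-x.B 1) := by
      rw [hmul]
      congr 1
      ring
    have h2 : K * (2000 * K ^ 4 * N ^ (-Mst)) ≤ K * (N ^ (-(x.s + x.u)) * β 1) := by
      calc K * (2000 * K ^ 4 * N ^ (-Mst)) = 2000 * K ^ 5 * N ^ (-Mst) := by ring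
        _ ≤ N ^ (-(x.s + x.u)) * N ^ (-x.B 1) := by rw [← h3]; exact h1
        _ ≤ N ^ (-(x.s + x.u)) * (K * β 1) := mul_le_mul_of_nonneg_left (βlo 1) (hpos _).le
        _ = K * (N ^ (-(x.s + x.u)) * β 1) := by ring
    exact le_of_mul_le_mul_left h2 hK0
  · -- fin
    rw [hKK]
    have hϑ : (k7wccMk x Mχ Mst rst τ N β).ϑ = N ^ (-((1 - x.d) * x.u / 8)) + K * N ^ (-(3 * ((1 - x.d) * x.u / 8))) := by
      show N ^ (-((1 - x.d) * x.u / 8)) + N ^ τ * N ^ (x.d * x.u) * N ^ (-(x.s + x.u)) / (N ^ (-x.ee) * N ^ (-((1 - x.d) * x.u / 8))) = _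
      rw [← hKdef]
      congr 1
      rw [div_eq_iff (mul_pos (hpos _) (hpos _)).ne', mul_assoc, mul_assoc, hmul, hmul, hmul]
      congr 2
      rw [hee]
      ring
    rw [hϑ]
    have h1 : N ^ (-(3 * ((1 - x.d) * x.u / 8))) ≤ N ^ (-((1 - x.d) * x.u / 8)) := hmono _ _ (by linarith)
    have h2 := k7wcc_pw (A := (1 - x.d) * x.u / 8) (B := 0) hN1 hmas (by linarith)
    rw [neg_zero, Real.rpow_zero] at h2
    have h3 := hpos (-((1 - x.d) * x.u / 8))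
    have h4 := hpos (-(3 * ((1 - x.d) * x.u / 8)))
    have hK22 : 0 < K ^ 22 := by positivity
    calc 10 ^ 13 * K ^ 22 * (N ^ (-((1 - x.d) * x.u / 8)) + K * N ^ (-(3 * ((1 - x.d) * x.u / 8))))
        ≤ 10 ^ 13 * K ^ 22 * (K * N ^ (-((1 - x.d) * x.u / 8)) + K * N ^ (-((1 - x.d) * x.u / 8))) := by
          refine mul_le_mul_of_nonneg_left (add_le_add ?_ (mul_le_mul_of_nonneg_left h1 hK0.le)) (by positivity)
          nlinarith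
      _ = 2 * 10 ^ 13 * K ^ 23 * N ^ (-((1 - x.d) * x.u / 8)) := by ring
      _ ≤ 1 := h2

/-- **STAGE C of P7.3** (07 l.666-780) -/
theorem k7wcc_stageC : K7wStageC := by
  intro x hx
  have hs0 := hx.s0
  have hu0 := hx.u0
  have heh0 := hx.eh0
  have heg0 := hx.eg0
  have hd1 : 0 < 1 - x.d := by linarith [hx.d1]
  have hκ : 0 < (1 - x.d) * x.u / 8 := by positivity
  have hB0 : 0 < x.B 0 := lt_of_lt_of_le hx.eg0 (hx.Bg 0)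
  have hB1 : 0 < x.B 1 := lt_of_lt_of_le hx.eg0 (hx.Bg 1)
  have hee : x.ee = x.s + (1 - x.d) * x.u / 2 := rfl
  have hee0 : 0 < x.ee := by rw [hee]; positivity
  refine ⟨x.eh + x.eg + x.ee + 2 * x.B 0 + 1, fun Mχ hMχ => ⟨Mχ + x.s + x.u + x.B 0 + x.B 1 + 1, x.s + x.u, fun Mst rst hMst hrst => ⟨Mst + rst + Mχ, fun τ' hτ' => ?_⟩⟩⟩
  have hMχ0 : 0 < Mχ := by linarith
  have hMst0 : 0 < Mst := by linarith
  have hrst0 : 0 < rst := by linarith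
  obtain ⟨m, hmdef⟩ : ∃ m, m = min (min ((1 - x.d) * x.u / 8) (x.u / 2)) (min 1 τ') := ⟨_, rfl⟩
  have hm0 : 0 < m := by
    rw [hmdef]
    exact lt_min (lt_min hκ (by positivity)) (lt_min one_pos hτ')
  have hm1 : m ≤ (1 - x.d) * x.u / 8 := by rw [hmdef]; exact (min_le_left _ _).trans (min_le_left _ _)
  have hm2 : m ≤ x.u / 2 := by rw [hmdef]; exact (min_le_left _ _).trans (min_le_right _ _)
  have hm3 : m ≤ 1 := by rw [hmdef]; exact (min_le_right _ _).trans (min_le_left _ _)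
  have hm4 : m ≤ τ' := by rw [hmdef]; exact (min_le_right _ _).trans (min_le_right _ _)
  obtain ⟨N1, hN1, hmas⟩ := k7wcc_master hm0
  refine ⟨m / 46, N1, {Mst}, {rst, x.s + x.u}, by positivity, ?_, ?_, fun N hN W P β E hyp hχ0 hvar hcnt => ?_⟩
  · intro M hM
    rw [Finset.mem_singleton] at hM
    subst hM
    exact ⟨hMst0.le, by linarith⟩
  · intro r hr
    rw [Finset.mem_insert, Finset.mem_singleton] at hr
    rcases hr with rfl | rfl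
    · exact ⟨hrst0.le, by linarith⟩
    · exact ⟨by linarith, by linarith⟩
  have hN' : 1 < N := lt_of_lt_of_le hN1 hN
  have hN0 : 0 < N := by linarith
  have hmas' := hmas N hN
  have hτ : 0 < m / 46 := by positivity
  have hK1 : 1 ≤ N ^ (m / 46) := Real.one_le_rpow hN'.le hτ.le
  have hsm := k7wcc_mk_sm hx hMχ hMst hrst hm1 hm2 hm3 hτ hN' hmas' hyp.βlo hyp.βhi
  have hbeq : N ^ (-x.eh - x.eg) = N ^ (-x.eh) * N ^ (-x.eg) := by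
    rw [← Real.rpow_add hN0]
    congr 1
  have hst0 : x.st 0 = x.s := by simp [K7wExp.st]
  have hst1 : x.st 1 = x.s + x.u := by simp [K7wExp.st]
  have hH : K7wccHyp (k7wccMk x Mχ Mst rst (m / 46) N β) W (P 0) (P 1) E {Mst} {rst, x.s + x.u} := by
    refine ⟨hyp.w, Finset.mem_singleton_self _, Finset.mem_insert_self _ _, Finset.mem_insert_of_mem (Finset.mem_singleton_self _), ?_, ?_, ?_, hyp.mE, hyp.sub,
      fun p hp => hyp.lab p hp 0, fun p hp => hyp.lab p hp 1, hyp.mass, hyp.lists, ?_, ?_, hcnt.back⟩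
    · exact hχ0.trans (Real.rpow_le_rpow_of_exponent_le hN'.le (by linarith))
    · have := hyp.lay 0
      rw [hst0] at this
      exact this
    · have := hyp.lay 1
      rw [hst1] at this
      exact this
    · intro p hp φ0 φ1 h0 h1 t1 ht1 t2 ht2 y1 y2 hy1 hy2
      have := hvar p hp 1 φ0 φ1 h0 h1 t1 ht1 t2 ht2 y1 y2 (by rw [hbeq]; exact hy1) (by rw [hbeq]; exact hy2)
      refine this.trans (le_of_eq ?_)
      show N ^ (-x.s - x.u) = N ^ (-(x.s + x.u))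
      congr 1
      ring
    · intro Q φ0
      obtain ⟨S, hS, hS'⟩ := hcnt.fine 1 Q φ0
      refine ⟨S, hS.trans (le_of_eq ?_), hS'⟩
      show N ^ (m / 46) * N ^ (x.d * (x.st 1 - x.s)) = N ^ (m / 46) * N ^ (x.d * x.u)
      rw [hst1]
      congr 2
      ring
  obtain ⟨E', c1, c2, hsub, hmE, hmass, hfield⟩ := k7wcc_core hH hsm
  have hmτ : N ^ m ≤ N ^ τ' := Real.rpow_le_rpow_of_exponent_le hN'.le hm4
  have h2K : 2 * N ^ (m / 46) ≤ N ^ τ' := by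
    have := k7wcc_sub_master (C := 2) (k := 1) hK1 hmas' (by norm_num) (by norm_num) (by norm_num)
    rw [pow_one] at this
    exact this.trans hmτ
  have h128 : 128 * (N ^ (m / 46)) ^ 6 ≤ N ^ τ' :=
    (k7wcc_sub_master (C := 128) (k := 6) hK1 hmas' (by norm_num) (by norm_num) (by norm_num)).trans hmτ
  refine ⟨E', c1, c2, ⟨hsub, hmE, hmass.trans (mul_le_mul' (ENNReal.ofReal_le_ofReal h2K) le_rfl)⟩, ⟨fun p hp φ hφ => ?_, fun s bn => ?_⟩⟩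
  · have he0 : 0 ≤ N ^ (-x.ee) := (Real.rpow_pos_of_pos hN0 _).le
    have h1 := hfield.fit p hp φ hφ
    rw [hbeq]
    exact ⟨h1.1.trans (mul_le_mul_of_nonneg_right h128 he0), h1.2.trans (mul_le_mul_of_nonneg_right h128 he0)⟩
  · exact (hfield.dom s bn).trans (mul_le_mul' (mul_le_mul' (ENNReal.ofReal_le_ofReal h128) le_rfl) le_rfl)

end

end Claimed.Agent.R252
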