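import Claimed.Agent.R252.S7a.WideGlue
import Claimed.Agent.R252.S7a.WideContract
import Claimed.Agent.R252.State.KsStateC

/-!
# ROW 252 (S0492), unit S7w, post BP-252-S7w-D (helper242; chief helper89), file 2: CONTRACT of the half D1-D3 of stage D (07 l.781-800).      PAPER-FREE.

Every `sorry` is a LEAF `L-252-S7wD-*` (name in the docstring).  Statements frozen (tell helper242 if one looks false or inconvenient); prove IN PLACE, helper lemmas directly above, prefix `k7wd_`.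
Explicit slack `K`, explicit constants.   The assembly (`k7wd_grid`, output `K7wdGrid`) is in `S7a/WideDMain.lean` (helper242).
* s1 abstract measure lemmas on a countable state label `st` and a velocity label `vb` : TWO (two separated bins), BEST (one label per row), AXIS.
* s2 the record: heavy true label, palette sums, measurability of the labels.
* s3 geometry: state cells, oblique index, the labels of one row.
* s4 algebra of `k7wF1`, `k7wF2` for a label in adapted coordinates.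
-/

set_option autoImplicit false

namespace Claimed.Agent.R252

open MeasureTheory
open scoped ENNReal BigOperators

noncomputable section

/-! ## 1. Abstract lemmas -/

theorem k7wd_split {Ω S : Type} [MeasurableSpace Ω] [Countable S] (μ : Measure Ω) (st : Ω → S) (hst : KsLab st) (A : Set Ω) :
    μ A = ∑' s, μ (st ⁻¹' {s} ∩ A) := by
  have h := ksc_mass_sum (μ.restrict A) hst
  rw [Measure.restrict_apply MeasurableSet.univ, Set.univ_inter] at h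
  rw [← h]
  refine tsum_congr fun s => ?_
  exact Measure.restrict_apply (hst s)

/-- the pointwise part of TWO: a weight `w ≤ π` on the integers of total mass `≥ 1/K` has `1 ≤ 2 K² ∑_{sep} w w` -/
theorem k7wd_two_pt (π w : ℤ → ℝ≥0∞) (K : ℝ≥0∞) (sep : ℤ → ℤ → Prop) [∀ b b', Decidable (sep b b')] (hw : ∀ b, w b ≤ π b)
    (hcap : ∀ b, 2 * K * ∑' b' : {b' // ¬ sep b b'}, π b' ≤ 1) (h1 : 1 ≤ K * ∑' b, w b) :
    1 ≤ 2 * K ^ 2 * ∑' b, ∑' b', (if sep b b' then w b * w b' else 0) := by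
  have h2 : ∀ b, 1 ≤ 2 * K * ∑' b', (if sep b b' then w b' else 0) := by
    intro b
    have e1 : ∑' b', w b' = ∑' b', (if sep b b' then w b' else 0) + ∑' b', (if sep b b' then 0 else w b') := by
      rw [← ENNReal.tsum_add]
      refine tsum_congr fun b' => ?_
      by_cases h : sep b b' <;> simp [h]
    have e2 : ∑' b', (if sep b b' then 0 else w b') ≤ ∑' b' : {b' // ¬ sep b b'}, π b' := by
      have e3 : ∑' b' : {b' // ¬ sep b b'}, π b' = ∑' b', Set.indicator {b' | ¬ sep b b'} π b' := tsum_subtype {b' | ¬ sep b b'} π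
      rw [e3]
      refine ENNReal.tsum_le_tsum fun b' => ?_
      by_cases h : sep b b'
      · simp [h]
      · simp [h, hw b']
    have e4 : (1 : ℝ≥0∞) + 1 ≤ 2 * K * ∑' b', (if sep b b' then w b' else 0) + 1 := by
      calc (1 : ℝ≥0∞) + 1 = 2 * 1 := by norm_num
        _ ≤ 2 * (K * ∑' b, w b) := by gcongr
        _ = 2 * K * ∑' b', (if sep b b' then w b' else 0) + 2 * K * ∑' b', (if sep b b' then 0 else w b') := by rw [e1]; ring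
        _ ≤ 2 * K * ∑' b', (if sep b b' then w b' else 0) + 2 * K * ∑' b' : {b' // ¬ sep b b'}, π b' := by gcongr
        _ ≤ 2 * K * ∑' b', (if sep b b' then w b' else 0) + 1 := by gcongr; exact hcap b
    exact ENNReal.le_of_add_le_add_right ENNReal.one_ne_top e4
  calc (1 : ℝ≥0∞) ≤ K * ∑' b, w b := h1
    _ ≤ K * ∑' b, w b * (2 * K * ∑' b', (if sep b b' then w b' else 0)) := by
        gcongr with b
        calc w b = w b * 1 := (mul_one _).symm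
          _ ≤ _ := by gcongr; exact h2 b
    _ = 2 * K ^ 2 * ∑' b, ∑' b', (if sep b b' then w b * w b' else 0) := by
        rw [← ENNReal.tsum_mul_left, ← ENNReal.tsum_mul_left]
        refine tsum_congr fun b => ?_
        rw [← ENNReal.tsum_mul_left, ← ENNReal.tsum_mul_left, ← ENNReal.tsum_mul_left, ← ENNReal.tsum_mul_left]
        refine tsum_congr fun b' => ?_
        by_cases h : sep b b'
        · simp only [h, if_true]; ring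
        · simp [h]

/-- **L-252-S7wD-TWO** (~200 l., ENNReal `tsum`s only).   `M s = μ (st = s)`, `m s b = μ (st = s, vb = b)`, `A_s = {b | m s b ≠ 0}`, `T = μ univ ∈ (0, ∞)`.
If `M s ≠ 0` : `M s = ∑' b, m s b ≤ K M s π(A_s)`, so `1 ≤ K π(A_s)`; for `b ∈ A_s` : `2 ≤ 2 K π(A_s) ≤ 2 K π(A_s ∩ sep b) + 1`; hence `1 ≤ 2 K² ∑'_{b, b' ∈ A_s, sep b b'} π b π b'`.
Sum against `M s` and exchange the sums (`ENNReal.tsum_comm`, `ksc_mass_preimage`, `ksc_mass_sum`): `T ≤ 2 K² ∑'_{sep b b'} π b π b' T(b,b')`, `T(b,b') = μ (st ⁻¹' {s | b, b' ∈ A_s})`.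
If `4 K² T(b,b') < T` for all separated pairs, then `2 T ≤ ∑' π b π b' T ≤ T`: contradiction. -/
theorem k7wd_two_bins {Ω S : Type} [MeasurableSpace Ω] [Countable S] (μ : Measure Ω) [IsFiniteMeasure μ] (st : Ω → S) (hst : KsLab st)
    (vb : Ω → ℤ) (hvb : KsLab vb) (π : ℤ → ℝ≥0∞) (K : ℝ≥0∞) (sep : ℤ → ℤ → Prop) (hK : K ≠ ⊤) (hπ : ∑' b, π b ≤ 1)
    (hdom : ∀ s b, μ (st ⁻¹' {s} ∩ vb ⁻¹' {b}) ≤ K * π b * μ (st ⁻¹' {s}))
    (hcap : ∀ b, 2 * K * ∑' b' : {b' // ¬ sep b b'}, π b' ≤ 1) (hμ : μ Set.univ ≠ 0) :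
    ∃ b1 b2, sep b1 b2 ∧
      μ Set.univ ≤ 4 * K ^ 2 * μ (st ⁻¹' {s | μ (st ⁻¹' {s} ∩ vb ⁻¹' {b1}) ≠ 0 ∧ μ (st ⁻¹' {s} ∩ vb ⁻¹' {b2}) ≠ 0}) := by
  classical
  by_contra hcon
  push Not at hcon
  have hTtop : μ Set.univ ≠ ⊤ := measure_ne_top μ _
  let w : S → ℤ → ℝ≥0∞ := fun s b => if μ (st ⁻¹' {s} ∩ vb ⁻¹' {b}) ≠ 0 then π b else 0
  have hw : ∀ s b, w s b ≤ π b := by
    intro s b
    by_cases h : μ (st ⁻¹' {s} ∩ vb ⁻¹' {b}) = 0 <;> simp [w, h]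
  have h1 : ∀ s, μ (st ⁻¹' {s}) ≠ 0 → 1 ≤ K * ∑' b, w s b := by
    intro s hs
    have e1 : μ (st ⁻¹' {s}) ≤ (K * ∑' b, w s b) * μ (st ⁻¹' {s}) := by
      calc μ (st ⁻¹' {s}) = ∑' b, μ (vb ⁻¹' {b} ∩ st ⁻¹' {s}) := k7wd_split μ vb hvb _
        _ ≤ ∑' b, K * w s b * μ (st ⁻¹' {s}) := by
            refine ENNReal.tsum_le_tsum fun b => ?_
            rw [Set.inter_comm]
            by_cases h : μ (st ⁻¹' {s} ∩ vb ⁻¹' {b}) = 0
            · rw [h]; exact zero_le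
            · simpa [w, h] using hdom s b
        _ = (K * ∑' b, w s b) * μ (st ⁻¹' {s}) := by rw [ENNReal.tsum_mul_right, ENNReal.tsum_mul_left]
    have e2 : 1 * μ (st ⁻¹' {s}) ≤ (K * ∑' b, w s b) * μ (st ⁻¹' {s}) := by rwa [one_mul]
    exact (ENNReal.mul_le_mul_iff_left hs (measure_ne_top μ _)).1 e2
  have h3 : ∀ s, μ (st ⁻¹' {s}) ≤ μ (st ⁻¹' {s}) * (2 * K ^ 2 * ∑' b, ∑' b', (if sep b b' then w s b * w s b' else 0)) := by
    intro s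
    by_cases hs : μ (st ⁻¹' {s}) = 0
    · rw [hs]; exact zero_le
    · calc μ (st ⁻¹' {s}) = μ (st ⁻¹' {s}) * 1 := (mul_one _).symm
        _ ≤ _ := by gcongr; exact k7wd_two_pt π (w s) K sep (hw s) hcap (h1 s hs)
  have h5 : ∀ b b', sep b b' → 4 * K ^ 2 * ∑' s, μ (st ⁻¹' {s}) * (w s b * w s b') ≤ π b * π b' * μ Set.univ := by
    intro b b' hsep
    have e1 := (hcon b b' hsep).le
    rw [ksc_mass_preimage μ hst, tsum_subtype] at e1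
    calc 4 * K ^ 2 * ∑' s, μ (st ⁻¹' {s}) * (w s b * w s b')
        = π b * π b' * (4 * K ^ 2 * ∑' s, Set.indicator {s | μ (st ⁻¹' {s} ∩ vb ⁻¹' {b}) ≠ 0 ∧ μ (st ⁻¹' {s} ∩ vb ⁻¹' {b'}) ≠ 0} (ksMass μ st) s) := by
          rw [← ENNReal.tsum_mul_left, ← ENNReal.tsum_mul_left, ← ENNReal.tsum_mul_left]
          refine tsum_congr fun s => ?_
          by_cases ha : μ (st ⁻¹' {s} ∩ vb ⁻¹' {b}) = 0
          · simp [w, ha]
          · by_cases hb : μ (st ⁻¹' {s} ∩ vb ⁻¹' {b'}) = 0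
            · simp [w, hb]
            · simp only [w, ne_eq, ha, hb, not_false_eq_true, if_true, Set.indicator, Set.mem_ofPred_eq, and_self, ksMass]
              ring
      _ ≤ π b * π b' * μ Set.univ := by gcongr
  have h6 : 2 * μ Set.univ ≤ μ Set.univ := by
    calc 2 * μ Set.univ = 2 * ∑' s, μ (st ⁻¹' {s}) := by rw [← ksc_mass_sum μ hst]; rfl
      _ ≤ 2 * ∑' s, μ (st ⁻¹' {s}) * (2 * K ^ 2 * ∑' b, ∑' b', (if sep b b' then w s b * w s b' else 0)) := by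
          gcongr with s
          exact h3 s
      _ = ∑' s, ∑' b, ∑' b', (if sep b b' then 4 * K ^ 2 * (μ (st ⁻¹' {s}) * (w s b * w s b')) else 0) := by
          rw [← ENNReal.tsum_mul_left]
          refine tsum_congr fun s => ?_
          rw [← ENNReal.tsum_mul_left, ← ENNReal.tsum_mul_left, ← ENNReal.tsum_mul_left]
          refine tsum_congr fun b => ?_
          rw [← ENNReal.tsum_mul_left, ← ENNReal.tsum_mul_left, ← ENNReal.tsum_mul_left]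
          refine tsum_congr fun b' => ?_
          by_cases h : sep b b'
          · simp only [h, if_true]; ring
          · simp [h]
      _ = ∑' b, ∑' b', (if sep b b' then 4 * K ^ 2 * ∑' s, μ (st ⁻¹' {s}) * (w s b * w s b') else 0) := by
          rw [ENNReal.tsum_comm]
          refine tsum_congr fun b => ?_
          rw [ENNReal.tsum_comm]
          refine tsum_congr fun b' => ?_
          by_cases h : sep b b'
          · simp only [h, if_true]; rw [ENNReal.tsum_mul_left]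
          · simp [h]
      _ ≤ ∑' b, ∑' b', π b * π b' * μ Set.univ := by
          gcongr with b b'
          by_cases h : sep b b'
          · simpa [h] using h5 b b' h
          · simp [h]
      _ = (∑' b, π b) * (∑' b, π b) * μ Set.univ := by
          rw [← ENNReal.tsum_mul_right, ← ENNReal.tsum_mul_right]
          refine tsum_congr fun b => ?_
          rw [ENNReal.tsum_mul_right, ENNReal.tsum_mul_left]
      _ ≤ 1 * 1 * μ Set.univ := by gcongr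
      _ = μ Set.univ := by ring
  have h7 : 2 * μ Set.univ ≤ 1 * μ Set.univ := by rwa [one_mul]
  have h8 := (ENNReal.mul_le_mul_iff_left hμ hTtop).1 h7
  norm_num at h8

/-- **L-252-S7wD-BEST** (~120 l.).   `μ A ≤ ∑' j, μ (A ∩ ix = j)`; `μ (A ∩ ix = j) ≤ ∑_{λ ∈ F j} μ (A ∩ ix = j ∩ lb = λ) ≤ n · max`; `f j` = a maximiser (`Finset.exists_max_image`; any element if `F j = ∅`, then `A ∩ ix = j = ∅`);
the sets `A ∩ ix = j ∩ lb = f j` are disjoint and measurable (`measure_iUnion`). -/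
theorem k7wd_best {Ω Λ : Type} [MeasurableSpace Ω] [Nonempty Λ] (μ : Measure Ω) (A : Set Ω) (hA : MeasurableSet A) (ix : Ω → ℤ) (hix : KsLab ix)
    (lb : Ω → Λ) (hlb : KsLab lb) (n : ℕ) (F : ℤ → Finset Λ) (hF : ∀ j, (F j).card ≤ n) (hmem : ∀ x ∈ A, lb x ∈ F (ix x)) :
    ∃ f : ℤ → Λ, μ A ≤ n * μ (A ∩ {x | lb x = f (ix x)}) := by
  classical
  have key : ∀ j, ∃ l : Λ, μ (ix ⁻¹' {j} ∩ A) ≤ n * μ (ix ⁻¹' {j} ∩ (A ∩ lb ⁻¹' {l})) := by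
    intro j
    by_cases hne : (F j).Nonempty
    · obtain ⟨l, hl, hmax⟩ := Finset.exists_max_image (F j) (fun l => μ (ix ⁻¹' {j} ∩ (A ∩ lb ⁻¹' {l}))) hne
      refine ⟨l, ?_⟩
      have hsub : ix ⁻¹' {j} ∩ A ⊆ ⋃ l' ∈ F j, ix ⁻¹' {j} ∩ (A ∩ lb ⁻¹' {l'}) := by
        intro x hx
        have h1 : ix x = j := hx.1
        have h2 := hmem x hx.2
        rw [h1] at h2
        exact Set.mem_biUnion h2 ⟨hx.1, hx.2, rfl⟩
      calc μ (ix ⁻¹' {j} ∩ A) ≤ μ (⋃ l' ∈ F j, ix ⁻¹' {j} ∩ (A ∩ lb ⁻¹' {l'})) := measure_mono hsub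
        _ ≤ ∑ l' ∈ F j, μ (ix ⁻¹' {j} ∩ (A ∩ lb ⁻¹' {l'})) := measure_biUnion_finset_le _ _
        _ ≤ ∑ _l' ∈ F j, μ (ix ⁻¹' {j} ∩ (A ∩ lb ⁻¹' {l})) := Finset.sum_le_sum hmax
        _ = (F j).card * μ (ix ⁻¹' {j} ∩ (A ∩ lb ⁻¹' {l})) := by rw [Finset.sum_const, nsmul_eq_mul]
        _ ≤ n * μ (ix ⁻¹' {j} ∩ (A ∩ lb ⁻¹' {l})) := by
            gcongr
            exact hF j
    · refine ⟨Classical.arbitrary Λ, ?_⟩
      have hemp : ix ⁻¹' {j} ∩ A = ∅ := by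
        ext x
        simp only [Set.mem_inter_iff, Set.mem_preimage, Set.mem_singleton_iff, Set.mem_empty_iff_false, iff_false, not_and]
        intro h1 h2
        have h3 := hmem x h2
        rw [h1] at h3
        exact hne ⟨_, h3⟩
      rw [hemp, measure_empty]
      exact zero_le
  choose f hf using key
  refine ⟨f, ?_⟩
  rw [k7wd_split μ ix hix A, k7wd_split μ ix hix (A ∩ {x | lb x = f (ix x)}), ← ENNReal.tsum_mul_left]
  refine ENNReal.tsum_le_tsum fun j => ?_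
  refine (hf j).trans (le_of_eq ?_)
  congr 2
  ext x
  simp only [Set.mem_inter_iff, Set.mem_preimage, Set.mem_singleton_iff, Set.mem_ofPred_eq]
  constructor
  · rintro ⟨h1, h2, h3⟩
    exact ⟨h1, h2, by rw [h1]; exact h3⟩
  · rintro ⟨h1, h2, h3⟩
    exact ⟨h1, h2, by rw [h1] at h3; exact h3⟩

/-- **L-252-S7wD-AXIS** (~80 l.).   `μ (vb ∈ B) = ∑' s, ∑' b : B, μ (st = s, vb = b) ≤ ∑' s, ∑' b : B, K π b M s = K π(B) μ univ`. -/
theorem k7wd_axis_abs {Ω S : Type} [MeasurableSpace Ω] [Countable S] (μ : Measure Ω) (st : Ω → S) (hst : KsLab st)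
    (vb : Ω → ℤ) (hvb : KsLab vb) (π : ℤ → ℝ≥0∞) (K : ℝ≥0∞) (hdom : ∀ s b, μ (st ⁻¹' {s} ∩ vb ⁻¹' {b}) ≤ K * π b * μ (st ⁻¹' {s})) (B : Set ℤ) :
    μ (vb ⁻¹' B) ≤ K * (∑' b : B, π b) * μ Set.univ := by
  rw [ksc_mass_preimage μ hvb B, ← ENNReal.tsum_mul_left, ← ENNReal.tsum_mul_right]
  refine ENNReal.tsum_le_tsum fun b => ?_
  have h1 : ksMass μ vb b = ∑' s, μ (st ⁻¹' {s} ∩ vb ⁻¹' {(b : ℤ)}) := k7wd_split μ st hst _
  rw [h1, ← ksc_mass_sum μ hst, ← ENNReal.tsum_mul_left]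
  exact ENNReal.tsum_le_tsum fun s => hdom s b

/-! ## 2. The record -/

/-- **L-252-S7wD-HEAVY** (the next three statements, ~250 l.).   `prior (asg Q ×ˢ blk Q) = ν (asg Q) · k7aTm (blk Q)`, `k7aTm (blk Q) ≤ volume (Ico ..) = q`. -/
theorem k7wd_inc_le (W : K7aW) {N K d S a h g : ℝ} {Ms Ws : Finset ℝ} (hW : W.Ok N K d S a h g Ms Ws) (Q : W.Q) :
    W.prior (W.inc Q) ≤ ENNReal.ofReal W.q * W.νQ Q := by
  have := hW.ln.prob
  have hsf : SFinite k7aTm := by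
    unfold k7aTm
    infer_instance
  unfold K7aLn.prior K7aW.inc K7aW.νQ
  rw [Measure.prod_prod, mul_comm]
  gcongr
  unfold k7aTm K7aW.blk
  refine (Measure.restrict_le_self _).trans ?_
  rw [Real.volume_Ico]
  refine ENNReal.ofReal_le_ofReal ?_
  linarith

/-- `ν_lo` and `ν univ = 1` -/
theorem k7wd_mQ_pos (W : K7aW) {N K d S a h g : ℝ} {Ms Ws : Finset ℝ} (hW : W.Ok N K d S a h g Ms Ws) (ha : 0 < a) (hh : 0 < h) (hg : 0 < g)
    {Q : W.Q} (hQ : Q ∈ W.Qa) : ENNReal.ofReal W.q * W.νQ Q ≠ 0 ∧ ENNReal.ofReal W.q * W.νQ Q ≠ ⊤ := by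
  have := hW.ln.prob
  have hq : 0 < W.q := by
    unfold K7aW.q
    positivity
  constructor
  · refine mul_ne_zero ?_ ?_
    · rw [Ne, ENNReal.ofReal_eq_zero, not_le]
      exact hq
    · intro h0
      have h1 := hW.ν_lo Q hQ
      rw [h0, mul_zero, nonpos_iff_eq_zero, ENNReal.ofReal_eq_zero, ← not_lt] at h1
      apply h1
      have : 0 < a ^ d := Real.rpow_pos_of_pos ha d
      positivity
  · exact ENNReal.mul_ne_top ENNReal.ofReal_ne_top (measure_ne_top _ _)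

/-- D1.  `∑_{Q ∈ Qa} q ν_Q ≤ 1` : for each `k < 2^lev` the sets `asg Q`, `Q ∈ Qa`, `iv Q = k`, are disjoint and measurable, so their `ν`-masses sum to `≤ 1`; `2^lev q = 1` (`iv_lt`).
`prior E = ∑_Q prior (E ∩ labQ = Q)` (`m_labQ`, `Fintype W.Q`), and the terms with `Q ∉ Qa` are empty (`lab`).   If `K1 prior (E ∩ labQ = Q) < q ν_Q` for all `Q ∈ Qa` the sum gives `K1 prior E < 1` (or `prior E = 0` if `Qa = ∅`). -/
theorem k7wd_heavy (W : K7aW) {N K d S a h g K1 : ℝ} {Ms Ws : Finset ℝ} (hW : W.Ok N K d S a h g Ms Ws) {E : Set (W.L × ℝ)} (hE : MeasurableSet E)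
    (hsub : E ⊆ W.Ev0) (hmass : 1 ≤ ENNReal.ofReal K1 * W.prior E) :
    ∃ Q ∈ W.Qa, ENNReal.ofReal W.q * W.νQ Q ≤ ENNReal.ofReal K1 * W.prior (E ∩ W.labQ ⁻¹' {Q}) := by
  classical
  have hprob := hW.ln.prob
  by_contra hcon
  push Not at hcon
  obtain ⟨R, hR⟩ : ∃ R : Finset W.Q, R = Finset.univ.filter (fun Q => Q ∈ W.Qa) := ⟨_, rfl⟩
  have hRmem : ∀ Q, Q ∈ R ↔ Q ∈ W.Qa := by
    intro Q
    rw [hR]
    simp
  have hq : 0 < W.q := by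
    unfold K7aW.q
    positivity
  -- budget
  have hblock : ∀ n : ℕ, ∑ Q ∈ R.filter (fun Q => W.iv Q = n), W.νQ Q ≤ 1 := by
    intro n
    unfold K7aW.νQ
    rw [← measure_biUnion_finset ?_ (fun Q _ => hW.m_asg Q)]
    · exact prob_le_one
    · intro Q hQ Q' hQ' hQQ
      have h1 := Finset.mem_filter.1 hQ
      have h2 := Finset.mem_filter.1 hQ'
      exact hW.disj Q ((hRmem Q).1 h1.1) Q' ((hRmem Q').1 h2.1) (h1.2.trans h2.2.symm) hQQ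
  have hsumν : ∑ Q ∈ R, W.νQ Q ≤ ((2 ^ W.lev : ℕ) : ℝ≥0∞) := by
    have hmaps : ∀ Q ∈ R, W.iv Q ∈ Finset.range (2 ^ W.lev) := fun Q hQ =>
      Finset.mem_range.2 (hW.iv_lt Q ((hRmem Q).1 hQ))
    rw [← Finset.sum_fiberwise_of_maps_to hmaps]
    calc ∑ n ∈ Finset.range (2 ^ W.lev), ∑ Q ∈ R.filter (fun Q => W.iv Q = n), W.νQ Q
        ≤ ∑ _n ∈ Finset.range (2 ^ W.lev), 1 := Finset.sum_le_sum fun n _ => hblock n
      _ = ((2 ^ W.lev : ℕ) : ℝ≥0∞) := by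
          rw [Finset.sum_const, Finset.card_range, nsmul_eq_mul, mul_one]
  have hbud : ∑ Q ∈ R, ENNReal.ofReal W.q * W.νQ Q ≤ 1 := by
    rw [← Finset.mul_sum]
    calc ENNReal.ofReal W.q * ∑ Q ∈ R, W.νQ Q ≤ ENNReal.ofReal W.q * ((2 ^ W.lev : ℕ) : ℝ≥0∞) := by gcongr
      _ = ENNReal.ofReal (W.q * ((2 ^ W.lev : ℕ) : ℝ)) := by rw [ENNReal.ofReal_mul hq.le, ENNReal.ofReal_natCast]
      _ = 1 := by
          have : W.q * ((2 ^ W.lev : ℕ) : ℝ) = 1 := by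
            unfold K7aW.q
            push_cast
            rw [← mul_pow]
            norm_num
          rw [this, ENNReal.ofReal_one]
  have hcov : E ⊆ ⋃ Q ∈ R, E ∩ W.labQ ⁻¹' {Q} := by
    intro p hp
    simp only [Set.mem_iUnion, exists_prop]
    exact ⟨W.labQ p, (hRmem _).2 (hW.lab p (hsub hp)).1, hp, rfl⟩
  have hE1 : ENNReal.ofReal K1 * W.prior E ≤ ∑ Q ∈ R, ENNReal.ofReal K1 * W.prior (E ∩ W.labQ ⁻¹' {Q}) := by
    rw [← Finset.mul_sum]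
    gcongr
    exact (measure_mono hcov).trans (measure_biUnion_finset_le _ _)
  rcases R.eq_empty_or_nonempty with hemp | hne
  · rw [hemp, Finset.sum_empty] at hE1
    have := hmass.trans hE1
    simp at this
  · have h1 : ∑ Q ∈ R, ENNReal.ofReal K1 * W.prior (E ∩ W.labQ ⁻¹' {Q}) < ∑ Q ∈ R, ENNReal.ofReal W.q * W.νQ Q :=
      ENNReal.sum_lt_sum_of_nonempty hne fun Q hQ => hcon Q ((hRmem Q).1 hQ)
    exact absurd (hmass.trans (hE1.trans (h1.le.trans hbud))) (by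
      intro h2
      exact absurd (lt_of_le_of_lt (hmass.trans hE1) (lt_of_lt_of_le h1 hbud)) (lt_irrefl _))

theorem k7wd_bin_disj (χ : ℝ) : Pairwise (Function.onFun Disjoint (k7aBinI χ)) := by
  intro b b' hbb
  refine Set.disjoint_left.2 fun x hx hx' => hbb ?_
  rw [← k7wc_bin_iff] at hx hx'
  rw [← hx, hx']

/-- **L-252-S7wD-PAL** (the next two statements, ~150 l.).   The bins `k7aBinI χ0 b` are disjoint measurable intervals (`kbDy χ0 > 0` always): `∑' b, pal (bin b) = pal (⋃ b, bin b) ≤ pal univ`. -/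
theorem k7wd_pal_sum (W : K7aLn) (h : W.pal Set.univ ≤ 1) : ∑' b, W.pi b ≤ 1 := by
  unfold K7aLn.pi K7aLn.palχ
  rw [← measure_iUnion (k7wd_bin_disj W.χ0) (fun b => k7wc_meas_binI W.χ0 b)]
  exact (measure_mono (Set.subset_univ _)).trans h

/-- the bins which meet the closed `p`-ball about `x` lie in `Icc (x - 2p) (x + 2p)` (`kbDy χ0 < 2 χ0 ≤ p`, `k7wc_dy`); `pal_ball x (2p)`. -/
theorem k7wd_pal_near (W : K7aLn) {N K d S : ℝ} {Ms Ws : Finset ℝ} (hW : W.Ok N K d S Ms Ws) (x p : ℝ) (hp : 2 * W.χ0 ≤ p) (B : Set ℤ)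
    (hB : ∀ b ∈ B, ∃ y ∈ k7aBinI W.χ0 b, |y - x| ≤ p) : ∑' b : B, W.pi b ≤ ENNReal.ofReal (K * (2 * p) ^ S) := by
  unfold K7aLn.pi K7aLn.palχ
  have hd : Pairwise (Function.onFun Disjoint (fun b : B => k7aBinI W.χ0 b)) := fun b b' hbb =>
    k7wd_bin_disj W.χ0 (fun h => hbb (Subtype.ext h))
  rw [← measure_iUnion hd (fun b => k7wc_meas_binI W.χ0 b)]
  have hχ := hW.χ0_pos
  obtain ⟨hD0, -, hD2⟩ := k7wc_dy hχ
  refine (measure_mono ?_).trans (hW.pal_ball x (2 * p) (by linarith))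
  intro z hz
  obtain ⟨⟨b, hb⟩, hzb⟩ := Set.mem_iUnion.1 hz
  obtain ⟨y, hy, hyx⟩ := hB b hb
  have hzb' : z ∈ k7aBinI W.χ0 b := hzb
  unfold k7aBinI at hzb' hy
  rw [abs_le] at hyx
  constructor <;> nlinarith [hzb'.1, hzb'.2, hy.1, hy.2, hyx.1, hyx.2]

theorem k7wd_bin_meas (w : ℝ) : Measurable (kbBin w) := by
  have h : Measurable fun x : ℝ => x / kbDy w := by fun_prop
  exact Int.measurable_floor.comp h

/-- **L-252-S7wD-MEAS** (the next two statements, ~100 l.).   `kbBin w (f z) = ⌊f z / kbDy w⌋` with `f` measurable (`m_co`, `Int.measurable_floor`/`Measurable.floor`); `labQ` : `m_labQ`; a finite intersection of measurable fibres. -/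
theorem k7wd_meas_stt (W : K7aW) {N K d S a h g : ℝ} {Ms Ws : Finset ℝ} (hW : W.Ok N K d S a h g Ms Ws) (σ pw : ℝ) : KsLab (W.stt σ pw) := by
  obtain ⟨hZ0, hv, hY0, hY1, hx0, hx1, hx2⟩ := hW.ln.m_co
  intro s0
  have hf : ∀ f : W.L → ℝ, Measurable f → Measurable fun z : W.L × ℝ => f z.1 := fun f hf => hf.comp measurable_fst
  have hZ : Measurable fun z : W.L × ℝ => W.Z z.1 z.2 := by
    unfold K7aLn.Z
    exact (hf _ hZ0).add ((hf _ hv).mul measurable_snd)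
  have hY : Measurable fun z : W.L × ℝ => W.Y z.1 z.2 := by
    unfold K7aLn.Y
    exact (hf _ hY0).add ((hf _ hY1).mul measurable_snd)
  have hX : Measurable fun z : W.L × ℝ => W.X z.1 z.2 := by
    unfold K7aLn.X
    exact ((hf _ hx0).add ((hf _ hx1).mul measurable_snd)).add ((hf _ hx2).mul (measurable_snd.pow_const 2))
  have hpt : Measurable (W.pt σ pw) := by
    unfold K7aLn.pt
    exact ((k7wd_bin_meas σ).comp measurable_snd).prodMk (((k7wd_bin_meas σ).comp hZ).prodMk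
      (((k7wd_bin_meas σ).comp hY).prodMk ((k7wd_bin_meas pw).comp hX)))
  have e : W.stt σ pw ⁻¹' {s0} = W.labQ ⁻¹' {s0.1} ∩ W.pt σ pw ⁻¹' {s0.2} := by
    ext z
    simp only [K7aW.stt, Set.mem_preimage, Set.mem_singleton_iff, Set.mem_inter_iff, Prod.ext_iff]
  rw [e]
  exact (hW.m_labQ s0.1).inter (hpt (measurableSet_singleton s0.2))

theorem k7wd_meas_vbin (W : K7aLn) {N K d S : ℝ} {Ms Ws : Finset ℝ} (hW : W.Ok N K d S Ms Ws) : KsLab (fun p : W.L × ℝ => W.vbin p.1) := by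
  intro s0
  have h : Measurable fun p : W.L × ℝ => W.vbin p.1 := (k7wd_bin_meas W.χ0).comp (hW.m_co.2.1.comp measurable_fst)
  exact h (measurableSet_singleton s0)

/-! ## 3. Geometry -/

/-- the oblique index of a fine state: the floor of `ξ/ω` at the lower corner `(c_t σ', c_Z σ')` of its cell -/
def k7wdIx (W : K7aW) (Q : W.Q) (va vb σ ω : ℝ) (s : W.Q × (ℤ × ℤ × ℤ × ℤ)) : ℤ :=
  ⌊k7wdXi W Q va vb ((s.2.1 : ℝ) * kbDy σ) ((s.2.2.1 : ℝ) * kbDy σ) / ω⌋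

/-- **L-252-S7wD-CELL** (the next two statements, ~150 l.).   Two incidences of one fine state: `t, t' ∈ [c σ', (c+1) σ')`, `σ' = kbDy σ < 2σ` (`k7wc_dy`, `k7wc_bin_iff`). -/
theorem k7wd_cell (W : K7aW) {σ pw : ℝ} (hσ : 0 < σ) {p p' : W.L × ℝ} (h : W.stt σ pw p = W.stt σ pw p') :
    |p.2 - p'.2| ≤ 2 * σ ∧ |W.Z p.1 p.2 - W.Z p'.1 p'.2| ≤ 2 * σ := by
  obtain ⟨hD0, -, hD2⟩ := k7wc_dy hσ
  have key : ∀ x x' : ℝ, kbBin σ x = kbBin σ x' → |x - x'| ≤ 2 * σ := by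
    intro x x' hx
    have h1 := (k7wc_bin_iff σ x _).1 hx
    have h2 := (k7wc_bin_iff σ x' _).1 rfl
    unfold k7aBinI at h1 h2
    rw [abs_le]
    constructor <;> nlinarith [h1.1, h1.2, h2.1, h2.2]
  have h1 : kbBin σ p.2 = kbBin σ p'.2 := congrArg (fun s => s.2.1) h
  have h2 : kbBin σ (W.Z p.1 p.2) = kbBin σ (W.Z p'.1 p'.2) := congrArg (fun s => s.2.2.1) h
  exact ⟨key _ _ h1, key _ _ h2⟩

/-- `|ξ(p) - ξ(corner)| ≤ (σ' + |vb| σ')/(q |va - vb|) ≤ ω` and `|x - ω ⌊x/ω⌋| ≤ ω`;  `W.q = (1/2)^lev > 0`. -/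
theorem k7wd_near (W : K7aW) (Q : W.Q) {va vb σ pw ω : ℝ} (hσ : 0 < σ) (hω : 0 < ω) (hne : va ≠ vb)
    (h : (1 + |vb|) * (2 * σ) ≤ ω * (W.q * |va - vb|)) (p : W.L × ℝ) :
    |k7wdXi W Q va vb p.2 (W.Z p.1 p.2) - ω * k7wdIx W Q va vb σ ω (W.stt σ pw p)| ≤ 2 * ω := by
  obtain ⟨hD0, -, hD2⟩ := k7wc_dy hσ
  have hq : 0 < W.q := by
    unfold K7aW.q
    positivity
  have hab : 0 < |va - vb| := abs_pos.2 (sub_ne_zero.2 hne)
  have hden : 0 < W.q * |va - vb| := by positivity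
  have key : ∀ x : ℝ, |x - (kbBin σ x : ℝ) * kbDy σ| ≤ 2 * σ := by
    intro x
    have h1 := (k7wc_bin_iff σ x _).1 rfl
    unfold k7aBinI at h1
    rw [abs_le]
    constructor <;> nlinarith [h1.1, h1.2]
  set t := p.2 with ht
  set Z := W.Z p.1 p.2 with hZ
  set x₀ := k7wdXi W Q va vb ((kbBin σ t : ℝ) * kbDy σ) ((kbBin σ Z : ℝ) * kbDy σ) with hx₀
  have hIx : k7wdIx W Q va vb σ ω (W.stt σ pw p) = ⌊x₀ / ω⌋ := rfl
  have h1 : |k7wdXi W Q va vb t Z - x₀| ≤ ω := by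
    have e : k7wdXi W Q va vb t Z - x₀
        = ((Z - (kbBin σ Z : ℝ) * kbDy σ) - vb * (t - (kbBin σ t : ℝ) * kbDy σ)) / (W.q * (va - vb)) := by
      rw [hx₀]
      unfold k7wdXi
      rw [← sub_div]
      congr 1
      ring
    rw [e, abs_div, abs_mul, abs_of_pos hq, div_le_iff₀ hden]
    have h2 : |vb * (t - (kbBin σ t : ℝ) * kbDy σ)| ≤ |vb| * (2 * σ) := by
      rw [abs_mul]
      exact mul_le_mul_of_nonneg_left (key t) (abs_nonneg _)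
    calc |(Z - (kbBin σ Z : ℝ) * kbDy σ) - vb * (t - (kbBin σ t : ℝ) * kbDy σ)|
        ≤ |Z - (kbBin σ Z : ℝ) * kbDy σ| + |vb * (t - (kbBin σ t : ℝ) * kbDy σ)| := abs_sub _ _
      _ ≤ 2 * σ + |vb| * (2 * σ) := add_le_add (key Z) h2
      _ = (1 + |vb|) * (2 * σ) := by ring
      _ ≤ _ := h
  have h2 : |x₀ - ω * (⌊x₀ / ω⌋ : ℝ)| ≤ ω := by
    have h3 := Int.floor_le (x₀ / ω)
    have h4 := Int.lt_floor_add_one (x₀ / ω)
    rw [le_div_iff₀ hω] at h3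
    rw [div_lt_iff₀ hω] at h4
    rw [abs_le]
    constructor <;> nlinarith
  rw [hIx]
  calc |k7wdXi W Q va vb t Z - ω * (⌊x₀ / ω⌋ : ℝ)|
      = |(k7wdXi W Q va vb t Z - x₀) + (x₀ - ω * (⌊x₀ / ω⌋ : ℝ))| := by
        congr 1
        ring
    _ ≤ _ := abs_add_le _ _
    _ ≤ 2 * ω := by linarith

/-- **L-252-S7wD-FLOOR** (~40 l.) -/
theorem k7wd_floor_fin {c R w : ℝ} (hw : 0 < w) (hR : 0 ≤ R) :
    ∃ I : Finset ℤ, (I.card : ℝ) ≤ 2 * R / w + 2 ∧ ∀ x : ℝ, |x - c| ≤ R → ⌊x / w⌋ ∈ I := by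
  refine ⟨Finset.Icc ⌊(c - R) / w⌋ ⌊(c + R) / w⌋, ?_, ?_⟩
  · rw [Int.card_Icc]
    have h0 : 0 ≤ ⌊(c + R) / w⌋ + 1 - ⌊(c - R) / w⌋ := by
      have : ⌊(c - R) / w⌋ ≤ ⌊(c + R) / w⌋ := Int.floor_le_floor (by gcongr; linarith)
      omega
    have h1 : ((⌊(c + R) / w⌋ + 1 - ⌊(c - R) / w⌋).toNat : ℝ) = ((⌊(c + R) / w⌋ + 1 - ⌊(c - R) / w⌋ : ℤ) : ℝ) := by
      exact_mod_cast Int.toNat_of_nonneg h0
    rw [h1]
    push_cast
    have h2 := Int.floor_le ((c + R) / w)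
    have h3 := Int.lt_floor_add_one ((c - R) / w)
    have h4 : (c + R) / w - (c - R) / w = 2 * R / w := by
      rw [← sub_div]
      congr 1
      ring
    linarith
  · intro x hx
    rw [abs_le] at hx
    rw [Finset.mem_Icc]
    exact ⟨Int.floor_le_floor (by gcongr; linarith [hx.1]), Int.floor_le_floor (by gcongr; linarith [hx.2])⟩

theorem k7wd_row_aux {x t D c : ℝ} (hx0 : 0 ≤ x) (hx1 : x < D) (hD : D < 2 * c) (ht0 : 0 ≤ t) (ht1 : t ≤ 1) : |x * t| ≤ 2 * c := by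
  rw [abs_mul, abs_of_nonneg hx0, abs_of_nonneg ht0]
  calc x * t ≤ x * 1 := mul_le_mul_of_nonneg_left ht1 hx0
    _ ≤ 2 * c := by linarith

/-- **L-252-S7wD-ROW** (~350 l.).   **The labels of the witnesses of ONE finest velocity bin in ONE row.**   `va = bn χ0'`, `χ0' = kbDy χ0 < 2 χ0`, `χ' = kbDy χ ≥ χ`, `t_Q = W.tQ Q`.   Let `p = (l,t)` be as in the conclusion; `p ∈ Ev0`, so `t ∈ blk Q ∩ [0,1]`, `l ∈ asg Q` (`lab`, `Ev0_sub`); `0 ≤ v - va < χ0'`.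
* `ξ q (vb - va) = (Z - Zc) - va (t - t_Q)`, so `|Z - va t - c₀| ≤ 2 q ω |vb - va|`, `c₀ = Zc - va t_Q + q (vb - va) ω j`;  `Z0 = (Z - va t) - (v - va) t` : `|Z0 - c₀| ≤ χ ≤ χ'` : `≤ 4` values of `kbBin χ Z0`;   `|v - va| ≤ χ'` : `≤ 4` values of `kbBin χ v`  (`k7wd_floor_fin`).
* `sdom q g (q g) p = (iv Q, ⌊Y1/g⌋, ⌊Y(t_Q)/(q g)⌋)` :  `|Y1 - (r1 + r2 va)| ≤ K g + K χ0' ≤ (K+1) g` (`slope`, `row_bd`): `≤ 2K+4` values;   `|Y(t_Q) - Y_Q(t_Q, c₀ + va t_Q)| ≤ K h g + K (χ + χ0') ≤ (K² + 1) q g` (`box` at `t_Q ∈ blk Q`, `q_lo`): `≤ 2K²+4` values.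
* `F = insert none (image some (biUnion over the product of the four ranges of the list `hL.fwd`))` : `1 + 16 (2K+4)(2K²+4) K ≤ 600 K⁴`. -/
theorem k7wd_row_labels (W : K7aW) (P0 : K7aLayer W.toK7aLn) {N K d S a h g χ ω : ℝ} {Ms Ws : Finset ℝ} {E : Set (W.L × ℝ)}
    (hW : W.Ok N K d S a h g Ms Ws) (hsub : E ⊆ W.Ev0) (hL : K7aLists W P0 E K χ W.q g (W.q * g)) (hK : 1 ≤ K) (hh : 0 < h) (hg : 0 < g) (hχ : 0 < χ)
    (hω : 0 < ω) {Q : W.Q} (hQ : Q ∈ W.Qa) (bn : ℤ) (vb : ℝ) (hne : vb ≠ bn * kbDy W.χ0)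
    (h1 : 2 * W.q * ω * |vb - bn * kbDy W.χ0| + 2 * W.χ0 ≤ χ) (h2 : 2 * K * W.χ0 ≤ g) (h3 : 4 * K * χ ≤ W.q * g) (j : ℤ) :
    ∃ F : Finset (Option P0.Ph), (F.card : ℝ) ≤ 600 * K ^ 4 ∧
      ∀ p ∈ E, W.labQ p = Q → W.vbin p.1 = bn → |k7wdXi W Q vb (bn * kbDy W.χ0) p.2 (W.Z p.1 p.2) - ω * j| ≤ 2 * ω → P0.lab p.1 ∈ F := by
  classical
  obtain ⟨hD0, hD0a, hD0b⟩ := k7wc_dy hW.ln.χ0_pos
  obtain ⟨hD1, hD1a, -⟩ := k7wc_dy hχ
  have hχ0 := hW.ln.χ0_pos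
  have hq : 0 < W.q := by
    unfold K7aW.q
    positivity
  have hqg : 0 < W.q * g := by positivity
  have hK0 : 0 < K := by linarith
  obtain ⟨va, hva⟩ : ∃ va : ℝ, va = bn * kbDy W.χ0 := ⟨_, rfl⟩
  rw [← hva] at hne h1
  obtain ⟨tQ, htQ⟩ : ∃ tQ : ℝ, tQ = (W.iv Q : ℝ) * W.q := ⟨_, rfl⟩
  obtain ⟨c₀, hc₀⟩ : ∃ c₀ : ℝ, c₀ = W.Zc Q - va * tQ + W.q * (vb - va) * (ω * j) := ⟨_, rfl⟩
  have hA0 : 0 ≤ 2 * W.q * ω * |vb - va| := by positivity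
  obtain ⟨Iv, hIv1, hIv2⟩ := k7wd_floor_fin (c := va) (R := kbDy χ) (w := kbDy χ) hD1 hD1.le
  obtain ⟨IZ, hIZ1, hIZ2⟩ := k7wd_floor_fin (c := c₀) (R := kbDy χ) (w := kbDy χ) hD1 hD1.le
  obtain ⟨I1, hI11, hI12⟩ := k7wd_floor_fin (c := W.r1 Q + W.r2 Q * va) (R := (K + 1) * g) (w := g) hg (by positivity)
  obtain ⟨I2, hI21, hI22⟩ := k7wd_floor_fin (c := W.YQ Q tQ (c₀ + va * tQ)) (R := (K ^ 2 + 1) * (W.q * g)) (w := W.q * g) hqg
    (by positivity)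
  have e4 : 2 * kbDy χ / kbDy χ + 2 = 4 := by
    field_simp
    norm_num
  rw [e4] at hIv1 hIZ1
  have e5 : 2 * ((K + 1) * g) / g + 2 = 2 * K + 4 := by
    field_simp
    ring
  rw [e5] at hI11
  have e6 : 2 * ((K ^ 2 + 1) * (W.q * g)) / (W.q * g) + 2 = 2 * K ^ 2 + 4 := by
    field_simp
    ring
  rw [e6] at hI21
  choose Sf hSf1 hSf2 using hL.fwd Q
  obtain ⟨T, hT⟩ : ∃ T : Finset (ℤ × ℤ × ℤ × ℤ), T = Iv ×ˢ IZ ×ˢ I1 ×ˢ I2 := ⟨_, rfl⟩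
  obtain ⟨G, hG⟩ : ∃ G : Finset P0.Ph, G = T.biUnion (fun x => Sf x.1 x.2.1 ((W.iv Q : ℤ), x.2.2.1, x.2.2.2)) := ⟨_, rfl⟩
  refine ⟨insert none (G.image some), ?_, ?_⟩
  · have h5 : ((insert none (G.image some) : Finset (Option P0.Ph)).card : ℝ) ≤ (G.card : ℝ) + 1 := by
      have := (Finset.card_insert_le (none : Option P0.Ph) (G.image some)).trans
        (Nat.add_le_add_right Finset.card_image_le 1)
      exact_mod_cast this
    have h6 : (G.card : ℝ) ≤ (T.card : ℝ) * K := by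
      have h7 : (G.card : ℝ) ≤ ∑ x ∈ T, ((Sf x.1 x.2.1 ((W.iv Q : ℤ), x.2.2.1, x.2.2.2)).card : ℝ) := by
        rw [hG]
        exact_mod_cast Finset.card_biUnion_le
      refine h7.trans ?_
      calc ∑ x ∈ T, ((Sf x.1 x.2.1 ((W.iv Q : ℤ), x.2.2.1, x.2.2.2)).card : ℝ) ≤ ∑ _x ∈ T, K :=
            Finset.sum_le_sum fun x _ => hSf1 _ _ _
        _ = (T.card : ℝ) * K := by rw [Finset.sum_const, nsmul_eq_mul]
    have h8 : (T.card : ℝ) ≤ 4 * (4 * ((2 * K + 4) * (2 * K ^ 2 + 4))) := by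
      rw [hT, Finset.card_product, Finset.card_product, Finset.card_product]
      push_cast
      gcongr
    have h9 : (T.card : ℝ) * K ≤ 4 * (4 * ((2 * K + 4) * (2 * K ^ 2 + 4))) * K := mul_le_mul_of_nonneg_right h8 hK0.le
    have h10 : 4 * (4 * ((2 * K + 4) * (2 * K ^ 2 + 4))) * K + 1 ≤ 600 * K ^ 4 := by
      have k2 : 1 ≤ K ^ 2 := one_le_pow₀ hK
      have k3 : K ^ 2 ≤ K ^ 3 := pow_le_pow_right₀ hK (by norm_num)
      have k4 : K ^ 3 ≤ K ^ 4 := pow_le_pow_right₀ hK (by norm_num)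
      have k1 : K ≤ K ^ 2 := by nlinarith
      nlinarith
    linarith
  · intro p hp hlab hvb hξ
    rw [← hva] at hξ
    have hEv := hsub hp
    obtain ⟨-, hinc⟩ := hW.lab p hEv
    rw [hlab] at hinc
    obtain ⟨hl, ht⟩ := hinc
    obtain ⟨-, ht01⟩ := hW.ln.Ev0_sub hEv
    have ht' : (W.iv Q : ℝ) * W.q ≤ p.2 ∧ p.2 < ((W.iv Q : ℝ) + 1) * W.q := ht
    rw [← htQ] at ht'
    have htQ0 : 0 ≤ tQ := by
      rw [htQ]
      positivity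
    have htQ1 : tQ ≤ 1 := ht'.1.trans ht01.2
    have htQb : tQ ∈ W.blk Q := by
      unfold K7aW.blk
      rw [← htQ]
      exact ⟨le_rfl, by linarith [ht'.1, ht'.2]⟩
    have hvbin := (k7wc_bin_iff W.χ0 (W.v p.1) bn).1 hvb
    unfold k7aBinI at hvbin
    have hv0 : 0 ≤ W.v p.1 - va := by
      rw [hva]
      linarith [hvbin.1]
    have hv1 : W.v p.1 - va < kbDy W.χ0 := by
      rw [hva]
      linarith [hvbin.2]
    obtain ⟨hZc, hr0, hr1, hr2⟩ := hW.row_bd Q hQ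
    -- the velocity bin
    have hv : |W.v p.1 - va| ≤ kbDy χ := by
      rw [abs_of_nonneg hv0]
      linarith only [hv1, hD0b, h1, hA0, hD1a]
    -- the position
    have hden : W.q * (vb - va) ≠ 0 := mul_ne_zero hq.ne' (sub_ne_zero.2 hne)
    have hξ2 : |(W.Z p.1 p.2 - W.Zc Q) - va * (p.2 - tQ) - W.q * (vb - va) * (ω * j)| ≤ 2 * W.q * ω * |vb - va| := by
      have e : (W.Z p.1 p.2 - W.Zc Q) - va * (p.2 - tQ) - W.q * (vb - va) * (ω * j)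
          = W.q * (vb - va) * (k7wdXi W Q vb va p.2 (W.Z p.1 p.2) - ω * j) := by
        unfold k7wdXi K7aW.tQ
        rw [← htQ]
        field_simp
      rw [e, abs_mul, abs_mul, abs_of_pos hq]
      calc W.q * |vb - va| * |k7wdXi W Q vb va p.2 (W.Z p.1 p.2) - ω * j| ≤ W.q * |vb - va| * (2 * ω) := by gcongr
        _ = 2 * W.q * ω * |vb - va| := by ring
    have hvt : |(W.v p.1 - va) * p.2| ≤ 2 * W.χ0 := k7wd_row_aux hv0 hv1 hD0b ht01.1 ht01.2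
    have hZ0 : |W.Z0 p.1 - c₀| ≤ χ := by
      have e : W.Z0 p.1 - c₀ = ((W.Z p.1 p.2 - W.Zc Q) - va * (p.2 - tQ) - W.q * (vb - va) * (ω * j)) - (W.v p.1 - va) * p.2 := by
        rw [hc₀]
        unfold K7aLn.Z
        ring
      rw [e]
      refine (abs_sub _ _).trans ?_
      linarith only [hξ2, hvt, h1]
    -- the slope
    have hY1 : |W.Y1 p.1 - (W.r1 Q + W.r2 Q * va)| ≤ (K + 1) * g := by
      have e : W.Y1 p.1 - (W.r1 Q + W.r2 Q * va) = (W.Y1 p.1 - (W.r1 Q + W.r2 Q * W.v p.1)) + W.r2 Q * (W.v p.1 - va) := by ring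
      have h5 : |W.r2 Q * (W.v p.1 - va)| ≤ g := by
        rw [abs_mul, abs_of_nonneg hv0]
        calc |W.r2 Q| * (W.v p.1 - va) ≤ K * (2 * W.χ0) := mul_le_mul hr2 (by linarith only [hv1, hD0b]) hv0 hK0.le
          _ = 2 * K * W.χ0 := by ring
          _ ≤ g := h2
      rw [e]
      refine (abs_add_le _ _).trans ?_
      linarith only [hW.slope Q hQ p.1 hl, h5]
    -- the position in `Y`
    have hY : |W.Y p.1 tQ - W.YQ Q tQ (c₀ + va * tQ)| ≤ (K ^ 2 + 1) * (W.q * g) := by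
      have e : W.Y p.1 tQ - W.YQ Q tQ (c₀ + va * tQ)
          = (W.Y p.1 tQ - W.YQ Q tQ (W.Z p.1 tQ)) + W.r2 Q * ((W.Z0 p.1 - c₀) + (W.v p.1 - va) * tQ) := by
        unfold K7aW.YQ K7aLn.Z
        ring
      have h5 : |(W.Z0 p.1 - c₀) + (W.v p.1 - va) * tQ| ≤ 2 * χ := by
        have h6 : |(W.v p.1 - va) * tQ| ≤ 2 * W.χ0 := k7wd_row_aux hv0 hv1 hD0b htQ0 htQ1
        refine (abs_add_le _ _).trans ?_
        linarith only [h6, hZ0, h1, hA0]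
      have h6 : |W.r2 Q * ((W.Z0 p.1 - c₀) + (W.v p.1 - va) * tQ)| ≤ W.q * g := by
        rw [abs_mul]
        calc |W.r2 Q| * |(W.Z0 p.1 - c₀) + (W.v p.1 - va) * tQ| ≤ K * (2 * χ) := mul_le_mul hr2 h5 (abs_nonneg _) hK0.le
          _ ≤ W.q * g := by linarith only [h3, hχ, hK0, mul_pos hK0 hχ]
      have h7 : K * (h * g) ≤ K ^ 2 * (W.q * g) := by
        have := hW.q_lo
        calc K * (h * g) ≤ K * (K * W.q * g) := by gcongr
          _ = K ^ 2 * (W.q * g) := by ring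
      rw [e]
      refine (abs_add_le _ _).trans ?_
      linarith only [(hW.box Q hQ p.1 hl tQ htQb).2, h6, h7]
    -- the comparison domain
    have hfl : ⌊p.2 / W.q⌋ = (W.iv Q : ℤ) := by
      rw [Int.floor_eq_iff, le_div_iff₀ hq, div_lt_iff₀ hq]
      push_cast
      rw [← htQ]
      exact ht'
    have hsd : W.sdom W.q g (W.q * g) p = ((W.iv Q : ℤ), ⌊W.Y1 p.1 / g⌋, ⌊W.Y p.1 tQ / (W.q * g)⌋) := by
      unfold K7aLn.sdom
      rw [hfl, htQ]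
      push_cast
      rfl
    rcases hφ : P0.lab p.1 with _ | φ
    · exact Finset.mem_insert_self _ _
    · refine Finset.mem_insert_of_mem (Finset.mem_image_of_mem _ ?_)
      rw [hG, Finset.mem_biUnion]
      refine ⟨(kbBin χ (W.v p.1), kbBin χ (W.Z0 p.1), ⌊W.Y1 p.1 / g⌋, ⌊W.Y p.1 tQ / (W.q * g)⌋), ?_, ?_⟩
      · rw [hT]
        simp only [Finset.mem_product]
        exact ⟨hIv2 _ hv, hIZ2 _ (hZ0.trans hD1a), hI12 _ hY1, hI22 _ hY⟩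
      · exact hSf2 _ _ _ p hp hlab rfl rfl hsd φ hφ

/-! ## 4. The coefficients `f₁, f₂` of a label -/

/-- **L-252-S7wD-ADAPT** (~120 l.).   `G(t,u) = F(t, c0 + c1 t + β u)` is `K7aQuad`; `k7a_quad_coeff` (`A = K`): `G = g0 + g1 t + g2 u + g3 t² + g4 t u + g5 u²`, `|g_i| ≤ 8K`;  `F(t,y) = G(t, (y - cen t)/β)`.
Only `g2, g4, g5` enter `f₁, f₂`. -/
theorem k7wd_adapt {F : ℝ → ℝ → ℝ} {c0 c1 β K : ℝ} (hF : K7aQuad F) (hβ : 0 < β)
    (hn : ∀ t ∈ Set.Icc (0 : ℝ) 1, ∀ u ∈ Set.Icc (-1 : ℝ) 1, |F t (c0 + c1 * t + β * u)| ≤ K) :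
    ∃ g2 g4 g5 : ℝ, |g2| ≤ 8 * K ∧ |g4| ≤ 8 * K ∧ |g5| ≤ 8 * K ∧
      (∀ b t y, k7wF1 F b t y = b / β * (g2 + g4 * t + 2 * g5 * ((y - (c0 + c1 * t)) / β))) ∧ ∀ b t y, k7wF2 F b t y = (b / β) ^ 2 * g5 := by
  have hG : K7aQuad (fun t u => F t (c0 + c1 * t + β * u)) := by
    obtain ⟨e0, e1, e2, e3, e4, e5, he⟩ := hF
    refine ⟨e0 + e2 * c0 + e5 * c0 ^ 2, e1 + e2 * c1 + e4 * c0 + 2 * e5 * c0 * c1, e2 * β + 2 * e5 * c0 * β, e3 + e4 * c1 + e5 * c1 ^ 2,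
      e4 * β + 2 * e5 * c1 * β, e5 * β ^ 2, fun t u => ?_⟩
    simp only [he]
    ring
  obtain ⟨g0, g1, g2, g3, g4, g5, hg, -, -, h2, -, h4, h5⟩ := k7a_quad_coeff hG hn
  have hFG : ∀ t y, F t y = g0 + g1 * t + g2 * ((y - (c0 + c1 * t)) / β) + g3 * t ^ 2 + g4 * t * ((y - (c0 + c1 * t)) / β)
      + g5 * ((y - (c0 + c1 * t)) / β) ^ 2 := by
    intro t y
    rw [← hg t ((y - (c0 + c1 * t)) / β)]
    congr 1
    field_simp
    ring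
  refine ⟨g2, g4, g5, h2, h4, h5, fun b t y => ?_, fun b t y => ?_⟩
  · unfold k7wF1
    rw [hFG, hFG]
    field_simp
    ring
  · unfold k7wF2
    rw [hFG, hFG, hFG]
    field_simp
    ring

/-- scalar part of RHO -/
theorem k7wd_rho_sc {K β b g4 g5 r1 r2 c1 : ℝ} (hK : 1 ≤ K) (hβ : 0 < β) (hβK : β ≤ K) (hb : 0 ≤ b) (h4 : |g4| ≤ 8 * K) (h5 : |g5| ≤ 8 * K)
    (hr1 : |r1| ≤ K) (hr2 : |r2| ≤ K) (hc1 : |c1| ≤ K + 2 * K * β) :
    (|b / β * (g4 + 2 * g5 * ((r1 - c1) / β))| + |b / β * (2 * g5 * (r2 / β))|) * β ^ 2 ≤ 88 * K ^ 3 * b := by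
  have hK0 : 0 < K := by linarith
  have e1 : |b / β * (g4 + 2 * g5 * ((r1 - c1) / β))| * β ^ 2 = b * |g4 * β + 2 * g5 * (r1 - c1)| := by
    have : b / β * (g4 + 2 * g5 * ((r1 - c1) / β)) = b * (g4 * β + 2 * g5 * (r1 - c1)) / β ^ 2 := by
      field_simp
    rw [this, abs_div, abs_mul, abs_of_nonneg hb, abs_of_pos (by positivity : 0 < β ^ 2)]
    field_simp
  have e2 : |b / β * (2 * g5 * (r2 / β))| * β ^ 2 = b * |2 * g5 * r2| := by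
    have : b / β * (2 * g5 * (r2 / β)) = b * (2 * g5 * r2) / β ^ 2 := by
      field_simp
    rw [this, abs_div, abs_mul, abs_of_nonneg hb, abs_of_pos (by positivity : 0 < β ^ 2)]
    field_simp
  have b1 : |g4 * β + 2 * g5 * (r1 - c1)| ≤ 8 * K * β + 2 * (8 * K) * (K + (K + 2 * K * β)) := by
    calc |g4 * β + 2 * g5 * (r1 - c1)| ≤ |g4 * β| + |2 * g5 * (r1 - c1)| := abs_add_le _ _
      _ = |g4| * β + 2 * |g5| * |r1 - c1| := by rw [abs_mul, abs_mul, abs_mul, abs_of_pos hβ]; norm_num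
      _ ≤ 8 * K * β + 2 * (8 * K) * (K + (K + 2 * K * β)) := by
          have : |r1 - c1| ≤ K + (K + 2 * K * β) := (abs_sub _ _).trans (add_le_add hr1 hc1)
          gcongr
  have b2 : |2 * g5 * r2| ≤ 2 * (8 * K) * K := by
    rw [abs_mul, abs_mul]
    norm_num
    gcongr
  have b3 : 8 * K * β + 2 * (8 * K) * (K + (K + 2 * K * β)) + 2 * (8 * K) * K ≤ 88 * K ^ 3 := by
    have h1 : K * β ≤ K * K := by gcongr
    have h2 : K * K ≤ K ^ 3 := by nlinarith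
    have h3 : K * K * β ≤ K * K * K := by gcongr
    nlinarith
  rw [add_mul, e1, e2, ← mul_add]
  calc b * (|g4 * β + 2 * g5 * (r1 - c1)| + |2 * g5 * r2|) ≤ b * (88 * K ^ 3) := by
        gcongr
        linarith
    _ = 88 * K ^ 3 * b := by ring

/-- **L-252-S7wD-RHO** (~200 l.).   If `o = none` or no line carries the label: all four numbers `0`.   Otherwise `k7wd_adapt` for `F_φ` (`(P0.G φ).cen t = c0 + c1 t` by `rfl`), `δ = b/β` :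
`ρ0 = δ (g2 + 2 g5 (r0 - c0)/β)`, `ρ1 = δ (g4 + 2 g5 (r1 - c1)/β)`, `ρ2 = 2 δ g5 r2/β`, `c = δ² g5`.   `|c1| ≤ K + 2 K β` (`fit` at `t = 0, 1` for a line of the label, `grp`, `bd`), `|r1|, |r2| ≤ K` (`row_bd`):
`(|ρ1| + |ρ2|) β² ≤ b (8 K β + 32 K² + 32 K² β + 16 K²) ≤ 88 K³ b`. -/
theorem k7wd_rho (W : K7aW) (P0 : K7aLayer W.toK7aLn) {N K d S a h g χ th β b : ℝ} {Ms Ws : Finset ℝ} (hW : W.Ok N K d S a h g Ms Ws)
    (hP : P0.Ok K χ th β d) (hK : 1 ≤ K) (hβ : 0 < β) (hβK : β ≤ K) (hb : 0 ≤ b) {Q : W.Q} (hQ : Q ∈ W.Qa) (o : Option P0.Ph) :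
    ∃ ρ0 ρ1 ρ2 c : ℝ, (|ρ1| + |ρ2|) * β ^ 2 ≤ 88 * K ^ 3 * b ∧
      ∀ φ l, o = some φ → P0.lab l = some φ →
        (∀ t Z, k7wF1 (P0.G φ).F b t (W.YQ Q t Z) = ρ0 + ρ1 * t + ρ2 * Z) ∧ ∀ t y, k7wF2 (P0.G φ).F b t y = c := by
  have hK0 : 0 < K := by linarith
  have hz : (|(0 : ℝ)| + |(0 : ℝ)|) * β ^ 2 ≤ 88 * K ^ 3 * b := by
    simp only [abs_zero, add_zero, zero_mul]
    positivity
  rcases o with _ | φ
  · exact ⟨0, 0, 0, 0, hz, fun φ l h => by simp at h⟩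
  by_cases hex : ∃ l0, P0.lab l0 = some φ
  swap
  · exact ⟨0, 0, 0, 0, hz, fun φ' l h hl => absurd ⟨l, by rw [hl, ← h]⟩ hex⟩
  obtain ⟨l0, hl0⟩ := hex
  obtain ⟨g2, g4, g5, h2, h4, h5, hf1, hf2⟩ := k7wd_adapt (c0 := (P0.G φ).c0) (c1 := (P0.G φ).c1) (hP.quad φ) hβ (hP.norm φ)
  obtain ⟨-, -, hr1, hr2⟩ := hW.row_bd Q hQ
  have hc1 : |(P0.G φ).c1| ≤ K + 2 * K * β := by
    have f0 := (hP.fit l0 φ hl0 0 (by norm_num)).1
    have f1 := (hP.fit l0 φ hl0 1 (by norm_num)).1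
    have hY1 := (hW.ln.bd l0 (hP.grp l0 φ hl0).1).2.2.2.1
    unfold K7aLn.Y K7aLab.cen at f0 f1
    rw [abs_le] at f0 f1 hY1 ⊢
    constructor <;> linarith [f0.1, f0.2, f1.1, f1.2, hY1.1, hY1.2]
  refine ⟨b / β * (g2 + 2 * g5 * ((W.r0 Q - (P0.G φ).c0) / β)), b / β * (g4 + 2 * g5 * ((W.r1 Q - (P0.G φ).c1) / β)), b / β * (2 * g5 * (W.r2 Q / β)),
    (b / β) ^ 2 * g5, k7wd_rho_sc hK hβ hβK hb h4 h5 hr1 hr2 hc1, ?_⟩
  intro φ' l h hl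
  have hφ : φ' = φ := (Option.some.inj h).symm
  subst hφ
  refine ⟨fun t Z => ?_, fun t y => hf2 b t y⟩
  rw [hf1]
  unfold K7aW.YQ
  field_simp
  ring

/-- **L-252-S7wD-SUP** (~150 l.).   `p = (l,t) ∈ Ev0`, `Q = labQ p ∈ Qa`, `l ∈ asg Q`, `t ∈ blk Q ∩ [0,1]` :  `|yq p - cen t| ≤ |Y_Q(t,Z) - Y_l(t)| + |Y_l(t) - cen t| ≤ K h g + K β ≤ 2 K β`;   `k7wd_adapt`, `δ = h g/β ≤ 1` :
`|f₁| ≤ δ (8K + 8K + 16 K · 2K) ≤ 48 K²`, `|f₂| = δ² |g5| ≤ 8K`. -/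
theorem k7wd_sup (W : K7aW) (P0 : K7aLayer W.toK7aLn) {N K d S a h g χ th β : ℝ} {Ms Ws : Finset ℝ} (hW : W.Ok N K d S a h g Ms Ws)
    (hP : P0.Ok K χ th β d) (hK : 1 ≤ K) (hβ : 0 < β) (hb0 : 0 ≤ h * g) (hb : h * g ≤ β) :
    ∀ p ∈ W.Ev0, ∀ φ, P0.lab p.1 = some φ →
      |k7wF1 (P0.G φ).F (h * g) p.2 (W.yq p)| ≤ 48 * K ^ 2 ∧ |k7wF2 (P0.G φ).F (h * g) p.2 (W.yq p)| ≤ 8 * K := by
  intro p hp φ hφ
  have hK0 : 0 < K := by linarith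
  obtain ⟨g2, g4, g5, h2, h4, h5, hf1, hf2⟩ := k7wd_adapt (c0 := (P0.G φ).c0) (c1 := (P0.G φ).c1) (hP.quad φ) hβ (hP.norm φ)
  obtain ⟨hQ, hinc⟩ := hW.lab p hp
  have ht : p.2 ∈ Set.Icc (0 : ℝ) 1 := (hW.ln.Ev0_sub hp).2
  have hbox := (hW.box _ hQ p.1 hinc.1 p.2 hinc.2).2
  have hfit := (hP.fit p.1 φ hφ p.2 ht).1
  have hδ0 : 0 ≤ h * g / β := by positivity
  have hδ1 : h * g / β ≤ 1 := (div_le_one hβ).2 hb
  have hu : |(W.yq p - ((P0.G φ).c0 + (P0.G φ).c1 * p.2)) / β| ≤ 2 * K := by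
    rw [abs_div, abs_of_pos hβ, div_le_iff₀ hβ]
    have e1 : |W.yq p - ((P0.G φ).c0 + (P0.G φ).c1 * p.2)| ≤ K * (h * g) + K * β := by
      have : W.yq p - ((P0.G φ).c0 + (P0.G φ).c1 * p.2) = -(W.Y p.1 p.2 - W.YQ (W.labQ p) p.2 (W.Z p.1 p.2)) + (W.Y p.1 p.2 - (P0.G φ).cen p.2) := by
        unfold K7aW.yq K7aLab.cen
        ring
      rw [this]
      refine (abs_add_le _ _).trans ?_
      rw [abs_neg]
      exact add_le_add hbox hfit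
    have e2 : K * (h * g) ≤ K * β := by gcongr
    linarith
  constructor
  · rw [hf1, abs_mul, abs_of_nonneg hδ0]
    have e3 : |g2 + g4 * p.2 + 2 * g5 * ((W.yq p - ((P0.G φ).c0 + (P0.G φ).c1 * p.2)) / β)| ≤ 8 * K + 8 * K * 1 + 2 * (8 * K) * (2 * K) := by
      refine (abs_add_le _ _).trans (add_le_add ((abs_add_le _ _).trans (add_le_add h2 ?_)) ?_)
      · rw [abs_mul, abs_of_nonneg ht.1]
        exact mul_le_mul h4 ht.2 ht.1 (by positivity)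
      · rw [abs_mul, abs_mul]
        norm_num
        gcongr
    calc h * g / β * |g2 + g4 * p.2 + 2 * g5 * ((W.yq p - ((P0.G φ).c0 + (P0.G φ).c1 * p.2)) / β)|
        ≤ 1 * (8 * K + 8 * K * 1 + 2 * (8 * K) * (2 * K)) := by gcongr
      _ ≤ 48 * K ^ 2 := by nlinarith
  · rw [hf2, abs_mul, abs_of_nonneg (by positivity)]
    calc (h * g / β) ^ 2 * |g5| ≤ 1 ^ 2 * (8 * K) := by gcongr
      _ = 8 * K := by ring

end

end Claimed.Agent.R252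

/-!
# ROW 252 (S0492), unit S7w, post BP-252-S7w-D (helper242; chief helper89), file 3: ASSEMBLY of the half D1-D3 of stage D: `k7wd_grid` (explicit slack).
-/

set_option autoImplicit false

namespace Claimed.Agent.R252

open MeasureTheory
open scoped ENNReal BigOperators

noncomputable section

theorem k7wd_fin_prior (W : K7aW) {N K d S a h g : ℝ} {Ms Ws : Finset ℝ} (hW : W.Ok N K d S a h g Ms Ws) : IsFiniteMeasure W.prior := by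
  have := hW.ln.prob
  have : IsFiniteMeasure k7aTm := by
    unfold k7aTm
    infer_instance
  unfold K7aLn.prior
  infer_instance

/-- from a gradient bound in units of `β²` to a variation bound -/
theorem k7wd_var {G β X e y : ℝ} (hβ : 0 < β) (hy : 0 ≤ y) (h1 : G * β ^ 2 ≤ X) (h2 : X * y ≤ e * β ^ 2) : G * y ≤ e := by
  have hb : 0 < β ^ 2 := by positivity
  have h3 : G * y * β ^ 2 ≤ e * β ^ 2 := by
    calc G * y * β ^ 2 = G * β ^ 2 * y := by ring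
      _ ≤ X * y := mul_le_mul_of_nonneg_right h1 hy
      _ ≤ e * β ^ 2 := h2
  exact le_of_mul_le_mul_right h3 hb

/-- **one selection step**: every state of `Sg` has a witness in the finest velocity bin `bn`; ONE label per oblique row. -/
theorem k7wd_step (W : K7aW) (P0 : K7aLayer W.toK7aLn) {N K d S a h g χ th β e b σ pw ω : ℝ} {Ms Ws : Finset ℝ} {E : Set (W.L × ℝ)}
    {c1 c2 : W.Q × (ℤ × ℤ × ℤ × ℤ) → ℝ}
    (hW : W.Ok N K d S a h g Ms Ws) (hP : P0.Ok K χ th β d) (hsub : E ⊆ W.Ev0) (hlab : ∀ p ∈ E, P0.lab p.1 ≠ none)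
    (hL : K7aLists W P0 E K χ W.q g (W.q * g)) (hF : K7wField W P0 E K e b σ pw c1 c2)
    (hK : 1 ≤ K) (hh : 0 < h) (hg : 0 < g) (hχ : 0 < χ) (hω : 0 < ω) (hσ : 0 < σ) (hb : 0 ≤ b) (hβ : 0 < β) (hβK : β ≤ K)
    {Q : W.Q} (hQ : Q ∈ W.Qa) (bn : ℤ) (vo : ℝ) (hne : vo ≠ bn * kbDy W.χ0)
    (h1 : 2 * W.q * ω * |vo - bn * kbDy W.χ0| + 2 * W.χ0 ≤ χ) (h2 : 2 * K * W.χ0 ≤ g) (h3 : 4 * K * χ ≤ W.q * g)
    (h4 : (1 + |(bn : ℝ) * kbDy W.χ0|) * (2 * σ) ≤ ω * (W.q * |vo - bn * kbDy W.χ0|)) (h5 : 88 * K ^ 3 * b * (2 * σ) ≤ e * β ^ 2)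
    (μ : Measure (W.L × ℝ)) (Sg : Set (W.Q × (ℤ × ℤ × ℤ × ℤ)))
    (hwit : ∀ s ∈ Sg, ∃ p ∈ E, W.labQ p = Q ∧ W.stt σ pw p = s ∧ W.vbin p.1 = bn) :
    ∃ (Sg' : Set (W.Q × (ℤ × ℤ × ℤ × ℤ))) (ρ0 ρ1 ρ2 cρ : ℤ → ℝ), Sg' ⊆ Sg ∧
      μ (W.stt σ pw ⁻¹' Sg) ≤ (⌈600 * K ^ 4⌉₊ : ℕ) * μ (W.stt σ pw ⁻¹' Sg') ∧
      (∀ j, (|ρ1 j| + |ρ2 j|) * β ^ 2 ≤ 88 * K ^ 3 * b) ∧
      ∀ p ∈ E, W.labQ p = Q → W.stt σ pw p ∈ Sg' → ∀ φ, P0.lab p.1 = some φ →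
        |k7wF1 (P0.G φ).F b p.2 (W.yq p) - (ρ0 (k7wdIx W Q vo (bn * kbDy W.χ0) σ ω (W.stt σ pw p))
            + ρ1 (k7wdIx W Q vo (bn * kbDy W.χ0) σ ω (W.stt σ pw p)) * p.2
            + ρ2 (k7wdIx W Q vo (bn * kbDy W.χ0) σ ω (W.stt σ pw p)) * W.Z p.1 p.2)| ≤ (2 * K + 1) * e ∧
        |k7wF2 (P0.G φ).F b p.2 (W.yq p) - cρ (k7wdIx W Q vo (bn * kbDy W.χ0) σ ω (W.stt σ pw p))| ≤ (2 * K + 1) * e := by
  classical
  set va : ℝ := bn * kbDy W.χ0 with hva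
  set st := W.stt σ pw with hst
  have hstm : KsLab st := k7wd_meas_stt W hW σ pw
  set IX : W.Q × (ℤ × ℤ × ℤ × ℤ) → ℤ := k7wdIx W Q vo va σ ω with hIX
  -- witnesses
  let wt : ∀ s, s ∈ Sg → W.L × ℝ := fun s hs => Classical.choose (hwit s hs)
  have hwt : ∀ s (hs : s ∈ Sg), wt s hs ∈ E ∧ W.labQ (wt s hs) = Q ∧ st (wt s hs) = s ∧ W.vbin (wt s hs).1 = bn := fun s hs => by
    have := Classical.choose_spec (hwit s hs)
    exact ⟨this.1, this.2.1, this.2.2.1, this.2.2.2⟩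
  let lbS : W.Q × (ℤ × ℤ × ℤ × ℤ) → Option P0.Ph := fun s => if hs : s ∈ Sg then P0.lab (wt s hs).1 else none
  choose F hFc hFm using fun j => k7wd_row_labels W P0 hW hsub hL hK hh hg hχ hω hQ bn vo hne h1 h2 h3 j
  have hFn : ∀ j, (F j).card ≤ ⌈600 * K ^ 4⌉₊ := fun j => by
    have : ((F j).card : ℝ) ≤ (⌈600 * K ^ 4⌉₊ : ℕ) := (hFc j).trans (Nat.le_ceil _)
    exact_mod_cast this
  have hmem : ∀ x ∈ st ⁻¹' Sg, (lbS ∘ st) x ∈ F ((IX ∘ st) x) := fun x hx => by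
    have hs : st x ∈ Sg := hx
    obtain ⟨w1, w2, w3, w4⟩ := hwt _ hs
    have hn := k7wd_near W Q (pw := pw) hσ hω hne h4 (wt _ hs)
    have e1 : (lbS ∘ st) x = P0.lab (wt _ hs).1 := by
      simp only [Function.comp, lbS, dif_pos hs]
    rw [e1]
    refine hFm _ _ w1 w2 w4 ?_
    have e2 : W.stt σ pw (wt _ hs) = st x := w3
    rw [e2] at hn
    exact hn
  obtain ⟨f, hf⟩ := k7wd_best μ (st ⁻¹' Sg) (ksc_lab_preimage hstm Sg) (IX ∘ st) (ksc_lab_comp hstm IX) (lbS ∘ st) (ksc_lab_comp hstm lbS)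
    ⌈600 * K ^ 4⌉₊ F hFn hmem
  choose R0 R1 R2 Rc hRg hRf using fun o => k7wd_rho W P0 hW hP hK hβ hβK hb hQ o
  refine ⟨{s | s ∈ Sg ∧ lbS s = f (IX s)}, fun j => R0 (f j), fun j => R1 (f j), fun j => R2 (f j), fun j => Rc (f j), fun s hs => hs.1, ?_,
    fun j => hRg (f j), ?_⟩
  · exact hf
  · intro p hp hpQ hps φ hφ
    obtain ⟨hs, hlb⟩ := hps
    obtain ⟨w1, w2, w3, w4⟩ := hwt _ hs
    set w := wt _ hs with hw
    have e1 : lbS (st p) = P0.lab w.1 := by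
      simp only [lbS, dif_pos hs, hw]
    obtain ⟨φw, hφw⟩ := Option.ne_none_iff_exists'.1 (hlab w w1)
    have hfo : f (IX (st p)) = some φw := by rw [← hlb, e1, hφw]
    obtain ⟨r1, r2⟩ := hRf (f (IX (st p))) φw w.1 hfo hφw
    obtain ⟨a1, a2⟩ := hF.fit w w1 φw hφw
    obtain ⟨b1, b2⟩ := hF.fit p hp φ hφ
    have e2 : W.stt σ pw w = W.stt σ pw p := w3
    rw [e2] at a1 a2
    have e3 : W.yq w = W.YQ Q w.2 (W.Z w.1 w.2) := by
      unfold K7aW.yq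
      rw [w2]
    rw [e3, r1] at a1
    rw [r2] at a2
    obtain ⟨d1, d2⟩ := k7wd_cell W hσ e2
    have hv := k7wd_var hβ (by positivity : (0 : ℝ) ≤ 2 * σ) (hRg (f (IX (st p)))) h5
    set A0 := R0 (f (IX (st p)))
    set A1 := R1 (f (IX (st p)))
    set A2 := R2 (f (IX (st p)))
    have hvar : |(A0 + A1 * w.2 + A2 * W.Z w.1 w.2) - (A0 + A1 * p.2 + A2 * W.Z p.1 p.2)| ≤ e := by
      have e4 : (A0 + A1 * w.2 + A2 * W.Z w.1 w.2) - (A0 + A1 * p.2 + A2 * W.Z p.1 p.2) = A1 * (w.2 - p.2) + A2 * (W.Z w.1 w.2 - W.Z p.1 p.2) := by ring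
      rw [e4]
      calc |A1 * (w.2 - p.2) + A2 * (W.Z w.1 w.2 - W.Z p.1 p.2)| ≤ |A1| * |w.2 - p.2| + |A2| * |W.Z w.1 w.2 - W.Z p.1 p.2| := by
            rw [← abs_mul, ← abs_mul]
            exact abs_add_le _ _
        _ ≤ |A1| * (2 * σ) + |A2| * (2 * σ) := add_le_add (mul_le_mul_of_nonneg_left d1 (abs_nonneg _)) (mul_le_mul_of_nonneg_left d2 (abs_nonneg _))
        _ = (|A1| + |A2|) * (2 * σ) := by ring
        _ ≤ e := hv
    have he : 0 ≤ e := (abs_nonneg _).trans hvar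
    constructor
    · have := abs_le.1 a1
      have := abs_le.1 b1
      have := abs_le.1 hvar
      refine abs_le.2 ⟨?_, ?_⟩ <;> linarith
    · have := abs_le.1 a2
      have := abs_le.1 b2
      refine abs_le.2 ⟨?_, ?_⟩ <;> linarith

/-- the restricted law inherits the conditional domination -/
theorem k7wd_dom_Q (W : K7aW) (P0 : K7aLayer W.toK7aLn) {N K0 K d S a h g e b σ pw : ℝ} {Ms Ws : Finset ℝ} {E : Set (W.L × ℝ)}
    {c1 c2 : W.Q × (ℤ × ℤ × ℤ × ℤ) → ℝ} (hW : W.Ok N K0 d S a h g Ms Ws) (hE : MeasurableSet E) (hF : K7wField W P0 E K e b σ pw c1 c2) (Q : W.Q)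
    (s : W.Q × (ℤ × ℤ × ℤ × ℤ)) (bn : ℤ) :
    W.prior.restrict (E ∩ W.labQ ⁻¹' {Q}) (W.stt σ pw ⁻¹' {s} ∩ (fun p : W.L × ℝ => W.vbin p.1) ⁻¹' {bn})
      ≤ ENNReal.ofReal K * W.pi bn * W.prior.restrict (E ∩ W.labQ ⁻¹' {Q}) (W.stt σ pw ⁻¹' {s}) := by
  have hEQ : MeasurableSet (E ∩ W.labQ ⁻¹' {Q}) := hE.inter (hW.m_labQ Q)
  rw [Measure.restrict_apply' hEQ, Measure.restrict_apply' hEQ]
  by_cases hs : s.1 = Q
  · have h := hF.dom s bn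
    unfold K7aLn.law at h
    rw [Measure.restrict_apply' hE, Measure.restrict_apply' hE] at h
    have e1 : ∀ X : Set (W.L × ℝ), W.stt σ pw ⁻¹' {s} ∩ X ∩ (E ∩ W.labQ ⁻¹' {Q}) = W.stt σ pw ⁻¹' {s} ∩ X ∩ E := fun X => by
      ext p
      simp only [Set.mem_inter_iff, Set.mem_preimage, Set.mem_singleton_iff]
      constructor
      · rintro ⟨h1, h2, _⟩
        exact ⟨h1, h2⟩
      · rintro ⟨h1, h2⟩
        refine ⟨h1, h2, ?_⟩
        have : (W.stt σ pw p).1 = s.1 := by rw [h1.1]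
        exact this.trans hs
    have e2 := e1 Set.univ
    rw [Set.inter_univ] at e2
    rw [e1, e2]
    exact h
  · have e1 : ∀ X : Set (W.L × ℝ), W.stt σ pw ⁻¹' {s} ∩ X ∩ (E ∩ W.labQ ⁻¹' {Q}) = ∅ := fun X => by
      apply Set.eq_empty_of_forall_notMem
      rintro p ⟨⟨h1, _⟩, _, h3⟩
      apply hs
      have h1' : W.stt σ pw p = s := h1
      have h3' : W.labQ p = Q := h3
      rw [← h1']
      exact h3'
    rw [e1, measure_empty]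
    exact zero_le

/-- **D1-D3, explicit slack.** -/
theorem k7wd_grid (W : K7aW) (P0 : K7aLayer W.toK7aLn) {N K K3 d S a h g χ th β e b σ pw r ω : ℝ} {Ms Ws : Finset ℝ} {E : Set (W.L × ℝ)}
    {c1 c2 : W.Q × (ℤ × ℤ × ℤ × ℤ) → ℝ}
    (hW : W.Ok N K d S a h g Ms Ws) (hP : P0.Ok K χ th β d) (hE : MeasurableSet E) (hsub : E ⊆ W.Ev0) (hlab : ∀ p ∈ E, P0.lab p.1 ≠ none)
    (hmass : 1 ≤ ENNReal.ofReal K * W.prior E) (hL : K7aLists W P0 E K χ W.q g (W.q * g)) (hF : K7wField W P0 E K e b σ pw c1 c2)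
    (hK : 1 ≤ K) (ha : 0 < a) (hh : 0 < h) (hg : 0 < g) (hχ : 0 < χ) (hω : 0 < ω) (hσ : 0 < σ) (he : 0 ≤ e)
    (hb : b = h * g) (hβ : 0 < β) (hβK : β ≤ K) (hbβ : b ≤ β)
    (s1 : 2 * W.χ0 ≤ r) (s2 : 2 * K ^ 2 * (2 * r) ^ S ≤ 1) (s3 : 12 * K * ω + 2 * W.χ0 ≤ χ) (s4 : 2 * K * W.χ0 ≤ g) (s5 : 4 * K * χ ≤ W.q * g)
    (s6 : (1 + 3 * K) * (2 * σ) ≤ ω * (W.q * r)) (s7 : 88 * K ^ 3 * b * (2 * σ) ≤ e * β ^ 2)
    (hK3 : 2000000 * K ^ 11 ≤ K3) (s8 : 88 * K ^ 3 * b * (K3 * W.q * ω) ≤ e * β ^ 2) :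
    ∃ (Q : W.Q) (v1 v2 : ℝ) (E3 : Set (W.L × ℝ)) (ci ri : W.L × ℝ → ℤ) (ρ0 ρ1 ρ2 cρ κ0 κ1 κ2 cκ : ℤ → ℝ),
      K7wdGrid W P0 E K3 e b S r ω Q v1 v2 E3 ci ri ρ0 ρ1 ρ2 cρ κ0 κ1 κ2 cκ := by
  classical
  obtain ⟨Q, hQ, hQm⟩ := k7wd_heavy W hW hE hsub hmass
  obtain ⟨hm0, hmT⟩ := k7wd_mQ_pos W hW ha hh hg hQ
  have hEQm : MeasurableSet (E ∩ W.labQ ⁻¹' {Q}) := hE.inter (hW.m_labQ Q)
  have hfin : IsFiniteMeasure W.prior := k7wd_fin_prior W hW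
  set EQ : Set (W.L × ℝ) := E ∩ W.labQ ⁻¹' {Q} with hEQ
  set μ : Measure (W.L × ℝ) := W.prior.restrict EQ with hμ
  set st := W.stt σ pw with hst
  have hstm : KsLab st := k7wd_meas_stt W hW σ pw
  set vb : W.L × ℝ → ℤ := fun p => W.vbin p.1 with hvb
  have hvbm : KsLab vb := k7wd_meas_vbin W.toK7aLn hW.ln
  have hμu : μ Set.univ = W.prior EQ := Measure.restrict_apply_univ _
  have hb0 : 0 ≤ b := by rw [hb]; positivity
  have hq0 : 0 < W.q := by unfold K7aW.q; positivity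
  have hq1 : W.q ≤ 1 := by unfold K7aW.q; exact pow_le_one₀ (by norm_num) (by norm_num)
  have hμ0 : μ Set.univ ≠ 0 := by
    rw [hμu]
    intro h0
    rw [h0, mul_zero] at hQm
    exact hm0 (le_antisymm hQm zero_le)
  have hEQinc : EQ ⊆ W.inc Q := fun p hp => by
    have h1 := (hW.lab p (hsub hp.1)).2
    have h2 : W.labQ p = Q := hp.2
    rwa [h2] at h1
  have hμle : μ Set.univ ≤ ENNReal.ofReal W.q * W.νQ Q := by
    rw [hμu]
    exact (measure_mono hEQinc).trans (k7wd_inc_le W hW Q)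
  have hdom : ∀ s b, μ (st ⁻¹' {s} ∩ vb ⁻¹' {b}) ≤ ENNReal.ofReal K * W.pi b * μ (st ⁻¹' {s}) := fun s b => k7wd_dom_Q W P0 hW hE hF Q s b
  obtain ⟨hχ'0, hχ'1, hχ'2⟩ := k7wc_dy hW.ln.χ0_pos
  set χ' : ℝ := kbDy W.χ0 with hχ'
  have hleft : ∀ m : ℤ, (m : ℝ) * χ' ∈ k7aBinI W.χ0 m := fun m => by
    unfold k7aBinI
    rw [← hχ']
    exact ⟨le_refl _, by nlinarith⟩
  have hcap : ∀ b : ℤ, 2 * ENNReal.ofReal K * ∑' b' : {b' : ℤ // ¬ (r < |(b : ℝ) * χ' - b' * χ'|)}, W.pi b' ≤ 1 := fun b => by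
    have h1 := k7wd_pal_near W.toK7aLn hW.ln ((b : ℝ) * χ') r s1 {b' : ℤ | ¬ (r < |(b : ℝ) * χ' - b' * χ'|)} (fun b' hb' => by
      refine ⟨_, hleft b', ?_⟩
      have : ¬ (r < |(b : ℝ) * χ' - b' * χ'|) := hb'
      rw [abs_sub_comm]
      exact not_lt.1 this)
    calc 2 * ENNReal.ofReal K * ∑' b' : {b' : ℤ // ¬ (r < |(b : ℝ) * χ' - b' * χ'|)}, W.pi b'
        ≤ 2 * ENNReal.ofReal K * ENNReal.ofReal (K * (2 * r) ^ S) := mul_le_mul_right h1 _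
      _ = ENNReal.ofReal (2 * K ^ 2 * (2 * r) ^ S) := by
          have e2 : (2 : ℝ≥0∞) = ENNReal.ofReal 2 := by simp
          rw [e2, ← ENNReal.ofReal_mul (by norm_num), ← ENNReal.ofReal_mul (by positivity)]
          congr 1
          ring
      _ ≤ 1 := by
          rw [← ENNReal.ofReal_one]
          exact ENNReal.ofReal_le_ofReal s2
  obtain ⟨b1, b2, hsep, hT⟩ := k7wd_two_bins μ st hstm vb hvbm W.pi (ENNReal.ofReal K) (fun b b' => r < |(b : ℝ) * χ' - b' * χ'|)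
    ENNReal.ofReal_ne_top (k7wd_pal_sum _ hW.ln.pal_le) hdom hcap hμ0
  set v1 : ℝ := (b1 : ℝ) * χ' with hv1
  set v2 : ℝ := (b2 : ℝ) * χ' with hv2
  set S0 : Set (W.Q × (ℤ × ℤ × ℤ × ℤ)) := {s | μ (st ⁻¹' {s} ∩ vb ⁻¹' {b1}) ≠ 0 ∧ μ (st ⁻¹' {s} ∩ vb ⁻¹' {b2}) ≠ 0} with hS0
  have hwitg : ∀ (bn : ℤ) s, μ (st ⁻¹' {s} ∩ vb ⁻¹' {bn}) ≠ 0 → ∃ p ∈ E, W.labQ p = Q ∧ W.stt σ pw p = s ∧ W.vbin p.1 = bn := fun bn s h => by
    rw [hμ, Measure.restrict_apply' hEQm] at h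
    obtain ⟨p, ⟨hp1, hp2⟩, hp3⟩ := nonempty_of_measure_ne_zero h
    exact ⟨p, hp3.1, hp3.2, hp1, hp2⟩
  have hbin : ∀ p : W.L × ℝ, W.v p.1 ∈ k7aBinI W.χ0 (W.vbin p.1) := fun p => (k7wc_bin_iff W.χ0 (W.v p.1) (W.vbin p.1)).1 rfl
  have hvbd : ∀ bn : ℤ, (∃ p ∈ E, W.vbin p.1 = bn) → |(bn : ℝ) * χ'| ≤ 3 * K := by
    rintro bn ⟨p, hp, hpb⟩
    have h1 := hbin p
    rw [hpb] at h1
    unfold k7aBinI at h1
    rw [← hχ'] at h1
    have h2 : p.1 ∈ W.Sp := (hW.ln.Ev0_sub (hsub hp)).1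
    have h3 := abs_le.1 (hW.ln.bd p.1 h2).2.1
    have h4 := hW.ln.χ0_le
    refine abs_le.2 ⟨?_, ?_⟩
    · nlinarith [h1.1, h1.2]
    · nlinarith [h1.1, h1.2]
  have hS0ne : S0.Nonempty := by
    by_contra hne
    rw [Set.not_nonempty_iff_eq_empty] at hne
    rw [hne, Set.preimage_empty, measure_empty, mul_zero] at hT
    exact hμ0 (le_antisymm hT zero_le)
  obtain ⟨s0, hs0⟩ := hS0ne
  have hv1b : |v1| ≤ 3 * K := by
    obtain ⟨p, hp, _, _, hp4⟩ := hwitg b1 s0 hs0.1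
    exact hvbd b1 ⟨p, hp, hp4⟩
  have hv2b : |v2| ≤ 3 * K := by
    obtain ⟨p, hp, _, _, hp4⟩ := hwitg b2 s0 hs0.2
    exact hvbd b2 ⟨p, hp, hp4⟩
  have hsep' : r < |v2 - v1| := by rw [abs_sub_comm]; exact hsep
  have hne12 : v1 ≠ v2 := fun h => by
    rw [h, sub_self, abs_zero] at hsep
    linarith
  have hd6 : |v1 - v2| ≤ 6 * K := by
    have := abs_sub v1 v2
    linarith
  have hd6' : |v2 - v1| ≤ 6 * K := by rw [abs_sub_comm]; exact hd6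
  have hA : ∀ x : ℝ, x ≤ 6 * K → 0 ≤ x → 2 * W.q * ω * x + 2 * W.χ0 ≤ χ := fun x hx hx0 => by
    have h1 : 2 * W.q * ω * x ≤ 2 * 1 * ω * (6 * K) := by
      apply mul_le_mul _ hx hx0 (by positivity)
      exact mul_le_mul_of_nonneg_right (by linarith) hω.le
    linarith
  have hB : ∀ y x : ℝ, |y| ≤ 3 * K → r < x → (1 + |y|) * (2 * σ) ≤ ω * (W.q * x) := fun y x hy hx => by
    have h1 : (1 + |y|) * (2 * σ) ≤ (1 + 3 * K) * (2 * σ) := mul_le_mul_of_nonneg_right (by linarith) (by positivity)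
    have h2 : ω * (W.q * r) ≤ ω * (W.q * x) := mul_le_mul_of_nonneg_left (mul_le_mul_of_nonneg_left hx.le hq0.le) hω.le
    linarith
  obtain ⟨S1, ρ0, ρ1, ρ2, cρ, hS10, hm1, hg1, hf1⟩ := k7wd_step W P0 hW hP hsub hlab hL hF hK hh hg hχ hω hσ hb0 hβ hβK hQ b1 v2 hne12.symm
    (hA _ hd6' (abs_nonneg _)) s4 s5 (hB _ _ hv1b hsep') s7 μ S0 (fun s hs => hwitg b1 s hs.1)
  obtain ⟨S2, κ0, κ1, κ2, cκ, hS21, hm2, hg2, hf2⟩ := k7wd_step W P0 hW hP hsub hlab hL hF hK hh hg hχ hω hσ hb0 hβ hβK hQ b2 v1 hne12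
    (hA _ hd6 (abs_nonneg _)) s4 s5 (hB _ _ hv2b hsep) s7 μ S1 (fun s hs => hwitg b2 s (hS10 hs).2)
  have hKp : ∀ n : ℕ, n ≤ 11 → K ^ n ≤ K ^ 11 := fun n hn => pow_le_pow_right₀ hK hn
  have hK11 : 1 ≤ K ^ 11 := one_le_pow₀ hK
  have hK1 := hKp 1 (by norm_num)
  have hK2 := hKp 2 (by norm_num)
  rw [pow_one] at hK1
  have hK30 : 0 < K3 := by linarith
  have hE3 : W.prior (EQ ∩ st ⁻¹' S2) = μ (st ⁻¹' S2) := by
    rw [hμ, Measure.restrict_apply' hEQm, Set.inter_comm]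
  have haxis : ∀ x r' : ℝ, 2 * W.χ0 ≤ r' → W.prior (EQ ∩ st ⁻¹' S2 ∩ {p | |W.v p.1 - x| < r'})
      ≤ ENNReal.ofReal (K3 * (2 * r') ^ S) * (ENNReal.ofReal W.q * W.νQ Q) := fun x r' hr' => by
    have hr'0 : 0 ≤ r' := by linarith [hW.ln.χ0_pos]
    have h1 := k7wd_axis_abs μ st hstm vb hvbm W.pi (ENNReal.ofReal K) hdom {b | ∃ y ∈ k7aBinI W.χ0 b, |y - x| ≤ r'}
    have h2 := k7wd_pal_near W.toK7aLn hW.ln x r' hr' {b | ∃ y ∈ k7aBinI W.χ0 b, |y - x| ≤ r'} (fun b hb => hb)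
    have h3 : W.prior (EQ ∩ st ⁻¹' S2 ∩ {p | |W.v p.1 - x| < r'}) ≤ μ (vb ⁻¹' {b | ∃ y ∈ k7aBinI W.χ0 b, |y - x| ≤ r'}) := by
      rw [hμ, Measure.restrict_apply' hEQm]
      apply measure_mono
      rintro p ⟨⟨hp1, _⟩, hp3⟩
      have hp3' : |W.v p.1 - x| < r' := hp3
      exact ⟨⟨_, hbin p, hp3'.le⟩, hp1⟩
    calc W.prior (EQ ∩ st ⁻¹' S2 ∩ {p | |W.v p.1 - x| < r'}) ≤ _ := h3
      _ ≤ _ := h1
      _ ≤ ENNReal.ofReal K * ENNReal.ofReal (K * (2 * r') ^ S) * (ENNReal.ofReal W.q * W.νQ Q) := mul_le_mul' (mul_le_mul_right h2 _) hμle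
      _ ≤ ENNReal.ofReal (K3 * (2 * r') ^ S) * (ENNReal.ofReal W.q * W.νQ Q) := by
          apply mul_le_mul_left
          rw [← ENNReal.ofReal_mul (by positivity)]
          apply ENNReal.ofReal_le_ofReal
          have h5 : 0 ≤ (2 * r') ^ S := Real.rpow_nonneg (by positivity) _
          calc K * (K * (2 * r') ^ S) = K ^ 2 * (2 * r') ^ S := by ring
            _ ≤ K3 * (2 * r') ^ S := mul_le_mul_of_nonneg_right (by linarith) h5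
  refine ⟨Q, v1, v2, EQ ∩ st ⁻¹' S2, k7wdIx W Q v1 v2 σ ω ∘ st, k7wdIx W Q v2 v1 σ ω ∘ st, ρ0, ρ1, ρ2, cρ, κ0, κ1, κ2, cκ, ?_⟩
  refine
    { Qa := hQ
      sep := hsep.le
      v1b := by linarith
      v2b := by linarith
      meas := hEQm.inter (ksc_lab_preimage hstm S2)
      sub := fun p hp => ⟨hp.1.1, hEQinc hp.1⟩
      labQ := fun p hp => hp.1.2
      mass := ?_
      m_ci := ksc_lab_comp hstm _
      m_ri := ksc_lab_comp hstm _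
      near1 := fun p _ => k7wd_near W Q hσ hω hne12 (hB _ _ hv2b hsep) p
      near2 := fun p _ => k7wd_near W Q hσ hω hne12.symm (hB _ _ hv1b hsep') p
      fitr := fun p hp φ hφ => ?_
      fitc := fun p hp φ hφ => ?_
      gr := fun j => k7wd_var hβ (by positivity) (hg1 j) s8
      gc := fun j => k7wd_var hβ (by positivity) (hg2 j) s8
      sup := fun p hp φ hφ => ?_
      axis1 := fun r' hr' => haxis v1 r' hr'
      axis2 := fun r' hr' => haxis v2 r' hr' }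
  · rw [hE3]
    set n : ℕ := ⌈600 * K ^ 4⌉₊ with hn
    have hnr : (n : ℝ) ≤ 601 * K ^ 4 := by
      have h1 : (n : ℝ) < 600 * K ^ 4 + 1 := Nat.ceil_lt_add_one (by positivity)
      have h2 : 1 ≤ K ^ 4 := one_le_pow₀ hK
      linarith
    have hn0 : (0 : ℝ) ≤ n := Nat.cast_nonneg _
    have hc : ENNReal.ofReal K * (4 * ENNReal.ofReal K ^ 2 * ((n : ℝ≥0∞) * ((n : ℝ≥0∞) * μ (st ⁻¹' S2)))) ≤ ENNReal.ofReal K3 * μ (st ⁻¹' S2) := by
      have e4 : (4 : ℝ≥0∞) = ENNReal.ofReal 4 := by simp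
      have en : (n : ℝ≥0∞) = ENNReal.ofReal (n : ℝ) := (ENNReal.ofReal_natCast n).symm
      have e5 : ENNReal.ofReal K * (4 * ENNReal.ofReal K ^ 2 * ((n : ℝ≥0∞) * ((n : ℝ≥0∞) * μ (st ⁻¹' S2))))
          = ENNReal.ofReal (K * (4 * K ^ 2 * ((n : ℝ) * n))) * μ (st ⁻¹' S2) := by
        rw [ENNReal.ofReal_mul (by positivity), ENNReal.ofReal_mul (by positivity), ENNReal.ofReal_mul (by norm_num), ENNReal.ofReal_mul hn0,
          ENNReal.ofReal_pow (by positivity), ← e4, ← en]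
        ring
      rw [e5]
      apply mul_le_mul_left
      apply ENNReal.ofReal_le_ofReal
      have h1 : (n : ℝ) * n ≤ (601 * K ^ 4) * (601 * K ^ 4) := mul_le_mul hnr hnr hn0 (by positivity)
      calc K * (4 * K ^ 2 * ((n : ℝ) * n)) ≤ K * (4 * K ^ 2 * ((601 * K ^ 4) * (601 * K ^ 4))) := by gcongr
        _ = 1444804 * K ^ 11 := by ring
        _ ≤ K3 := by nlinarith
    refine le_trans ?_ hc
    calc ENNReal.ofReal W.q * W.νQ Q ≤ ENNReal.ofReal K * μ Set.univ := by rw [hμu]; exact hQm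
      _ ≤ ENNReal.ofReal K * (4 * ENNReal.ofReal K ^ 2 * μ (st ⁻¹' S0)) := mul_le_mul_right hT _
      _ ≤ ENNReal.ofReal K * (4 * ENNReal.ofReal K ^ 2 * ((n : ℝ≥0∞) * μ (st ⁻¹' S1))) := mul_le_mul_right (mul_le_mul_right hm1 _) _
      _ ≤ ENNReal.ofReal K * (4 * ENNReal.ofReal K ^ 2 * ((n : ℝ≥0∞) * ((n : ℝ≥0∞) * μ (st ⁻¹' S2)))) :=
          mul_le_mul_right (mul_le_mul_right (mul_le_mul_right hm2 _) _) _
  · obtain ⟨h1, h2⟩ := hf1 p hp.1.1 hp.1.2 (hS21 hp.2) φ hφ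
    have h3 : (2 * K + 1) * e ≤ K3 * e := mul_le_mul_of_nonneg_right (by linarith) he
    exact ⟨h1.trans h3, h2.trans h3⟩
  · obtain ⟨h1, h2⟩ := hf2 p hp.1.1 hp.1.2 hp.2 φ hφ
    have h3 : (2 * K + 1) * e ≤ K3 * e := mul_le_mul_of_nonneg_right (by linarith) he
    exact ⟨h1.trans h3, h2.trans h3⟩
  · subst hb
    obtain ⟨h1, h2⟩ := k7wd_sup W P0 hW hP hK hβ hb0 hbβ p (hsub hp.1.1) φ hφ
    exact ⟨h1.trans (by linarith), h2.trans (by linarith)⟩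

end

end Claimed.Agent.R252

/-!
# ROW 252 (S0492), unit S7w, post BP-252-S7w-D (helper242; chief helper89), file 4: EXPONENT FORM of the half D1-D3 of stage D.
`K = N^τ`, `r = N^{-τr}`, `ω = N^{-eω}`, `eω = Mχ + ee + 2 B₀ + 1`.
-/

set_option autoImplicit false

namespace Claimed.Agent.R252

open MeasureTheory
open scoped ENNReal BigOperators

noncomputable section

theorem k7wd_pw {N c δ α β : ℝ} (hN : 1 ≤ N) (hc : c ≤ N ^ δ) (h : α + δ ≤ β) : c * N ^ α ≤ N ^ β := by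
  have hN0 : 0 < N := by linarith
  calc c * N ^ α ≤ N ^ δ * N ^ α := mul_le_mul_of_nonneg_right hc (Real.rpow_nonneg hN0.le _)
    _ = N ^ (α + δ) := by rw [← Real.rpow_add hN0]; ring_nf
    _ ≤ N ^ β := Real.rpow_le_rpow_of_exponent_le hN h

/-- the exponent of the grid step -/
def K7wExp.eω (x : K7wExp) (Mχ : ℝ) : ℝ := Mχ + x.ee + 2 * x.B 0 + 1

theorem k7wd_grid_exp (x : K7wExp) (hx : x.Adm) {Mχ Mst rst M0 τ τr N : ℝ} {Ms Ws : Finset ℝ}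
    (hMχ : x.eh + x.eg + 1 ≤ Mχ) (hMst : x.eω Mχ + x.eh + x.ee + 2 * x.B 0 + 2 ≤ Mst) (hM0 : Mχ + x.eg + 2 ≤ M0)
    (hτ0 : 0 < τ) (hτ1 : τ ≤ 1 / 100) (hτu : τ ≤ x.u) (hτr1 : τr ≤ 1) (hSτ : 3 * τ ≤ x.S * τr)
    (hN : 1 ≤ N) (hN1 : 176000000 ≤ N ^ (1 / 10 : ℝ)) (hN2 : 2 * 2 ^ x.S ≤ N ^ τ) (hN3 : 2000000 ≤ N ^ τ)
    (W : K7aW) (P : Fin 3 → K7aLayer W.toK7aLn) (β : Fin 3 → ℝ) (E : Set (W.L × ℝ)) (c1 c2 : W.Q × (ℤ × ℤ × ℤ × ℤ) → ℝ)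
    (hH : K7wHyp x Mχ N (N ^ τ) Ms Ws W P β E) (hχ0 : W.χ0 ≤ N ^ (-M0))
    (hF : K7wField W (P 0) E (N ^ τ) (N ^ (-x.ee)) (N ^ (-x.eh - x.eg)) (N ^ (-Mst)) (N ^ (-rst)) c1 c2) :
    ∃ (Q : W.Q) (v1 v2 : ℝ) (E3 : Set (W.L × ℝ)) (ci ri : W.L × ℝ → ℤ) (ρ0 ρ1 ρ2 cρ κ0 κ1 κ2 cκ : ℤ → ℝ),
      K7wdGrid W (P 0) E (N ^ (12 * τ)) (N ^ (-x.ee)) (N ^ (-x.eh - x.eg)) x.S (N ^ (-τr)) (N ^ (-x.eω Mχ)) Q v1 v2 E3 ci ri
        ρ0 ρ1 ρ2 cρ κ0 κ1 κ2 cκ := by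
  have hN0 : 0 < N := by linarith
  have hp : ∀ α : ℝ, 0 < N ^ α := fun α => Real.rpow_pos_of_pos hN0 α
  have hK : 1 ≤ N ^ τ := Real.one_le_rpow hN hτ0.le
  have hee : 0 < x.ee := by
    unfold K7wExp.ee
    have h1 : 0 < (1 - x.d) * x.u := mul_pos (by linarith [hx.d1]) hx.u0
    linarith [hx.s0]
  have hB0 : 0 < x.B 0 := lt_of_lt_of_le hx.eg0 (hx.Bg 0)
  have hBb : 3 * x.u ≤ x.eh + x.eg - x.B 0 := by
    have h1 := hx.Bb 0
    have h2 : 0 ≤ 10 / (1 - x.d) * x.u := mul_nonneg (div_nonneg (by norm_num) (by linarith [hx.d1])) hx.u0.le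
    nlinarith
  have heω : x.eω Mχ = Mχ + x.ee + 2 * x.B 0 + 1 := rfl
  have hc : ∀ c : ℝ, c ≤ 176000000 → c ≤ N ^ (1 / 10 : ℝ) := fun c h => h.trans hN1
  have hβlo := hH.βlo 0
  have hβhi := hH.βhi 0
  have hβ0 : 0 < β 0 := by
    have h1 : 0 < N ^ τ * β 0 := lt_of_lt_of_le (hp _) hβlo
    exact (pos_iff_pos_of_mul_pos h1).1 (hp _)
  have hq0 : 0 < W.q := by unfold K7aW.q; positivity
  have hqlo := hH.w.q_lo
  have hqhi := hH.w.q_hi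
  have hχ00 := hH.w.ln.χ0_pos
  have hβsq : (N ^ (-x.B 0)) ^ 2 ≤ (N ^ τ) ^ 2 * β 0 ^ 2 := by
    rw [← mul_pow]
    exact pow_le_pow_left₀ (hp _).le hβlo 2
  refine k7wd_grid W (P 0) hH.w (hH.lay 0) hH.mE hH.sub (fun p hp' => hH.lab p hp' 0) hH.mass hH.lists hF hK (hp _) (hp _) (hp _) (hp _) (hp _) (hp _)
    (hp _).le ?_ hβ0 ?_ ?_ ?_ ?_ ?_ ?_ ?_ ?_ ?_ ?_ ?_
  · -- b = h g
    rw [← Real.rpow_add hN0]
    congr 1
  · -- β ≤ K
    refine hβhi.trans ?_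
    have : N ^ (-x.B 0) ≤ 1 := Real.rpow_le_one_of_one_le_of_nonpos hN (by linarith)
    nlinarith [hp τ]
  · -- b ≤ β
    have h1 : N ^ τ * N ^ (-x.eh - x.eg) ≤ N ^ (-x.B 0) := by
      rw [← Real.rpow_add hN0]
      exact Real.rpow_le_rpow_of_exponent_le hN (by linarith)
    have h2 : N ^ τ * N ^ (-x.eh - x.eg) ≤ N ^ τ * β 0 := h1.trans hβlo
    exact le_of_mul_le_mul_left h2 (hp _)
  · -- s1
    have h1 : 2 * N ^ (-M0) ≤ N ^ (-τr) := k7wd_pw hN (hc 2 (by norm_num)) (by linarith [hx.eh0, hx.eg0])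
    linarith
  · -- s2
    have e1 : (2 * N ^ (-τr)) ^ x.S = 2 ^ x.S * N ^ (-τr * x.S) := by
      rw [Real.mul_rpow (by norm_num) (hp _).le, ← Real.rpow_mul hN0.le]
    rw [e1]
    have h1 : 2 * 2 ^ x.S * N ^ (τ * 2 + -τr * x.S) ≤ N ^ (0 : ℝ) := k7wd_pw hN hN2 (by nlinarith)
    rw [Real.rpow_zero] at h1
    calc 2 * (N ^ τ) ^ 2 * (2 ^ x.S * N ^ (-τr * x.S)) = 2 * 2 ^ x.S * ((N ^ τ) ^ 2 * N ^ (-τr * x.S)) := by ring
      _ = 2 * 2 ^ x.S * N ^ (τ * 2 + -τr * x.S) := by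
          congr 1
          simp only [← Real.rpow_natCast, ← Real.rpow_mul hN0.le, ← Real.rpow_add hN0]
          norm_num
      _ ≤ 1 := h1
  · -- s3
    have h1 : 24 * (N ^ τ * N ^ (-x.eω Mχ)) ≤ N ^ (-Mχ) := by
      simp only [← Real.rpow_add hN0]
      exact k7wd_pw hN (hc 24 (by norm_num)) (by rw [heω]; linarith)
    have h2 : 4 * N ^ (-M0) ≤ N ^ (-Mχ) := k7wd_pw hN (hc 4 (by norm_num)) (by linarith [hx.eg0])
    linarith
  · -- s4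
    have h1 : 2 * (N ^ τ * N ^ (-M0)) ≤ N ^ (-x.eg) := by
      simp only [← Real.rpow_add hN0]
      exact k7wd_pw hN (hc 2 (by norm_num)) (by linarith [hx.eh0, hx.eg0])
    have h2 : N ^ τ * W.χ0 ≤ N ^ τ * N ^ (-M0) := mul_le_mul_of_nonneg_left hχ0 (hp _).le
    linarith
  · -- s5
    have h1 : 4 * ((N ^ τ) ^ 2 * N ^ (-Mχ)) ≤ N ^ (-x.eh) * N ^ (-x.eg) := by
      simp only [← Real.rpow_natCast, ← Real.rpow_mul hN0.le, ← Real.rpow_add hN0]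
      refine k7wd_pw hN (hc 4 (by norm_num)) ?_
      push_cast
      linarith
    have h2 : N ^ (-x.eh) * N ^ (-x.eg) ≤ N ^ τ * W.q * N ^ (-x.eg) := mul_le_mul_of_nonneg_right hqlo (hp _).le
    have h3 : N ^ τ * (4 * N ^ τ * N ^ (-Mχ)) ≤ N ^ τ * (W.q * N ^ (-x.eg)) := by
      calc N ^ τ * (4 * N ^ τ * N ^ (-Mχ)) = 4 * ((N ^ τ) ^ 2 * N ^ (-Mχ)) := by ring
        _ ≤ _ := h1.trans h2
        _ = N ^ τ * (W.q * N ^ (-x.eg)) := by ring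
    exact le_of_mul_le_mul_left h3 (hp _)
  · -- s6
    have h1 : 8 * ((N ^ τ) ^ 2 * N ^ (-Mst)) ≤ N ^ (-x.eω Mχ) * N ^ (-x.eh) * N ^ (-τr) := by
      simp only [← Real.rpow_natCast, ← Real.rpow_mul hN0.le, ← Real.rpow_add hN0]
      refine k7wd_pw hN (hc 8 (by norm_num)) ?_
      push_cast
      linarith
    have h2 : N ^ (-x.eω Mχ) * N ^ (-x.eh) * N ^ (-τr) ≤ N ^ (-x.eω Mχ) * (N ^ τ * W.q) * N ^ (-τr) :=
      mul_le_mul_of_nonneg_right (mul_le_mul_of_nonneg_left hqlo (hp _).le) (hp _).le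
    have h3 : N ^ τ * ((1 + 3 * N ^ τ) * (2 * N ^ (-Mst))) ≤ N ^ τ * (N ^ (-x.eω Mχ) * (W.q * N ^ (-τr))) := by
      calc N ^ τ * ((1 + 3 * N ^ τ) * (2 * N ^ (-Mst))) ≤ N ^ τ * ((4 * N ^ τ) * (2 * N ^ (-Mst))) := by
            apply mul_le_mul_of_nonneg_left _ (hp _).le
            apply mul_le_mul_of_nonneg_right _ (by positivity)
            linarith
        _ = 8 * ((N ^ τ) ^ 2 * N ^ (-Mst)) := by ring
        _ ≤ _ := h1.trans h2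
        _ = N ^ τ * (N ^ (-x.eω Mχ) * (W.q * N ^ (-τr))) := by ring
    exact le_of_mul_le_mul_left h3 (hp _)
  · -- s7
    have h1 : 176 * ((N ^ τ) ^ 5 * N ^ (-x.eh - x.eg) * N ^ (-Mst)) ≤ N ^ (-x.ee) * (N ^ (-x.B 0)) ^ 2 := by
      simp only [← Real.rpow_natCast, ← Real.rpow_mul hN0.le, ← Real.rpow_add hN0]
      refine k7wd_pw hN (hc 176 (by norm_num)) ?_
      push_cast
      rw [heω] at hMst
      linarith [hx.eh0, hx.eg0]
    have h2 : N ^ (-x.ee) * (N ^ (-x.B 0)) ^ 2 ≤ N ^ (-x.ee) * ((N ^ τ) ^ 2 * β 0 ^ 2) := mul_le_mul_of_nonneg_left hβsq (hp _).le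
    have h3 : (N ^ τ) ^ 2 * (88 * (N ^ τ) ^ 3 * N ^ (-x.eh - x.eg) * (2 * N ^ (-Mst))) ≤ (N ^ τ) ^ 2 * (N ^ (-x.ee) * β 0 ^ 2) := by
      calc (N ^ τ) ^ 2 * (88 * (N ^ τ) ^ 3 * N ^ (-x.eh - x.eg) * (2 * N ^ (-Mst))) = 176 * ((N ^ τ) ^ 5 * N ^ (-x.eh - x.eg) * N ^ (-Mst)) := by ring
        _ ≤ _ := h1.trans h2
        _ = (N ^ τ) ^ 2 * (N ^ (-x.ee) * β 0 ^ 2) := by ring
    exact le_of_mul_le_mul_left h3 (pow_pos (hp _) 2)
  · -- K3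
    have h1 : 2000000 * N ^ (τ * 11) ≤ N ^ (12 * τ) := k7wd_pw hN hN3 (by linarith)
    calc 2000000 * (N ^ τ) ^ 11 = 2000000 * N ^ (τ * 11) := by
          congr 1
          rw [← Real.rpow_natCast, ← Real.rpow_mul hN0.le]
          norm_num
      _ ≤ _ := h1
  · -- s8
    have h1 : 88 * ((N ^ τ) ^ 6 * N ^ (12 * τ) * N ^ (-x.eh - x.eg) * N ^ (-x.eh) * N ^ (-x.eω Mχ)) ≤ N ^ (-x.ee) * (N ^ (-x.B 0)) ^ 2 := by
      simp only [← Real.rpow_natCast, ← Real.rpow_mul hN0.le, ← Real.rpow_add hN0]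
      refine k7wd_pw hN (hc _ (by norm_num)) ?_
      push_cast
      rw [heω]
      linarith [hx.eh0, hx.eg0]
    have h2 : N ^ (-x.ee) * (N ^ (-x.B 0)) ^ 2 ≤ N ^ (-x.ee) * ((N ^ τ) ^ 2 * β 0 ^ 2) := mul_le_mul_of_nonneg_left hβsq (hp _).le
    have h3 : (N ^ τ) ^ 2 * (88 * (N ^ τ) ^ 3 * N ^ (-x.eh - x.eg) * (N ^ (12 * τ) * W.q * N ^ (-x.eω Mχ))) ≤ (N ^ τ) ^ 2 * (N ^ (-x.ee) * β 0 ^ 2) := by
      calc (N ^ τ) ^ 2 * (88 * (N ^ τ) ^ 3 * N ^ (-x.eh - x.eg) * (N ^ (12 * τ) * W.q * N ^ (-x.eω Mχ)))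
          = 88 * ((N ^ τ) ^ 5 * N ^ (12 * τ) * N ^ (-x.eh - x.eg) * N ^ (-x.eω Mχ)) * W.q := by ring
        _ ≤ 88 * ((N ^ τ) ^ 5 * N ^ (12 * τ) * N ^ (-x.eh - x.eg) * N ^ (-x.eω Mχ)) * (N ^ τ * N ^ (-x.eh)) :=
            mul_le_mul_of_nonneg_left hqhi (by have := hp τ; have := hp (12 * τ); have := hp (-x.eh - x.eg); have := hp (-x.eω Mχ); positivity)
        _ = 88 * ((N ^ τ) ^ 6 * N ^ (12 * τ) * N ^ (-x.eh - x.eg) * N ^ (-x.eh) * N ^ (-x.eω Mχ)) := by ring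
        _ ≤ _ := h1.trans h2
        _ = (N ^ τ) ^ 2 * (N ^ (-x.ee) * β 0 ^ 2) := by ring
    exact le_of_mul_le_mul_left h3 (pow_pos (hp _) 2)

end

end Claimed.Agent.R252
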