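import Claimed.Agent.R252.State.KsStateC
import Claimed.Agent.R252.S7a.WideContract
import Claimed.Agent.R252.S7a.WideGlue

/-!
# ROW 252 (S0492), unit S7w, post BP-252-S7w-C (helper22; chief helper89), file 1 of 3: **STAGE C OF P7.3, THE ABSTRACT CORES** (07 l.666-780).      CONTRACT file: every `sorry` is a LEAF `L-252-S7wC-*` (name in the docstring).

PAPER-FREE, no record of P7.3 occurs here: measures on an abstract space with COUNTABLE labels (`State/KsState(C)`), finite counting, lengths of subsets of `ℝ`.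
Statements frozen (tell helper22 if one looks false or inconvenient); prove IN PLACE, helper lemmas directly above the leaf, prefix `k7wcc_`.
* s1 states: `k7wcc_sum_inter`, `k7wcc_pair_bad`, `k7wcc_state_rep` (the countable forms of `k7a_pair_bad`, `k7a_state_rep`), `k7wcc_dom_prune` (C1), `k7wcc_half`, `k7wcc_select` (C5, proved from the others).
* s2 counting: `k7wcc_ycount` (cells of a mesh inside the set where one of few quadratics is near one of few offsets: `k7a_match_len`), `k7wcc_card3`, `k7wcc_sum_fiber`, `k7wcc_floor_ball`, `k7wcc_mass`.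
-/

set_option autoImplicit false

namespace Claimed.Agent.R252

open MeasureTheory
open scoped ENNReal BigOperators

noncomputable section

/-! ## 1. States -/

/-- a countable label cuts every set -/
theorem k7wcc_sum_inter {Ω S : Type*} [MeasurableSpace Ω] [Countable S] (μ : Measure Ω) {s : Ω → S} (hs : KsLab s) (X : Set Ω) :
    ∑' s0, μ (X ∩ s ⁻¹' {s0}) = μ X := by
  have h := ksc_mass_sum (μ.restrict X) hs
  unfold ksMass at h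
  rw [Measure.restrict_apply_univ] at h
  rw [← h]
  refine tsum_congr fun s0 => ?_
  rw [Measure.restrict_apply (hs s0), Set.inter_comm]

/-- **L-252-S7wC-PAIR** (~60 l.; with `k7wcc_sum_inter`).  The proof of `k7a_pair_bad` (S7a/WideContract) with `∑'`, `measure_iUnion_le`, `ENNReal.tsum_mul_left`, `ENNReal.tsum_comm`, `k7wcc_sum_inter`. -/
theorem k7wcc_pair_bad {Ω S ι : Type} [MeasurableSpace Ω] [Countable S] [Countable ι] (μ : Measure Ω) [IsFiniteMeasure μ] (st : Ω → S) (hst : KsLab st)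
    (vb : Ω → ι) (π : ι → ℝ≥0∞) (K : ℝ≥0∞) (hdom : ∀ s b, μ (st ⁻¹' {s} ∩ vb ⁻¹' {b}) ≤ K * π b * μ (st ⁻¹' {s}))
    (Bad : Set (Ω × Ω)) (Bd : ι → Set Ω) (hsub : ∀ x ∈ Bad, st x.1 = st x.2 → x.1 ∈ Bd (vb x.2)) :
    ∑' s, (μ (st ⁻¹' {s}))⁻¹ * (μ.prod μ) (Bad ∩ (st ⁻¹' {s}) ×ˢ (st ⁻¹' {s})) ≤ K * ∑' b, π b * μ (Bd b) := by
  have hs : ∀ s, (μ (st ⁻¹' {s}))⁻¹ * (μ.prod μ) (Bad ∩ (st ⁻¹' {s}) ×ˢ (st ⁻¹' {s})) ≤ ∑' b, K * π b * μ (Bd b ∩ st ⁻¹' {s}) := fun s => by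
    have hsub' : Bad ∩ (st ⁻¹' {s}) ×ˢ (st ⁻¹' {s}) ⊆ ⋃ b, (Bd b ∩ st ⁻¹' {s}) ×ˢ (st ⁻¹' {s} ∩ vb ⁻¹' {b}) := by
      rintro x ⟨hx, h1, h2⟩
      have h1' : st x.1 = s := h1
      have h2' : st x.2 = s := h2
      exact Set.mem_iUnion.2 ⟨vb x.2, ⟨hsub x hx (h1'.trans h2'.symm), h1⟩, h2, rfl⟩
    calc (μ (st ⁻¹' {s}))⁻¹ * (μ.prod μ) (Bad ∩ (st ⁻¹' {s}) ×ˢ (st ⁻¹' {s}))
        ≤ (μ (st ⁻¹' {s}))⁻¹ * ∑' b, (μ.prod μ) ((Bd b ∩ st ⁻¹' {s}) ×ˢ (st ⁻¹' {s} ∩ vb ⁻¹' {b})) :=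
          mul_le_mul' le_rfl ((measure_mono hsub').trans (measure_iUnion_le _))
      _ ≤ (μ (st ⁻¹' {s}))⁻¹ * ∑' b, μ (Bd b ∩ st ⁻¹' {s}) * (K * π b * μ (st ⁻¹' {s})) := by
          refine mul_le_mul' le_rfl (ENNReal.tsum_le_tsum fun b => ?_)
          rw [Measure.prod_prod]
          exact mul_le_mul' le_rfl (hdom s b)
      _ = ∑' b, K * π b * μ (Bd b ∩ st ⁻¹' {s}) * ((μ (st ⁻¹' {s}))⁻¹ * μ (st ⁻¹' {s})) := by
          rw [← ENNReal.tsum_mul_left]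
          exact tsum_congr fun b => by ring
      _ ≤ ∑' b, K * π b * μ (Bd b ∩ st ⁻¹' {s}) * 1 :=
          ENNReal.tsum_le_tsum fun b => mul_le_mul' le_rfl (ENNReal.inv_mul_le_one _)
      _ = ∑' b, K * π b * μ (Bd b ∩ st ⁻¹' {s}) := by simp
  calc ∑' s, (μ (st ⁻¹' {s}))⁻¹ * (μ.prod μ) (Bad ∩ (st ⁻¹' {s}) ×ˢ (st ⁻¹' {s}))
      ≤ ∑' s, ∑' b, K * π b * μ (Bd b ∩ st ⁻¹' {s}) := ENNReal.tsum_le_tsum fun s => hs s
    _ = ∑' b, K * π b * ∑' s, μ (Bd b ∩ st ⁻¹' {s}) := by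
        rw [ENNReal.tsum_comm]
        exact tsum_congr fun b => ENNReal.tsum_mul_left
    _ = K * ∑' b, π b * μ (Bd b) := by
        rw [← ENNReal.tsum_mul_left]
        exact tsum_congr fun b => by rw [k7wcc_sum_inter μ hst, mul_assoc]

/-- **L-252-S7wC-REP** (~100 l.).  The proof of `k7a_state_rep` with `∑'`; the representative of a state of positive mass is taken in `st ⁻¹' {s} ∩ A` (`exists_le_setLAverage` on this set, which has the mass of the state);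
the states of mass `0` contribute nothing to the left side.   The exceptional set is `⋃ s, st ⁻¹' {s} ∩ (..)`, measurable. -/
theorem k7wcc_state_rep {Ω S : Type} [MeasurableSpace Ω] [Countable S] [Nonempty Ω] (μ : Measure Ω) [IsFiniteMeasure μ] (st : Ω → S) (hst : KsLab st)
    (A : Set Ω) (hA : MeasurableSet A) (hA0 : μ Aᶜ = 0) (Bad : Set (Ω × Ω)) (hBad : MeasurableSet Bad) :
    ∃ rep : S → Ω, MeasurableSet {x | rep (st x) ∉ A ∨ (x, rep (st x)) ∈ Bad} ∧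
      μ {x | rep (st x) ∉ A ∨ (x, rep (st x)) ∈ Bad} ≤ ∑' s, (μ (st ⁻¹' {s}))⁻¹ * (μ.prod μ) (Bad ∩ (st ⁻¹' {s}) ×ˢ (st ⁻¹' {s})) := by
  have hex : ∀ s, ∃ y : Ω, μ ({x | y ∉ A ∨ (x, y) ∈ Bad} ∩ st ⁻¹' {s}) ≤ (μ (st ⁻¹' {s}))⁻¹ * (μ.prod μ) (Bad ∩ (st ⁻¹' {s}) ×ˢ (st ⁻¹' {s})) := fun s => by
    by_cases h0 : μ (st ⁻¹' {s}) = 0
    · refine ⟨Classical.arbitrary Ω, ?_⟩
      rw [measure_mono_null Set.inter_subset_right h0]
      exact zero_le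
    · have hm : MeasurableSet (Bad ∩ (st ⁻¹' {s}) ×ˢ (st ⁻¹' {s})) := hBad.inter ((hst s).prod (hst s))
      have hfm : Measurable fun y => μ ((fun x => (x, y)) ⁻¹' (Bad ∩ (st ⁻¹' {s}) ×ˢ (st ⁻¹' {s}))) := measurable_measure_prodMk_right hm
      have hmass : μ (st ⁻¹' {s} ∩ A) = μ (st ⁻¹' {s}) := by
        refine le_antisymm (measure_mono Set.inter_subset_left) ?_
        calc μ (st ⁻¹' {s}) ≤ μ (st ⁻¹' {s} ∩ A ∪ Aᶜ) := measure_mono fun x hx => by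
              by_cases hxA : x ∈ A
              · exact Or.inl ⟨hx, hxA⟩
              · exact Or.inr hxA
          _ ≤ μ (st ⁻¹' {s} ∩ A) + μ Aᶜ := measure_union_le _ _
          _ = μ (st ⁻¹' {s} ∩ A) := by rw [hA0, add_zero]
      obtain ⟨y, hy, hle⟩ := exists_le_setLAverage (μ := μ) (s := st ⁻¹' {s} ∩ A) (by rw [hmass]; exact h0) (measure_ne_top _ _) hfm.aemeasurable
      refine ⟨y, ?_⟩
      have e1 : (fun x => (x, y)) ⁻¹' (Bad ∩ (st ⁻¹' {s}) ×ˢ (st ⁻¹' {s})) = {x | y ∉ A ∨ (x, y) ∈ Bad} ∩ st ⁻¹' {s} := by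
        ext x
        have hy' : st y = s := hy.1
        have hyA : y ∈ A := hy.2
        simp [hy', hyA]
      rw [e1, setLAverage_eq, hmass] at hle
      refine hle.trans ?_
      rw [ENNReal.div_eq_inv_mul]
      refine mul_le_mul' le_rfl ?_
      rw [Measure.prod_apply_symm hm]
      exact setLIntegral_le_lintegral _ _
  choose rep hrep using hex
  have e2 : ∀ s, {x | rep (st x) ∉ A ∨ (x, rep (st x)) ∈ Bad} ∩ st ⁻¹' {s} = {x | rep s ∉ A ∨ (x, rep s) ∈ Bad} ∩ st ⁻¹' {s} := fun s => by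
    ext x
    constructor
    · rintro ⟨h1, h2⟩
      have h2' : st x = s := h2
      refine ⟨?_, h2⟩
      change rep s ∉ A ∨ (x, rep s) ∈ Bad
      rw [← h2']
      exact h1
    · rintro ⟨h1, h2⟩
      have h2' : st x = s := h2
      refine ⟨?_, h2⟩
      change rep (st x) ∉ A ∨ (x, rep (st x)) ∈ Bad
      rw [h2']
      exact h1
  refine ⟨rep, ?_, ?_⟩
  · have e3 : {x | rep (st x) ∉ A ∨ (x, rep (st x)) ∈ Bad} = ⋃ s, {x | rep s ∉ A ∨ (x, rep s) ∈ Bad} ∩ st ⁻¹' {s} := by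
      ext x
      constructor
      · intro hx
        refine Set.mem_iUnion.2 ⟨st x, ?_⟩
        rw [← e2]
        exact ⟨hx, rfl⟩
      · intro hx
        obtain ⟨s, hs⟩ := Set.mem_iUnion.1 hx
        rw [← e2] at hs
        exact hs.1
    rw [e3]
    refine MeasurableSet.iUnion fun s => MeasurableSet.inter ?_ (hst s)
    have e4 : {x | rep s ∉ A ∨ (x, rep s) ∈ Bad} = {x | rep s ∉ A} ∪ (fun x => (x, rep s)) ⁻¹' Bad := rfl
    rw [e4]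
    exact (MeasurableSet.const _).union (measurable_prodMk_right hBad)
  · rw [← k7wcc_sum_inter μ hst {x | rep (st x) ∉ A ∨ (x, rep (st x)) ∈ Bad}]
    refine ENNReal.tsum_le_tsum fun s => ?_
    rw [e2]
    exact hrep s

/-- **L-252-S7wC-DOM** (~120 l.), plan C1.   `ksc_step` (`C = Prod.snd`) : `μ₁ = ksApp μ hist st Ref K₁ = μ.restrict G₁`, ceiling `K K₁` against the masses of `st` under `μ`, `K₁ μ G₁ᶜ ≤ n ∑' Ref`.
`ksc_prune_cond`, `ksc_prune_loss` for `μ₁` with the reference weights `ksMass μ st` (`ksc_mass_sum`): `μ₂ = μ₁.restrict G₂ = μ.restrict (G₂ ∩ G₁)`, `K₂ μ₁ G₂ᶜ ≤ μ univ`.   `G = G₁ ∩ G₂`, `A = G₁ᶜ`, `B = G₁ ∩ G₂ᶜ`. -/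
theorem k7wcc_dom_prune {Ω H S ι : Type} [MeasurableSpace Ω] [Countable H] [Countable S] (μ : Measure Ω) {hist : Ω → H} {st : Ω → S} (hh : KsLab hist) (hs : KsLab st)
    {T : ι → Set Ω} {π : ι → ℝ≥0∞} {Ref : H → ℝ≥0∞} {K : ℝ≥0∞} (hdom : KsDom μ hist T (fun _ => π) Ref K) (n : ℕ) (hopt : KsOpt μ hist st n) (K1 K2 : ℝ≥0∞) :
    ∃ G A B : Set Ω, MeasurableSet G ∧ Gᶜ ⊆ A ∪ B ∧ K1 * μ A ≤ n * ∑' e, Ref e ∧ K2 * μ B ≤ μ Set.univ ∧
      KsCond (μ.restrict G) st T (fun _ => π) (K * K1 * K2) := by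
  obtain ⟨h1, h2⟩ := ksc_step hh hs hdom K1 n hopt (Prod.snd : H × S → S) (fun _ => π) (fun _ _ => le_rfl)
  have est : (Prod.snd : H × S → S) ∘ ksPair hist st = st := rfl
  rw [est] at h1
  obtain ⟨G1, hG1⟩ : ∃ G1 : Set Ω, G1 = ksPair hist st ⁻¹' ksKeep μ (ksPair hist st) (fun x => Ref x.1) K1 := ⟨_, rfl⟩
  have hG1m : MeasurableSet G1 := by rw [hG1]; exact ksc_lab_preimage (ks_lab_pair hh hs) _
  have eμ1 : ksApp μ hist st Ref K1 = μ.restrict G1 := by rw [hG1]; rfl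
  rw [eμ1] at h1
  have h3 := ksc_prune_cond hs h1 K2
  have h4 := ksc_prune_loss (μ.restrict G1) hs (ksMass μ st) K2
  rw [ksc_mass_sum μ hs] at h4
  obtain ⟨G2, hG2⟩ : ∃ G2 : Set Ω, G2 = st ⁻¹' ksKeep (μ.restrict G1) st (ksMass μ st) K2 := ⟨_, rfl⟩
  have hG2m : MeasurableSet G2 := by rw [hG2]; exact ksc_lab_preimage hs _
  have eμ2 : ksPrune (μ.restrict G1) st (ksMass μ st) K2 = μ.restrict (G2 ∩ G1) := by
    unfold ksPrune
    rw [← hG2, Measure.restrict_restrict hG2m]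
  rw [eμ2] at h3
  have e4 : st ⁻¹' (ksKeep (μ.restrict G1) st (ksMass μ st) K2)ᶜ = G2ᶜ := by rw [hG2]; rfl
  rw [e4, Measure.restrict_apply hG2m.compl] at h4
  have e2 : ksPair hist st ⁻¹' (ksKeep μ (ksPair hist st) (fun x => Ref x.1) K1)ᶜ = G1ᶜ := by rw [hG1]; rfl
  rw [e2] at h2
  refine ⟨G2 ∩ G1, G1ᶜ, G2ᶜ ∩ G1, hG2m.inter hG1m, ?_, h2, h4, h3⟩
  intro x hx
  by_cases h : x ∈ G1
  · refine Or.inr ⟨fun h' => hx ⟨h', h⟩, h⟩
  · exact Or.inl h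

/-- **L-252-S7wC-HALF** (~120 l.), plan C5, second half.   `G = Dlᶜ ∩ st ⁻¹' {s | μ {st = s} ≤ 2 μ ({st = s} \ Dl)}`.   A deleted state has `μ {st = s} ≤ 2 μ ({st = s} ∩ Dl)` (finite measure), so the deleted states weigh `≤ 2 μ Dl` (`k7wcc_sum_inter`).
On a kept state `(μ.restrict G) ({st = s} ∩ T) ≤ μ ({st = s} ∩ T) ≤ K π μ {st = s} ≤ 2 K π (μ.restrict G) {st = s}`; on a deleted state the left side is `0`. -/
theorem k7wcc_half {Ω S ι : Type} [MeasurableSpace Ω] [Countable S] (μ : Measure Ω) [IsFiniteMeasure μ] {st : Ω → S} (hs : KsLab st)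
    {T : ι → Set Ω} {π : ι → ℝ≥0∞} {K : ℝ≥0∞} (hc : KsCond μ st T (fun _ => π) K) (Dl : Set Ω) (hDl : MeasurableSet Dl) :
    ∃ G : Set Ω, MeasurableSet G ∧ G ⊆ Dlᶜ ∧ μ Gᶜ ≤ 3 * μ Dl ∧ KsCond (μ.restrict G) st T (fun _ => π) (2 * K) := by
  set Kp : Set S := {s | μ (st ⁻¹' {s}) ≤ 2 * μ (st ⁻¹' {s} \ Dl)} with hKp
  have hG : MeasurableSet (Dlᶜ ∩ st ⁻¹' Kp) := hDl.compl.inter (ksc_lab_preimage hs Kp)
  refine ⟨Dlᶜ ∩ st ⁻¹' Kp, hG, Set.inter_subset_left, ?_, ?_⟩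
  · have hdel : μ (st ⁻¹' Kpᶜ) ≤ 2 * μ Dl := by
      rw [← k7wcc_sum_inter μ hs (st ⁻¹' Kpᶜ), ← k7wcc_sum_inter μ hs Dl, ← ENNReal.tsum_mul_left]
      refine ENNReal.tsum_le_tsum fun s => ?_
      by_cases hsK : s ∈ Kp
      · have e : st ⁻¹' Kpᶜ ∩ st ⁻¹' {s} = ∅ := by
          ext x
          simp only [Set.mem_inter_iff, Set.mem_preimage, Set.mem_compl_iff, Set.mem_singleton_iff, Set.mem_empty_iff_false, iff_false, not_and]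
          intro h1 h2
          exact h1 (h2 ▸ hsK)
        rw [e, measure_empty]
        exact zero_le
      · have h1 : 2 * μ (st ⁻¹' {s} \ Dl) < μ (st ⁻¹' {s}) := not_le.1 hsK
        have h2 : μ (st ⁻¹' {s} ∩ Dl) + μ (st ⁻¹' {s} \ Dl) = μ (st ⁻¹' {s}) := measure_inter_add_sdiff _ hDl
        have h3 : μ (st ⁻¹' {s} \ Dl) ≤ μ (st ⁻¹' {s} ∩ Dl) := by
          rw [← h2, two_mul] at h1
          exact ((ENNReal.add_lt_add_iff_right (measure_ne_top _ _)).1 h1).le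
        calc μ (st ⁻¹' Kpᶜ ∩ st ⁻¹' {s}) ≤ μ (st ⁻¹' {s}) := measure_mono Set.inter_subset_right
          _ = μ (st ⁻¹' {s} ∩ Dl) + μ (st ⁻¹' {s} \ Dl) := h2.symm
          _ ≤ μ (st ⁻¹' {s} ∩ Dl) + μ (st ⁻¹' {s} ∩ Dl) := add_le_add le_rfl h3
          _ = 2 * μ (Dl ∩ st ⁻¹' {s}) := by rw [two_mul, Set.inter_comm]
    calc μ (Dlᶜ ∩ st ⁻¹' Kp)ᶜ ≤ μ (Dl ∪ st ⁻¹' Kpᶜ) := measure_mono fun x hx => by
          by_cases hxD : x ∈ Dl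
          · exact Or.inl hxD
          · exact Or.inr fun hxK => hx ⟨hxD, hxK⟩
      _ ≤ μ Dl + μ (st ⁻¹' Kpᶜ) := measure_union_le _ _
      _ ≤ μ Dl + 2 * μ Dl := add_le_add le_rfl hdel
      _ = 3 * μ Dl := by ring
  · intro s0 i
    change (μ.restrict (Dlᶜ ∩ st ⁻¹' Kp)) (st ⁻¹' {s0} ∩ T i) ≤ 2 * K * π i * (μ.restrict (Dlᶜ ∩ st ⁻¹' Kp)) (st ⁻¹' {s0})
    rw [Measure.restrict_apply (hs s0)]
    by_cases hsK : s0 ∈ Kp
    · have e : st ⁻¹' {s0} ∩ (Dlᶜ ∩ st ⁻¹' Kp) = st ⁻¹' {s0} \ Dl := by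
        ext x
        constructor
        · rintro ⟨h1, h2, _⟩
          exact ⟨h1, h2⟩
        · rintro ⟨h1, h2⟩
          have h1' : st x = s0 := h1
          exact ⟨h1, h2, by change st x ∈ Kp; rw [h1']; exact hsK⟩
      rw [e]
      have h1 : μ (st ⁻¹' {s0}) ≤ 2 * μ (st ⁻¹' {s0} \ Dl) := hsK
      calc (μ.restrict (Dlᶜ ∩ st ⁻¹' Kp)) (st ⁻¹' {s0} ∩ T i) ≤ μ (st ⁻¹' {s0} ∩ T i) := Measure.restrict_le_self _
        _ ≤ K * π i * μ (st ⁻¹' {s0}) := hc s0 i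
        _ ≤ K * π i * (2 * μ (st ⁻¹' {s0} \ Dl)) := mul_le_mul' le_rfl h1
        _ = 2 * K * π i * μ (st ⁻¹' {s0} \ Dl) := by ring
    · have e : st ⁻¹' {s0} ∩ (Dlᶜ ∩ st ⁻¹' Kp) = ∅ := by
        ext x
        simp only [Set.mem_inter_iff, Set.mem_preimage, Set.mem_compl_iff, Set.mem_singleton_iff, Set.mem_empty_iff_false, iff_false, not_and]
        intro h1 _ h3
        exact hsK (h1 ▸ h3)
      have h0 : (μ.restrict (Dlᶜ ∩ st ⁻¹' Kp)) (st ⁻¹' {s0} ∩ T i) = 0 := by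
        refine measure_mono_null Set.inter_subset_left ?_
        rw [Measure.restrict_apply (hs s0), e, measure_empty]
      rw [h0]
      exact zero_le

/-- **plan C5** (proved from the leaves): representatives of the states, deletion of the bad points and of the states which lost half of their mass -/
theorem k7wcc_select {Ω S ι : Type} [MeasurableSpace Ω] [Countable S] [Countable ι] [Nonempty Ω] (μ : Measure Ω) [IsFiniteMeasure μ] (st : Ω → S) (hst : KsLab st)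
    (vb : Ω → ι) (π : ι → ℝ≥0∞) (K : ℝ≥0∞) (hc : KsCond μ st (fun b => vb ⁻¹' {b}) (fun _ => π) K)
    (A : Set Ω) (hA : MeasurableSet A) (hA0 : μ Aᶜ = 0) (Bad : Set (Ω × Ω)) (hBad : MeasurableSet Bad) (Bd : ι → Set Ω)
    (hsub : ∀ x ∈ Bad, st x.1 = st x.2 → x.1 ∈ Bd (vb x.2)) (η : ℝ≥0∞) (hη : ∑' b, π b * μ (Bd b) ≤ η) :
    ∃ (rep : S → Ω) (G : Set Ω), MeasurableSet G ∧ (∀ x ∈ G, rep (st x) ∈ A ∧ (x, rep (st x)) ∉ Bad) ∧ μ Gᶜ ≤ 3 * (K * η) ∧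
      KsCond (μ.restrict G) st (fun b => vb ⁻¹' {b}) (fun _ => π) (2 * K) := by
  obtain ⟨rep, hm, hle⟩ := k7wcc_state_rep μ st hst A hA hA0 Bad hBad
  obtain ⟨G, hG, hsubG, hloss, hcond⟩ := k7wcc_half μ hst hc _ hm
  refine ⟨rep, G, hG, fun x hx => ?_, ?_, hcond⟩
  · have h1 : ¬ (rep (st x) ∉ A ∨ (x, rep (st x)) ∈ Bad) := hsubG hx
    exact ⟨not_not.1 fun h => h1 (Or.inl h), fun h => h1 (Or.inr h)⟩
  · refine hloss.trans (mul_le_mul' le_rfl (hle.trans ?_))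
    exact (k7wcc_pair_bad μ st hst vb π K hc Bad Bd hsub).trans (mul_le_mul' le_rfl hη)

/-! ## 2. Counting -/

theorem k7wcc_yc_one {α γ e Kc δ θ n : ℝ} (Off : Finset ℝ) (hK : 1 ≤ Kc) (he : 0 < e) (hθ0 : 0 < θ) (hθ : θ ≤ 1 / 2) (hδ : 0 ≤ δ)
    (hgap : e ≤ max |α| |γ|) (hn : (Off.card : ℝ) ≤ n) :
    volume {U : ℝ | U ∈ Set.Icc (-Kc) Kc ∧ ∃ D ∈ Off, |α * U + γ * U ^ 2 - D| ≤ δ} ≤ ENNReal.ofReal (4 * Kc * θ + 6 * n * δ / (e * θ)) := by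
  have h1 := k7a_match_len (α := α) (γ := γ) (fun k : Fin Off.card => ((Off.equivFin.symm k : Off) : ℝ)) hK he hθ0 hθ hδ hgap
  refine le_trans (measure_mono ?_) (le_trans h1 (ENNReal.ofReal_le_ofReal ?_))
  · rintro U ⟨hU, D, hD, hd⟩
    refine ⟨hU, Off.equivFin ⟨D, hD⟩, ?_⟩
    simpa using hd
  · have : 6 * (Off.card : ℝ) * δ / (e * θ) ≤ 6 * n * δ / (e * θ) := by
      refine div_le_div_of_nonneg_right ?_ (by positivity)
      exact mul_le_mul_of_nonneg_right (by linarith) hδ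
    linarith

theorem k7wcc_yc_fin {J : Type} (Lst : Finset J) (α γ : J → ℝ) (Off : J → Finset ℝ) {w b y0 Kc e δ θ n : ℝ} (hw : 0 < w) (hb : 0 < b) (hK : 1 ≤ Kc) (he : 0 < e)
    (hθ0 : 0 < θ) (hθ : θ ≤ 1 / 2) (hδ : 0 ≤ δ) (hgap : ∀ j ∈ Lst, e ≤ max |α j| |γ j|) (hn : ∀ j ∈ Lst, ((Off j).card : ℝ) ≤ n) (hn0 : 0 ≤ n) (A : Finset ℤ)
    (hA : ∀ k ∈ A, ∀ Y ∈ Set.Ico ((k : ℝ) * w) (((k : ℝ) + 1) * w), |(Y - y0) / b| ≤ Kc ∧
      ∃ j ∈ Lst, ∃ D ∈ Off j, |α j * ((Y - y0) / b) + γ j * ((Y - y0) / b) ^ 2 - D| ≤ δ) :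
    (A.card : ℝ) * w ≤ b * (Lst.card * (4 * Kc * θ + 6 * n * δ / (e * θ))) := by
  obtain ⟨c, hc⟩ : ∃ c : ℝ, c = 4 * Kc * θ + 6 * n * δ / (e * θ) := ⟨_, rfl⟩
  have hc0 : 0 ≤ c := by rw [hc]; positivity
  rw [← hc]
  obtain ⟨Cl, hCl⟩ : ∃ Cl : ℤ → Set ℝ, Cl = fun k : ℤ => Set.Ico (((k : ℝ) * w - y0) / b) ((((k : ℝ) + 1) * w - y0) / b) := ⟨_, rfl⟩
  have hvol : ∀ k, volume (Cl k) = ENNReal.ofReal (w / b) := by
    intro k
    rw [hCl, Real.volume_Ico]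
    congr 1
    field_simp
    ring
  have hdisj : (↑A : Set ℤ).PairwiseDisjoint Cl := by
    have key : ∀ k k' : ℤ, k < k' → Disjoint (Cl k) (Cl k') := by
      intro k k' hkk
      rw [hCl, Set.disjoint_left]
      intro U h1 h2
      have h3 : ((k : ℝ) + 1) ≤ (k' : ℝ) := by exact_mod_cast hkk
      have h4 : (((k : ℝ) + 1) * w - y0) / b ≤ ((k' : ℝ) * w - y0) / b := by
        refine div_le_div_of_nonneg_right ?_ hb.le
        have := mul_le_mul_of_nonneg_right h3 hw.le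
        linarith
      linarith [h1.2, h2.1]
    intro k _ k' _ hne
    rcases lt_or_gt_of_ne hne with h | h
    · exact key k k' h
    · exact (key k' k h).symm
  have hsub : (⋃ k ∈ A, Cl k) ⊆ ⋃ j ∈ Lst, {U : ℝ | U ∈ Set.Icc (-Kc) Kc ∧ ∃ D ∈ Off j, |α j * U + γ j * U ^ 2 - D| ≤ δ} := by
    intro U hU
    obtain ⟨k, hk, hUk⟩ := Set.mem_iUnion₂.mp hU
    rw [hCl] at hUk
    have e1 : (b * U + y0 - y0) / b = U := by field_simp; ring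
    have hY : b * U + y0 ∈ Set.Ico ((k : ℝ) * w) (((k : ℝ) + 1) * w) := by
      have h1 := hUk.1
      have h2 := hUk.2
      rw [div_le_iff₀ hb] at h1
      rw [lt_div_iff₀ hb] at h2
      constructor <;> linarith
    obtain ⟨h1, j, hj, D, hD, hd⟩ := hA k hk _ hY
    rw [e1] at h1 hd
    exact Set.mem_iUnion₂.mpr ⟨j, hj, abs_le.mp h1, D, hD, hd⟩
  have hmain : (A.card : ℝ≥0∞) * ENNReal.ofReal (w / b) ≤ (Lst.card : ℝ≥0∞) * ENNReal.ofReal c := by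
    calc (A.card : ℝ≥0∞) * ENNReal.ofReal (w / b) = ∑ k ∈ A, volume (Cl k) := by
          simp only [hvol, Finset.sum_const, nsmul_eq_mul]
      _ = volume (⋃ k ∈ A, Cl k) := (measure_biUnion_finset hdisj (fun k _ => by rw [hCl]; exact measurableSet_Ico)).symm
      _ ≤ volume (⋃ j ∈ Lst, {U : ℝ | U ∈ Set.Icc (-Kc) Kc ∧ ∃ D ∈ Off j, |α j * U + γ j * U ^ 2 - D| ≤ δ}) := measure_mono hsub
      _ ≤ ∑ j ∈ Lst, volume {U : ℝ | U ∈ Set.Icc (-Kc) Kc ∧ ∃ D ∈ Off j, |α j * U + γ j * U ^ 2 - D| ≤ δ} := measure_biUnion_finset_le _ _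
      _ ≤ ∑ _j ∈ Lst, ENNReal.ofReal c := Finset.sum_le_sum fun j hj => by
          rw [hc]
          exact k7wcc_yc_one (Off j) hK he hθ0 hθ hδ (hgap j hj) (hn j hj)
      _ = (Lst.card : ℝ≥0∞) * ENNReal.ofReal c := by simp only [Finset.sum_const, nsmul_eq_mul]
  have e1 : (A.card : ℝ≥0∞) * ENNReal.ofReal (w / b) = ENNReal.ofReal ((A.card : ℝ) * (w / b)) := by
    rw [ENNReal.ofReal_mul (Nat.cast_nonneg _), ENNReal.ofReal_natCast]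
  have e2 : (Lst.card : ℝ≥0∞) * ENNReal.ofReal c = ENNReal.ofReal ((Lst.card : ℝ) * c) := by
    rw [ENNReal.ofReal_mul (Nat.cast_nonneg _), ENNReal.ofReal_natCast]
  rw [e1, e2, ENNReal.ofReal_le_ofReal_iff (by positivity)] at hmain
  have e3 : (A.card : ℝ) * (w / b) = (A.card : ℝ) * w / b := by ring
  rw [e3, div_le_iff₀ hb] at hmain
  linarith

/-- **L-252-S7wC-YCOUNT** (~250 l.), plan C4 (07 l.733-760).   Cells `[k w, (k+1) w)`, `k ∈ A`, all of whose points `Y` have `U = (Y - y0)/b ∈ [-Kc, Kc]` and `α_j U + γ_j U² ` within `δ` of an offset `D ∈ Off j`, for some `j ∈ Lst`.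
`T_j = {U ∈ Icc (-Kc) Kc | ∃ D ∈ Off j, ..}` has length `≤ 4 Kc θ + 6 #(Off j) δ/(e θ)` (`k7a_match_len` with `D := fun k : Fin (Off j).card => ((Off j).equivFin.symm k : ℝ)`).   `T = {Y | (Y - y0)/b ∈ ⋃_{j ∈ Lst} T_j}` has length `b · |⋃ T_j|`
(`Real.volume_preimage_mul_left`, translation invariance; or `≤` by `Measure.addHaar_preimage_smul`..).   Every FINITE `A' ⊆ A` has `#A' · w = |⋃_{k ∈ A'} cell_k| ≤ |T|` (disjoint intervals, `Real.volume_Ico`), hence `A` is finite (`Set.infinite.exists_subset_card_eq`). -/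
theorem k7wcc_ycount {J : Type} (Lst : Finset J) (α γ : J → ℝ) (Off : J → Finset ℝ) {w b y0 Kc e δ θ n : ℝ} (hw : 0 < w) (hb : 0 < b) (hK : 1 ≤ Kc) (he : 0 < e)
    (hθ0 : 0 < θ) (hθ : θ ≤ 1 / 2) (hδ : 0 ≤ δ) (hgap : ∀ j ∈ Lst, e ≤ max |α j| |γ j|) (hn : ∀ j ∈ Lst, ((Off j).card : ℝ) ≤ n) (A : Set ℤ)
    (hA : ∀ k ∈ A, ∀ Y ∈ Set.Ico ((k : ℝ) * w) (((k : ℝ) + 1) * w), |(Y - y0) / b| ≤ Kc ∧
      ∃ j ∈ Lst, ∃ D ∈ Off j, |α j * ((Y - y0) / b) + γ j * ((Y - y0) / b) ^ 2 - D| ≤ δ) :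
    ∃ F : Finset ℤ, (↑F : Set ℤ) = A ∧ (F.card : ℝ) * w ≤ b * (Lst.card * (4 * Kc * θ + 6 * n * δ / (e * θ))) := by
  by_cases hLst : Lst.Nonempty
  · obtain ⟨j0, hj0⟩ := hLst
    have hn0 : 0 ≤ n := le_trans (Nat.cast_nonneg _) (hn j0 hj0)
    obtain ⟨V, hV⟩ : ∃ V : ℝ, V = b * (Lst.card * (4 * Kc * θ + 6 * n * δ / (e * θ))) := ⟨_, rfl⟩
    rw [← hV]
    have hfinb : ∀ A' : Finset ℤ, (↑A' : Set ℤ) ⊆ A → (A'.card : ℝ) * w ≤ V := by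
      intro A' hA'
      rw [hV]
      exact k7wcc_yc_fin Lst α γ Off hw hb hK he hθ0 hθ hδ hgap hn hn0 A' (fun k hk => hA k (hA' hk))
    have hfin : A.Finite := by
      by_contra hinf
      obtain ⟨N, hN⟩ := exists_nat_gt (V / w)
      obtain ⟨A', hA', hcard⟩ := Set.Infinite.exists_subset_card_eq hinf N
      have := hfinb A' hA'
      rw [hcard] at this
      rw [div_lt_iff₀ hw] at hN
      linarith
    refine ⟨hfin.toFinset, hfin.coe_toFinset, hfinb _ ?_⟩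
    rw [hfin.coe_toFinset]
  · have hE : A = ∅ := by
      rw [Set.eq_empty_iff_forall_notMem]
      intro k hk
      obtain ⟨-, j, hj, -⟩ := hA k hk ((k : ℝ) * w) ⟨le_rfl, by nlinarith⟩
      exact hLst ⟨j, hj⟩
    refine ⟨∅, by rw [hE]; simp, ?_⟩
    rw [Finset.not_nonempty_iff_eq_empty.mp hLst]
    simp

/-- **L-252-S7wC-CNT** (the next three statements, ~150 l.).   `Cs = Ti.biUnion fun i => ({i} : Finset ℤ) ×ˢ (Zc i ×ˢ Yc i)`, `Finset.card_biUnion_le`, `Finset.card_product`. -/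
theorem k7wcc_card3 (Ti : Finset ℤ) (Zc Yc : ℤ → Finset ℤ) {nT nZ nY : ℝ} (hZ0 : 0 ≤ nZ) (hY0 : 0 ≤ nY) (hT : (Ti.card : ℝ) ≤ nT)
    (hZ : ∀ i ∈ Ti, ((Zc i).card : ℝ) ≤ nZ) (hY : ∀ i ∈ Ti, ((Yc i).card : ℝ) ≤ nY) :
    ∃ Cs : Finset (ℤ × ℤ × ℤ), (∀ i j k, i ∈ Ti → j ∈ Zc i → k ∈ Yc i → (i, j, k) ∈ Cs) ∧ (Cs.card : ℝ) ≤ nT * nZ * nY := by
  refine ⟨Ti.biUnion fun i => ({i} : Finset ℤ) ×ˢ (Zc i ×ˢ Yc i), fun i j k hi hj hk => ?_, ?_⟩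
  · refine Finset.mem_biUnion.2 ⟨i, hi, ?_⟩
    simp [hj, hk]
  · have h1 : ((Ti.biUnion fun i => ({i} : Finset ℤ) ×ˢ (Zc i ×ˢ Yc i)).card : ℝ) ≤ ∑ i ∈ Ti, ((({i} : Finset ℤ) ×ˢ (Zc i ×ˢ Yc i)).card : ℝ) := by
      exact_mod_cast Finset.card_biUnion_le
    refine h1.trans ?_
    calc ∑ i ∈ Ti, ((({i} : Finset ℤ) ×ˢ (Zc i ×ˢ Yc i)).card : ℝ) ≤ ∑ i ∈ Ti, nZ * nY := by
          refine Finset.sum_le_sum fun i hi => ?_
          rw [Finset.card_product, Finset.card_product, Finset.card_singleton]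
          push_cast
          rw [one_mul]
          exact mul_le_mul (hZ i hi) (hY i hi) (Nat.cast_nonneg _) hZ0
      _ = (Ti.card : ℝ) * (nZ * nY) := by rw [Finset.sum_const, nsmul_eq_mul]
      _ ≤ nT * (nZ * nY) := mul_le_mul_of_nonneg_right hT (mul_nonneg hZ0 hY0)
      _ = nT * nZ * nY := by ring

/-- a sum over the fibres of a map with fibres of size `≤ n` (`Finset.sum_fiberwise_of_maps_to`, `Finset.sum_const`) -/
theorem k7wcc_sum_fiber {A B : Type} [DecidableEq B] (S : Finset A) (T : Finset B) (f : A → B) (w : B → ℝ≥0∞) {n : ℝ} (hmap : ∀ a ∈ S, f a ∈ T)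
    (hfib : ∀ b ∈ T, ((S.filter fun a => f a = b).card : ℝ) ≤ n) : ∑ a ∈ S, w (f a) ≤ ENNReal.ofReal n * ∑ b ∈ T, w b := by
  rw [← Finset.sum_fiberwise_of_maps_to hmap, Finset.mul_sum]
  refine Finset.sum_le_sum fun b hb => ?_
  have h1 : ∑ a ∈ S with f a = b, w (f a) = ((S.filter fun a => f a = b).card : ℝ≥0∞) * w b := by
    rw [Finset.sum_congr rfl (fun a ha => by rw [(Finset.mem_filter.1 ha).2] : ∀ a ∈ S.filter (fun a => f a = b), w (f a) = w b), Finset.sum_const, nsmul_eq_mul]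
  rw [h1]
  refine mul_le_mul' ?_ le_rfl
  rw [← ENNReal.ofReal_natCast]
  exact ENNReal.ofReal_le_ofReal (hfib b hb)

/-- plain bins `⌊x / w⌋` of a ball: `Finset.Icc ⌊(x₀ - ρ)/w⌋ ⌊(x₀ + ρ)/w⌋` -/
theorem k7wcc_floor_ball {w ρ : ℝ} (hw : 0 < w) (hρ : 0 ≤ ρ) (x₀ : ℝ) :
    ∃ S : Finset ℤ, (S.card : ℝ) ≤ 2 * ρ / w + 2 ∧ ∀ x : ℝ, |x - x₀| ≤ ρ → ⌊x / w⌋ ∈ S := by
  refine ⟨Finset.Icc ⌊(x₀ - ρ) / w⌋ ⌊(x₀ + ρ) / w⌋, ?_, fun x hx => ?_⟩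
  · have h1 : (⌊(x₀ + ρ) / w⌋ : ℝ) ≤ (x₀ + ρ) / w := Int.floor_le _
    have h2 : (x₀ - ρ) / w < ⌊(x₀ - ρ) / w⌋ + 1 := Int.lt_floor_add_one _
    have h3 : (x₀ + ρ) / w - (x₀ - ρ) / w = 2 * ρ / w := by ring
    have hle : ⌊(x₀ - ρ) / w⌋ ≤ ⌊(x₀ + ρ) / w⌋ := Int.floor_le_floor (div_le_div_of_nonneg_right (by linarith) hw.le)
    rw [Int.card_Icc]
    have h4 : (((⌊(x₀ + ρ) / w⌋ + 1 - ⌊(x₀ - ρ) / w⌋).toNat : ℕ) : ℝ) = (⌊(x₀ + ρ) / w⌋ : ℝ) + 1 - ⌊(x₀ - ρ) / w⌋ := by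
      have h5 : (((⌊(x₀ + ρ) / w⌋ + 1 - ⌊(x₀ - ρ) / w⌋).toNat : ℕ) : ℤ) = ⌊(x₀ + ρ) / w⌋ + 1 - ⌊(x₀ - ρ) / w⌋ := Int.toNat_of_nonneg (by omega)
      have h6 := congrArg (fun z : ℤ => (z : ℝ)) h5
      push_cast at h6
      exact h6
    rw [h4]
    linarith
  · obtain ⟨h1, h2⟩ := abs_le.1 hx
    exact Finset.mem_Icc.2 ⟨Int.floor_le_floor (div_le_div_of_nonneg_right (by linarith) hw.le), Int.floor_le_floor (div_le_div_of_nonneg_right (by linarith) hw.le)⟩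

/-- **L-252-S7wC-MASS** (~60 l.): three losses of relative size `1/8` -/
theorem k7wcc_mass {k p m a b c : ℝ≥0∞} (hk : k ≠ ⊤) (hm : 1 ≤ k * m) (hle : m ≤ p + a + b + c) (ha : 8 * k * a ≤ 1) (hb : 8 * k * b ≤ 1) (hc : 8 * k * c ≤ 1) :
    1 ≤ 2 * k * p := by
  -- 8 ≤ 8 k m ≤ 8 k p + 3
  have h1 : (8 : ℝ≥0∞) ≤ 8 * k * p + 3 := by
    calc (8 : ℝ≥0∞) = 8 * 1 := by norm_num
      _ ≤ 8 * (k * m) := mul_le_mul' le_rfl hm
      _ ≤ 8 * (k * (p + a + b + c)) := mul_le_mul' le_rfl (mul_le_mul' le_rfl hle)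
      _ = 8 * k * p + 8 * k * a + 8 * k * b + 8 * k * c := by ring
      _ ≤ 8 * k * p + 1 + 1 + 1 := by gcongr
      _ = 8 * k * p + 3 := by
          rw [add_assoc, add_assoc]
          norm_num
  have h2 : (5 : ℝ≥0∞) ≤ 8 * k * p := by
    have h3 : (5 : ℝ≥0∞) + 3 ≤ 8 * k * p + 3 := by
      calc (5 : ℝ≥0∞) + 3 = 8 := by norm_num
        _ ≤ _ := h1
    exact (ENNReal.add_le_add_iff_right (by norm_num)).1 h3
  have h4 : (4 : ℝ≥0∞) * 1 ≤ 4 * (2 * k * p) := by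
    calc (4 : ℝ≥0∞) * 1 ≤ 5 := by norm_num
      _ ≤ 8 * k * p := h2
      _ = 4 * (2 * k * p) := by
          rw [← mul_assoc, ← mul_assoc]
          norm_num
  exact (ENNReal.mul_le_mul_iff_right (by norm_num) (by norm_num)).1 h4

end

end Claimed.Agent.R252

/-!
# ROW 252 (S0492), unit S7w (chief helper89), file by helper183: **THE SHARED GEOMETRY OF THE STAGES C, D, E OF P7.3** (07 l.666-924).      CONTRACT file: every `sorry` is a LEAF `L-252-S7wg-*` (name in the docstring).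

PAPER-FREE (`S7a/WideDefs`, `S7a/WideStage`, `S7a/WideContract`, `S7a/WideCapContract`, `State/KsState(C)`).  Explicit slack `K ≥ 1`, explicit constants.  Statements frozen (tell helper183 if one looks false or inconvenient);
prove IN PLACE, helper lemmas directly above, prefix `k7wg_`.
* s1 TRUE LABELS: `W.tQ Q` (left end of the block; def in `S7a/WideDDefs`), `k7wg_blk`, `k7wg_labQ_eq` (`labQ p = Q` on `Ev0 ∩ inc Q`), `k7wg_inc_mass`, `k7wg_nu_pos`, `k7wg_sum_qnu` (`Σ q ν_Q ≤ 1`), `k7wg_heavy` (a heavy `Q`).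
* s2 QUADRATICS: `k7wg_F12` (formulas for `k7wF1`, `k7wF2`), `k7wg_expand` (`F(t, y + bU) = F + F₁ U + F₂ U²`).
* s3 OCCUPIED LABELS: `k7wg_cen` (centre `≤ 2K, 5K`), `k7wg_coef` (coefficients `≤ 250 K³/β²`), `k7wg_F12_bd` (`|F₁| ≤ 16 K (1+λ) b/β`, `|F₂| ≤ 8 K b²/β²` at distance `λβ` of the centre), `k7wg_F12_ev` (at an incidence), `k7wg_F1_lip`, `k7wg_F_lip`.
* s4 GROUPS: `k7wgZa χ mv z t` (the central motion `Z_α(t)`), `k7wg_Za`;  `k7wg_dom_count` + `k7wg_fwd_all` (`≤ 25 K⁴` labels per `(Q, α)`).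
* s5 OFFSETS: `k7wgOff`, `k7wg_off` (`X = F_{φ0}(t, Y) + D(Q, φ0, φ_i) + O(K a_i + ε)` on the WHOLE block), `k7wg_off_bd`.
* s6 STATES: `k7wg_lab_stt`, `k7wg_dom_prune` (history × appended state pruning ⟹ conditional velocity domination), `k7wg_ref_all`, `k7wg_ref_Q` (the two reference totals), `k7wg_halve` (domination survives a small deletion).
* s7 PALETTE: `k7wg_pi_sum`, `k7wg_pi_ball`, `k7wg_dom_ball`, `k7wg_compat`.
-/

set_option autoImplicit false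

namespace Claimed.Agent.R252

open MeasureTheory
open scoped ENNReal BigOperators

noncomputable section

/-! ## 1. True labels -/

/-- **L-252-S7wg-Q1** (this and the next four statements, ~200 l.).  `q = 2^{-lev}`, `iv < 2^lev`. -/
theorem k7wg_blk (W : K7aW) {N K d S a h g : ℝ} {Ms Ws : Finset ℝ} (hW : W.Ok N K d S a h g Ms Ws) {Q : W.Q} (hQ : Q ∈ W.Qa) :
    0 < W.q ∧ W.q ≤ 1 ∧ W.tQ Q ∈ W.blk Q ∧ W.blk Q ⊆ Set.Ico (0 : ℝ) 1 ∧ W.blk Q = Set.Ico (W.tQ Q) (W.tQ Q + W.q) ∧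
      ∀ t ∈ W.blk Q, ⌊t / W.q⌋ = (W.iv Q : ℤ) := by
  have hq : 0 < W.q := by unfold K7aW.q; positivity
  have hq1 : W.q ≤ 1 := by unfold K7aW.q; exact pow_le_one₀ (by norm_num) (by norm_num)
  have hiv : ((W.iv Q : ℝ) + 1) * W.q ≤ 1 := by
    have h1 : (W.iv Q : ℝ) + 1 ≤ 2 ^ W.lev := by exact_mod_cast hW.iv_lt Q hQ
    have h2 : (2 : ℝ) ^ W.lev * W.q = 1 := by
      unfold K7aW.q
      rw [← mul_pow]
      norm_num
    calc ((W.iv Q : ℝ) + 1) * W.q ≤ 2 ^ W.lev * W.q := mul_le_mul_of_nonneg_right h1 hq.le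
      _ = 1 := h2
  have hiv0 : (0 : ℝ) ≤ (W.iv Q : ℝ) * W.q := by positivity
  refine ⟨hq, hq1, ?_, ?_, ?_, ?_⟩
  · unfold K7aW.tQ K7aW.blk
    refine ⟨le_refl _, ?_⟩
    linarith
  · intro t ht
    unfold K7aW.blk at ht
    exact ⟨hiv0.trans ht.1, lt_of_lt_of_le ht.2 hiv⟩
  · unfold K7aW.tQ K7aW.blk
    congr 1
    ring
  · intro t ht
    unfold K7aW.blk at ht
    rw [Int.floor_eq_iff, le_div_iff₀ hq, div_lt_iff₀ hq]
    push_cast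
    exact ⟨ht.1, ht.2⟩

/-- two labels of `Qa` whose incidence sets meet are equal -/
theorem k7wg_inc_inj (W : K7aW) {N K d S a h g : ℝ} {Ms Ws : Finset ℝ} (hW : W.Ok N K d S a h g Ms Ws) {Q Q' : W.Q} (hQ : Q ∈ W.Qa) (hQ' : Q' ∈ W.Qa)
    {p : W.L × ℝ} (hp : p ∈ W.inc Q) (hp' : p ∈ W.inc Q') : Q = Q' := by
  by_contra hne
  have h1 := (k7wg_blk W hW hQ).2.2.2.2.2 p.2 hp.2
  have h2 := (k7wg_blk W hW hQ').2.2.2.2.2 p.2 hp'.2
  have hiv : W.iv Q = W.iv Q' := by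
    have : (W.iv Q : ℤ) = (W.iv Q' : ℤ) := h1.symm.trans h2
    exact_mod_cast this
  exact Set.disjoint_left.1 (hW.disj Q hQ Q' hQ' hiv hne) hp.1 hp'.1

/-- two labels of `Qa` whose incidence sets meet are equal (same block by `k7wg_blk`, then `disj`); with `lab` -/
theorem k7wg_labQ_eq (W : K7aW) {N K d S a h g : ℝ} {Ms Ws : Finset ℝ} (hW : W.Ok N K d S a h g Ms Ws) {Q : W.Q} (hQ : Q ∈ W.Qa)
    {p : W.L × ℝ} (hp : p ∈ W.Ev0) (hpQ : p ∈ W.inc Q) : W.labQ p = Q :=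
  k7wg_inc_inj W hW (hW.lab p hp).1 hQ (hW.lab p hp).2 hpQ

/-- `prior (inc Q) = q ν_Q` -/
theorem k7wg_inc_mass (W : K7aW) {N K d S a h g : ℝ} {Ms Ws : Finset ℝ} (hW : W.Ok N K d S a h g Ms Ws) {Q : W.Q} (hQ : Q ∈ W.Qa) :
    W.prior (W.inc Q) = ENNReal.ofReal W.q * W.νQ Q := by
  obtain ⟨-, -, -, hsub, heq, -⟩ := k7wg_blk W hW hQ
  have := hW.ln.prob
  have : SFinite k7aTm := by unfold k7aTm; infer_instance
  unfold K7aLn.prior K7aW.inc K7aW.νQ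
  rw [Measure.prod_prod, mul_comm]
  congr 1
  unfold k7aTm
  have hm : MeasurableSet (W.blk Q) := by rw [heq]; exact measurableSet_Ico
  rw [Measure.restrict_apply hm, Set.inter_eq_left.2 (hsub.trans Set.Ico_subset_Icc_self), heq, Real.volume_Ico]
  congr 1
  ring

/-- `0 < ν_Q ≤ 1` (`ν_lo`, `prob`) -/
theorem k7wg_nu_pos (W : K7aW) {N K d S a h g : ℝ} {Ms Ws : Finset ℝ} (hW : W.Ok N K d S a h g Ms Ws) (ha : 0 < a) (hh : 0 < h) (hg : 0 < g)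
    {Q : W.Q} (hQ : Q ∈ W.Qa) : W.νQ Q ≠ 0 ∧ W.νQ Q ≤ 1 := by
  have := hW.ln.prob
  refine ⟨fun h0 => ?_, prob_le_one⟩
  have h1 := hW.ν_lo Q hQ
  rw [h0, mul_zero, nonpos_iff_eq_zero, ENNReal.ofReal_eq_zero] at h1
  have : 0 < a ^ d * h * (h * g) := by
    have := Real.rpow_pos_of_pos ha d
    positivity
  linarith

theorem k7wg_prior_univ (W : K7aLn) {N K d S : ℝ} {Ms Ws : Finset ℝ} (hW : W.Ok N K d S Ms Ws) : W.prior Set.univ ≤ 1 := by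
  have := hW.prob
  have : SFinite k7aTm := by unfold k7aTm; infer_instance
  unfold K7aLn.prior
  rw [← Set.univ_prod_univ, Measure.prod_prod, measure_univ, one_mul]
  unfold k7aTm
  rw [Measure.restrict_apply MeasurableSet.univ, Set.univ_inter, Real.volume_Icc]
  norm_num

theorem k7wg_meas_inc (W : K7aW) {N K d S a h g : ℝ} {Ms Ws : Finset ℝ} (hW : W.Ok N K d S a h g Ms Ws) (Q : W.Q) : MeasurableSet (W.inc Q) :=
  (hW.m_asg Q).prod measurableSet_Ico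

open Classical in
/-- `Σ_{Q ∈ Qa} q ν_Q ≤ 1` : in each of the `2^lev` blocks the assignments are disjoint -/
theorem k7wg_sum_qnu (W : K7aW) {N K d S a h g : ℝ} {Ms Ws : Finset ℝ} (hW : W.Ok N K d S a h g Ms Ws) :
    ∑ Q ∈ Finset.univ.filter (fun Q => Q ∈ W.Qa), ENNReal.ofReal W.q * W.νQ Q ≤ 1 := by
  have h1 : ∑ Q ∈ Finset.univ.filter (fun Q => Q ∈ W.Qa), ENNReal.ofReal W.q * W.νQ Q
      = ∑ Q ∈ Finset.univ.filter (fun Q => Q ∈ W.Qa), W.prior (W.inc Q) :=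
    Finset.sum_congr rfl fun Q hQ => (k7wg_inc_mass W hW (Finset.mem_filter.1 hQ).2).symm
  have hdisj : Set.PairwiseDisjoint (↑(Finset.univ.filter (fun Q => Q ∈ W.Qa)) : Set W.Q) (fun Q => W.inc Q) := by
    intro Q hQ Q' hQ' hne
    refine Set.disjoint_left.2 fun p hp hp' => hne ?_
    exact k7wg_inc_inj W hW (Finset.mem_filter.1 hQ).2 (Finset.mem_filter.1 hQ').2 hp hp'
  rw [h1, ← measure_biUnion_finset hdisj fun Q _ => k7wg_meas_inc W hW Q]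
  exact (measure_mono (Set.subset_univ _)).trans (k7wg_prior_univ W.toK7aLn hW.ln)

/-- **L-252-S7wg-Q2** (~120 l.).  A heavy true label.  `prior E = Σ_{Q ∈ Qa} prior (E ∩ {labQ = Q})`, `E ∩ {labQ = Q} ⊆ E ∩ inc Q` (`lab`); if every `Q ∈ Qa` failed, `K prior E < Σ q ν_Q ≤ 1`. -/
theorem k7wg_heavy (W : K7aW) {N K d S a h g : ℝ} {Ms Ws : Finset ℝ} (hW : W.Ok N K d S a h g Ms Ws) {E : Set (W.L × ℝ)} (hE : MeasurableSet E)
    (hsub : E ⊆ W.Ev0) {Ke : ℝ} (hmass : 1 ≤ ENNReal.ofReal Ke * W.prior E) :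
    ∃ Q ∈ W.Qa, ENNReal.ofReal W.q * W.νQ Q ≤ ENNReal.ofReal Ke * W.prior (E ∩ W.inc Q) := by
  classical
  by_contra hcon
  push Not at hcon
  have hcov : W.prior E ≤ ∑ Q ∈ Finset.univ.filter (fun Q => Q ∈ W.Qa), W.prior (E ∩ W.inc Q) := by
    refine (measure_mono ?_).trans (measure_biUnion_finset_le _ _)
    intro p hp
    have := hW.lab p (hsub hp)
    simp only [Set.mem_iUnion]
    exact ⟨W.labQ p, Finset.mem_filter.2 ⟨Finset.mem_univ _, this.1⟩, hp, this.2⟩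
  by_cases hne : (Finset.univ.filter (fun Q => Q ∈ W.Qa)).Nonempty
  · have hlt : ∑ Q ∈ Finset.univ.filter (fun Q => Q ∈ W.Qa), ENNReal.ofReal Ke * W.prior (E ∩ W.inc Q)
        < ∑ Q ∈ Finset.univ.filter (fun Q => Q ∈ W.Qa), ENNReal.ofReal W.q * W.νQ Q :=
      ENNReal.sum_lt_sum_of_nonempty hne fun Q hQ => hcon Q (Finset.mem_filter.1 hQ).2
    have h2 : ENNReal.ofReal Ke * W.prior E ≤ ∑ Q ∈ Finset.univ.filter (fun Q => Q ∈ W.Qa), ENNReal.ofReal Ke * W.prior (E ∩ W.inc Q) := by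
      rw [← Finset.mul_sum]
      exact mul_le_mul_right hcov _
    exact absurd hmass (not_le.2 (lt_of_le_of_lt h2 (lt_of_lt_of_le hlt (k7wg_sum_qnu W hW))))
  · rw [Finset.not_nonempty_iff_eq_empty] at hne
    rw [hne, Finset.sum_empty, nonpos_iff_eq_zero] at hcov
    rw [hcov, mul_zero] at hmass
    exact absurd hmass (by norm_num)

/-! ## 2. Quadratics -/

/-- **L-252-S7wg-F** (this and the next statement, ~40 l.) -/
theorem k7wg_F12 {F : ℝ → ℝ → ℝ} {e0 e1 e2 e3 e4 e5 : ℝ} (hF : ∀ t y, F t y = e0 + e1 * t + e2 * y + e3 * t ^ 2 + e4 * t * y + e5 * y ^ 2) (b t y : ℝ) :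
    k7wF1 F b t y = b * (e2 + e4 * t + 2 * e5 * y) ∧ k7wF2 F b t y = e5 * b ^ 2 := by
  unfold k7wF1 k7wF2
  rw [hF, hF, hF]
  constructor <;> ring

theorem k7wg_expand {F : ℝ → ℝ → ℝ} (hF : K7aQuad F) (b t y U : ℝ) :
    F t (y + b * U) = F t y + k7wF1 F b t y * U + k7wF2 F b t y * U ^ 2 := by
  obtain ⟨e0, e1, e2, e3, e4, e5, hF⟩ := hF
  obtain ⟨h1, h2⟩ := k7wg_F12 hF b t y
  rw [h1, h2, hF, hF]
  ring

/-! ## 3. Occupied labels -/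

/-- **L-252-S7wg-C** (this and the next statement, ~250 l.).  `|Y_l(t) - cen t| ≤ Kβ` at `t = 0, 1`, `|Y0|, |Y1| ≤ K`, `β ≤ 1`. -/
theorem k7wg_cen (W : K7aLn) (P : K7aLayer W) {N K d S χ th β : ℝ} {Ms Ws : Finset ℝ} (hW : W.Ok N K d S Ms Ws) (hP : P.Ok K χ th β d) (hK : 1 ≤ K)
    (hβ0 : 0 < β) (hβ1 : β ≤ 1) {l : W.L} {φ : P.Ph} (hl : P.lab l = some φ) : |(P.G φ).c0| ≤ 2 * K ∧ |(P.G φ).c1| ≤ 5 * K := by
  have hSp := (hP.grp l φ hl).1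
  obtain ⟨-, -, hY0, hY1, -⟩ := hW.bd l hSp
  have f0 := (hP.fit l φ hl 0 (by norm_num)).1
  have f1 := (hP.fit l φ hl 1 (by norm_num)).1
  unfold K7aLn.Y K7aLab.cen at f0 f1
  have hKβ : K * β ≤ K := by nlinarith
  rw [abs_le] at hY0 hY1 f0 f1
  constructor
  · rw [abs_le]
    constructor <;> linarith [hY0.1, hY0.2, f0.1, f0.2]
  · rw [abs_le]
    constructor <;> linarith [hY0.1, hY0.2, f0.1, f0.2, hY1.1, hY1.2, f1.1, f1.2]

/-- the adapted coefficients -/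
theorem k7wg_adapt (W : K7aLn) (P : K7aLayer W) {K d χ th β : ℝ} (hP : P.Ok K χ th β d) (φ : P.Ph) :
    ∃ g0 g1 g2 g3 g4 g5 : ℝ, (∀ t u, (P.G φ).F t ((P.G φ).cen t + β * u) = g0 + g1 * t + g2 * u + g3 * t ^ 2 + g4 * t * u + g5 * u ^ 2) ∧
      |g0| ≤ 8 * K ∧ |g1| ≤ 8 * K ∧ |g2| ≤ 8 * K ∧ |g3| ≤ 8 * K ∧ |g4| ≤ 8 * K ∧ |g5| ≤ 8 * K := by
  have hq : K7aQuad (fun t u => (P.G φ).F t ((P.G φ).cen t + β * u)) := by
    obtain ⟨e0, e1, e2, e3, e4, e5, hF⟩ := hP.quad φ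
    refine ⟨e0 + e2 * (P.G φ).c0 + e5 * (P.G φ).c0 ^ 2, e1 + e2 * (P.G φ).c1 + e4 * (P.G φ).c0 + 2 * e5 * (P.G φ).c0 * (P.G φ).c1,
      e2 * β + 2 * e5 * (P.G φ).c0 * β, e3 + e4 * (P.G φ).c1 + e5 * (P.G φ).c1 ^ 2, e4 * β + 2 * e5 * (P.G φ).c1 * β, e5 * β ^ 2, ?_⟩
    intro t u
    show (P.G φ).F t ((P.G φ).cen t + β * u) = _
    rw [hF]
    unfold K7aLab.cen
    ring
  exact k7a_quad_coeff hq (hP.norm φ)

theorem k7wg_abs3 {x y z X Y Z : ℝ} (hx : |x| ≤ X) (hy : |y| ≤ Y) (hz : |z| ≤ Z) : |x * y * z| ≤ X * Y * Z := by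
  rw [abs_mul, abs_mul]
  have hX : 0 ≤ X := (abs_nonneg x).trans hx
  have hY : 0 ≤ Y := (abs_nonneg y).trans hy
  exact mul_le_mul (mul_le_mul hx hy (abs_nonneg _) hX) hz (abs_nonneg _) (mul_nonneg hX hY)

/-- coefficients of an occupied label.  `G(t,u) = F(t, cen t + βu)` is `K7aQuad`, `≤ K` on `[0,1] × [-1,1]`: coefficients `g_i`, `|g_i| ≤ 8K` (`k7a_quad_coeff`); `F(t,y) = G(t, (y - c0 - c1 t)/β)`:
`e5 = g5/β²`, `e4 = g4/β - 2 g5 c1/β²`, `e2 = g2/β - 2 g5 c0/β²`, `e3 = g3 - g4 c1/β + g5 c1²/β²`, `e1 = g1 - g2 c1/β - g4 c0/β + 2 g5 c0 c1/β²`, `e0 = g0 - g2 c0/β + g5 c0²/β²`; `k7wg_cen`. -/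
theorem k7wg_coef (W : K7aLn) (P : K7aLayer W) {N K d S χ th β : ℝ} {Ms Ws : Finset ℝ} (hW : W.Ok N K d S Ms Ws) (hP : P.Ok K χ th β d) (hK : 1 ≤ K)
    (hβ0 : 0 < β) (hβ1 : β ≤ 1) {l : W.L} {φ : P.Ph} (hl : P.lab l = some φ) :
    ∃ e0 e1 e2 e3 e4 e5 : ℝ, (∀ t y, (P.G φ).F t y = e0 + e1 * t + e2 * y + e3 * t ^ 2 + e4 * t * y + e5 * y ^ 2) ∧
      |e0| ≤ 250 * K ^ 3 / β ^ 2 ∧ |e1| ≤ 250 * K ^ 3 / β ^ 2 ∧ |e2| ≤ 250 * K ^ 3 / β ^ 2 ∧ |e3| ≤ 250 * K ^ 3 / β ^ 2 ∧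
      |e4| ≤ 250 * K ^ 3 / β ^ 2 ∧ |e5| ≤ 250 * K ^ 3 / β ^ 2 := by
  obtain ⟨hc0, hc1⟩ := k7wg_cen W P hW hP hK hβ0 hβ1 hl
  obtain ⟨g0, g1, g2, g3, g4, g5, hG, b0, b1, b2, b3, b4, b5⟩ := k7wg_adapt W P hP φ
  obtain ⟨c0, hc0e⟩ : ∃ c0, c0 = (P.G φ).c0 := ⟨_, rfl⟩
  obtain ⟨c1, hc1e⟩ : ∃ c1, c1 = (P.G φ).c1 := ⟨_, rfl⟩
  rw [← hc0e] at hc0
  rw [← hc1e] at hc1
  have hβa : |β| ≤ 1 := by rw [abs_of_pos hβ0]; exact hβ1
  have h1a : |(1 : ℝ)| ≤ 1 := by simp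
  have hβ2 : 0 < β ^ 2 := by positivity
  have hK1 : K ≤ K ^ 3 := by nlinarith [mul_nonneg (sub_nonneg.2 hK) (sub_nonneg.2 hK), sq_nonneg K]
  have hK2 : K ^ 2 ≤ K ^ 3 := by nlinarith [sq_nonneg K]
  have key : ∀ x : ℝ, |x| ≤ 250 * K ^ 3 → |x / β ^ 2| ≤ 250 * K ^ 3 / β ^ 2 := by
    intro x hx
    rw [abs_div, abs_of_pos hβ2]
    exact div_le_div_of_nonneg_right hx hβ2.le
  refine ⟨(g0 * β * β - g2 * c0 * β + g5 * c0 * c0) / β ^ 2, (g1 * β * β - g2 * c1 * β - g4 * c0 * β + 2 * (g5 * c0 * c1)) / β ^ 2,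
    (g2 * β * 1 - 2 * (g5 * c0 * 1)) / β ^ 2, (g3 * β * β - g4 * c1 * β + g5 * c1 * c1) / β ^ 2,
    (g4 * β * 1 - 2 * (g5 * c1 * 1)) / β ^ 2, (g5 * 1 * 1) / β ^ 2, ?_, key _ ?_, key _ ?_, key _ ?_, key _ ?_, key _ ?_, key _ ?_⟩
  · intro t y
    have hy : y = (P.G φ).cen t + β * ((y - (P.G φ).cen t) / β) := by
      field_simp
      ring
    conv_lhs => rw [hy]
    rw [hG]
    unfold K7aLab.cen
    rw [← hc0e, ← hc1e]
    field_simp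
    ring
  · have t1 := abs_le.1 (k7wg_abs3 b0 hβa hβa)
    have t2 := abs_le.1 (k7wg_abs3 b2 hc0 hβa)
    have t3 := abs_le.1 (k7wg_abs3 b5 hc0 hc0)
    rw [abs_le]
    constructor <;> linarith [t1.1, t1.2, t2.1, t2.2, t3.1, t3.2, hK1, hK2]
  · have t1 := abs_le.1 (k7wg_abs3 b1 hβa hβa)
    have t2 := abs_le.1 (k7wg_abs3 b2 hc1 hβa)
    have t3 := abs_le.1 (k7wg_abs3 b4 hc0 hβa)
    have t4 := abs_le.1 (k7wg_abs3 b5 hc0 hc1)
    rw [abs_le]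
    constructor <;> linarith [t1.1, t1.2, t2.1, t2.2, t3.1, t3.2, t4.1, t4.2, hK1, hK2]
  · have t1 := abs_le.1 (k7wg_abs3 b2 hβa h1a)
    have t2 := abs_le.1 (k7wg_abs3 b5 hc0 h1a)
    rw [abs_le]
    constructor <;> linarith [t1.1, t1.2, t2.1, t2.2, hK1, hK2]
  · have t1 := abs_le.1 (k7wg_abs3 b3 hβa hβa)
    have t2 := abs_le.1 (k7wg_abs3 b4 hc1 hβa)
    have t3 := abs_le.1 (k7wg_abs3 b5 hc1 hc1)
    rw [abs_le]
    constructor <;> linarith [t1.1, t1.2, t2.1, t2.2, t3.1, t3.2, hK1, hK2]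
  · have t1 := abs_le.1 (k7wg_abs3 b4 hβa h1a)
    have t2 := abs_le.1 (k7wg_abs3 b5 hc1 h1a)
    rw [abs_le]
    constructor <;> linarith [t1.1, t1.2, t2.1, t2.2, hK1, hK2]
  · have t1 := abs_le.1 (k7wg_abs3 b5 h1a h1a)
    rw [abs_le]
    constructor <;> linarith [t1.1, t1.2, hK1, hK2]

/-- **L-252-S7wg-B** (this and the next statement, ~200 l.).  In adapted coordinates `F₁ = δ (g2 + g4 t + 2 g5 u)`, `F₂ = g5 δ²`, `δ = b/β`, `u = (y - cen t)/β`, `|g_i| ≤ 8K`.   (No occupation needed.) -/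
theorem k7wg_F12_bd (W : K7aLn) (P : K7aLayer W) {K d χ th β b lam : ℝ} (hP : P.Ok K χ th β d) (hβ0 : 0 < β) (hb : 0 ≤ b) (φ : P.Ph)
    {t y : ℝ} (ht : t ∈ Set.Icc (0 : ℝ) 1) (hy : |y - (P.G φ).cen t| ≤ lam * β) :
    |k7wF1 (P.G φ).F b t y| ≤ 16 * K * (1 + lam) * b / β ∧ |k7wF2 (P.G φ).F b t y| ≤ 8 * K * b ^ 2 / β ^ 2 := by
  obtain ⟨g0, g1, g2, g3, g4, g5, hG, b0, b1, b2, b3, b4, b5⟩ := k7wg_adapt W P hP φ
  obtain ⟨u, hu⟩ : ∃ u, u = (y - (P.G φ).cen t) / β := ⟨_, rfl⟩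
  have hδ : 0 ≤ b / β := div_nonneg hb hβ0.le
  have hua : |u| ≤ lam := by
    rw [hu, abs_div, abs_of_pos hβ0, div_le_iff₀ hβ0]
    exact hy
  have e0 : y = (P.G φ).cen t + β * u := by
    rw [hu]
    field_simp
    ring
  have e1 : y + b = (P.G φ).cen t + β * (u + b / β) := by
    rw [hu]
    field_simp
    ring
  have e2 : y - b = (P.G φ).cen t + β * (u - b / β) := by
    rw [hu]
    field_simp
    ring
  have hF1 : k7wF1 (P.G φ).F b t y = b / β * (g2 + g4 * t + 2 * (g5 * u)) := by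
    unfold k7wF1
    rw [e1, e2, hG, hG]
    ring
  have hF2 : k7wF2 (P.G φ).F b t y = g5 * (b / β) ^ 2 := by
    unfold k7wF2
    rw [e1, e2, hG, hG]
    conv_lhs => rw [e0]
    rw [hG]
    ring
  have hK0 : 0 ≤ 8 * K := (abs_nonneg _).trans b0
  have hta : |t| ≤ 1 := by rw [abs_of_nonneg ht.1]; exact ht.2
  constructor
  · rw [hF1, abs_mul, abs_of_nonneg hδ]
    have h1 : |g4 * t| ≤ 8 * K * 1 := by
      rw [abs_mul]
      exact mul_le_mul b4 hta (abs_nonneg _) hK0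
    have h2 : |g5 * u| ≤ 8 * K * lam := by
      rw [abs_mul]
      exact mul_le_mul b5 hua (abs_nonneg _) hK0
    have h3 : |g2 + g4 * t + 2 * (g5 * u)| ≤ 16 * K * (1 + lam) := by
      rw [abs_le] at b2 h1 h2 ⊢
      constructor <;> linarith [b2.1, b2.2, h1.1, h1.2, h2.1, h2.2]
    calc b / β * |g2 + g4 * t + 2 * (g5 * u)| ≤ b / β * (16 * K * (1 + lam)) := mul_le_mul_of_nonneg_left h3 hδ
      _ = 16 * K * (1 + lam) * b / β := by ring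
  · rw [hF2, abs_mul, abs_of_nonneg (sq_nonneg (b / β))]
    calc |g5| * (b / β) ^ 2 ≤ 8 * K * (b / β) ^ 2 := mul_le_mul_of_nonneg_right b5 (sq_nonneg _)
      _ = 8 * K * b ^ 2 / β ^ 2 := by rw [div_pow]; ring

/-- at an incidence of `Ev0` : `|yq p - Y_l(t)| ≤ K h g` (`box`), `|Y_l(t) - cen t| ≤ K β` (`fit`), `h g ≤ β` : `lam = 2K` -/
theorem k7wg_F12_ev (W : K7aW) (P : K7aLayer W.toK7aLn) {N K d S a h g χ th β b : ℝ} {Ms Ws : Finset ℝ} (hW : W.Ok N K d S a h g Ms Ws)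
    (hP : P.Ok K χ th β d) (hK : 1 ≤ K) (hβ0 : 0 < β) (hb : 0 ≤ b) (hgβ : h * g ≤ β) {p : W.L × ℝ} (hp : p ∈ W.Ev0) {φ : P.Ph} (hl : P.lab p.1 = some φ) :
    |k7wF1 (P.G φ).F b p.2 (W.yq p)| ≤ 48 * K ^ 2 * b / β ∧ |k7wF2 (P.G φ).F b p.2 (W.yq p)| ≤ 8 * K * b ^ 2 / β ^ 2 := by
  obtain ⟨hQ, hinc⟩ := hW.lab p hp
  have ht : p.2 ∈ Set.Icc (0 : ℝ) 1 := (hW.ln.Ev0_sub hp).2
  have hbox := (hW.box _ hQ p.1 hinc.1 p.2 hinc.2).2
  have hfit := (hP.fit p.1 φ hl p.2 ht).1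
  have hy : |W.yq p - (P.G φ).cen p.2| ≤ 2 * K * β := by
    have e : W.yq p - (P.G φ).cen p.2 = -(W.Y p.1 p.2 - W.YQ (W.labQ p) p.2 (W.Z p.1 p.2)) + (W.Y p.1 p.2 - (P.G φ).cen p.2) := by
      unfold K7aW.yq
      ring
    rw [e]
    refine (abs_add_le _ _).trans ?_
    rw [abs_neg]
    have : K * (h * g) ≤ K * β := mul_le_mul_of_nonneg_left hgβ (by linarith)
    linarith
  obtain ⟨h1, h2⟩ := k7wg_F12_bd W.toK7aLn P hP hβ0 hb φ ht hy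
  refine ⟨h1.trans ?_, h2⟩
  have hbβ : 0 ≤ b / β := div_nonneg hb hβ0.le
  have : 16 * K * (1 + 2 * K) ≤ 48 * K ^ 2 := by nlinarith
  calc 16 * K * (1 + 2 * K) * b / β = 16 * K * (1 + 2 * K) * (b / β) := by ring
    _ ≤ 48 * K ^ 2 * (b / β) := mul_le_mul_of_nonneg_right this hbβ
    _ = 48 * K ^ 2 * b / β := by ring

/-- **L-252-S7wg-L** (this and the next statement, ~150 l.): `k7wg_coef` + `k7wg_F12` -/
theorem k7wg_F1_lip (W : K7aLn) (P : K7aLayer W) {N K d S χ th β b : ℝ} {Ms Ws : Finset ℝ} (hW : W.Ok N K d S Ms Ws) (hP : P.Ok K χ th β d) (hK : 1 ≤ K)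
    (hβ0 : 0 < β) (hβ1 : β ≤ 1) (hb : 0 ≤ b) {l : W.L} {φ : P.Ph} (hl : P.lab l = some φ) (t t' y y' : ℝ) :
    |k7wF1 (P.G φ).F b t y - k7wF1 (P.G φ).F b t' y'| ≤ 500 * K ^ 3 * b / β ^ 2 * (|t - t'| + |y - y'|) ∧
      k7wF2 (P.G φ).F b t y = k7wF2 (P.G φ).F b t' y' := by
  obtain ⟨e0, e1, e2, e3, e4, e5, hF, -, -, -, -, b4, b5⟩ := k7wg_coef W P hW hP hK hβ0 hβ1 hl
  obtain ⟨h1, h2⟩ := k7wg_F12 hF b t y
  obtain ⟨h1', h2'⟩ := k7wg_F12 hF b t' y'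
  refine ⟨?_, by rw [h2, h2']⟩
  rw [h1, h1']
  obtain ⟨M, hM⟩ : ∃ M, M = 250 * K ^ 3 / β ^ 2 := ⟨_, rfl⟩
  rw [← hM] at b4 b5
  have hM0 : 0 ≤ M := (abs_nonneg _).trans b4
  have e : b * (e2 + e4 * t + 2 * e5 * y) - b * (e2 + e4 * t' + 2 * e5 * y') = b * (e4 * (t - t') + 2 * (e5 * (y - y'))) := by ring
  rw [e, abs_mul, abs_of_nonneg hb]
  have a1 : |e4 * (t - t')| ≤ M * |t - t'| := by
    rw [abs_mul]
    exact mul_le_mul_of_nonneg_right b4 (abs_nonneg _)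
  have a2 : |e5 * (y - y')| ≤ M * |y - y'| := by
    rw [abs_mul]
    exact mul_le_mul_of_nonneg_right b5 (abs_nonneg _)
  have a3 : |e4 * (t - t') + 2 * (e5 * (y - y'))| ≤ 2 * M * (|t - t'| + |y - y'|) := by
    have := mul_nonneg hM0 (abs_nonneg (t - t'))
    rw [abs_le] at a1 a2 ⊢
    constructor <;> linarith [a1.1, a1.2, a2.1, a2.2]
  calc b * |e4 * (t - t') + 2 * (e5 * (y - y'))| ≤ b * (2 * M * (|t - t'| + |y - y'|)) := mul_le_mul_of_nonneg_left a3 hb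
    _ = 500 * K ^ 3 * b / β ^ 2 * (|t - t'| + |y - y'|) := by rw [hM]; ring

theorem k7wg_F_lip (W : K7aLn) (P : K7aLayer W) {N K d S χ th β R : ℝ} {Ms Ws : Finset ℝ} (hW : W.Ok N K d S Ms Ws) (hP : P.Ok K χ th β d) (hK : 1 ≤ K)
    (hβ0 : 0 < β) (hβ1 : β ≤ 1) (hR : 1 ≤ R) {l : W.L} {φ : P.Ph} (hl : P.lab l = some φ) {t t' y y' : ℝ} (ht : |t| ≤ R) (ht' : |t'| ≤ R) (hy : |y| ≤ R)
    (hy' : |y'| ≤ R) : |(P.G φ).F t y - (P.G φ).F t' y'| ≤ 1000 * K ^ 3 * R / β ^ 2 * (|t - t'| + |y - y'|) := by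
  obtain ⟨e0, e1, e2, e3, e4, e5, hF, -, b1, b2, b3, b4, b5⟩ := k7wg_coef W P hW hP hK hβ0 hβ1 hl
  obtain ⟨M, hM⟩ : ∃ M, M = 250 * K ^ 3 / β ^ 2 := ⟨_, rfl⟩
  rw [← hM] at b1 b2 b3 b4 b5
  have hM0 : 0 ≤ M := (abs_nonneg _).trans b4
  rw [hF, hF]
  have e : e0 + e1 * t + e2 * y + e3 * t ^ 2 + e4 * t * y + e5 * y ^ 2 - (e0 + e1 * t' + e2 * y' + e3 * t' ^ 2 + e4 * t' * y' + e5 * y' ^ 2)
      = e1 * 1 * (t - t') + e2 * 1 * (y - y') + e3 * (t + t') * (t - t') + e4 * y * (t - t') + e4 * t' * (y - y') + e5 * (y + y') * (y - y') := by ring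
  rw [e]
  have h1a : |(1 : ℝ)| ≤ R := by simpa using hR
  have htt : |t + t'| ≤ 2 * R := (abs_add_le _ _).trans (by linarith)
  have hyy : |y + y'| ≤ 2 * R := (abs_add_le _ _).trans (by linarith)
  have s1 := abs_le.1 (k7wg_abs3 b1 h1a (le_refl |t - t'|))
  have s2 := abs_le.1 (k7wg_abs3 b2 h1a (le_refl |y - y'|))
  have s3 := abs_le.1 (k7wg_abs3 b3 htt (le_refl |t - t'|))
  have s4 := abs_le.1 (k7wg_abs3 b4 hy (le_refl |t - t'|))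
  have s5 := abs_le.1 (k7wg_abs3 b4 ht' (le_refl |y - y'|))
  have s6 := abs_le.1 (k7wg_abs3 b5 hyy (le_refl |y - y'|))
  have e2' : 1000 * K ^ 3 * R / β ^ 2 * (|t - t'| + |y - y'|) = 4 * (M * R * |t - t'|) + 4 * (M * R * |y - y'|) := by rw [hM]; ring
  rw [e2', abs_le]
  constructor <;> linarith [s1.1, s1.2, s2.1, s2.2, s3.1, s3.2, s4.1, s4.2, s5.1, s5.2, s6.1, s6.2]

/-! ## 4. Groups, short domains, label lists -/

/-- the central motion `Z_α(t)` of the group `α = (mv, z)` of mesh `χ` -/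
def k7wgZa (χ : ℝ) (mv z : ℤ) (t : ℝ) : ℝ := ((z : ℝ) + (mv : ℝ) * t) * kbDy χ

/-- **L-252-S7wg-G** (this and the next two statements, ~350 l.).  `0 ≤ Z0 - z δ < δ`, `0 ≤ v - mv δ < δ`, `δ = kbDy χ < 2χ` (`k7wc_dy`, `k7wc_bin_iff`). -/
theorem k7wg_Za (W : K7aLn) {χ : ℝ} (hχ : 0 < χ) {l : W.L} {mv z : ℤ} (hv : kbBin χ (W.v l) = mv) (hz : kbBin χ (W.Z0 l) = z) :
    |W.v l - (mv : ℝ) * kbDy χ| ≤ 2 * χ ∧ ∀ t ∈ Set.Icc (0 : ℝ) 1, |W.Z l t - k7wgZa χ mv z t| ≤ 4 * χ := by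
  obtain ⟨hD0, -, hD2⟩ := k7wc_dy hχ
  rw [k7wc_bin_iff] at hv hz
  unfold k7aBinI at hv hz
  obtain ⟨hv1, hv2⟩ := hv
  obtain ⟨hz1, hz2⟩ := hz
  refine ⟨?_, fun t ht => ?_⟩
  · rw [abs_le]
    constructor <;> linarith
  · unfold K7aLn.Z k7wgZa
    have e : W.Z0 l + W.v l * t - ((z : ℝ) + (mv : ℝ) * t) * kbDy χ = (W.Z0 l - z * kbDy χ) + (W.v l - mv * kbDy χ) * t := by ring
    have h1 : 0 ≤ (W.v l - mv * kbDy χ) * t := mul_nonneg (by linarith) ht.1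
    have h2 : (W.v l - mv * kbDy χ) * t ≤ kbDy χ * 1 := mul_le_mul (by linarith) ht.2 ht.1 hD0.le
    rw [e, abs_le]
    constructor <;> linarith

/-- the short domains which occur over `(Q, α)`.  First entry `= iv Q` (`k7wg_blk`); `|Y1 - (r1 + r2 mv δ)| ≤ K g + 2 K χ ≤ (K+1) g` (`slope`, `row_bd`): `≤ 2K+4` slope bins;
`|Y(t_Q) - Y_Q(t_Q, Z_α(t_Q))| ≤ K h g + 4 K χ ≤ (K² + 1) q g` (`box` at `t_Q`, `q_lo`): `≤ 2K²+4` position bins.   `(2K+4)(2K²+4) ≤ 36 K³`. -/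
theorem k7wg_dom_count (W : K7aW) {N K d S a h g χ : ℝ} {Ms Ws : Finset ℝ} (hW : W.Ok N K d S a h g Ms Ws) (hK : 1 ≤ K) (hχ : 0 < χ) (hg : 0 < g) (hh : 0 < h)
    (h1 : 2 * K * χ ≤ g) (h2 : 4 * K * χ ≤ W.q * g) {Q : W.Q} (hQ : Q ∈ W.Qa) (mv z : ℤ) :
    ∃ T : Finset (ℤ × ℤ × ℤ), (T.card : ℝ) ≤ 36 * K ^ 3 ∧
      ∀ p ∈ W.Ev0, W.labQ p = Q → kbBin χ (W.v p.1) = mv → kbBin χ (W.Z0 p.1) = z → W.sdom W.q g (W.q * g) p ∈ T := by
  obtain ⟨hq, hq1, htq, hsub, -, hfl⟩ := k7wg_blk W hW hQ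
  have hqg : 0 < W.q * g := mul_pos hq hg
  obtain ⟨c1, hc1⟩ : ∃ c1 : ℝ, c1 = W.r1 Q + W.r2 Q * ((mv : ℝ) * kbDy χ) := ⟨_, rfl⟩
  obtain ⟨c2, hc2⟩ : ∃ c2 : ℝ, c2 = W.YQ Q (W.tQ Q) (k7wgZa χ mv z (W.tQ Q)) := ⟨_, rfl⟩
  obtain ⟨-, -, -, hr2⟩ := hW.row_bd Q hQ
  refine ⟨({(W.iv Q : ℤ)} : Finset ℤ) ×ˢ (Finset.Icc ⌊(c1 - (K + 1) * g) / g⌋ ⌊(c1 + (K + 1) * g) / g⌋ ×ˢ
    Finset.Icc ⌊(c2 - (K ^ 2 + 1) * (W.q * g)) / (W.q * g)⌋ ⌊(c2 + (K ^ 2 + 1) * (W.q * g)) / (W.q * g)⌋), ?_, ?_⟩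
  · rw [Finset.card_product, Finset.card_product, Finset.card_singleton, one_mul]
    push_cast
    have e1 : ((Finset.Icc ⌊(c1 - (K + 1) * g) / g⌋ ⌊(c1 + (K + 1) * g) / g⌋).card : ℝ) ≤ 2 * K + 4 := by
      refine (k7wc_card_Icc (div_le_div_of_nonneg_right (by nlinarith) hg.le)).trans (le_of_eq ?_)
      field_simp
      ring
    have e2 : ((Finset.Icc ⌊(c2 - (K ^ 2 + 1) * (W.q * g)) / (W.q * g)⌋ ⌊(c2 + (K ^ 2 + 1) * (W.q * g)) / (W.q * g)⌋).card : ℝ) ≤ 2 * K ^ 2 + 4 := by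
      refine (k7wc_card_Icc (div_le_div_of_nonneg_right (by nlinarith [sq_nonneg K]) hqg.le)).trans (le_of_eq ?_)
      field_simp
      ring
    have hK2 : 1 ≤ K ^ 2 := one_le_pow₀ hK
    calc _ ≤ (2 * K + 4) * (2 * K ^ 2 + 4) := mul_le_mul e1 e2 (by positivity) (by positivity)
      _ ≤ (6 * K) * (6 * K ^ 2) := mul_le_mul (by linarith) (by linarith) (by positivity) (by positivity)
      _ = 36 * K ^ 3 := by ring
  · intro p hp hpQ hv hz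
    obtain ⟨-, hinc⟩ := hW.lab p hp
    rw [hpQ] at hinc
    have hfl' := hfl p.2 hinc.2
    obtain ⟨hva, hZa⟩ := k7wg_Za W.toK7aLn hχ hv hz
    have hZa' := hZa (W.tQ Q) (Set.Ico_subset_Icc_self (hsub htq))
    unfold K7aLn.sdom
    rw [hfl']
    simp only [Finset.mem_product, Finset.mem_singleton, true_and]
    refine ⟨k7wc_bin_window hg ?_, ?_⟩
    · have s1 := hW.slope Q hQ p.1 hinc.1
      have s2 : |W.r2 Q * (W.v p.1 - (mv : ℝ) * kbDy χ)| ≤ K * (2 * χ) := by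
        rw [abs_mul]
        exact mul_le_mul hr2 hva (abs_nonneg _) (by linarith)
      have e : W.Y1 p.1 - c1 = (W.Y1 p.1 - (W.r1 Q + W.r2 Q * W.v p.1)) + W.r2 Q * (W.v p.1 - (mv : ℝ) * kbDy χ) := by rw [hc1]; ring
      rw [e]
      refine (abs_add_le _ _).trans ?_
      linarith
    · have e0 : ((W.iv Q : ℤ) : ℝ) * W.q = W.tQ Q := by unfold K7aW.tQ; push_cast; ring
      rw [e0]
      refine k7wc_bin_window hqg ?_
      have s1 := (hW.box Q hQ p.1 hinc.1 (W.tQ Q) htq).2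
      have s2 : |W.r2 Q * (W.Z p.1 (W.tQ Q) - k7wgZa χ mv z (W.tQ Q))| ≤ K * (4 * χ) := by
        rw [abs_mul]
        exact mul_le_mul hr2 hZa' (abs_nonneg _) (by linarith)
      have e : W.Y p.1 (W.tQ Q) - c2 = (W.Y p.1 (W.tQ Q) - W.YQ Q (W.tQ Q) (W.Z p.1 (W.tQ Q))) + W.r2 Q * (W.Z p.1 (W.tQ Q) - k7wgZa χ mv z (W.tQ Q)) := by
        rw [hc2]; unfold K7aW.YQ; ring
      rw [e]
      refine (abs_add_le _ _).trans ?_
      have s3 : K * (h * g) ≤ K ^ 2 * (W.q * g) := by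
        have := mul_le_mul_of_nonneg_left (mul_le_mul_of_nonneg_right hW.q_lo hg.le) (by linarith : (0:ℝ) ≤ K)
        calc K * (h * g) ≤ K * (K * W.q * g) := this
          _ = K ^ 2 * (W.q * g) := by ring
      linarith

/-- **the labels over `(Q, α)`** : union of the lists `fwd` over the domains of `k7wg_dom_count` -/
theorem k7wg_fwd_all (W : K7aW) (P : K7aLayer W.toK7aLn) {N K d S a h g χ : ℝ} {Ms Ws : Finset ℝ} (hW : W.Ok N K d S a h g Ms Ws) (hK : 1 ≤ K) (hχ : 0 < χ)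
    (hg : 0 < g) (hh : 0 < h) (h1 : 2 * K * χ ≤ g) (h2 : 4 * K * χ ≤ W.q * g) {E : Set (W.L × ℝ)} (hE : E ⊆ W.Ev0)
    (hL : K7aLists W P E K χ W.q g (W.q * g)) {Q : W.Q} (hQ : Q ∈ W.Qa) (mv z : ℤ) :
    ∃ T : Finset P.Ph, (T.card : ℝ) ≤ 36 * K ^ 4 ∧
      ∀ p ∈ E, W.labQ p = Q → kbBin χ (W.v p.1) = mv → kbBin χ (W.Z0 p.1) = z → ∀ φ, P.lab p.1 = some φ → φ ∈ T := by
  classical
  obtain ⟨T0, hT0, hT0m⟩ := k7wg_dom_count W hW hK hχ hg hh h1 h2 hQ mv z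
  choose Sf hSc hSm using hL.fwd Q mv z
  refine ⟨T0.biUnion Sf, ?_, ?_⟩
  · have c1 : ((T0.biUnion Sf).card : ℝ) ≤ ∑ D ∈ T0, ((Sf D).card : ℝ) := by exact_mod_cast Finset.card_biUnion_le
    have c2 : ∑ D ∈ T0, ((Sf D).card : ℝ) ≤ T0.card * K := by
      refine (Finset.sum_le_sum fun D _ => hSc D).trans (le_of_eq ?_)
      rw [Finset.sum_const, nsmul_eq_mul]
    calc _ ≤ (T0.card : ℝ) * K := c1.trans c2
      _ ≤ 36 * K ^ 3 * K := mul_le_mul_of_nonneg_right hT0 (by linarith)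
      _ = 36 * K ^ 4 := by ring
  · intro p hp hpQ hv hz φ hφ
    exact Finset.mem_biUnion.2 ⟨_, hT0m p (hE hp) hpQ hv hz, hSm _ p hp hpQ hv hz rfl φ hφ⟩

/-! ## 5. Offsets -/

/-- the offset `D_i(Q, φ0, φ) = (F_φ - F_{φ0})(t_Q, Y_Q(t_Q, Z_α(t_Q)))`, `α` = the group of `φ0` -/
def k7wgOff (W : K7aW) (P : Fin 3 → K7aLayer W.toK7aLn) (χ : ℝ) (i : Fin 3) (Q : W.Q) (φ0 : (P 0).Ph) (φ : (P i).Ph) : ℝ :=
  ((P i).G φ).F (W.tQ Q) (W.YQ Q (W.tQ Q) (k7wgZa χ ((P 0).vi φ0) ((P 0).zi φ0) (W.tQ Q)))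
    - ((P 0).G φ0).F (W.tQ Q) (W.YQ Q (W.tQ Q) (k7wgZa χ ((P 0).vi φ0) ((P 0).zi φ0) (W.tQ Q)))

/-- **L-252-S7wg-O** (this and the next statement, ~250 l.).  `K7wVar` at `p` with `(t1, y1) = (t, Y_l(t))`, `(t2, y2) = (t_Q, y_*)`: `|y_* - Y_l(t_Q)| ≤ K h g + 4 K χ ≤ Λ b` (`box`, `row_bd`, `k7wg_Za`, `grp`);
`fit` of `φ` on `[0,1] ⊇ blk Q`. -/
theorem k7wg_off (W : K7aW) (P : Fin 3 → K7aLayer W.toK7aLn) {N K d S a h g χ b ε Λ : ℝ} {Ms Ws : Finset ℝ} {th β : Fin 3 → ℝ} (hW : W.Ok N K d S a h g Ms Ws)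
    (hP : ∀ i, (P i).Ok K χ (th i) (β i) d) (hK : 1 ≤ K) (hχ : 0 < χ) {E : Set (W.L × ℝ)} (hE : E ⊆ W.Ev0) (hV : K7wVar W P b ε Λ E)
    (hΛ : K * (h * g) + 4 * K * χ ≤ Λ * b) {p : W.L × ℝ} (hp : p ∈ E) (i : Fin 3) {φ0 : (P 0).Ph} {φ : (P i).Ph} (h0 : (P 0).lab p.1 = some φ0)
    (hi : (P i).lab p.1 = some φ) :
    ∀ t ∈ W.blk (W.labQ p), |W.X p.1 t - (((P 0).G φ0).F t (W.Y p.1 t) + k7wgOff W P χ i (W.labQ p) φ0 φ)| ≤ K * th i + ε := by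
  intro t ht
  obtain ⟨hQ, hinc⟩ := hW.lab p (hE hp)
  obtain ⟨-, -, htq, hsub, -, -⟩ := k7wg_blk W hW hQ
  have ht01 : t ∈ Set.Icc (0 : ℝ) 1 := ⟨(hsub ht).1, (hsub ht).2.le⟩
  have htq01 : W.tQ (W.labQ p) ∈ Set.Icc (0 : ℝ) 1 := ⟨(hsub htq).1, (hsub htq).2.le⟩
  have hfit := ((hP i).fit p.1 φ hi t ht01).2
  obtain ⟨-, hgv, hgz⟩ := (hP 0).grp p.1 φ0 h0
  have hZa := (k7wg_Za W.toK7aLn hχ hgv hgz).2 _ htq01
  have hbox := (hW.box _ hQ p.1 hinc.1 _ htq).2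
  have hr2 := (hW.row_bd _ hQ).2.2.2
  have hK0 : 0 ≤ K := by linarith
  have hhg : 0 ≤ K * (h * g) := (abs_nonneg _).trans hbox
  have hΛ0 : 0 ≤ Λ * b := by
    have : 0 ≤ 4 * K * χ := by positivity
    linarith
  have hy2 : |W.YQ (W.labQ p) (W.tQ (W.labQ p)) (k7wgZa χ ((P 0).vi φ0) ((P 0).zi φ0) (W.tQ (W.labQ p))) - W.Y p.1 (W.tQ (W.labQ p))| ≤ Λ * b := by
    have e : W.YQ (W.labQ p) (W.tQ (W.labQ p)) (k7wgZa χ ((P 0).vi φ0) ((P 0).zi φ0) (W.tQ (W.labQ p))) - W.Y p.1 (W.tQ (W.labQ p))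
        = -(W.Y p.1 (W.tQ (W.labQ p)) - W.YQ (W.labQ p) (W.tQ (W.labQ p)) (W.Z p.1 (W.tQ (W.labQ p))))
          + -(W.r2 (W.labQ p) * (W.Z p.1 (W.tQ (W.labQ p)) - k7wgZa χ ((P 0).vi φ0) ((P 0).zi φ0) (W.tQ (W.labQ p)))) := by
      unfold K7aW.YQ
      ring
    rw [e]
    refine (abs_add_le _ _).trans ?_
    rw [abs_neg, abs_neg, abs_mul]
    have : |W.r2 (W.labQ p)| * |W.Z p.1 (W.tQ (W.labQ p)) - k7wgZa χ ((P 0).vi φ0) ((P 0).zi φ0) (W.tQ (W.labQ p))| ≤ K * (4 * χ) :=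
      mul_le_mul hr2 hZa (abs_nonneg _) hK0
    linarith
  have hy1 : |W.Y p.1 t - W.Y p.1 t| ≤ Λ * b := by simpa using hΛ0
  have hvar := hV p hp i φ0 φ h0 hi t ht _ htq _ _ hy1 hy2
  have e : W.X p.1 t - (((P 0).G φ0).F t (W.Y p.1 t) + k7wgOff W P χ i (W.labQ p) φ0 φ)
      = (W.X p.1 t - ((P i).G φ).F t (W.Y p.1 t))
        + ((((P i).G φ).F t (W.Y p.1 t) - ((P 0).G φ0).F t (W.Y p.1 t)) - k7wgOff W P χ i (W.labQ p) φ0 φ) := by ring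
  rw [e]
  refine (abs_add_le _ _).trans (add_le_add hfit ?_)
  exact hvar

theorem k7wg_off_bd (W : K7aW) (P : Fin 3 → K7aLayer W.toK7aLn) {N K d S a h g χ b ε Λ : ℝ} {Ms Ws : Finset ℝ} {th β : Fin 3 → ℝ} (hW : W.Ok N K d S a h g Ms Ws)
    (hP : ∀ i, (P i).Ok K χ (th i) (β i) d) (hK : 1 ≤ K) (hχ : 0 < χ) {E : Set (W.L × ℝ)} (hE : E ⊆ W.Ev0) (hV : K7wVar W P b ε Λ E)
    (hΛ : K * (h * g) + 4 * K * χ ≤ Λ * b) {p : W.L × ℝ} (hp : p ∈ E) (i : Fin 3) {φ0 : (P 0).Ph} {φ : (P i).Ph} (h0 : (P 0).lab p.1 = some φ0)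
    (hi : (P i).lab p.1 = some φ) : |k7wgOff W P χ i (W.labQ p) φ0 φ| ≤ K * th 0 + K * th i + ε := by
  obtain ⟨hQ, hinc⟩ := hW.lab p (hE hp)
  have ht01 : p.2 ∈ Set.Icc (0 : ℝ) 1 := (hW.ln.Ev0_sub (hE hp)).2
  have h1 := k7wg_off W P hW hP hK hχ hE hV hΛ hp i h0 hi p.2 hinc.2
  have h2 := ((hP 0).fit p.1 φ0 h0 p.2 ht01).2
  have e : k7wgOff W P χ i (W.labQ p) φ0 φ = (W.X p.1 p.2 - ((P 0).G φ0).F p.2 (W.Y p.1 p.2))
      + -(W.X p.1 p.2 - (((P 0).G φ0).F p.2 (W.Y p.1 p.2) + k7wgOff W P χ i (W.labQ p) φ0 φ)) := by ring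
  rw [e]
  refine (abs_add_le _ _).trans ?_
  rw [abs_neg]
  linarith

/-! ## 6. States -/

/-- **L-252-S7wg-S1** (~80 l.): floors of measurable functions -/
theorem k7wg_lab_stt (W : K7aW) {N K d S a h g : ℝ} {Ms Ws : Finset ℝ} (hW : W.Ok N K d S a h g Ms Ws) (σ pw : ℝ) :
    KsLab (W.stt σ pw) ∧ KsLab (W.pt σ pw) ∧ ∀ b, MeasurableSet (W.vT b) := by
  obtain ⟨hZ0, hv, hY0, hY1, hx0, hx1, hx2⟩ := hW.ln.m_co
  have hZ : Measurable fun z : W.L × ℝ => W.Z z.1 z.2 :=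
    (hZ0.comp measurable_fst).add ((hv.comp measurable_fst).mul measurable_snd)
  have hY : Measurable fun z : W.L × ℝ => W.Y z.1 z.2 :=
    (hY0.comp measurable_fst).add ((hY1.comp measurable_fst).mul measurable_snd)
  have hX : Measurable fun z : W.L × ℝ => W.X z.1 z.2 :=
    ((hx0.comp measurable_fst).add ((hx1.comp measurable_fst).mul measurable_snd)).add ((hx2.comp measurable_fst).mul (measurable_snd.pow_const 2))
  have hbin : ∀ (w : ℝ) {f : W.L × ℝ → ℝ}, Measurable f → Measurable fun z => kbBin w (f z) := fun w f hf =>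
    (hf.div_const (kbDy w)).floor
  have hpt : Measurable (W.pt σ pw) :=
    (hbin σ measurable_snd).prodMk ((hbin σ hZ).prodMk ((hbin σ hY).prodMk (hbin pw hX)))
  have hpt' : KsLab (W.pt σ pw) := fun c => hpt (measurableSet_singleton c)
  refine ⟨ks_lab_pair hW.m_labQ hpt', hpt', fun b => ?_⟩
  exact (hbin W.χ0 (hv.comp measurable_fst)) (measurableSet_singleton b)

open Classical in
/-- **L-252-S7wg-S2** (~300 l.).  **History × appended state pruning.**  `μ = law E ≤ lam0`.  Entry `(e, s)` = `{hist = e, o = s}`.  `E' = E ∩ {z : ref (hist z) ≤ K₁ μ (entry of z)}` (countable union of entries: measurable).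
LOSS: a deleted entry has `K₁ μ(e,s) < ref e`; entries outside the `≤ n` options of `e` are `lam0`-null; histories with `μ {hist = e} = 0` contribute nothing.
DOMINATION: `E'` consists of WHOLE entries of `μ`; for a kept entry `μ (e, s, vbin = b) ≤ lam0 (hist = e, vbin = b) ≤ K π(b) ref e ≤ K K₁ π(b) μ(e,s)` (`hW.ln.dom`); sum over `e`.     (Or: `ksc_step`.) -/
theorem k7wg_dom_prune (W : K7aW) {N K d S a h g : ℝ} {Ms Ws : Finset ℝ} (hW : W.Ok N K d S a h g Ms Ws) (hK : 1 ≤ K) {D : Type} [Countable D] (o : W.L × ℝ → D)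
    (ho : KsLab o) (n : ℕ) (hopt : KsOpt W.lam0 W.hist o n) {E : Set (W.L × ℝ)} (hE : MeasurableSet E) (hsub : E ⊆ W.Ev0) (Rt : ℝ≥0∞)
    (hRt : ∑ e ∈ Finset.univ.filter (fun e => W.law E (W.hist ⁻¹' {e}) ≠ 0), W.ref e ≤ Rt) {K1 : ℝ} (hK1 : 0 < K1) :
    ∃ E' : Set (W.L × ℝ), E' ⊆ E ∧ MeasurableSet E' ∧ ENNReal.ofReal K1 * W.prior (E \ E') ≤ n * Rt ∧
      ∀ s b, W.law E' (o ⁻¹' {s} ∩ W.vT b) ≤ ENNReal.ofReal (K * K1) * W.pi b * W.law E' (o ⁻¹' {s}) := by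
  have hh : KsLab W.hist := hW.ln.m_hist
  have hle : W.law E ≤ W.lam0 := Measure.restrict_mono hsub le_rfl
  set Ref : W.H → ℝ≥0∞ := fun e => if W.law E (W.hist ⁻¹' {e}) ≠ 0 then W.ref e else 0 with hRef
  have hsum : ∑' e, Ref e ≤ Rt := by
    rw [tsum_fintype]
    refine le_trans (le_of_eq ?_) hRt
    rw [Finset.sum_filter]
  have hlab := ks_lab_pair hh ho
  have hdom : KsDom (W.law E) (ksPair W.hist o) W.vT (fun _ => W.pi) (fun x => Ref x.1) (ENNReal.ofReal K) := by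
    intro x b
    have hsubx : ksPair W.hist o ⁻¹' {x} ∩ W.vT b ⊆ W.hist ⁻¹' {x.1} ∩ W.vT b := by
      intro ω hω
      refine ⟨?_, hω.2⟩
      have h1 : ksPair W.hist o ω = x := hω.1
      show W.hist ω = x.1
      rw [← h1]
      rfl
    by_cases h0 : W.law E (W.hist ⁻¹' {x.1}) = 0
    · rw [measure_mono_null (hsubx.trans Set.inter_subset_left) h0]
      exact zero_le
    · have hR : Ref x.1 = W.ref x.1 := if_pos h0
      change _ ≤ ENNReal.ofReal K * W.pi b * Ref x.1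
      rw [hR]
      exact (measure_mono hsubx).trans ((hle _).trans (hW.ln.dom x.1 b))
  have hopt' : KsOpt (W.law E) W.hist o n := fun e => by
    obtain ⟨L, hL, h0⟩ := hopt e
    exact ⟨L, hL, fun d0 hd0 => le_antisymm ((hle _).trans (h0 d0 hd0).le) zero_le⟩
  set Kp : Set (W.H × D) := ksKeep (W.law E) (ksPair W.hist o) (fun x => Ref x.1) (ENNReal.ofReal K1) with hKp
  have hKpm : MeasurableSet (ksPair W.hist o ⁻¹' Kp) := ksc_lab_preimage hlab Kp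
  have hcond := ksc_prune_cond hlab hdom (ENNReal.ofReal K1)
  have hloss := ksc_app_loss (W.law E) hh ho Ref (ENNReal.ofReal K1) n hopt'
  have elaw : ksPrune (W.law E) (ksPair W.hist o) (fun x => Ref x.1) (ENNReal.ofReal K1) = W.law (E ∩ ksPair W.hist o ⁻¹' Kp) := by
    change (W.prior.restrict E).restrict (ksPair W.hist o ⁻¹' Kp) = W.prior.restrict (E ∩ ksPair W.hist o ⁻¹' Kp)
    rw [Measure.restrict_restrict hKpm, Set.inter_comm]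
  rw [elaw] at hcond
  refine ⟨E ∩ ksPair W.hist o ⁻¹' Kp, Set.inter_subset_left, hE.inter hKpm, ?_, fun s b => ?_⟩
  · have e1 : W.law E (ksPair W.hist o ⁻¹' Kpᶜ) = W.prior (E \ (E ∩ ksPair W.hist o ⁻¹' Kp)) := by
      unfold K7aLn.law
      rw [Measure.restrict_apply (ksc_lab_preimage hlab _)]
      congr 1
      ext x
      simp only [Set.mem_inter_iff, Set.mem_compl_iff, Set.mem_sdiff, not_and, Set.mem_preimage]
      constructor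
      · rintro ⟨h1, h2⟩
        exact ⟨h2, fun _ => h1⟩
      · rintro ⟨h1, h2⟩
        exact ⟨h2 h1, h1⟩
    rw [← e1]
    exact hloss.trans (mul_le_mul' le_rfl hsum)
  · have h1 := ksc_coarsen hcond (Prod.snd : W.H × D → D) (fun _ => W.pi) (fun _ _ => le_rfl) s b
    simp only [] at h1
    rw [ksc_push_mass _ hlab Prod.snd s] at h1
    have e4 : ENNReal.ofReal (K * K1) = ENNReal.ofReal K * ENNReal.ofReal K1 := ENNReal.ofReal_mul (by linarith)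
    rw [e4]
    exact h1

/-- subadditivity of finite sums over a `biUnion` -/
theorem k7wg_sum_biUnion_le {ι κ : Type*} [DecidableEq κ] (s : Finset ι) (t : ι → Finset κ) (f : κ → ℝ≥0∞) :
    ∑ x ∈ s.biUnion t, f x ≤ ∑ i ∈ s, ∑ x ∈ t i, f x := by
  classical
  induction s using Finset.induction_on with
  | empty => simp
  | insert i s hi ih =>
    rw [Finset.biUnion_insert, Finset.sum_insert hi]
    calc ∑ x ∈ t i ∪ s.biUnion t, f x ≤ ∑ x ∈ t i ∪ s.biUnion t, f x + ∑ x ∈ t i ∩ s.biUnion t, f x := le_self_add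
      _ = ∑ x ∈ t i, f x + ∑ x ∈ s.biUnion t, f x := Finset.sum_union_inter
      _ ≤ ∑ x ∈ t i, f x + ∑ i ∈ s, ∑ x ∈ t i, f x := add_le_add le_rfl ih

/-- `refIn Q ≤ K² q ν_Q` -/
theorem k7wg_refIn_le (W : K7aW) {N K d S a h g : ℝ} {Ms Ws : Finset ℝ} (hW : W.Ok N K d S a h g Ms Ws) (hK : 1 ≤ K) {Q : W.Q} (hQ : Q ∈ W.Qa) :
    W.refIn Q ≤ ENNReal.ofReal (K ^ 2) * (ENNReal.ofReal W.q * W.νQ Q) := by
  refine (hW.ref_in Q hQ).trans ?_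
  rw [← mul_assoc, ← ENNReal.ofReal_mul (by positivity)]
  refine mul_le_mul' (ENNReal.ofReal_le_ofReal ?_) le_rfl
  have := hW.q_lo
  nlinarith

open Classical in
/-- a history which is charged by `law E` inside `{labQ = Q}` counts in `refIn Q` -/
theorem k7wg_mem_refIn (W : K7aW) {N K d S a h g : ℝ} {Ms Ws : Finset ℝ} (hW : W.Ok N K d S a h g Ms Ws) {E : Set (W.L × ℝ)} (hsub : E ⊆ W.Ev0)
    {e : W.H} {Q : W.Q} (h : W.prior (W.hist ⁻¹' {e} ∩ W.labQ ⁻¹' {Q} ∩ E) ≠ 0) :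
    e ∈ Finset.univ.filter (fun e => W.lam0 (W.hist ⁻¹' {e} ∩ W.labQ ⁻¹' {Q}) ≠ 0) := by
  rw [Finset.mem_filter]
  refine ⟨Finset.mem_univ _, ?_⟩
  intro h0
  apply h
  unfold K7aLn.lam0 K7aLn.law at h0
  rw [Measure.restrict_apply' hW.ln.m_Ev0] at h0
  exact measure_mono_null (Set.inter_subset_inter_right _ hsub) h0

open Classical in
/-- **L-252-S7wg-S3** (this and the next statement, ~250 l.).  A history with `law E {hist = e} ≠ 0` occurs in some `Q ∈ Qa` (`lab`), so the sum is `≤ Σ_{Q ∈ Qa} refIn Q ≤ Σ K h ν_Q ≤ K² Σ q ν_Q ≤ K²` (`ref_in`, `q_lo`, `k7wg_sum_qnu`). -/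
theorem k7wg_ref_all (W : K7aW) {N K d S a h g : ℝ} {Ms Ws : Finset ℝ} (hW : W.Ok N K d S a h g Ms Ws) (hK : 1 ≤ K) (hh : 0 < h) {E : Set (W.L × ℝ)}
    (hsub : E ⊆ W.Ev0) : ∑ e ∈ Finset.univ.filter (fun e => W.law E (W.hist ⁻¹' {e}) ≠ 0), W.ref e ≤ ENNReal.ofReal (K ^ 2) := by
  have hsubset : Finset.univ.filter (fun e => W.law E (W.hist ⁻¹' {e}) ≠ 0)
      ⊆ (Finset.univ.filter (fun Q => Q ∈ W.Qa)).biUnion (fun Q => Finset.univ.filter (fun e => W.lam0 (W.hist ⁻¹' {e} ∩ W.labQ ⁻¹' {Q}) ≠ 0)) := by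
    intro e he
    rw [Finset.mem_filter] at he
    have he2 := he.2
    unfold K7aLn.law at he2
    rw [Measure.restrict_apply (hW.ln.m_hist e)] at he2
    by_contra hcon
    apply he2
    have hcov : W.hist ⁻¹' {e} ∩ E ⊆ ⋃ Q ∈ Finset.univ.filter (fun Q => Q ∈ W.Qa), (W.hist ⁻¹' {e} ∩ W.labQ ⁻¹' {Q} ∩ E) := by
      intro p hp
      simp only [Set.mem_iUnion]
      refine ⟨W.labQ p, ?_, ⟨hp.1, rfl⟩, hp.2⟩
      rw [Finset.mem_filter]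
      exact ⟨Finset.mem_univ _, (hW.lab p (hsub hp.2)).1⟩
    refine measure_mono_null hcov ?_
    refine nonpos_iff_eq_zero.1 ((measure_biUnion_finset_le _ _).trans (le_of_eq (Finset.sum_eq_zero fun Q hQ => ?_)))
    by_contra hne
    apply hcon
    rw [Finset.mem_biUnion]
    exact ⟨Q, hQ, k7wg_mem_refIn W hW hsub hne⟩
  calc ∑ e ∈ Finset.univ.filter (fun e => W.law E (W.hist ⁻¹' {e}) ≠ 0), W.ref e
      ≤ ∑ e ∈ (Finset.univ.filter (fun Q => Q ∈ W.Qa)).biUnion (fun Q => Finset.univ.filter (fun e => W.lam0 (W.hist ⁻¹' {e} ∩ W.labQ ⁻¹' {Q}) ≠ 0)), W.ref e :=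
        Finset.sum_le_sum_of_subset hsubset
    _ ≤ ∑ Q ∈ Finset.univ.filter (fun Q => Q ∈ W.Qa), ∑ e ∈ Finset.univ.filter (fun e => W.lam0 (W.hist ⁻¹' {e} ∩ W.labQ ⁻¹' {Q}) ≠ 0), W.ref e :=
        k7wg_sum_biUnion_le _ _ _
    _ ≤ ∑ Q ∈ Finset.univ.filter (fun Q => Q ∈ W.Qa), ENNReal.ofReal (K ^ 2) * (ENNReal.ofReal W.q * W.νQ Q) := by
        refine Finset.sum_le_sum fun Q hQ => ?_
        exact k7wg_refIn_le W hW hK (Finset.mem_filter.1 hQ).2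
    _ = ENNReal.ofReal (K ^ 2) * ∑ Q ∈ Finset.univ.filter (fun Q => Q ∈ W.Qa), ENNReal.ofReal W.q * W.νQ Q := by rw [Finset.mul_sum]
    _ ≤ ENNReal.ofReal (K ^ 2) * 1 := mul_le_mul' le_rfl (k7wg_sum_qnu W hW)
    _ = ENNReal.ofReal (K ^ 2) := mul_one _

open Classical in
/-- inside one label: `labQ = Q` on `E` (`k7wg_labQ_eq`), so the sum is `≤ refIn Q ≤ K h ν_Q ≤ K² q ν_Q` -/
theorem k7wg_ref_Q (W : K7aW) {N K d S a h g : ℝ} {Ms Ws : Finset ℝ} (hW : W.Ok N K d S a h g Ms Ws) (hK : 1 ≤ K) (hh : 0 < h) {Q : W.Q} (hQ : Q ∈ W.Qa)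
    {E : Set (W.L × ℝ)} (hsub : E ⊆ W.Ev0 ∩ W.inc Q) :
    ∑ e ∈ Finset.univ.filter (fun e => W.law E (W.hist ⁻¹' {e}) ≠ 0), W.ref e ≤ ENNReal.ofReal (K ^ 2) * (ENNReal.ofReal W.q * W.νQ Q) := by
  have hsub0 : E ⊆ W.Ev0 := fun p hp => (hsub hp).1
  have hsubset : Finset.univ.filter (fun e => W.law E (W.hist ⁻¹' {e}) ≠ 0)
      ⊆ Finset.univ.filter (fun e => W.lam0 (W.hist ⁻¹' {e} ∩ W.labQ ⁻¹' {Q}) ≠ 0) := by
    intro e he
    rw [Finset.mem_filter] at he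
    have he2 := he.2
    unfold K7aLn.law at he2
    rw [Measure.restrict_apply (hW.ln.m_hist e)] at he2
    refine k7wg_mem_refIn W hW hsub0 ?_
    intro h0
    apply he2
    refine measure_mono_null ?_ h0
    intro p hp
    exact ⟨⟨hp.1, k7wg_labQ_eq W hW hQ (hsub hp.2).1 (hsub hp.2).2⟩, hp.2⟩
  calc ∑ e ∈ Finset.univ.filter (fun e => W.law E (W.hist ⁻¹' {e}) ≠ 0), W.ref e
      ≤ ∑ e ∈ Finset.univ.filter (fun e => W.lam0 (W.hist ⁻¹' {e} ∩ W.labQ ⁻¹' {Q}) ≠ 0), W.ref e := Finset.sum_le_sum_of_subset hsubset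
    _ ≤ ENNReal.ofReal (K ^ 2) * (ENNReal.ofReal W.q * W.νQ Q) := k7wg_refIn_le W hW hK hQ

/-- the prior of the lines is finite -/
theorem k7wg_prior_fin (W : K7aLn) {N K d S : ℝ} {Ms Ws : Finset ℝ} (hW : W.Ok N K d S Ms Ws) : IsFiniteMeasure W.prior := by
  have := hW.prob
  have : IsFiniteMeasure k7aTm := by
    unfold k7aTm
    exact ⟨by rw [Measure.restrict_apply_univ, Real.volume_Icc]; exact ENNReal.ofReal_lt_top⟩
  unfold K7aLn.prior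
  infer_instance

/-- **L-252-S7wg-S4** (~200 l.).  **Domination survives a small deletion.**  `E₂ = (E \ B) ∩ {z : μ_E {o = o z} ≤ 2 μ_{E \ B} {o = o z}}` : the deleted whole states have lost at least half of their mass, so they carry `≤ 2 prior (E ∩ B)`;
on the survivors `μ_{E₂}(s, b) ≤ μ_E (s, b) ≤ K π(b) μ_E (s) ≤ 2 K π(b) μ_{E₂}(s)`. -/
theorem k7wg_halve (W : K7aLn) {N K d S : ℝ} {Ms Ws : Finset ℝ} (hW : W.Ok N K d S Ms Ws) {D : Type} [Countable D] (o : W.L × ℝ → D) (ho : KsLab o)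
    {E B : Set (W.L × ℝ)} (hE : MeasurableSet E) (hB : MeasurableSet B) {Kd : ℝ} (hKd : 0 ≤ Kd)
    (hdom : ∀ s b, W.law E (o ⁻¹' {s} ∩ W.vT b) ≤ ENNReal.ofReal Kd * W.pi b * W.law E (o ⁻¹' {s})) :
    ∃ E2 : Set (W.L × ℝ), E2 ⊆ E \ B ∧ MeasurableSet E2 ∧ W.prior (E \ E2) ≤ 3 * W.prior (E ∩ B) ∧
      ∀ s b, W.law E2 (o ⁻¹' {s} ∩ W.vT b) ≤ ENNReal.ofReal (2 * Kd) * W.pi b * W.law E2 (o ⁻¹' {s}) := by
  have := k7wg_prior_fin W hW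
  have : IsFiniteMeasure (W.law E) := by
    unfold K7aLn.law
    infer_instance
  have hc : KsCond (W.law E) o W.vT (fun _ => W.pi) (ENNReal.ofReal Kd) := hdom
  obtain ⟨G, hG, hGB, hloss, hcond⟩ := k7wcc_half (W.law E) ho hc B hB
  refine ⟨E ∩ G, fun x hx => ⟨hx.1, hGB hx.2⟩, hE.inter hG, ?_, fun s b => ?_⟩
  · have e1 : W.law E Gᶜ = W.prior (E \ (E ∩ G)) := by
      unfold K7aLn.law
      rw [Measure.restrict_apply hG.compl]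
      congr 1
      ext x
      simp only [Set.mem_inter_iff, Set.mem_compl_iff, Set.mem_sdiff, not_and]
      constructor
      · rintro ⟨h1, h2⟩
        exact ⟨h2, fun _ => h1⟩
      · rintro ⟨h1, h2⟩
        exact ⟨h2 h1, h1⟩
    have e2 : W.law E B = W.prior (E ∩ B) := by
      unfold K7aLn.law
      rw [Measure.restrict_apply hB, Set.inter_comm]
    rw [← e1, ← e2]
    exact hloss
  · have e3 : W.law (E ∩ G) = (W.law E).restrict G := by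
      unfold K7aLn.law
      rw [Measure.restrict_restrict hG, Set.inter_comm]
    have e4 : ENNReal.ofReal (2 * Kd) = 2 * ENNReal.ofReal Kd := by
      rw [ENNReal.ofReal_mul (by norm_num), ENNReal.ofReal_ofNat]
    rw [e3, e4]
    exact hcond s b

/-! ## 7. Palette -/

/-- the palette weights of a finite family of finest bins add up to the palette of their union -/
theorem k7wg_pi_union (W : K7aLn) (V : Finset ℤ) : ∑ b ∈ V, W.pi b = W.pal (⋃ b ∈ V, k7aBinI W.χ0 b) := by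
  have hdisj : Set.PairwiseDisjoint (↑V : Set ℤ) (fun b => k7aBinI W.χ0 b) := by
    intro b _ b' _ hbb
    refine Set.disjoint_left.2 fun x hx hx' => hbb ?_
    rw [← k7wc_bin_iff] at hx hx'
    rw [← hx, ← hx']
  exact (measure_biUnion_finset hdisj fun b _ => k7wc_meas_binI _ _).symm

/-- **L-252-S7wg-P** (the next four statements, ~350 l.).  The bins `k7aBinI χ0 b` are disjoint intervals. -/
theorem k7wg_pi_sum (W : K7aLn) {N K d S : ℝ} {Ms Ws : Finset ℝ} (hW : W.Ok N K d S Ms Ws) (V : Finset ℤ) : ∑ b ∈ V, W.pi b ≤ 1 := by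
  rw [k7wg_pi_union]
  exact (measure_mono (Set.subset_univ _)).trans hW.pal_le

/-- the bins which meet `(x - r, x + r)`, `r ≥ χ0`, lie in `[x - 3r, x + 3r]` (`kbDy χ0 < 2 χ0`); `pal_ball` -/
theorem k7wg_pi_ball (W : K7aLn) {N K d S : ℝ} {Ms Ws : Finset ℝ} (hW : W.Ok N K d S Ms Ws) {x r : ℝ} (hr : W.χ0 ≤ r) (V : Finset ℤ)
    (hV : ∀ b ∈ V, ∃ y, kbBin W.χ0 y = b ∧ |y - x| < r) : ∑ b ∈ V, W.pi b ≤ ENNReal.ofReal (K * (3 * r) ^ S) := by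
  have h0 := hW.χ0_pos
  obtain ⟨hD0, -, hD2⟩ := k7wc_dy h0
  rw [k7wg_pi_union]
  refine (measure_mono ?_).trans (hW.pal_ball x (3 * r) (by linarith))
  intro w hw
  simp only [Set.mem_iUnion] at hw
  obtain ⟨b, hb, hw⟩ := hw
  obtain ⟨y, hy, hyx⟩ := hV b hb
  rw [k7wc_bin_iff] at hy
  unfold k7aBinI at hw hy
  rw [abs_lt] at hyx
  obtain ⟨w1, w2⟩ := hw
  obtain ⟨y1, y2⟩ := hy
  constructor <;> linarith

/-- the finitely many finest bins which meet `(x - r, x + r)` -/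
theorem k7wg_bins_near (χ x r : ℝ) : ∃ V : Finset ℤ, (∀ b ∈ V, ∃ y, kbBin χ y = b ∧ |y - x| < r) ∧ ∀ y, |y - x| < r → kbBin χ y ∈ V := by
  classical
  refine ⟨(Finset.Icc ⌊(x - r) / kbDy χ⌋ ⌊(x + r) / kbDy χ⌋).filter (fun b => ∃ y, kbBin χ y = b ∧ |y - x| < r), fun b hb => (Finset.mem_filter.1 hb).2,
    fun y hy => Finset.mem_filter.2 ⟨k7wc_bin_window (k7wc_dy_pos χ) hy.le, y, rfl, hy⟩⟩

/-- domination + ball bound, summed over ANY family of states: `A` = a union of states -/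
theorem k7wg_dom_ball (W : K7aLn) {N K d S : ℝ} {Ms Ws : Finset ℝ} (hW : W.Ok N K d S Ms Ws) {D : Type} [Countable D] (o : W.L × ℝ → D) (ho : KsLab o)
    {E : Set (W.L × ℝ)} (hE : MeasurableSet E) (hsub : E ⊆ W.Ev0) {Kd : ℝ} (hKd : 0 ≤ Kd)
    (hdom : ∀ s b, W.law E (o ⁻¹' {s} ∩ W.vT b) ≤ ENNReal.ofReal Kd * W.pi b * W.law E (o ⁻¹' {s})) {x r : ℝ} (hr : W.χ0 ≤ r) (A : Set D) :
    W.law E (o ⁻¹' A ∩ {z | |W.v z.1 - x| < r}) ≤ ENNReal.ofReal (Kd * (K * (3 * r) ^ S)) * W.law E (o ⁻¹' A) := by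
  obtain ⟨V, hV1, hV2⟩ := k7wg_bins_near W.χ0 x r
  have hball := k7wg_pi_ball W hW hr V hV1
  have hone : ∀ s, W.law E (o ⁻¹' {s} ∩ {z | |W.v z.1 - x| < r}) ≤ ENNReal.ofReal (Kd * (K * (3 * r) ^ S)) * W.law E (o ⁻¹' {s}) := by
    intro s
    calc W.law E (o ⁻¹' {s} ∩ {z | |W.v z.1 - x| < r}) ≤ W.law E (⋃ b ∈ V, o ⁻¹' {s} ∩ W.vT b) := by
          refine measure_mono fun z hz => ?_
          simp only [Set.mem_iUnion]
          exact ⟨_, hV2 _ hz.2, hz.1, rfl⟩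
      _ ≤ ∑ b ∈ V, W.law E (o ⁻¹' {s} ∩ W.vT b) := measure_biUnion_finset_le _ _
      _ ≤ ∑ b ∈ V, ENNReal.ofReal Kd * W.pi b * W.law E (o ⁻¹' {s}) := Finset.sum_le_sum fun b _ => hdom s b
      _ = ENNReal.ofReal Kd * (∑ b ∈ V, W.pi b) * W.law E (o ⁻¹' {s}) := by rw [Finset.mul_sum, Finset.sum_mul]
      _ ≤ ENNReal.ofReal Kd * ENNReal.ofReal (K * (3 * r) ^ S) * W.law E (o ⁻¹' {s}) := by gcongr
      _ = _ := by rw [ENNReal.ofReal_mul hKd]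
  calc W.law E (o ⁻¹' A ∩ {z | |W.v z.1 - x| < r}) ≤ W.law E (⋃ s : A, o ⁻¹' {(s : D)} ∩ {z | |W.v z.1 - x| < r}) := by
        refine measure_mono fun z hz => ?_
        simp only [Set.mem_iUnion]
        exact ⟨⟨o z, hz.1⟩, rfl, hz.2⟩
    _ ≤ ∑' s : A, W.law E (o ⁻¹' {(s : D)} ∩ {z | |W.v z.1 - x| < r}) := measure_iUnion_le _
    _ ≤ ∑' s : A, ENNReal.ofReal (Kd * (K * (3 * r) ^ S)) * W.law E (o ⁻¹' {(s : D)}) := ENNReal.tsum_le_tsum fun s => hone s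
    _ = ENNReal.ofReal (Kd * (K * (3 * r) ^ S)) * ∑' s : A, W.law E (o ⁻¹' {(s : D)}) := ENNReal.tsum_mul_left
    _ = _ := by rw [ksc_mass_preimage (W.law E) ho A]; rfl

/-- a state of positive mass has compatible velocity bins of palette mass `≥ 1/Kd` : there is a FINITE set `V` of bins, each of positive mass in the state (`|v| ≤ K` on `Sp`: finitely many bins occur) -/
theorem k7wg_compat (W : K7aLn) {N K d S : ℝ} {Ms Ws : Finset ℝ} (hW : W.Ok N K d S Ms Ws) {D : Type} (o : W.L × ℝ → D) (ho : KsLab o)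
    {E : Set (W.L × ℝ)} (hE : MeasurableSet E) (hsub : E ⊆ W.Ev0) {Kd : ℝ} (hKd : 0 ≤ Kd)
    (hdom : ∀ s b, W.law E (o ⁻¹' {s} ∩ W.vT b) ≤ ENNReal.ofReal Kd * W.pi b * W.law E (o ⁻¹' {s})) {s : D} (hs : W.law E (o ⁻¹' {s}) ≠ 0) :
    ∃ V : Finset ℤ, (∀ b ∈ V, W.law E (o ⁻¹' {s} ∩ W.vT b) ≠ 0) ∧ 1 ≤ ENNReal.ofReal Kd * ∑ b ∈ V, W.pi b := by
  classical
  obtain ⟨V0, hV0⟩ : ∃ V0 : Finset ℤ, V0 = Finset.Icc ⌊(0 - K) / kbDy W.χ0⌋ ⌊(0 + K) / kbDy W.χ0⌋ := ⟨_, rfl⟩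
  refine ⟨V0.filter (fun b => W.law E (o ⁻¹' {s} ∩ W.vT b) ≠ 0), fun b hb => (Finset.mem_filter.1 hb).2, ?_⟩
  have hfin : W.law E (o ⁻¹' {s}) ≠ ⊤ := by
    refine ne_top_of_le_ne_top ENNReal.one_ne_top ?_
    unfold K7aLn.law
    exact (Measure.restrict_apply_le _ _).trans ((measure_mono (Set.subset_univ _)).trans (k7wg_prior_univ W hW))
  have hcov : W.law E (o ⁻¹' {s}) ≤ ∑ b ∈ V0, W.law E (o ⁻¹' {s} ∩ W.vT b) := by
    have e1 : W.law E (o ⁻¹' {s}) = W.law E (o ⁻¹' {s} ∩ E) := by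
      unfold K7aLn.law
      rw [Measure.restrict_apply' hE, Measure.restrict_apply' hE, Set.inter_assoc, Set.inter_self]
    rw [e1]
    refine (measure_mono fun z hz => ?_).trans (measure_biUnion_finset_le _ _)
    simp only [Set.mem_iUnion]
    have hSp := (hW.Ev0_sub (hsub hz.2)).1
    have hv := (hW.bd z.1 hSp).2.1
    refine ⟨W.vbin z.1, ?_, hz.1, rfl⟩
    rw [hV0]
    exact k7wc_bin_window (k7wc_dy_pos _) (by simpa using hv)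
  have hsum : ∑ b ∈ V0, W.law E (o ⁻¹' {s} ∩ W.vT b) = ∑ b ∈ V0.filter (fun b => W.law E (o ⁻¹' {s} ∩ W.vT b) ≠ 0), W.law E (o ⁻¹' {s} ∩ W.vT b) := by
    rw [Finset.sum_filter]
    refine Finset.sum_congr rfl fun b _ => ?_
    by_cases hb : W.law E (o ⁻¹' {s} ∩ W.vT b) = 0
    · simp [hb]
    · simp [hb]
  have hle : W.law E (o ⁻¹' {s}) ≤ (ENNReal.ofReal Kd * ∑ b ∈ V0.filter (fun b => W.law E (o ⁻¹' {s} ∩ W.vT b) ≠ 0), W.pi b) * W.law E (o ⁻¹' {s}) := by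
    calc W.law E (o ⁻¹' {s}) ≤ ∑ b ∈ V0.filter (fun b => W.law E (o ⁻¹' {s} ∩ W.vT b) ≠ 0), W.law E (o ⁻¹' {s} ∩ W.vT b) := hsum ▸ hcov
      _ ≤ ∑ b ∈ V0.filter (fun b => W.law E (o ⁻¹' {s} ∩ W.vT b) ≠ 0), ENNReal.ofReal Kd * W.pi b * W.law E (o ⁻¹' {s}) := Finset.sum_le_sum fun b _ => hdom s b
      _ = _ := by rw [Finset.mul_sum, Finset.sum_mul]
  by_contra hlt
  rw [not_le] at hlt
  have := ENNReal.mul_lt_mul_left hs hfin hlt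
  rw [one_mul] at this
  exact absurd hle (not_le.2 this)

/-- every definition of this file is cited here -/
theorem k7wg_eqns_cite (W : K7aW) (P : Fin 3 → K7aLayer W.toK7aLn) (χ : ℝ) (i : Fin 3) (Q : W.Q) (φ0 : (P 0).Ph) (φ : (P i).Ph) (mv z : ℤ) (t : ℝ) :
    W.tQ Q = (W.iv Q : ℝ) * W.q ∧ k7wgZa χ mv z t = ((z : ℝ) + (mv : ℝ) * t) * kbDy χ ∧
    k7wgOff W P χ i Q φ0 φ = ((P i).G φ).F (W.tQ Q) (W.YQ Q (W.tQ Q) (k7wgZa χ ((P 0).vi φ0) ((P 0).zi φ0) (W.tQ Q)))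
      - ((P 0).G φ0).F (W.tQ Q) (W.YQ Q (W.tQ Q) (k7wgZa χ ((P 0).vi φ0) ((P 0).zi φ0) (W.tQ Q))) := ⟨rfl, rfl, rfl⟩

end

end Claimed.Agent.R252
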