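import Claimed.Agent.R252.S7a.WideGlue
import Claimed.Agent.R252.S7a.WideGeoContract
import Claimed.Agent.R252.S7a.WideDMain

/-!
# ROW 252 (S0492), unit S7w, stage D of P7.3, SECOND HALF D4-D5 (07 l.800-858; helper183, with helper242 = D1-D3; chief helper89).      CONTRACT file: every `sorry` is a LEAF `L-252-S7wd2-*` (name in the docstring).

EXIT: `k7wd2_core : W.Ok .. → K7wdGrid .. → (smallness of ω, r') → ∃ γ0 γ1 γ2 C2 E4, K7wCommon W P0 E (k7wd2Kout K r r') e b h Q γ0 γ1 γ2 C2 E4`,   and `k7wd2_Kout_le : k7wd2Kout K r r' ≤ 2^610 (K/(r r'))^340`.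
PAPER-FREE.  Explicit slack `K ≥ 1`, explicit constants.  Statements frozen (tell helper183 if one looks false or inconvenient); prove IN PLACE, helper lemmas directly above, prefix `k7wd2_`.
## Plan
 Notation: `m_Q = q ν_Q`; `ξ₁ = k7wdXi W Q v1 v2 t Z`, `ξ₂ = k7wdXi W Q v2 v1 t Z`; `R = 2K²/r ≥ |ξ_k|` on the box of `Q`; `n ∈ ℕ` with `R/ω + 3 ≤ n`, `n ω ≤ 2R`; shifted indices `i = ci p + n`, `j = ri p + n ∈ [0, 2n)`;
 real index coordinates `s_k = ξ_k/ω + n` (`k7wd2S`), `|s₁ - i| ≤ 2`, `|s₂ - j| ≤ 2`;   `f₁ p, f₂ p` = the two coefficients of the label of the line of `p` at `p` (`k7wd2f1`, `k7wd2f2`).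
 s1 ABSTRACT GRID (no `W`): `k7wd2_heavy` (heavy vertices are dense), `k7wd2_spread` (an affine function bounded on a dense set of integers), `k7wd2_grid` (= `k7a_bilinear` + masses + coefficient bounds).
 s2 GEOMETRY: `k7wd2_xi_inv`, `k7wd2_xi_bd`, `k7wd2_xi_line`, `k7wd2_vol3`, `k7wd2_vertex` (`capQ`: a vertex carries `≤ 128 K⁴ ω² m_Q`), `k7wd2_index` (row/column functions at the vertex), `k7wd2_acc` (grid accuracy of a bilinear function).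
 s3 `k7wd2_bil` : a bilinear function of `(s₁, s₂)` fits `f₁` to `E2 · e` on `E4 ⊆ E3`, `m_Q ≤ K4 · prior E4`; a constant fits `f₂`.
 s4 `k7wd2_line` (a line far from both axes with long fitted duration), `k7wd2_aff` (`f₁` is affine in `t` along a line), `k7wd2_mix` (the mixed coefficient is `≤ 432 Km⁴ E2 e` in unit coordinates).
 s5 `k7wd2_core`.
-/

set_option autoImplicit false

namespace Claimed.Agent.R252

open MeasureTheory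
open scoped ENNReal BigOperators

noncomputable section

/-! ## 0. Constants and notation -/

/-- density constant of the grid -/
def k7wd2KI (K r : ℝ) : ℝ := 8192 * K ^ 8 / r ^ 2
/-- mass constant of the fitted selection -/
def k7wd2K4 (K r : ℝ) : ℝ := 64 * k7wd2KI K r ^ 9
/-- bound of the bilinear coefficients in unit coordinates -/
def k7wd2Cst (K r : ℝ) : ℝ := 120000 * k7wd2KI K r ^ 14 * K
/-- error constant of the bilinear fit -/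
def k7wd2E2 (K r : ℝ) : ℝ := 3206 * k7wd2KI K r ^ 6 * K
/-- constant of the Remez step -/
def k7wd2Km (K r r' : ℝ) : ℝ := 16 * K ^ 3 / (r * r') + 4 * k7wd2K4 K r
/-- **the output slack of D4-D5** -/
def k7wd2Kout (K r r' : ℝ) : ℝ := 865 * k7wd2Km K r r' ^ 4 * k7wd2E2 K r + 3 * k7wd2Cst K r + k7wd2K4 K r

/-- first coefficient of the label of the line of `p`, at `p` (`0` if there is no label) -/
def k7wd2f1 (W : K7aW) (P0 : K7aLayer W.toK7aLn) (b : ℝ) (p : W.L × ℝ) : ℝ :=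
  match P0.lab p.1 with
  | some φ => k7wF1 (P0.G φ).F b p.2 (W.yq p)
  | none => 0

/-- second coefficient -/
def k7wd2f2 (W : K7aW) (P0 : K7aLayer W.toK7aLn) (b : ℝ) (p : W.L × ℝ) : ℝ :=
  match P0.lab p.1 with
  | some φ => k7wF2 (P0.G φ).F b p.2 (W.yq p)
  | none => 0

/-- real index coordinate `ξ/ω + n` -/
def k7wd2S (W : K7aW) (Q : W.Q) (va vb ω : ℝ) (n : ℕ) (t Z : ℝ) : ℝ := k7wdXi W Q va vb t Z / ω + n

/-- every definition of this file is cited here -/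
theorem k7wd2_eqns_cite (W : K7aW) (P0 : K7aLayer W.toK7aLn) (Q : W.Q) (K r r' b va vb ω t Z : ℝ) (n : ℕ) (p : W.L × ℝ) (φ : P0.Ph) (h : P0.lab p.1 = some φ) :
    k7wd2KI K r = 8192 * K ^ 8 / r ^ 2 ∧ k7wd2K4 K r = 64 * k7wd2KI K r ^ 9 ∧ k7wd2Cst K r = 120000 * k7wd2KI K r ^ 14 * K ∧
    k7wd2E2 K r = 3206 * k7wd2KI K r ^ 6 * K ∧ k7wd2Km K r r' = 16 * K ^ 3 / (r * r') + 4 * k7wd2K4 K r ∧
    k7wd2Kout K r r' = 865 * k7wd2Km K r r' ^ 4 * k7wd2E2 K r + 3 * k7wd2Cst K r + k7wd2K4 K r ∧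
    k7wd2f1 W P0 b p = k7wF1 (P0.G φ).F b p.2 (W.yq p) ∧ k7wd2f2 W P0 b p = k7wF2 (P0.G φ).F b p.2 (W.yq p) ∧
    k7wd2S W Q va vb ω n t Z = k7wdXi W Q va vb t Z / ω + n := by
  refine ⟨rfl, rfl, rfl, rfl, rfl, rfl, ?_, ?_, rfl⟩
  · simp only [k7wd2f1, h]
  · simp only [k7wd2f2, h]

/-- **L-252-S7wd2-K** (~150 l.).  With `x = K/(r r') ≥ max (K, 1/r, 1/r')` : `KI ≤ 2¹³ x⁸`, `K4 ≤ 2¹²³ x⁷²`, `Cst ≤ 2¹⁹⁹ x¹¹³`, `E2 ≤ 2⁹⁰ x⁴⁹`, `Km ≤ 2¹²⁶ x⁷²`, `865 Km⁴ E2 ≤ 2⁶⁰⁴ x³³⁷`. -/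
theorem k7wd2_Kout_le {K r r' : ℝ} (hK : 1 ≤ K) (hr0 : 0 < r) (hr1 : r ≤ 1) (hr0' : 0 < r') (hr1' : r' ≤ 1) :
    k7wd2Kout K r r' ≤ 2 ^ 610 * (K / (r * r')) ^ 340 := by
  have hK0 : 0 < K := lt_of_lt_of_le one_pos hK
  have hrr0 : 0 < r * r' := mul_pos hr0 hr0'
  have hrr1 : r * r' ≤ 1 := by nlinarith
  obtain ⟨x, hx⟩ : ∃ x : ℝ, x = K / (r * r') := ⟨_, rfl⟩
  rw [← hx]
  have hxK : K ≤ x := by
    rw [hx, le_div_iff₀ hrr0]
    nlinarith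
  have hx1 : 1 ≤ x := hK.trans hxK
  have hx0 : 0 < x := lt_of_lt_of_le one_pos hx1
  have hKI0 : 0 ≤ k7wd2KI K r := by
    unfold k7wd2KI
    positivity
  have hKI : k7wd2KI K r ≤ 2 ^ 13 * x ^ 8 := by
    unfold k7wd2KI
    rw [div_le_iff₀ (by positivity)]
    have h1 : K ^ 2 ≤ (x * r) ^ 2 := by
      refine pow_le_pow_left₀ hK0.le ?_ 2
      have : x * r = K / r' := by
        rw [hx]
        field_simp
      rw [this, le_div_iff₀ hr0']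
      nlinarith
    have h2 : K ^ 6 ≤ x ^ 6 := pow_le_pow_left₀ hK0.le hxK 6
    calc 8192 * K ^ 8 = 8192 * (K ^ 6 * K ^ 2) := by ring
      _ ≤ 8192 * (x ^ 6 * (x * r) ^ 2) := by gcongr
      _ = 2 ^ 13 * x ^ 8 * r ^ 2 := by ring
  have hK4 : k7wd2K4 K r ≤ 2 ^ 123 * x ^ 72 := by
    unfold k7wd2K4
    calc 64 * k7wd2KI K r ^ 9 ≤ 64 * (2 ^ 13 * x ^ 8) ^ 9 := by gcongr
      _ = 2 ^ 123 * x ^ 72 := by ring
  have hK40 : 0 ≤ k7wd2K4 K r := by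
    unfold k7wd2K4
    positivity
  have hCst : k7wd2Cst K r ≤ 2 ^ 199 * x ^ 113 := by
    unfold k7wd2Cst
    calc 120000 * k7wd2KI K r ^ 14 * K ≤ 131072 * (2 ^ 13 * x ^ 8) ^ 14 * x := by gcongr; norm_num
      _ = 2 ^ 199 * x ^ 113 := by ring
  have hE2 : k7wd2E2 K r ≤ 2 ^ 90 * x ^ 49 := by
    unfold k7wd2E2
    calc 3206 * k7wd2KI K r ^ 6 * K ≤ 4096 * (2 ^ 13 * x ^ 8) ^ 6 * x := by gcongr; norm_num
      _ = 2 ^ 90 * x ^ 49 := by ring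
  have hE20 : 0 ≤ k7wd2E2 K r := by
    unfold k7wd2E2
    positivity
  have hKm0 : 0 ≤ k7wd2Km K r r' := by
    unfold k7wd2Km
    positivity
  have hKm : k7wd2Km K r r' ≤ 2 ^ 126 * x ^ 72 := by
    unfold k7wd2Km
    have h1 : 16 * K ^ 3 / (r * r') ≤ 16 * x ^ 3 := by
      have : 16 * K ^ 3 / (r * r') = 16 * (K ^ 2 * x) := by
        rw [hx]
        field_simp
      rw [this]
      have h2 : K ^ 2 ≤ x ^ 2 := pow_le_pow_left₀ hK0.le hxK 2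
      calc 16 * (K ^ 2 * x) ≤ 16 * (x ^ 2 * x) := by gcongr
        _ = 16 * x ^ 3 := by ring
    have h3 : x ^ 3 ≤ x ^ 72 := pow_le_pow_right₀ hx1 (by norm_num)
    have h4 : 0 < x ^ 72 := by positivity
    calc 16 * K ^ 3 / (r * r') + 4 * k7wd2K4 K r ≤ 16 * x ^ 72 + 4 * (2 ^ 123 * x ^ 72) := by linarith
      _ = (16 + 2 ^ 125) * x ^ 72 := by ring
      _ ≤ 2 ^ 126 * x ^ 72 := by
          refine mul_le_mul_of_nonneg_right ?_ h4.le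
          norm_num
  have hmain : 865 * k7wd2Km K r r' ^ 4 * k7wd2E2 K r ≤ 2 ^ 604 * x ^ 337 := by
    calc 865 * k7wd2Km K r r' ^ 4 * k7wd2E2 K r ≤ 1024 * (2 ^ 126 * x ^ 72) ^ 4 * (2 ^ 90 * x ^ 49) := by gcongr; norm_num
      _ = 2 ^ 604 * x ^ 337 := by
          set_option exponentiation.threshold 700 in ring
  have p1 : x ^ 337 ≤ x ^ 340 := pow_le_pow_right₀ hx1 (by norm_num)
  have p2 : x ^ 113 ≤ x ^ 340 := pow_le_pow_right₀ hx1 (by norm_num)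
  have p3 : x ^ 72 ≤ x ^ 340 := pow_le_pow_right₀ hx1 (by norm_num)
  have p0 : 0 < x ^ 340 := by positivity
  unfold k7wd2Kout
  calc 865 * k7wd2Km K r r' ^ 4 * k7wd2E2 K r + 3 * k7wd2Cst K r + k7wd2K4 K r
      ≤ 2 ^ 604 * x ^ 337 + 3 * (2 ^ 199 * x ^ 113) + 2 ^ 123 * x ^ 72 :=
        add_le_add (add_le_add hmain (mul_le_mul_of_nonneg_left hCst (by norm_num))) hK4
    _ ≤ 2 ^ 604 * x ^ 340 + 3 * (2 ^ 199 * x ^ 340) + 2 ^ 123 * x ^ 340 := by gcongr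
    _ = (2 ^ 604 + 3 * 2 ^ 199 + 2 ^ 123) * x ^ 340 := by
        set_option exponentiation.threshold 700 in ring
    _ ≤ 2 ^ 610 * x ^ 340 := by
        refine mul_le_mul_of_nonneg_right ?_ p0.le
        set_option exponentiation.threshold 700 in norm_num

/-! ## 1. The abstract grid -/

/-- **L-252-S7wd2-H** (~200 l.).  `G = {x : m ≤ 2K n₁n₂ μ(cell x)}`.  `E` is the disjoint union of its cells over the grid (`hrange`).  The light cells carry `≤ n₁n₂ · m/(2K n₁n₂) = m/(2K)`, so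
`m ≤ K μ E ≤ K Σ_G μ(cell) + m/2`, and `μ(cell) ≤ K m/(n₁n₂)` : `n₁n₂ ≤ 2K² #G`.   (`n₁n₂ = 0` is impossible: `E = ∅`, `m ≤ 0`.) -/
theorem k7wd2_heavy {Ω : Type} [MeasurableSpace Ω] (μ : Measure Ω) {E : Set Ω} (hE : MeasurableSet E) {n1 n2 : ℕ} (vx : Ω → ℤ × ℤ) (hvx : KsLab vx)
    (hrange : ∀ p ∈ E, 0 ≤ (vx p).1 ∧ (vx p).1 < n1 ∧ 0 ≤ (vx p).2 ∧ (vx p).2 < n2) {K : ℝ} {m : ℝ≥0∞} (hK : 1 ≤ K) (hm0 : m ≠ 0) (hmT : m ≠ ⊤)
    (hcap : ∀ x, ((n1 : ℝ≥0∞) * n2) * μ (E ∩ vx ⁻¹' {x}) ≤ ENNReal.ofReal K * m) (hmass : m ≤ ENNReal.ofReal K * μ E) :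
    ∃ G : Finset (Fin n1 × Fin n2), (n1 : ℝ) * n2 ≤ 2 * K ^ 2 * G.card ∧
      ∀ x ∈ G, m ≤ ENNReal.ofReal (2 * K) * ((n1 : ℝ≥0∞) * n2) * μ (E ∩ vx ⁻¹' {(((x.1 : ℕ) : ℤ), ((x.2 : ℕ) : ℤ))}) := by
  classical
  have hK0 : 0 < K := lt_of_lt_of_le one_pos hK
  obtain ⟨cell, hcell⟩ : ∃ cell : Fin n1 × Fin n2 → Set Ω, cell = fun x => E ∩ vx ⁻¹' {(((x.1 : ℕ) : ℤ), ((x.2 : ℕ) : ℤ))} := ⟨_, rfl⟩
  obtain ⟨Nn, hNn⟩ : ∃ Nn : ℝ≥0∞, Nn = (n1 : ℝ≥0∞) * n2 := ⟨_, rfl⟩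
  have hNnT : Nn ≠ ⊤ := by
    rw [hNn]
    exact ENNReal.mul_ne_top (ENNReal.natCast_ne_top _) (ENNReal.natCast_ne_top _)
  obtain ⟨G, hG⟩ : ∃ G : Finset (Fin n1 × Fin n2), G = Finset.univ.filter (fun x => m ≤ ENNReal.ofReal (2 * K) * Nn * μ (cell x)) := ⟨_, rfl⟩
  refine ⟨G, ?_, fun x hx => ?_⟩
  swap
  · rw [hG] at hx
    have := (Finset.mem_filter.1 hx).2
    rwa [hNn, hcell] at this
  have hcov : E ⊆ ⋃ x, cell x := fun p hp => by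
    obtain ⟨a1, a2, a3, a4⟩ := hrange p hp
    rw [Set.mem_iUnion]
    refine ⟨(⟨(vx p).1.toNat, by omega⟩, ⟨(vx p).2.toNat, by omega⟩), ?_⟩
    rw [hcell]
    refine ⟨hp, ?_⟩
    show vx p = _
    refine Prod.ext ?_ ?_
    · exact (Int.toNat_of_nonneg a1).symm
    · exact (Int.toNat_of_nonneg a3).symm
  have hμE : μ E ≤ ∑ x, μ (cell x) := (measure_mono hcov).trans (measure_iUnion_fintype_le _ _)
  have h1 : ∀ x, ENNReal.ofReal (2 * K) * Nn * μ (cell x) ≤ (if x ∈ G then ENNReal.ofReal (2 * K ^ 2) * m else 0) + m := fun x => by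
    split_ifs with hx
    · refine le_trans ?_ le_self_add
      have := hcap (((x.1 : ℕ) : ℤ), ((x.2 : ℕ) : ℤ))
      calc ENNReal.ofReal (2 * K) * Nn * μ (cell x) = ENNReal.ofReal (2 * K) * (Nn * μ (cell x)) := mul_assoc _ _ _
        _ ≤ ENNReal.ofReal (2 * K) * (ENNReal.ofReal K * m) := by
            refine mul_le_mul' le_rfl ?_
            rw [hNn, hcell]
            exact this
        _ = ENNReal.ofReal (2 * K ^ 2) * m := by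
            rw [← mul_assoc, ← ENNReal.ofReal_mul (by positivity)]
            congr 2
            ring
    · rw [zero_add]
      rw [hG, Finset.mem_filter, not_and, not_le] at hx
      exact (hx (Finset.mem_univ _)).le
  have h2 : ENNReal.ofReal (2 * K) * Nn * μ E ≤ (G.card : ℝ≥0∞) * (ENNReal.ofReal (2 * K ^ 2) * m) + Nn * m := by
    calc ENNReal.ofReal (2 * K) * Nn * μ E ≤ ENNReal.ofReal (2 * K) * Nn * ∑ x, μ (cell x) := mul_le_mul' le_rfl hμE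
      _ = ∑ x, ENNReal.ofReal (2 * K) * Nn * μ (cell x) := Finset.mul_sum _ _ _
      _ ≤ ∑ x, ((if x ∈ G then ENNReal.ofReal (2 * K ^ 2) * m else 0) + m) := Finset.sum_le_sum fun x _ => h1 x
      _ = (G.card : ℝ≥0∞) * (ENNReal.ofReal (2 * K ^ 2) * m) + Nn * m := by
          rw [Finset.sum_add_distrib, Finset.sum_ite_mem, Finset.univ_inter, Finset.sum_const, Finset.sum_const, nsmul_eq_mul, nsmul_eq_mul,
            Finset.card_univ, Fintype.card_prod, Fintype.card_fin, Fintype.card_fin, hNn]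
          push_cast
          rfl
  have h3 : Nn * m + Nn * m ≤ ENNReal.ofReal (2 * K) * Nn * μ E := by
    calc Nn * m + Nn * m = 2 * Nn * m := by ring
      _ ≤ 2 * Nn * (ENNReal.ofReal K * μ E) := mul_le_mul' le_rfl hmass
      _ = ENNReal.ofReal (2 * K) * Nn * μ E := by
          rw [ENNReal.ofReal_mul (by norm_num), ENNReal.ofReal_ofNat]
          ring
  have h4 : Nn * m ≤ (G.card : ℝ≥0∞) * (ENNReal.ofReal (2 * K ^ 2) * m) :=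
    (ENNReal.add_le_add_iff_right (ENNReal.mul_ne_top hNnT hmT)).1 (h3.trans h2)
  have h5 : m * Nn ≤ m * ((G.card : ℝ≥0∞) * ENNReal.ofReal (2 * K ^ 2)) := by
    calc m * Nn = Nn * m := mul_comm _ _
      _ ≤ _ := h4
      _ = _ := by ring
  have h6 := (ENNReal.mul_le_mul_iff_right hm0 hmT).1 h5
  rw [hNn, ← ENNReal.ofReal_natCast, ← ENNReal.ofReal_natCast (n := n2), ← ENNReal.ofReal_natCast (n := G.card), ← ENNReal.ofReal_mul (Nat.cast_nonneg _),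
    ← ENNReal.ofReal_mul (Nat.cast_nonneg _), ENNReal.ofReal_le_ofReal_iff (by positivity)] at h6
  linarith

/-- **L-252-S7wd2-SP** (~120 l.).  `#I ≥ n/c ≥ 2`; `i_max - i_min ≥ #I - 1 ≥ n/(2c)`; `|α₁| (i_max - i_min) ≤ 2 A₁`; `|α₀| ≤ A₁ + |α₁| i_min`. -/
theorem k7wd2_spread {n : ℕ} (I : Finset (Fin n)) {c A1 α0 α1 : ℝ} (hc : 1 ≤ c) (hn : 2 * c ≤ n) (hI : (n : ℝ) ≤ c * I.card)
    (hb : ∀ i ∈ I, |α0 + α1 * ((i : ℕ) : ℝ)| ≤ A1) : |α1| * n ≤ 4 * c * A1 ∧ |α0| ≤ (1 + 4 * c) * A1 := by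
  classical
  have hc0 : 0 < c := lt_of_lt_of_le one_pos hc
  have hcard2 : (2 : ℝ) ≤ I.card := by
    have : 2 * c ≤ c * I.card := hn.trans hI
    nlinarith
  have hne : I.Nonempty := by
    rw [← Finset.card_pos]
    have : (0 : ℝ) < I.card := by linarith
    exact_mod_cast this
  obtain ⟨J, hJ⟩ : ∃ J : Finset ℕ, J = I.image (fun i : Fin n => (i : ℕ)) := ⟨_, rfl⟩
  have hJc : J.card = I.card := by
    rw [hJ]
    exact Finset.card_image_of_injective _ Fin.val_injective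
  have hJne : J.Nonempty := by
    rw [hJ]
    exact hne.image _
  have hJb : ∀ k ∈ J, |α0 + α1 * (k : ℝ)| ≤ A1 ∧ k < n := by
    intro k hk
    rw [hJ, Finset.mem_image] at hk
    obtain ⟨i, hi, rfl⟩ := hk
    exact ⟨hb i hi, i.2⟩
  obtain ⟨lo, hlo⟩ : ∃ lo, lo = J.min' hJne := ⟨_, rfl⟩
  obtain ⟨hi, hhi⟩ : ∃ hi, hi = J.max' hJne := ⟨_, rfl⟩
  have hlo_mem : lo ∈ J := hlo ▸ J.min'_mem hJne
  have hhi_mem : hi ∈ J := hhi ▸ J.max'_mem hJne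
  have hsub : J ⊆ Finset.Icc lo hi := fun k hk => Finset.mem_Icc.2 ⟨hlo ▸ J.min'_le k hk, hhi ▸ J.le_max' k hk⟩
  have hle : lo ≤ hi := hlo ▸ hhi ▸ (J.min'_le _ (J.max'_mem hJne))
  have hcd : J.card ≤ hi + 1 - lo := by
    have := Finset.card_le_card hsub
    rwa [Nat.card_Icc] at this
  have hcd' : (I.card : ℝ) ≤ (hi : ℝ) - lo + 1 := by
    rw [← hJc]
    have h1 : ((hi + 1 - lo : ℕ) : ℝ) = (hi : ℝ) - lo + 1 := by
      rw [Nat.cast_sub (by omega)]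
      push_cast
      ring
    rw [← h1]
    exact_mod_cast hcd
  obtain ⟨b1, l1⟩ := hJb lo hlo_mem
  obtain ⟨b2, l2⟩ := hJb hi hhi_mem
  have hgap : (n : ℝ) ≤ 2 * c * ((hi : ℝ) - lo) := by
    have h1 : (I.card : ℝ) ≤ 2 * ((hi : ℝ) - lo) := by linarith
    calc (n : ℝ) ≤ c * I.card := hI
      _ ≤ c * (2 * ((hi : ℝ) - lo)) := mul_le_mul_of_nonneg_left h1 hc0.le
      _ = _ := by ring
  have hd : |α1| * ((hi : ℝ) - lo) ≤ 2 * A1 := by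
    have hnn : (0 : ℝ) ≤ (hi : ℝ) - lo := by
      have : (lo : ℝ) ≤ hi := by exact_mod_cast hle
      linarith
    rw [← abs_of_nonneg hnn, ← abs_mul]
    have e : α1 * ((hi : ℝ) - lo) = (α0 + α1 * hi) - (α0 + α1 * lo) := by ring
    rw [e]
    exact (abs_sub _ _).trans (by linarith)
  have hA : |α1| * n ≤ 4 * c * A1 := by
    calc |α1| * n ≤ |α1| * (2 * c * ((hi : ℝ) - lo)) := mul_le_mul_of_nonneg_left hgap (abs_nonneg _)
      _ = 2 * c * (|α1| * ((hi : ℝ) - lo)) := by ring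
      _ ≤ 2 * c * (2 * A1) := mul_le_mul_of_nonneg_left hd (by positivity)
      _ = 4 * c * A1 := by ring
  refine ⟨hA, ?_⟩
  have e : α0 = (α0 + α1 * lo) - α1 * lo := by ring
  rw [e]
  refine (abs_sub _ _).trans ?_
  rw [abs_mul, abs_of_nonneg (Nat.cast_nonneg lo : (0 : ℝ) ≤ lo)]
  have : |α1| * (lo : ℝ) ≤ |α1| * n := mul_le_mul_of_nonneg_left (by exact_mod_cast l1.le) (abs_nonneg _)
  linarith

theorem k7wd2_grid_alg {K M n1 n2 J1 J2 a1 b1 a2 b2 : ℝ} (hK : 1 ≤ K) (hM : 0 ≤ M) (hn1 : 0 < n1) (hn2 : 0 < n2) (hJ1 : 0 ≤ J1) (hJ1' : J1 ≤ n2)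
    (hJ2 : 0 ≤ J2) (hJ2' : J2 ≤ n2) (hsep : n2 ≤ 64 * K ^ 6 * |J2 - J1|)
    (ha1 : |a1| ≤ 129 * K ^ 8 * M) (ha2 : |a2| ≤ 129 * K ^ 8 * M) (hb1 : |b1| * n1 ≤ 128 * K ^ 8 * M) (hb2 : |b2| * n1 ≤ 128 * K ^ 8 * M) :
    |(J2 * a1 - J1 * a2) / (J2 - J1)| ≤ 20000 * K ^ 14 * M ∧ |(J2 * b1 - J1 * b2) / (J2 - J1)| * n1 ≤ 20000 * K ^ 14 * M ∧
    |(a2 - a1) / (J2 - J1)| * n2 ≤ 20000 * K ^ 14 * M ∧ |(b2 - b1) / (J2 - J1)| * (n1 * n2) ≤ 20000 * K ^ 14 * M := by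
  have hK0 : 0 < K := by linarith
  have hδ : 0 < |J2 - J1| := by
    by_contra h
    have h0 : |J2 - J1| = 0 := le_antisymm (not_lt.1 h) (abs_nonneg _)
    rw [h0, mul_zero] at hsep
    linarith
  obtain ⟨δ, hδdef⟩ : ∃ δ, δ = |J2 - J1| := ⟨_, rfl⟩
  rw [← hδdef] at hδ hsep
  have hKM : 0 ≤ K ^ 8 * M := by positivity
  have key : ∀ x c : ℝ, 0 ≤ c → c ≤ 258 → x ≤ n2 * (c * (K ^ 8 * M)) → x ≤ 20000 * K ^ 14 * M * δ := by
    intro x c hc0 hc hx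
    calc x ≤ n2 * (c * (K ^ 8 * M)) := hx
      _ ≤ (64 * K ^ 6 * δ) * (258 * (K ^ 8 * M)) := by gcongr
      _ = 16512 * (K ^ 14 * M * δ) := by ring
      _ ≤ 20000 * (K ^ 14 * M * δ) := by gcongr; norm_num
      _ = 20000 * K ^ 14 * M * δ := by ring
  have tri : ∀ x y : ℝ, |J2 * x - J1 * y| ≤ n2 * (|x| + |y|) := by
    intro x y
    calc |J2 * x - J1 * y| ≤ |J2 * x| + |J1 * y| := abs_sub _ _
      _ = J2 * |x| + J1 * |y| := by rw [abs_mul, abs_mul, abs_of_nonneg hJ1, abs_of_nonneg hJ2]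
      _ ≤ n2 * |x| + n2 * |y| := by gcongr
      _ = n2 * (|x| + |y|) := by ring
  refine ⟨?_, ?_, ?_, ?_⟩
  · rw [abs_div, ← hδdef, div_le_iff₀ hδ]
    refine key _ 258 (by norm_num) le_rfl ((tri a1 a2).trans ?_)
    gcongr
    linarith
  · rw [abs_div, ← hδdef, div_mul_eq_mul_div, div_le_iff₀ hδ]
    refine key _ 256 (by norm_num) (by norm_num) ?_
    calc |J2 * b1 - J1 * b2| * n1 ≤ n2 * (|b1| + |b2|) * n1 := by gcongr; exact tri b1 b2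
      _ = n2 * (|b1| * n1 + |b2| * n1) := by ring
      _ ≤ n2 * (256 * (K ^ 8 * M)) := by gcongr; linarith
  · rw [abs_div, ← hδdef, div_mul_eq_mul_div, div_le_iff₀ hδ]
    refine key _ 258 (by norm_num) le_rfl ?_
    calc |a2 - a1| * n2 ≤ (|a2| + |a1|) * n2 := by gcongr; exact abs_sub _ _
      _ = n2 * (|a2| + |a1|) := by ring
      _ ≤ n2 * (258 * (K ^ 8 * M)) := by gcongr; linarith
  · rw [abs_div, ← hδdef, div_mul_eq_mul_div, div_le_iff₀ hδ]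
    refine key _ 256 (by norm_num) (by norm_num) ?_
    calc |b2 - b1| * (n1 * n2) ≤ (|b2| + |b1|) * (n1 * n2) := by gcongr; exact abs_sub _ _
      _ = n2 * (|b2| * n1 + |b1| * n1) := by ring
      _ ≤ n2 * (256 * (K ^ 8 * M)) := by gcongr; linarith

/-- **L-252-S7wd2-GR** (~350 l.).  **The grid theorem.**
`G` from `k7wd2_heavy`.  `f x := ρ0 j + ρ1 j i` (`x = (i,j)`): the row fit is exact; a cell of `G` is non-empty (positive mass), so the column fit holds with `2e`.   `k7a_bilinear` with `K := 2K²`, `e := 2e` : `j₁, j₂, G' ⊆ G`, `#G ≤ 16 K⁶ #G'`,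
`n₂ ≤ 64 K⁶ |j₂ - j₁|`, error `640 K⁶ e`.    `E4 = E ∩ vx⁻¹ G'` : `μ E4 ≥ #G' m/(2K n₁n₂) ≥ m/(64 K⁹)`.
With `Δ = j₂ - j₁` : `A = (j₂ ρ0 j₁ - j₁ ρ0 j₂)/Δ`, `B = (j₂ ρ1 j₁ - j₁ ρ1 j₂)/Δ`, `C = (ρ0 j₂ - ρ0 j₁)/Δ`, `D = (ρ1 j₂ - ρ1 j₁)/Δ` (the interpolant is `A + B i + C j + D i j`).
BOUNDS: `I' = {i : (i, ·) ∈ G'}` has `#I' ≥ #G'/n₂ ≥ n₁/(32 K⁸)`; for `i ∈ I'`, `(i, j_k) ∈ G` is occupied: `|ρ0 j_k + ρ1 j_k i| ≤ A0 + e`; `k7wd2_spread` with `c = 32 K⁸` : `|ρ1 j_k| n₁ ≤ 128 K⁸ (A0+e)`, `|ρ0 j_k| ≤ 129 K⁸ (A0+e)`; `|j_k| ≤ n₂ ≤ 64 K⁶ |Δ|`.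
SECOND ENTRY: `C2 = r2 j₁`; for `p ∈ E4` in `(i,j)` take `p'` in the cell `(i, j₁) ∈ G` : `|f2 p - k2 i| ≤ e`, `|f2 p' - k2 i| ≤ e`, `|f2 p' - r2 j₁| ≤ e`. -/
theorem k7wd2_grid {Ω : Type} [MeasurableSpace Ω] (μ : Measure Ω) {E : Set Ω} (hE : MeasurableSet E) {n1 n2 : ℕ} (vx : Ω → ℤ × ℤ) (hvx : KsLab vx)
    (hrange : ∀ p ∈ E, 0 ≤ (vx p).1 ∧ (vx p).1 < n1 ∧ 0 ≤ (vx p).2 ∧ (vx p).2 < n2) (f1 f2 : Ω → ℝ) (ρ0 ρ1 r2 κ0 κ1 k2 : ℤ → ℝ) {K A0 e : ℝ} {m : ℝ≥0∞}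
    (hK : 1 ≤ K) (he : 0 ≤ e) (hm0 : m ≠ 0) (hmT : m ≠ ⊤) (hn1 : 64 * K ^ 8 ≤ n1) (hn2 : 64 * K ^ 6 ≤ n2)
    (hcap : ∀ x, ((n1 : ℝ≥0∞) * n2) * μ (E ∩ vx ⁻¹' {x}) ≤ ENNReal.ofReal K * m) (hmass : m ≤ ENNReal.ofReal K * μ E)
    (hrow : ∀ p ∈ E, |f1 p - (ρ0 (vx p).2 + ρ1 (vx p).2 * (vx p).1)| ≤ e ∧ |f2 p - r2 (vx p).2| ≤ e)
    (hcol : ∀ p ∈ E, |f1 p - (κ0 (vx p).1 + κ1 (vx p).1 * (vx p).2)| ≤ e ∧ |f2 p - k2 (vx p).1| ≤ e)
    (hbd : ∀ p ∈ E, |f1 p| ≤ A0 ∧ |f2 p| ≤ A0) :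
    ∃ (A B C D C2 : ℝ) (E4 : Set Ω), E4 ⊆ E ∧ MeasurableSet E4 ∧ m ≤ ENNReal.ofReal (64 * K ^ 9) * μ E4 ∧
      (∀ p ∈ E4, |f1 p - (A + B * (vx p).1 + C * (vx p).2 + D * (vx p).1 * (vx p).2)| ≤ 641 * K ^ 6 * e ∧ |f2 p - C2| ≤ 3 * e) ∧
      |A| ≤ 20000 * K ^ 14 * (A0 + e) ∧ |B| * n1 ≤ 20000 * K ^ 14 * (A0 + e) ∧ |C| * n2 ≤ 20000 * K ^ 14 * (A0 + e) ∧
      |D| * ((n1 : ℝ) * n2) ≤ 20000 * K ^ 14 * (A0 + e) ∧ |C2| ≤ A0 + e := by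
  classical
  obtain ⟨G, hGc, hGm⟩ := k7wd2_heavy μ hE vx hvx hrange hK hm0 hmT hcap hmass
  have hK0 : 0 < K := by linarith
  have hn1p : (0 : ℝ) < n1 := lt_of_lt_of_le (by positivity) hn1
  have hn2p : (0 : ℝ) < n2 := lt_of_lt_of_le (by positivity) hn2
  -- occupied cells
  have hocc : ∀ x ∈ G, ∃ p ∈ E, vx p = (((x.1 : ℕ) : ℤ), ((x.2 : ℕ) : ℤ)) := by
    intro x hx
    have h1 := hGm x hx
    have h2 : μ (E ∩ vx ⁻¹' {(((x.1 : ℕ) : ℤ), ((x.2 : ℕ) : ℤ))}) ≠ 0 := by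
      intro h0
      rw [h0, mul_zero] at h1
      exact hm0 (nonpos_iff_eq_zero.1 h1)
    obtain ⟨p, hp⟩ := nonempty_of_measure_ne_zero h2
    exact ⟨p, hp.1, hp.2⟩
  have hrow' : ∀ x ∈ G, ∀ p ∈ E, vx p = (((x.1 : ℕ) : ℤ), ((x.2 : ℕ) : ℤ)) →
      |f1 p - (ρ0 ((x.2 : ℕ) : ℤ) + ρ1 ((x.2 : ℕ) : ℤ) * ((x.1 : ℕ) : ℝ))| ≤ e ∧ |f2 p - r2 ((x.2 : ℕ) : ℤ)| ≤ e := by
    intro x _ p hp hv
    have h := hrow p hp
    rw [hv] at h
    simpa using h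
  have hcol' : ∀ x ∈ G, ∀ p ∈ E, vx p = (((x.1 : ℕ) : ℤ), ((x.2 : ℕ) : ℤ)) →
      |f1 p - (κ0 ((x.1 : ℕ) : ℤ) + κ1 ((x.1 : ℕ) : ℤ) * ((x.2 : ℕ) : ℝ))| ≤ e ∧ |f2 p - k2 ((x.1 : ℕ) : ℤ)| ≤ e := by
    intro x _ p hp hv
    have h := hcol p hp
    rw [hv] at h
    simpa using h
  obtain ⟨j1, j2, G', hG'G, hcard, hsep, hfit⟩ := k7a_bilinear G (fun x => ρ0 ((x.2 : ℕ) : ℤ) + ρ1 ((x.2 : ℕ) : ℤ) * ((x.1 : ℕ) : ℝ))
    (fun j => ρ0 ((j : ℕ) : ℤ)) (fun j => ρ1 ((j : ℕ) : ℤ)) (fun i => κ0 ((i : ℕ) : ℤ)) (fun i => κ1 ((i : ℕ) : ℤ))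
    (K := 2 * K ^ 2) (e := 2 * e) (by nlinarith) (by positivity) (by linarith [show 8 * (2 * K ^ 2) ^ 3 = 64 * K ^ 6 by ring]) hGc
    (fun x _ => by
      simp only [sub_self, abs_zero]
      positivity)
    (fun x hx => by
      obtain ⟨p, hp, hv⟩ := hocc x hx
      have h1 := abs_le.1 (hrow' x hx p hp hv).1
      have h2 := abs_le.1 (hcol' x hx p hp hv).1
      exact abs_le.2 ⟨by linarith, by linarith⟩)
  have hcard' : (G.card : ℝ) ≤ 16 * K ^ 6 * G'.card := by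
    calc (G.card : ℝ) ≤ 2 * (2 * K ^ 2) ^ 3 * G'.card := hcard
      _ = 16 * K ^ 6 * G'.card := by ring
  have hsep' : (n2 : ℝ) ≤ 64 * K ^ 6 * |((j2 : ℕ) : ℝ) - (j1 : ℕ)| := by
    calc (n2 : ℝ) ≤ 8 * (2 * K ^ 2) ^ 3 * |((j2 : ℕ) : ℝ) - (j1 : ℕ)| := hsep
      _ = 64 * K ^ 6 * |((j2 : ℕ) : ℝ) - (j1 : ℕ)| := by ring
  have hnn : (n1 : ℝ) * n2 ≤ 32 * K ^ 8 * G'.card := by
    calc (n1 : ℝ) * n2 ≤ 2 * K ^ 2 * G.card := hGc
      _ ≤ 2 * K ^ 2 * (16 * K ^ 6 * G'.card) := by gcongr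
      _ = 32 * K ^ 8 * G'.card := by ring
  have hG'ne : G'.Nonempty := by
    rcases G'.eq_empty_or_nonempty with h0 | h
    · rw [h0, Finset.card_empty, Nat.cast_zero, mul_zero] at hnn
      exact absurd hnn (not_le.2 (by positivity))
    · exact h
  have hΔ : ((j2 : ℕ) : ℝ) - (j1 : ℕ) ≠ 0 := by
    intro h0
    rw [h0, abs_zero, mul_zero] at hsep'
    linarith
  -- the selection
  obtain ⟨cell, hcell⟩ : ∃ cell : Fin n1 × Fin n2 → ℤ × ℤ, cell = fun x => (((x.1 : ℕ) : ℤ), ((x.2 : ℕ) : ℤ)) := ⟨_, rfl⟩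
  have hcinj : Function.Injective cell := by
    intro x y hxy
    rw [hcell] at hxy
    simp only [Prod.mk.injEq, Nat.cast_inj] at hxy
    exact Prod.ext (Fin.ext hxy.1) (Fin.ext hxy.2)
  have hmc : ∀ x, MeasurableSet (E ∩ vx ⁻¹' {cell x}) := fun x => hE.inter (hvx _)
  have hE4m : MeasurableSet (⋃ x ∈ G', E ∩ vx ⁻¹' {cell x}) := Finset.measurableSet_biUnion _ fun x _ => hmc x
  have hE4μ : μ (⋃ x ∈ G', E ∩ vx ⁻¹' {cell x}) = ∑ x ∈ G', μ (E ∩ vx ⁻¹' {cell x}) := by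
    refine measure_biUnion_finset ?_ fun x _ => hmc x
    intro x _ y _ hxy
    refine Set.disjoint_left.2 fun p hp hp' => hxy (hcinj ?_)
    have h1 : vx p = cell x := hp.2
    have h2 : vx p = cell y := hp'.2
    rw [← h1, h2]
  have hmem4 : ∀ p ∈ (⋃ x ∈ G', E ∩ vx ⁻¹' {cell x}), ∃ x ∈ G', p ∈ E ∧ vx p = (((x.1 : ℕ) : ℤ), ((x.2 : ℕ) : ℤ)) := by
    intro p hp
    simp only [Set.mem_iUnion, exists_prop] at hp
    obtain ⟨x, hx, hpE, hpx⟩ := hp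
    refine ⟨x, hx, hpE, ?_⟩
    have : vx p = cell x := hpx
    rw [this, hcell]
  have hmass4 : m ≤ ENNReal.ofReal (64 * K ^ 9) * μ (⋃ x ∈ G', E ∩ vx ⁻¹' {cell x}) := by
    have h1 : (G'.card : ℝ≥0∞) * m ≤ ENNReal.ofReal (2 * K) * ((n1 : ℝ≥0∞) * n2) * μ (⋃ x ∈ G', E ∩ vx ⁻¹' {cell x}) := by
      rw [hE4μ, Finset.mul_sum, ← nsmul_eq_mul, ← Finset.sum_const]
      refine Finset.sum_le_sum fun x hx => ?_
      have := hGm x (hG'G hx)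
      rw [hcell]
      exact this
    have h2 : (n1 : ℝ≥0∞) * n2 ≤ ENNReal.ofReal (32 * K ^ 8) * G'.card := by
      have := ENNReal.ofReal_le_ofReal hnn
      rwa [ENNReal.ofReal_mul (by positivity), ENNReal.ofReal_natCast, ENNReal.ofReal_natCast, ENNReal.ofReal_mul (by positivity),
        ENNReal.ofReal_natCast] at this
    have h0 : (n1 : ℝ≥0∞) * n2 ≠ 0 := by
      have a1 : (n1 : ℝ≥0∞) ≠ 0 := by
        rw [Nat.cast_ne_zero]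
        intro h
        rw [h] at hn1p
        simp at hn1p
      have a2 : (n2 : ℝ≥0∞) ≠ 0 := by
        rw [Nat.cast_ne_zero]
        intro h
        rw [h] at hn2p
        simp at hn2p
      exact mul_ne_zero a1 a2
    have hT : (n1 : ℝ≥0∞) * n2 ≠ ⊤ := ENNReal.mul_ne_top (ENNReal.natCast_ne_top _) (ENNReal.natCast_ne_top _)
    refine (ENNReal.mul_le_mul_iff_right h0 hT).1 ?_
    calc (n1 : ℝ≥0∞) * n2 * m ≤ ENNReal.ofReal (32 * K ^ 8) * G'.card * m := by gcongr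
      _ = ENNReal.ofReal (32 * K ^ 8) * (G'.card * m) := by ring
      _ ≤ ENNReal.ofReal (32 * K ^ 8) * (ENNReal.ofReal (2 * K) * ((n1 : ℝ≥0∞) * n2) * μ (⋃ x ∈ G', E ∩ vx ⁻¹' {cell x})) := by gcongr
      _ = (n1 : ℝ≥0∞) * n2 * (ENNReal.ofReal (32 * K ^ 8) * ENNReal.ofReal (2 * K) * μ (⋃ x ∈ G', E ∩ vx ⁻¹' {cell x})) := by ring
      _ = (n1 : ℝ≥0∞) * n2 * (ENNReal.ofReal (64 * K ^ 9) * μ (⋃ x ∈ G', E ∩ vx ⁻¹' {cell x})) := by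
          rw [← ENNReal.ofReal_mul (by positivity)]
          congr 3
          ring
  -- `A0 + e ≥ 0`
  obtain ⟨x₀, hx₀⟩ := hG'ne
  obtain ⟨p₀, hp₀, hv₀⟩ := hocc _ (hfit x₀ hx₀).1
  have hA0 : 0 ≤ A0 := (abs_nonneg _).trans (hbd p₀ hp₀).1
  have hM : 0 ≤ A0 + e := by positivity
  -- the columns of `G'`
  have hI : (n1 : ℝ) ≤ 32 * K ^ 8 * (G'.image Prod.fst).card := by
    have h1 : G'.card ≤ (G'.image Prod.fst).card * n2 := by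
      have hsub : G' ⊆ (G'.image Prod.fst) ×ˢ (Finset.univ : Finset (Fin n2)) := by
        intro x hx
        rw [Finset.mem_product]
        exact ⟨Finset.mem_image_of_mem _ hx, Finset.mem_univ _⟩
      have := Finset.card_le_card hsub
      rwa [Finset.card_product, Finset.card_univ, Fintype.card_fin] at this
    have h2 : (G'.card : ℝ) ≤ (G'.image Prod.fst).card * n2 := by exact_mod_cast h1
    have h3 : (n1 : ℝ) * n2 ≤ (32 * K ^ 8 * (G'.image Prod.fst).card) * n2 := by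
      calc (n1 : ℝ) * n2 ≤ 32 * K ^ 8 * G'.card := hnn
        _ ≤ 32 * K ^ 8 * ((G'.image Prod.fst).card * n2) := by gcongr
        _ = _ := by ring
    exact le_of_mul_le_mul_right h3 hn2p
  have hK8 : 1 ≤ K ^ 8 := one_le_pow₀ hK
  have hsp : ∀ j : Fin n2, (∀ x ∈ G', (x.1, j) ∈ G) →
      |ρ0 ((j : ℕ) : ℤ)| ≤ 129 * K ^ 8 * (A0 + e) ∧ |ρ1 ((j : ℕ) : ℤ)| * n1 ≤ 128 * K ^ 8 * (A0 + e) := by
    intro j hj
    obtain ⟨s1, s2⟩ := k7wd2_spread (G'.image Prod.fst) (c := 32 * K ^ 8) (A1 := A0 + e) (α0 := ρ0 ((j : ℕ) : ℤ)) (α1 := ρ1 ((j : ℕ) : ℤ))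
      (by linarith) (by linarith) hI (fun i hi => by
        obtain ⟨x, hx, rfl⟩ := Finset.mem_image.1 hi
        obtain ⟨p, hp, hv⟩ := hocc _ (hj x hx)
        have h1 := abs_le.1 (hrow' _ (hj x hx) p hp hv).1
        have h2 := abs_le.1 (hbd p hp).1
        exact abs_le.2 ⟨by linarith, by linarith⟩)
    refine ⟨s2.trans ?_, s1.trans (le_of_eq (by ring))⟩
    gcongr
    linarith
  obtain ⟨ha1, hb1⟩ := hsp j1 fun x hx => (hfit x hx).1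
  obtain ⟨ha2, hb2⟩ := hsp j2 fun x hx => (hfit x hx).2.1
  obtain ⟨bA, bB, bC, bD⟩ := k7wd2_grid_alg hK hM hn1p hn2p (Nat.cast_nonneg (j1 : ℕ)) (by exact_mod_cast j1.2.le) (Nat.cast_nonneg (j2 : ℕ))
    (by exact_mod_cast j2.2.le) hsep' ha1 ha2 hb1 hb2
  refine ⟨_, _, _, _, r2 ((j1 : ℕ) : ℤ), ⋃ x ∈ G', E ∩ vx ⁻¹' {cell x}, ?_, hE4m, hmass4, ?_, bA, bB, bC, bD, ?_⟩
  · intro p hp
    obtain ⟨x, _, hpE, _⟩ := hmem4 p hp
    exact hpE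
  · intro p hp
    obtain ⟨x, hx, hpE, hv⟩ := hmem4 p hp
    obtain ⟨g1, _, g3⟩ := hfit x hx
    constructor
    · have h1 := abs_le.1 (hrow' x (hG'G hx) p hpE hv).1
      have e1 : (((j2 : ℕ) : ℝ) * ρ0 ((j1 : ℕ) : ℤ) - ((j1 : ℕ) : ℝ) * ρ0 ((j2 : ℕ) : ℤ)) / (((j2 : ℕ) : ℝ) - (j1 : ℕ))
          + (((j2 : ℕ) : ℝ) * ρ1 ((j1 : ℕ) : ℤ) - ((j1 : ℕ) : ℝ) * ρ1 ((j2 : ℕ) : ℤ)) / (((j2 : ℕ) : ℝ) - (j1 : ℕ)) * ((vx p).1 : ℝ)
          + (ρ0 ((j2 : ℕ) : ℤ) - ρ0 ((j1 : ℕ) : ℤ)) / (((j2 : ℕ) : ℝ) - (j1 : ℕ)) * ((vx p).2 : ℝ)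
          + (ρ1 ((j2 : ℕ) : ℤ) - ρ1 ((j1 : ℕ) : ℤ)) / (((j2 : ℕ) : ℝ) - (j1 : ℕ)) * ((vx p).1 : ℝ) * ((vx p).2 : ℝ)
          = ((((j2 : ℕ) : ℝ) - (x.2 : ℕ)) * (ρ0 ((j1 : ℕ) : ℤ) + ρ1 ((j1 : ℕ) : ℤ) * (x.1 : ℕ))
            + (((x.2 : ℕ) : ℝ) - (j1 : ℕ)) * (ρ0 ((j2 : ℕ) : ℤ) + ρ1 ((j2 : ℕ) : ℤ) * (x.1 : ℕ))) / (((j2 : ℕ) : ℝ) - (j1 : ℕ)) := by
        rw [hv]
        simp only [Int.cast_natCast]
        field_simp
        ring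
      rw [e1]
      have h2 := abs_le.1 g3
      have hK6 : 1 ≤ K ^ 6 := one_le_pow₀ hK
      have e2 : 40 * (2 * K ^ 2) ^ 3 * (2 * e) = 640 * K ^ 6 * e := by ring
      rw [e2] at h2
      have h3 : e ≤ K ^ 6 * e := le_mul_of_one_le_left he hK6
      exact abs_le.2 ⟨by linarith, by linarith⟩
    · obtain ⟨p', hp', hv'⟩ := hocc _ g1
      have h1 := abs_le.1 (hcol' x (hG'G hx) p hpE hv).2
      have h2 := abs_le.1 (hcol' _ g1 p' hp' hv').2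
      have h3 := abs_le.1 (hrow' _ g1 p' hp' hv').2
      exact abs_le.2 ⟨by linarith, by linarith⟩
  · have h1 := abs_le.1 (hrow' _ (hfit x₀ hx₀).1 p₀ hp₀ hv₀).2
    have h2 := abs_le.1 (hbd p₀ hp₀).2
    exact abs_le.2 ⟨by linarith, by linarith⟩

/-! ## 2. Geometry of the oblique grid -/

/-- **L-252-S7wd2-X** (the next three statements, ~150 l.): `field_simp; ring` -/
theorem k7wd2_xi_inv (W : K7aW) (Q : W.Q) {v1 v2 : ℝ} (hv : v1 ≠ v2) (hq : W.q ≠ 0) (t Z : ℝ) :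
    t - W.tQ Q = W.q * (k7wdXi W Q v1 v2 t Z + k7wdXi W Q v2 v1 t Z) ∧
      Z - W.Zc Q = W.q * (v1 * k7wdXi W Q v1 v2 t Z + v2 * k7wdXi W Q v2 v1 t Z) := by
  have h1 : v1 - v2 ≠ 0 := sub_ne_zero.2 hv
  have h2 : v2 - v1 ≠ 0 := sub_ne_zero.2 hv.symm
  have e2 : k7wdXi W Q v2 v1 t Z = -(((Z - W.Zc Q) - v1 * (t - W.tQ Q)) / (W.q * (v1 - v2))) := by
    unfold k7wdXi
    rw [← neg_sub v1 v2, mul_neg, div_neg]
  rw [e2]
  unfold k7wdXi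
  constructor
  · field_simp
    ring
  · field_simp
    ring

/-- `|(Z - Zc) - vb (t - t_Q)| ≤ K h + K q ≤ 2 K² q` (`q_lo`) -/
theorem k7wd2_xi_bd (W : K7aW) {N K d S a h g : ℝ} {Ms Ws : Finset ℝ} (hW : W.Ok N K d S a h g Ms Ws) (hK : 1 ≤ K) {Q : W.Q} (hQ : Q ∈ W.Qa) {va vb r t Z : ℝ}
    (hr : 0 < r) (hsep : r ≤ |va - vb|) (hvb : |vb| ≤ K) (ht : t ∈ W.blk Q) (hZ : |Z - W.Zc Q| ≤ K * h) : |k7wdXi W Q va vb t Z| ≤ 2 * K ^ 2 / r := by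
  have hq : 0 < W.q := by
    unfold K7aW.q
    positivity
  have hK0 : 0 < K := lt_of_lt_of_le one_pos hK
  have ht1 : |t - W.tQ Q| ≤ W.q := by
    unfold K7aW.blk at ht
    unfold K7aW.tQ
    obtain ⟨h1, h2⟩ := ht
    rw [abs_le]
    constructor <;> linarith
  have h1 : |vb * (t - W.tQ Q)| ≤ K * W.q := by
    rw [abs_mul]
    exact mul_le_mul hvb ht1 (abs_nonneg _) hK0.le
  have h2 : K * h ≤ K * (K * W.q) := mul_le_mul_of_nonneg_left hW.q_lo hK0.le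
  have h3 : |(Z - W.Zc Q) - vb * (t - W.tQ Q)| ≤ 2 * K ^ 2 * W.q := by
    refine (abs_sub _ _).trans ?_
    have : K * W.q ≤ K ^ 2 * W.q := mul_le_mul_of_nonneg_right (by nlinarith) hq.le
    nlinarith
  unfold k7wdXi
  rw [abs_div, abs_mul, abs_of_pos hq, div_le_div_iff₀ (mul_pos hq (lt_of_lt_of_le hr hsep)) hr]
  calc |(Z - W.Zc Q) - vb * (t - W.tQ Q)| * r ≤ 2 * K ^ 2 * W.q * |va - vb| := mul_le_mul h3 hsep hr.le (by positivity)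
    _ = 2 * K ^ 2 * (W.q * |va - vb|) := by ring

/-- along a line of velocity `v`, in the normalised time `T = (t - t_Q)/q` -/
theorem k7wd2_xi_line (W : K7aW) (Q : W.Q) {va vb : ℝ} (hv : va ≠ vb) (hq : W.q ≠ 0) (l : W.L) (T : ℝ) :
    k7wdXi W Q va vb (W.tQ Q + W.q * T) (W.Z l (W.tQ Q + W.q * T)) = k7wdXi W Q va vb (W.tQ Q) (W.Z l (W.tQ Q)) + (W.v l - vb) / (va - vb) * T := by
  have h1 : va - vb ≠ 0 := sub_ne_zero.2 hv
  unfold k7wdXi K7aLn.Z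
  field_simp
  ring

/-- one step of Tonelli: the first coordinate lies in an interval, all sections are small -/
theorem k7wd2_vol_step {α : Type} [MeasurableSpace α] (ν : Measure α) [SFinite ν] {U : Set (ℝ × α)} (hU : MeasurableSet U) (c L : ℝ) (B : ℝ≥0∞)
    (h1 : ∀ x ∈ U, |x.1 - c| ≤ L) (h2 : ∀ t, ν (Prod.mk t ⁻¹' U) ≤ B) : ((volume : Measure ℝ).prod ν) U ≤ ENNReal.ofReal (2 * L) * B := by
  rw [Measure.prod_apply hU]
  calc ∫⁻ t, ν (Prod.mk t ⁻¹' U) ≤ ∫⁻ t, (Set.Icc (c - L) (c + L)).indicator (fun _ => B) t := by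
        refine lintegral_mono fun t => ?_
        by_cases ht : t ∈ Set.Icc (c - L) (c + L)
        · rw [Set.indicator_of_mem ht]
          exact h2 t
        · rw [Set.indicator_of_notMem ht]
          have : Prod.mk t ⁻¹' U = ∅ := by
            rw [Set.eq_empty_iff_forall_notMem]
            intro a ha
            have := abs_le.1 (h1 (t, a) ha)
            exact ht ⟨by linarith [this.1], by linarith [this.2]⟩
          rw [this, measure_empty]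
    _ = B * volume (Set.Icc (c - L) (c + L)) := lintegral_indicator_const measurableSet_Icc _
    _ = ENNReal.ofReal (2 * L) * B := by
        rw [Real.volume_Icc, mul_comm]
        congr 2
        ring

/-- **L-252-S7wd2-V3** (~150 l.).  Tonelli twice (`Measure.prod_apply`, `volume = volume.prod (volume.prod volume)`); every section is contained in an interval.  No measurability of `cz`, `cy` is needed. -/
theorem k7wd2_vol3 {U : Set (ℝ × ℝ × ℝ)} (hU : MeasurableSet U) {t0 L1 L2 L3 : ℝ} (hL1 : 0 ≤ L1) (hL2 : 0 ≤ L2) (hL3 : 0 ≤ L3) (cz : ℝ → ℝ) (cy : ℝ → ℝ → ℝ)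
    (h : ∀ x ∈ U, |x.1 - t0| ≤ L1 ∧ |x.2.1 - cz x.1| ≤ L2 ∧ |x.2.2 - cy x.1 x.2.1| ≤ L3) : volume U ≤ ENNReal.ofReal (8 * L1 * L2 * L3) := by
  have hin : ∀ t, ((volume : Measure ℝ).prod (volume : Measure ℝ)) (Prod.mk t ⁻¹' U) ≤ ENNReal.ofReal (2 * L2) * ENNReal.ofReal (2 * L3) := by
    intro t
    refine k7wd2_vol_step volume (measurable_prodMk_left hU) (cz t) L2 _ (fun x hx => (h (t, x) hx).2.1) ?_
    intro z
    have hsub : Prod.mk z ⁻¹' (Prod.mk t ⁻¹' U) ⊆ Set.Icc (cy t z - L3) (cy t z + L3) := by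
      intro y hy
      have := abs_le.1 (h (t, z, y) hy).2.2
      exact ⟨by linarith [this.1], by linarith [this.2]⟩
    refine (measure_mono hsub).trans ?_
    rw [Real.volume_Icc]
    exact ENNReal.ofReal_le_ofReal (by linarith)
  have key := k7wd2_vol_step ((volume : Measure ℝ).prod (volume : Measure ℝ)) hU t0 L1 _ (fun x hx => (h x hx).1) hin
  have e : ENNReal.ofReal (2 * L1) * (ENNReal.ofReal (2 * L2) * ENNReal.ofReal (2 * L3)) = ENNReal.ofReal (8 * L1 * L2 * L3) := by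
    rw [← ENNReal.ofReal_mul (by positivity), ← ENNReal.ofReal_mul (by positivity)]
    congr 1
    ring
  rw [e] at key
  exact key

/-- **L-252-S7wd2-VX** (~250 l.).  **Mass of a vertex.**  On `inc Q` : `|Y - Y_Q(t,Z)| ≤ K h g` (`box`).  So the set is `inc Q ∩ base⁻¹ U`, `U = {(t,Z,Y) : |ξ₁ - x₁| ≤ 2ω, |ξ₂ - x₂| ≤ 2ω, |Y - Y_Q(t,Z)| ≤ K h g}` (measurable: continuous conditions).
`k7wd2_vol3` : `(t - t_Q)/q = ξ₁ + ξ₂` gives `L1 = 4ωq`; `|ξ₁ - x₁| ≤ 2ω` gives `L2 = 2ωq|v1 - v2| ≤ 4Kωq`; `L3 = K h g` : `vol U ≤ 128 K² ω² q² h g`.   `capQ`, `q ≤ K h` (`q_hi`). -/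
theorem k7wd2_vertex (W : K7aW) {N K d S a h g : ℝ} {Ms Ws : Finset ℝ} (hW : W.Ok N K d S a h g Ms Ws) (hK : 1 ≤ K) (hh : 0 < h) (hg : 0 < g) {Q : W.Q} (hQ : Q ∈ W.Qa)
    {v1 v2 ω : ℝ} (hω : 0 < ω) (hv : v1 ≠ v2) (hv1 : |v1| ≤ K) (hv2 : |v2| ≤ K) (x1 x2 : ℝ) :
    W.lam0 (W.inc Q ∩ {p | |k7wdXi W Q v1 v2 p.2 (W.Z p.1 p.2) - x1| ≤ 2 * ω ∧ |k7wdXi W Q v2 v1 p.2 (W.Z p.1 p.2) - x2| ≤ 2 * ω})
      ≤ ENNReal.ofReal (128 * K ^ 4 * ω ^ 2) * (ENNReal.ofReal W.q * W.νQ Q) := by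
  have hq : 0 < W.q := by
    unfold K7aW.q
    positivity
  have hK0 : 0 < K := lt_of_lt_of_le one_pos hK
  obtain ⟨U, hUdef⟩ : ∃ U : Set (ℝ × ℝ × ℝ), U = {x | |k7wdXi W Q v1 v2 x.1 x.2.1 - x1| ≤ 2 * ω ∧ |k7wdXi W Q v2 v1 x.1 x.2.1 - x2| ≤ 2 * ω ∧
      |x.2.2 - W.YQ Q x.1 x.2.1| ≤ K * (h * g)} := ⟨_, rfl⟩
  have hUm : MeasurableSet U := by
    rw [hUdef]
    have s1 : MeasurableSet {x : ℝ × ℝ × ℝ | |k7wdXi W Q v1 v2 x.1 x.2.1 - x1| ≤ 2 * ω} := by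
      unfold k7wdXi
      exact measurableSet_le (by fun_prop) measurable_const
    have s2 : MeasurableSet {x : ℝ × ℝ × ℝ | |k7wdXi W Q v2 v1 x.1 x.2.1 - x2| ≤ 2 * ω} := by
      unfold k7wdXi
      exact measurableSet_le (by fun_prop) measurable_const
    have s3 : MeasurableSet {x : ℝ × ℝ × ℝ | |x.2.2 - W.YQ Q x.1 x.2.1| ≤ K * (h * g)} := by
      unfold K7aW.YQ
      exact measurableSet_le (by fun_prop) measurable_const
    exact s1.inter (s2.inter s3)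
  have hsub : W.inc Q ∩ {p | |k7wdXi W Q v1 v2 p.2 (W.Z p.1 p.2) - x1| ≤ 2 * ω ∧ |k7wdXi W Q v2 v1 p.2 (W.Z p.1 p.2) - x2| ≤ 2 * ω}
      ⊆ W.inc Q ∩ W.base ⁻¹' U := by
    rintro p ⟨hp, h1, h2⟩
    refine ⟨hp, ?_⟩
    rw [hUdef]
    exact ⟨h1, h2, (hW.box Q hQ p.1 hp.1 p.2 hp.2).2⟩
  have hvol : volume U ≤ ENNReal.ofReal (8 * (4 * ω * W.q) * (4 * K * ω * W.q) * (K * (h * g))) := by
    refine k7wd2_vol3 hUm (t0 := W.tQ Q + W.q * (x1 + x2)) (by positivity) (by positivity) (by positivity)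
      (fun t => W.Zc Q + v2 * (t - W.tQ Q) + W.q * (v1 - v2) * x1) (fun t Z => W.YQ Q t Z) ?_
    intro x hx
    rw [hUdef] at hx
    obtain ⟨h1, h2, h3⟩ := hx
    obtain ⟨e1, -⟩ := k7wd2_xi_inv W Q hv hq.ne' x.1 x.2.1
    refine ⟨?_, ?_, h3⟩
    · have e : x.1 - (W.tQ Q + W.q * (x1 + x2)) = W.q * ((k7wdXi W Q v1 v2 x.1 x.2.1 - x1) + (k7wdXi W Q v2 v1 x.1 x.2.1 - x2)) := by linarith
      rw [e, abs_mul, abs_of_pos hq]
      have := abs_add_le (k7wdXi W Q v1 v2 x.1 x.2.1 - x1) (k7wdXi W Q v2 v1 x.1 x.2.1 - x2)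
      nlinarith
    · have hne : v1 - v2 ≠ 0 := sub_ne_zero.2 hv
      have e : x.2.1 - (W.Zc Q + v2 * (x.1 - W.tQ Q) + W.q * (v1 - v2) * x1) = W.q * (v1 - v2) * (k7wdXi W Q v1 v2 x.1 x.2.1 - x1) := by
        unfold k7wdXi
        field_simp
        ring
      rw [e, abs_mul, abs_mul, abs_of_pos hq]
      have hd : |v1 - v2| ≤ 2 * K := by
        calc |v1 - v2| ≤ |v1| + |v2| := abs_sub _ _
          _ ≤ 2 * K := by linarith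
      calc W.q * |v1 - v2| * |k7wdXi W Q v1 v2 x.1 x.2.1 - x1| ≤ W.q * (2 * K) * (2 * ω) := by gcongr
        _ = 4 * K * ω * W.q := by ring
  have hcap := hW.capQ Q hQ U hUm
  have hc : 0 < h * (h * g) := by positivity
  refine (measure_mono hsub).trans ?_
  generalize W.lam0 (W.inc Q ∩ W.base ⁻¹' U) = y at hcap ⊢
  generalize W.νQ Q = ν at hcap ⊢
  have hreal : (h * (h * g))⁻¹ * K * (8 * (4 * ω * W.q) * (4 * K * ω * W.q) * (K * (h * g))) ≤ 128 * K ^ 4 * ω ^ 2 * W.q := by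
    have e : (h * (h * g))⁻¹ * K * (8 * (4 * ω * W.q) * (4 * K * ω * W.q) * (K * (h * g))) = 128 * K ^ 3 * ω ^ 2 * W.q * (W.q / h) := by
      field_simp
      ring
    have hqh : W.q / h ≤ K := (div_le_iff₀ hh).2 hW.q_hi
    rw [e]
    calc 128 * K ^ 3 * ω ^ 2 * W.q * (W.q / h) ≤ 128 * K ^ 3 * ω ^ 2 * W.q * K := by gcongr
      _ = 128 * K ^ 4 * ω ^ 2 * W.q := by ring
  calc y = ENNReal.ofReal ((h * (h * g))⁻¹) * (ENNReal.ofReal (h * (h * g)) * y) := by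
        rw [← mul_assoc, ← ENNReal.ofReal_mul (by positivity), inv_mul_cancel₀ hc.ne', ENNReal.ofReal_one, one_mul]
    _ ≤ ENNReal.ofReal ((h * (h * g))⁻¹) * (ENNReal.ofReal K * ν * ENNReal.ofReal (8 * (4 * ω * W.q) * (4 * K * ω * W.q) * (K * (h * g)))) := by
        refine mul_le_mul_right (hcap.trans ?_) _
        gcongr
    _ = ENNReal.ofReal ((h * (h * g))⁻¹ * K * (8 * (4 * ω * W.q) * (4 * K * ω * W.q) * (K * (h * g)))) * ν := by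
        generalize 8 * (4 * ω * W.q) * (4 * K * ω * W.q) * (K * (h * g)) = V
        rw [ENNReal.ofReal_mul (by positivity), ENNReal.ofReal_mul (by positivity)]
        ring
    _ ≤ ENNReal.ofReal (128 * K ^ 4 * ω ^ 2 * W.q) * ν := by gcongr
    _ = ENNReal.ofReal (128 * K ^ 4 * ω ^ 2) * (ENNReal.ofReal W.q * ν) := by
        rw [ENNReal.ofReal_mul (by positivity)]
        ring

/-- **L-252-S7wd2-IX** (this and the next statement, ~200 l.).  An affine function of `(t,Z)` at a point and at its vertex: by `k7wd2_xi_inv` the difference is `c1 q ((ξ₁ - ωi) + (ξ₂ - ωj)) + c2 q (v1 (ξ₁ - ωi) + v2 (ξ₂ - ωj))`, `≤ 4 (|c1| + |c2|) K q ω`. -/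
theorem k7wd2_index (W : K7aW) (Q : W.Q) {v1 v2 K ω e c0 c1 c2 t Z : ℝ} {i j : ℤ} (hK : 1 ≤ K) (hv : v1 ≠ v2) (hq : 0 < W.q) (hω : 0 < ω) (hv1 : |v1| ≤ K) (hv2 : |v2| ≤ K)
    (hgr : (|c1| + |c2|) * (K * W.q * ω) ≤ e) (h1 : |k7wdXi W Q v1 v2 t Z - ω * i| ≤ 2 * ω) (h2 : |k7wdXi W Q v2 v1 t Z - ω * j| ≤ 2 * ω) :
    |(c0 + c1 * t + c2 * Z) - (c0 + c1 * (W.tQ Q + W.q * ω * (i + j)) + c2 * (W.Zc Q + W.q * ω * (v1 * i + v2 * j)))| ≤ 4 * e := by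
  obtain ⟨e1, e2⟩ := k7wd2_xi_inv W Q hv hq.ne' t Z
  obtain ⟨x1, hx1⟩ : ∃ x1 : ℝ, x1 = k7wdXi W Q v1 v2 t Z - ω * i := ⟨_, rfl⟩
  obtain ⟨x2, hx2⟩ : ∃ x2 : ℝ, x2 = k7wdXi W Q v2 v1 t Z - ω * j := ⟨_, rfl⟩
  rw [← hx1] at h1
  rw [← hx2] at h2
  have hK0 : 0 < K := lt_of_lt_of_le one_pos hK
  have he : (c0 + c1 * t + c2 * Z) - (c0 + c1 * (W.tQ Q + W.q * ω * (i + j)) + c2 * (W.Zc Q + W.q * ω * (v1 * i + v2 * j)))
      = c1 * (W.q * (x1 + x2)) + c2 * (W.q * (v1 * x1 + v2 * x2)) := by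
    have e1' : t = W.tQ Q + W.q * (k7wdXi W Q v1 v2 t Z + k7wdXi W Q v2 v1 t Z) := by linarith
    have e2' : Z = W.Zc Q + W.q * (v1 * k7wdXi W Q v1 v2 t Z + v2 * k7wdXi W Q v2 v1 t Z) := by linarith
    have a1 : k7wdXi W Q v1 v2 t Z = x1 + ω * i := by rw [hx1]; ring
    have a2 : k7wdXi W Q v2 v1 t Z = x2 + ω * j := by rw [hx2]; ring
    rw [a1, a2] at e1' e2'
    rw [e1', e2']
    ring
  rw [he]
  have b1 : |x1 + x2| ≤ 4 * ω := (abs_add_le _ _).trans (by linarith)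
  have b2 : |v1 * x1 + v2 * x2| ≤ 4 * (K * ω) := by
    refine (abs_add_le _ _).trans ?_
    rw [abs_mul, abs_mul]
    have := mul_le_mul hv1 h1 (abs_nonneg _) hK0.le
    have := mul_le_mul hv2 h2 (abs_nonneg _) hK0.le
    linarith
  have b1' : |x1 + x2| ≤ 4 * (K * ω) := b1.trans (by nlinarith)
  have d1 : |c1 * (W.q * (x1 + x2))| ≤ |c1| * (W.q * (4 * (K * ω))) := by
    rw [abs_mul, abs_mul, abs_of_pos hq]
    exact mul_le_mul_of_nonneg_left (mul_le_mul_of_nonneg_left b1' hq.le) (abs_nonneg _)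
  have d2 : |c2 * (W.q * (v1 * x1 + v2 * x2))| ≤ |c2| * (W.q * (4 * (K * ω))) := by
    rw [abs_mul, abs_mul, abs_of_pos hq]
    exact mul_le_mul_of_nonneg_left (mul_le_mul_of_nonneg_left b2 hq.le) (abs_nonneg _)
  refine (abs_add_le _ _).trans ?_
  calc _ ≤ |c1| * (W.q * (4 * (K * ω))) + |c2| * (W.q * (4 * (K * ω))) := add_le_add d1 d2
    _ = 4 * ((|c1| + |c2|) * (K * W.q * ω)) := by ring
    _ ≤ 4 * e := by linarith

/-- grid accuracy of a bilinear function: `|B (s₁-i)| ≤ Cst/n`, `|C (s₂-j)| ≤ Cst/n`, `|D (s₁ (s₂-j) + j (s₁-i))| ≤ |D| (8n+4) ≤ 3 Cst/n` -/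
theorem k7wd2_acc {A B C D Cst s1 s2 : ℝ} {i j : ℤ} {n : ℕ} (hn : 3 ≤ n) (hB : |B| * (2 * n : ℝ) ≤ Cst) (hC : |C| * (2 * n : ℝ) ≤ Cst)
    (hD : |D| * ((2 * n : ℝ) * (2 * n : ℝ)) ≤ Cst) (h1 : |s1 - i| ≤ 2) (h2 : |s2 - j| ≤ 2) (hi : 0 ≤ i ∧ i < 2 * n) (hj : 0 ≤ j ∧ j < 2 * n) :
    |(A + B * s1 + C * s2 + D * s1 * s2) - (A + B * i + C * j + D * i * j)| ≤ 5 * Cst / n := by
  have hn0 : (0 : ℝ) < n := by
    have : (3 : ℝ) ≤ n := by exact_mod_cast hn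
    linarith
  have hi1 : (0 : ℝ) ≤ i := by exact_mod_cast hi.1
  have hi2 : (i : ℝ) ≤ 2 * n := by
    have : (i : ℝ) < 2 * n := by exact_mod_cast hi.2
    exact this.le
  have hj1 : (0 : ℝ) ≤ j := by exact_mod_cast hj.1
  have hj2 : (j : ℝ) ≤ 2 * n := by
    have : (j : ℝ) < 2 * n := by exact_mod_cast hj.2
    exact this.le
  have e : (A + B * s1 + C * s2 + D * s1 * s2) - (A + B * i + C * j + D * i * j) = B * (s1 - i) + C * (s2 - j) + D * (s1 * (s2 - j) + j * (s1 - i)) := by ring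
  have hs1 : |s1| ≤ 2 * n + 2 := by
    have : s1 = (s1 - i) + i := by ring
    rw [this]
    refine (abs_add_le _ _).trans ?_
    rw [abs_of_nonneg hi1]
    linarith
  have t1 : |B * (s1 - i)| ≤ |B| * 2 := by
    rw [abs_mul]
    exact mul_le_mul_of_nonneg_left h1 (abs_nonneg _)
  have t2 : |C * (s2 - j)| ≤ |C| * 2 := by
    rw [abs_mul]
    exact mul_le_mul_of_nonneg_left h2 (abs_nonneg _)
  have t3 : |s1 * (s2 - j) + j * (s1 - i)| ≤ 8 * n + 4 := by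
    refine (abs_add_le _ _).trans ?_
    rw [abs_mul, abs_mul, abs_of_nonneg hj1]
    have a1 := mul_le_mul hs1 h2 (abs_nonneg _) (by positivity)
    have a2 := mul_le_mul hj2 h1 (abs_nonneg _) (by positivity)
    linarith
  have t4 : |D * (s1 * (s2 - j) + j * (s1 - i))| ≤ |D| * (8 * n + 4) := by
    rw [abs_mul]
    exact mul_le_mul_of_nonneg_left t3 (abs_nonneg _)
  rw [e, le_div_iff₀ hn0]
  have hsum : |B * (s1 - i) + C * (s2 - j) + D * (s1 * (s2 - j) + j * (s1 - i))| ≤ |B| * 2 + |C| * 2 + |D| * (8 * n + 4) :=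
    (abs_add_le _ _).trans (add_le_add ((abs_add_le _ _).trans (add_le_add t1 t2)) t4)
  have hD0 := abs_nonneg D
  have hn3 : (3 : ℝ) ≤ n := by exact_mod_cast hn
  have u3 : |D| * (8 * n + 4) * n ≤ 3 * (|D| * ((2 * n : ℝ) * (2 * n : ℝ))) := by
    have : (8 * (n : ℝ) + 4) * n ≤ 3 * ((2 * n : ℝ) * (2 * n : ℝ)) := by nlinarith
    calc |D| * (8 * n + 4) * n = |D| * ((8 * n + 4) * n) := by ring
      _ ≤ |D| * (3 * ((2 * n : ℝ) * (2 * n : ℝ))) := mul_le_mul_of_nonneg_left this hD0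
      _ = _ := by ring
  calc _ ≤ (|B| * 2 + |C| * 2 + |D| * (8 * n + 4)) * n := mul_le_mul_of_nonneg_right hsum hn0.le
    _ = |B| * (2 * n : ℝ) + |C| * (2 * n : ℝ) + |D| * (8 * n + 4) * n := by ring
    _ ≤ Cst + Cst + 3 * Cst := by linarith
    _ = 5 * Cst := by ring

/-! ## 3. The bilinear fit -/

/-! helpers of L-252-S7wd2-BIL -/

/-- an index near a bounded coordinate lies in the shifted range -/
theorem k7wd2_BIL_range {ξ ω R : ℝ} {i : ℤ} {n : ℕ} (hω : 0 < ω) (hξ : |ξ| ≤ R) (hnear : |ξ - ω * i| ≤ 2 * ω) (hn : R / ω + 3 ≤ n) :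
    0 ≤ i + n ∧ i + n < 2 * n ∧ |(ξ / ω + n) - ((i + n : ℤ) : ℝ)| ≤ 2 := by
  have h1 : |ξ / ω - i| ≤ 2 := by
    have : ξ / ω - i = (ξ - ω * i) / ω := by field_simp
    rw [this, abs_div, abs_of_pos hω, div_le_iff₀ hω]
    exact hnear
  have h2 : |ξ / ω| ≤ R / ω := by
    rw [abs_div, abs_of_pos hω]
    exact div_le_div_of_nonneg_right hξ hω.le
  rw [abs_le] at h1 h2
  have h3 : -(n : ℝ) + 1 ≤ (i : ℝ) := by linarith [h1.2, h2.1]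
  have h4 : (i : ℝ) ≤ (n : ℝ) - 1 := by linarith [h1.1, h2.2]
  refine ⟨?_, ?_, ?_⟩
  · have : (0 : ℝ) ≤ ((i + n : ℤ) : ℝ) := by push_cast; linarith
    exact_mod_cast this
  · have : ((i + n : ℤ) : ℝ) < ((2 * n : ℤ) : ℝ) := by push_cast; linarith
    exact_mod_cast this
  · push_cast
    rw [abs_le]
    constructor <;> linarith [h1.1, h1.2]

/-- **L-252-S7wd2-BIL** (~400 l.).  **The bilinear fit in real index coordinates.**   `k7wd2_grid` with `Ω = W.L × ℝ`, `μ = W.prior`, `E := E3`, `vx p = (ci p + n, ri p + n)`, `n₁ = n₂ = 2n`, `m = q ν_Q` (`k7wg_nu_pos`, `k7wg_blk`), `K := KI = k7wd2KI K r`, `e := 5 K e`, `A0 := K`.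
* `hrange` : `|ξ_k| ≤ R = 2K²/r` (`k7wd2_xi_bd`; `box` gives `|Z - Zc| ≤ K h`), `near1/2`, `R/ω + 3 ≤ n`.
* `hcap` : `E3 ⊆ Ev0`, so `prior (E3 ∩ cell) = lam0 (..) ≤ 128 K⁴ ω² m_Q` (`k7wd2_vertex` with `x₁ = ω (i - n)`, `k7wc_lam0_apply`); `4 n² · 128 K⁴ ω² ≤ 512 K⁴ (2R)² = KI`.    `hmass` : `K ≤ KI` (`r ≤ |v1 - v2| ≤ 2K`).
* `hrow` : `fitr` + `k7wd2_index` (`gr`): row function of the SHIFTED indices `ρ̃0 j' + ρ̃1 j' i'`, `ρ̃1 j' = q ω (ρ1 j + ρ2 j v1)`, `j = j' - n`; error `K e + 4 e ≤ 5 K e`.  `hcol` the same with `fitc`, `gc`.   `hbd` : `sup`.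
* conclusion: `641 KI⁶ · 5 K e`, then `k7wd2_acc` (`Cst = 20000 KI¹⁴ (K + 5 K e) ≤ k7wd2Cst K r` as `e ≤ 1`; `5 Cst/n ≤ e`): total `≤ (3205 KI⁶ K + 1) e ≤ E2 e`. -/
theorem k7wd2_bil (W : K7aW) (P0 : K7aLayer W.toK7aLn) {N K d S a h g e b r ω : ℝ} {Ms Ws : Finset ℝ} {E E3 : Set (W.L × ℝ)} {Q : W.Q} {v1 v2 : ℝ} {ci ri : W.L × ℝ → ℤ}
    {ρ0 ρ1 ρ2 cρ κ0 κ1 κ2 cκ : ℤ → ℝ} (hW : W.Ok N K d S a h g Ms Ws) (hK : 1 ≤ K) (ha : 0 < a) (hh : 0 < h) (hg : 0 < g) (hE : E ⊆ W.Ev0)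
    (hlab : ∀ p ∈ E, P0.lab p.1 ≠ none) (hG : K7wdGrid W P0 E K e b S r ω Q v1 v2 E3 ci ri ρ0 ρ1 ρ2 cρ κ0 κ1 κ2 cκ) (hr : 0 < r) (he0 : 0 < e) (he1 : e ≤ 1) (hω : 0 < ω)
    {n : ℕ} (hn1 : 2 * K ^ 2 / (r * ω) + 3 ≤ n) (hn2 : n * ω ≤ 4 * K ^ 2 / r) (hn3 : 32 * k7wd2KI K r ^ 8 ≤ n) (hn4 : 5 * k7wd2Cst K r ≤ e * n) :
    ∃ (A B C D C2 : ℝ) (E4 : Set (W.L × ℝ)), E4 ⊆ E3 ∧ MeasurableSet E4 ∧ ENNReal.ofReal W.q * W.νQ Q ≤ ENNReal.ofReal (k7wd2K4 K r) * W.prior E4 ∧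
      (∀ p ∈ E4, |k7wd2f1 W P0 b p - (A + B * k7wd2S W Q v1 v2 ω n p.2 (W.Z p.1 p.2) + C * k7wd2S W Q v2 v1 ω n p.2 (W.Z p.1 p.2)
          + D * k7wd2S W Q v1 v2 ω n p.2 (W.Z p.1 p.2) * k7wd2S W Q v2 v1 ω n p.2 (W.Z p.1 p.2))| ≤ k7wd2E2 K r * e ∧
        |k7wd2f2 W P0 b p - C2| ≤ 15 * K * e) ∧
      |A| ≤ k7wd2Cst K r ∧ |B| * (2 * n : ℝ) ≤ k7wd2Cst K r ∧ |C| * (2 * n : ℝ) ≤ k7wd2Cst K r ∧ |D| * ((2 * n : ℝ) * (2 * n : ℝ)) ≤ k7wd2Cst K r ∧ |C2| ≤ 6 * K := by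
  have hK0 : 0 < K := by linarith
  obtain ⟨hq, -, -, -, -, -⟩ := k7wg_blk W hW hG.Qa
  obtain ⟨hν0, hν1⟩ := k7wg_nu_pos W hW ha hh hg hG.Qa
  have hv12 : |v1 - v2| ≤ 2 * K := by
    have := abs_sub v1 v2
    linarith [hG.v1b, hG.v2b]
  have hne : v1 ≠ v2 := by
    intro h0
    have := hG.sep
    rw [h0, sub_self, abs_zero] at this
    linarith
  have hsep' : r ≤ |v2 - v1| := by rw [abs_sub_comm]; exact hG.sep
  -- constants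
  have hKIlow : 2048 * K ^ 6 ≤ k7wd2KI K r := by
    unfold k7wd2KI
    rw [le_div_iff₀ (by positivity)]
    have : r ^ 2 ≤ (2 * K) ^ 2 := pow_le_pow_left₀ hr.le (hG.sep.trans hv12) 2
    have h6 : 0 < K ^ 6 := by positivity
    nlinarith
  have hK6 : K ≤ K ^ 6 := by
    calc K = K ^ 1 := (pow_one K).symm
      _ ≤ K ^ 6 := pow_le_pow_right₀ hK (by norm_num)
  obtain ⟨KI, hKI⟩ : ∃ KI, KI = k7wd2KI K r := ⟨_, rfl⟩
  rw [← hKI] at hKIlow hn3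
  have hKK : K ≤ KI := by linarith
  have hKI1 : 1 ≤ KI := by linarith
  have hKI0 : 0 < KI := by linarith
  obtain ⟨m, hm⟩ : ∃ m, m = ENNReal.ofReal W.q * W.νQ Q := ⟨_, rfl⟩
  have hm0 : m ≠ 0 := by rw [hm]; exact mul_ne_zero (ENNReal.ofReal_pos.2 hq).ne' hν0
  have hmT : m ≠ ⊤ := by rw [hm]; exact ENNReal.mul_ne_top ENNReal.ofReal_ne_top (hν1.trans_lt ENNReal.one_lt_top).ne
  have hnR : (2 * K ^ 2 / r) / ω + 3 ≤ n := by
    have : 2 * K ^ 2 / r / ω = 2 * K ^ 2 / (r * ω) := by rw [div_div]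
    rw [this]
    exact hn1
  have hn3' : (3 : ℝ) ≤ n := by
    have : 0 < 2 * K ^ 2 / (r * ω) := by positivity
    linarith
  have hn3N : 3 ≤ n := by exact_mod_cast hn3'
  have hnpos : (0 : ℝ) < n := by linarith
  -- geometry of a point of E3
  have hgeo : ∀ p ∈ E3, (0 ≤ ci p + n ∧ ci p + n < 2 * n ∧ |k7wd2S W Q v1 v2 ω n p.2 (W.Z p.1 p.2) - ((ci p + n : ℤ) : ℝ)| ≤ 2) ∧
      (0 ≤ ri p + n ∧ ri p + n < 2 * n ∧ |k7wd2S W Q v2 v1 ω n p.2 (W.Z p.1 p.2) - ((ri p + n : ℤ) : ℝ)| ≤ 2) := by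
    intro p hp
    have hinc := (hG.sub hp).2
    have hbox := (hW.box Q hG.Qa p.1 hinc.1 p.2 hinc.2).1
    exact ⟨k7wd2_BIL_range hω (k7wd2_xi_bd W hW hK hG.Qa hr hG.sep hG.v2b hinc.2 hbox) (hG.near1 p hp) hnR,
      k7wd2_BIL_range hω (k7wd2_xi_bd W hW hK hG.Qa hr hsep' hG.v1b hinc.2 hbox) (hG.near2 p hp) hnR⟩
  have hf : ∀ p ∈ E3, ∃ φ, P0.lab p.1 = some φ ∧ k7wd2f1 W P0 b p = k7wF1 (P0.G φ).F b p.2 (W.yq p) ∧ k7wd2f2 W P0 b p = k7wF2 (P0.G φ).F b p.2 (W.yq p) := by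
    intro p hp
    obtain ⟨φ, hφ⟩ := Option.ne_none_iff_exists'.1 (hlab p (hG.sub hp).1)
    exact ⟨φ, hφ, by simp only [k7wd2f1, hφ], by simp only [k7wd2f2, hφ]⟩
  have hvx : KsLab fun p : W.L × ℝ => (ci p + (n : ℤ), ri p + (n : ℤ)) := by
    intro x
    have : (fun p : W.L × ℝ => (ci p + (n : ℤ), ri p + (n : ℤ))) ⁻¹' {x} = ci ⁻¹' {x.1 - n} ∩ ri ⁻¹' {x.2 - n} := by
      ext p
      simp only [Set.mem_preimage, Set.mem_singleton_iff, Set.mem_inter_iff, Prod.ext_iff]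
      constructor
      · rintro ⟨h1, h2⟩
        exact ⟨by omega, by omega⟩
      · rintro ⟨h1, h2⟩
        exact ⟨by omega, by omega⟩
    rw [this]
    exact (hG.m_ci _).inter (hG.m_ri _)
  have h5 : K * e + 4 * e ≤ 5 * K * e := by nlinarith
  obtain ⟨A, B, C, D, C2, E4, h43, hm4, hmass4, hfit4, bA, bB, bC, bD, bC2⟩ := k7wd2_grid W.prior hG.meas (n1 := 2 * n) (n2 := 2 * n)
    (fun p : W.L × ℝ => (ci p + (n : ℤ), ri p + (n : ℤ))) hvx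
    (fun p hp => by
      obtain ⟨⟨a1, a2, -⟩, b1, b2, -⟩ := hgeo p hp
      refine ⟨a1, ?_, b1, ?_⟩
      · push_cast; exact a2
      · push_cast; exact b2)
    (k7wd2f1 W P0 b) (k7wd2f2 W P0 b)
    (fun j' => ρ0 (j' - n) + ρ1 (j' - n) * (W.tQ Q + W.q * ω * ((j' - n : ℤ) : ℝ)) + ρ2 (j' - n) * (W.Zc Q + W.q * ω * (v2 * ((j' - n : ℤ) : ℝ)))
      - n * (W.q * ω * (ρ1 (j' - n) + ρ2 (j' - n) * v1)))
    (fun j' => W.q * ω * (ρ1 (j' - n) + ρ2 (j' - n) * v1))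
    (fun j' => cρ (j' - n))
    (fun i' => κ0 (i' - n) + κ1 (i' - n) * (W.tQ Q + W.q * ω * ((i' - n : ℤ) : ℝ)) + κ2 (i' - n) * (W.Zc Q + W.q * ω * (v1 * ((i' - n : ℤ) : ℝ)))
      - n * (W.q * ω * (κ1 (i' - n) + κ2 (i' - n) * v2)))
    (fun i' => W.q * ω * (κ1 (i' - n) + κ2 (i' - n) * v2))
    (fun i' => cκ (i' - n))
    (K := KI) (A0 := K) (e := 5 * K * e) (m := m) hKI1 (by positivity) hm0 hmT
    (by push_cast; linarith)
    (by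
      push_cast
      have : KI ^ 6 ≤ KI ^ 8 := pow_le_pow_right₀ hKI1 (by norm_num)
      linarith)
    (fun x => by
      have hsub : E3 ∩ (fun p : W.L × ℝ => (ci p + (n : ℤ), ri p + (n : ℤ))) ⁻¹' {x} ⊆
          (W.inc Q ∩ {p | |k7wdXi W Q v1 v2 p.2 (W.Z p.1 p.2) - ω * ((x.1 - n : ℤ) : ℝ)| ≤ 2 * ω ∧
            |k7wdXi W Q v2 v1 p.2 (W.Z p.1 p.2) - ω * ((x.2 - n : ℤ) : ℝ)| ≤ 2 * ω}) ∩ W.Ev0 := by
        rintro p ⟨hp, hx⟩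
        have hx' : (ci p + (n : ℤ), ri p + (n : ℤ)) = x := hx
        have e1 : x.1 - n = ci p := by rw [← hx']; simp
        have e2 : x.2 - n = ri p := by rw [← hx']; simp
        refine ⟨⟨(hG.sub hp).2, ?_, ?_⟩, hE (hG.sub hp).1⟩
        · rw [e1]; exact hG.near1 p hp
        · rw [e2]; exact hG.near2 p hp
      have h1 := (measure_mono hsub).trans_eq (k7wc_lam0_apply W.toK7aLn hW.ln _).symm
      have h2 := h1.trans (k7wd2_vertex W hW hK hh hg hG.Qa hω hne hG.v1b hG.v2b _ _)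
      rw [← hm] at h2
      calc (((2 * n : ℕ) : ℝ≥0∞) * ((2 * n : ℕ) : ℝ≥0∞)) * W.prior (E3 ∩ (fun p : W.L × ℝ => (ci p + (n : ℤ), ri p + (n : ℤ))) ⁻¹' {x})
          ≤ (((2 * n : ℕ) : ℝ≥0∞) * ((2 * n : ℕ) : ℝ≥0∞)) * (ENNReal.ofReal (128 * K ^ 4 * ω ^ 2) * m) := mul_le_mul_right h2 _
        _ = ENNReal.ofReal (((2 * n : ℕ) : ℝ) * ((2 * n : ℕ) : ℝ) * (128 * K ^ 4 * ω ^ 2)) * m := by
            rw [ENNReal.ofReal_mul (p := ((2 * n : ℕ) : ℝ) * ((2 * n : ℕ) : ℝ)) (by positivity), ENNReal.ofReal_mul (p := ((2 * n : ℕ) : ℝ)) (by positivity),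
              ENNReal.ofReal_natCast]
            ring
        _ ≤ ENNReal.ofReal KI * m := by
            refine mul_le_mul_left (ENNReal.ofReal_le_ofReal ?_) _
            push_cast
            have h3 : (n * ω) ^ 2 ≤ (4 * K ^ 2 / r) ^ 2 := pow_le_pow_left₀ (by positivity) hn2 2
            have e3 : 2 * (n : ℝ) * (2 * n) * (128 * K ^ 4 * ω ^ 2) = 512 * K ^ 4 * (n * ω) ^ 2 := by ring
            have e4 : KI = 512 * K ^ 4 * (4 * K ^ 2 / r) ^ 2 := by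
              rw [hKI]
              unfold k7wd2KI
              field_simp
              ring
            rw [e3, e4]
            exact mul_le_mul_of_nonneg_left h3 (by positivity))
    (by
      rw [hm]
      exact hG.mass.trans (mul_le_mul_left (ENNReal.ofReal_le_ofReal hKK) _))
    (fun p hp => by
      obtain ⟨φ, hφ, e1, e2⟩ := hf p hp
      obtain ⟨r1, r2⟩ := hG.fitr p hp φ hφ
      have hix := k7wd2_index W Q (c0 := ρ0 (ri p)) (c1 := ρ1 (ri p)) (c2 := ρ2 (ri p)) (t := p.2) (Z := W.Z p.1 p.2) hK hne hq hω hG.v1b hG.v2b (hG.gr (ri p))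
        (hG.near1 p hp) (hG.near2 p hp)
      have ej : ri p + (n : ℤ) - n = ri p := by omega
      simp only [ej]
      rw [e1, e2]
      refine ⟨?_, r2.trans (by nlinarith)⟩
      have e3 : k7wF1 (P0.G φ).F b p.2 (W.yq p) - (ρ0 (ri p) + ρ1 (ri p) * (W.tQ Q + W.q * ω * (ri p : ℝ)) + ρ2 (ri p) * (W.Zc Q + W.q * ω * (v2 * (ri p : ℝ)))
            - n * (W.q * ω * (ρ1 (ri p) + ρ2 (ri p) * v1)) + W.q * ω * (ρ1 (ri p) + ρ2 (ri p) * v1) * ((ci p + (n : ℤ) : ℤ) : ℝ))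
          = (k7wF1 (P0.G φ).F b p.2 (W.yq p) - (ρ0 (ri p) + ρ1 (ri p) * p.2 + ρ2 (ri p) * W.Z p.1 p.2))
            + ((ρ0 (ri p) + ρ1 (ri p) * p.2 + ρ2 (ri p) * W.Z p.1 p.2) - (ρ0 (ri p) + ρ1 (ri p) * (W.tQ Q + W.q * ω * ((ci p : ℝ) + (ri p : ℝ)))
              + ρ2 (ri p) * (W.Zc Q + W.q * ω * (v1 * (ci p : ℝ) + v2 * (ri p : ℝ))))) := by
        push_cast
        ring
      rw [e3]
      exact (abs_add_le _ _).trans (by linarith))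
    (fun p hp => by
      obtain ⟨φ, hφ, e1, e2⟩ := hf p hp
      obtain ⟨r1, r2⟩ := hG.fitc p hp φ hφ
      have hix := k7wd2_index W Q (c0 := κ0 (ci p)) (c1 := κ1 (ci p)) (c2 := κ2 (ci p)) (t := p.2) (Z := W.Z p.1 p.2) hK hne hq hω hG.v1b hG.v2b (hG.gc (ci p))
        (hG.near1 p hp) (hG.near2 p hp)
      have ej : ci p + (n : ℤ) - n = ci p := by omega
      simp only [ej]
      rw [e1, e2]
      refine ⟨?_, r2.trans (by nlinarith)⟩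
      have e3 : k7wF1 (P0.G φ).F b p.2 (W.yq p) - (κ0 (ci p) + κ1 (ci p) * (W.tQ Q + W.q * ω * (ci p : ℝ)) + κ2 (ci p) * (W.Zc Q + W.q * ω * (v1 * (ci p : ℝ)))
            - n * (W.q * ω * (κ1 (ci p) + κ2 (ci p) * v2)) + W.q * ω * (κ1 (ci p) + κ2 (ci p) * v2) * ((ri p + (n : ℤ) : ℤ) : ℝ))
          = (k7wF1 (P0.G φ).F b p.2 (W.yq p) - (κ0 (ci p) + κ1 (ci p) * p.2 + κ2 (ci p) * W.Z p.1 p.2))
            + ((κ0 (ci p) + κ1 (ci p) * p.2 + κ2 (ci p) * W.Z p.1 p.2) - (κ0 (ci p) + κ1 (ci p) * (W.tQ Q + W.q * ω * ((ci p : ℝ) + (ri p : ℝ)))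
              + κ2 (ci p) * (W.Zc Q + W.q * ω * (v1 * (ci p : ℝ) + v2 * (ri p : ℝ))))) := by
        push_cast
        ring
      rw [e3]
      exact (abs_add_le _ _).trans (by linarith))
    (fun p hp => by
      obtain ⟨φ, hφ, e1, e2⟩ := hf p hp
      rw [e1, e2]
      exact hG.sup p hp φ hφ)
  -- the constants of the conclusion
  have hCst : 20000 * KI ^ 14 * (K + 5 * K * e) ≤ k7wd2Cst K r := by
    unfold k7wd2Cst
    rw [← hKI]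
    have h14 : 0 < KI ^ 14 := by positivity
    have : K + 5 * K * e ≤ 6 * K := by nlinarith
    calc 20000 * KI ^ 14 * (K + 5 * K * e) ≤ 20000 * KI ^ 14 * (6 * K) := mul_le_mul_of_nonneg_left this (by positivity)
      _ = 120000 * KI ^ 14 * K := by ring
  have cast2 : (((2 * n : ℕ) : ℕ) : ℝ) = 2 * (n : ℝ) := by push_cast; ring
  rw [cast2] at bB bC bD
  have bB' := bB.trans hCst
  have bC' := bC.trans hCst
  have bD' := bD.trans hCst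
  refine ⟨A, B, C, D, C2, E4, h43, hm4, ?_, fun p hp => ⟨?_, ?_⟩, bA.trans hCst, bB', bC', bD', bC2.trans (by nlinarith)⟩
  · rw [← hm]
    unfold k7wd2K4
    rw [← hKI]
    exact hmass4
  · obtain ⟨f1, -⟩ := hfit4 p hp
    obtain ⟨⟨a1, a2, a3⟩, b1, b2, b3⟩ := hgeo p (h43 hp)
    have hacc := k7wd2_acc (A := A) hn3N bB' bC' bD' a3 b3 ⟨a1, a2⟩ ⟨b1, b2⟩
    have h5C : 5 * k7wd2Cst K r / n ≤ e := by
      rw [div_le_iff₀ hnpos]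
      exact hn4
    have e3 : k7wd2f1 W P0 b p - (A + B * k7wd2S W Q v1 v2 ω n p.2 (W.Z p.1 p.2) + C * k7wd2S W Q v2 v1 ω n p.2 (W.Z p.1 p.2)
          + D * k7wd2S W Q v1 v2 ω n p.2 (W.Z p.1 p.2) * k7wd2S W Q v2 v1 ω n p.2 (W.Z p.1 p.2))
        = (k7wd2f1 W P0 b p - (A + B * ((ci p + n : ℤ) : ℝ) + C * ((ri p + n : ℤ) : ℝ) + D * ((ci p + n : ℤ) : ℝ) * ((ri p + n : ℤ) : ℝ)))
          - ((A + B * k7wd2S W Q v1 v2 ω n p.2 (W.Z p.1 p.2) + C * k7wd2S W Q v2 v1 ω n p.2 (W.Z p.1 p.2)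
          + D * k7wd2S W Q v1 v2 ω n p.2 (W.Z p.1 p.2) * k7wd2S W Q v2 v1 ω n p.2 (W.Z p.1 p.2))
            - (A + B * ((ci p + n : ℤ) : ℝ) + C * ((ri p + n : ℤ) : ℝ) + D * ((ci p + n : ℤ) : ℝ) * ((ri p + n : ℤ) : ℝ))) := by ring
    rw [e3]
    refine (abs_sub _ _).trans ?_
    have hE2 : 641 * KI ^ 6 * (5 * K * e) + e ≤ k7wd2E2 K r * e := by
      unfold k7wd2E2
      rw [← hKI]
      have h1 : 1 ≤ KI ^ 6 * K := by
        have h6 := one_le_pow₀ hKI1 (n := 6)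
        calc (1 : ℝ) = 1 * 1 := (one_mul 1).symm
          _ ≤ KI ^ 6 * K := mul_le_mul h6 hK zero_le_one (by positivity)
      have h2 : e ≤ KI ^ 6 * K * e := le_mul_of_one_le_left he0.le h1
      calc 641 * KI ^ 6 * (5 * K * e) + e = 3205 * (KI ^ 6 * K * e) + e := by ring
        _ ≤ 3205 * (KI ^ 6 * K * e) + KI ^ 6 * K * e := by linarith
        _ = 3206 * KI ^ 6 * K * e := by ring
    linarith
  · have := (hfit4 p hp).2
    linarith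

/-! ## 4. Removal of the mixed term -/

/-- **L-252-S7wd2-LN** (~300 l.).  **A line far from both axes with a long fitted duration.**   `E5 = E4 \ {|v - v1| < r' or |v - v2| < r'}`; `axis1`, `axis2` : the deleted mass is `≤ 2 K (2r')^S m_Q ≤ m_Q/(2 K4) ≤ prior E4/2`.
`k7a_duration` (`ν`, `A = asg Q`, `E5`, `T = ofReal (q/(4 K4))`; `prior ≤ ν.prod volume`; `E5 ⊆ inc Q`; `0 < m_Q < ∞`).  Rescale the time: `t = t_Q + q T` (`Real.volume_preimage_mul_left` or `Measure.addHaar_preimage_smul`, translation invariance). -/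
theorem k7wd2_line (W : K7aW) (P0 : K7aLayer W.toK7aLn) {N K d S a h g e b r ω r' K4 : ℝ} {Ms Ws : Finset ℝ} {E E3 E4 : Set (W.L × ℝ)} {Q : W.Q} {v1 v2 : ℝ} {ci ri : W.L × ℝ → ℤ}
    {ρ0 ρ1 ρ2 cρ κ0 κ1 κ2 cκ : ℤ → ℝ} (hW : W.Ok N K d S a h g Ms Ws) (hK : 1 ≤ K) (ha : 0 < a) (hh : 0 < h) (hg : 0 < g)
    (hG : K7wdGrid W P0 E K e b S r ω Q v1 v2 E3 ci ri ρ0 ρ1 ρ2 cρ κ0 κ1 κ2 cκ) (h43 : E4 ⊆ E3) (hm4 : MeasurableSet E4) (hK4 : 1 ≤ K4)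
    (hmass : ENNReal.ofReal W.q * W.νQ Q ≤ ENNReal.ofReal K4 * W.prior E4) (hr1 : 2 * W.χ0 ≤ r') (hr2 : 4 * K4 * (K * (2 * r') ^ S) ≤ 1) :
    ∃ (l : W.L) (T : Set ℝ), l ∈ W.asg Q ∧ r' ≤ |W.v l - v1| ∧ r' ≤ |W.v l - v2| ∧ T ⊆ Set.Icc (0 : ℝ) 1 ∧ ENNReal.ofReal (1 / (4 * K4)) ≤ volume T ∧
      ∀ s ∈ T, (l, W.tQ Q + W.q * s) ∈ E4 := by
  have hprob := hW.ln.prob
  obtain ⟨hq0, hq1, -, -, hblk, -⟩ := k7wg_blk W hW hG.Qa
  obtain ⟨hν0, hν1⟩ := k7wg_nu_pos W hW ha hh hg hG.Qa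
  have hνT : W.νQ Q ≠ ⊤ := ne_top_of_le_ne_top ENNReal.one_ne_top hν1
  have hK40 : 0 < K4 := by linarith
  have hfin : IsFiniteMeasure W.prior := k7wg_prior_fin W.toK7aLn hW.ln
  obtain ⟨m, hm⟩ : ∃ m : ℝ≥0∞, m = ENNReal.ofReal W.q * W.νQ Q := ⟨_, rfl⟩
  have hmT : m ≠ ⊤ := hm ▸ ENNReal.mul_ne_top ENNReal.ofReal_ne_top hνT
  have hvm : Measurable fun p : W.L × ℝ => W.v p.1 := hW.ln.m_co.2.1.comp measurable_fst
  have hB : ∀ w : ℝ, MeasurableSet {p : W.L × ℝ | |W.v p.1 - w| < r'} := fun w =>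
    measurableSet_lt ((hvm.sub_const w).abs) measurable_const
  obtain ⟨E5, hE5⟩ : ∃ E5 : Set (W.L × ℝ), E5 = E4 \ ({p | |W.v p.1 - v1| < r'} ∪ {p | |W.v p.1 - v2| < r'}) := ⟨_, rfl⟩
  have hE5m : MeasurableSet E5 := hE5 ▸ hm4.diff ((hB v1).union (hB v2))
  have hE54 : E5 ⊆ E4 := hE5 ▸ Set.sdiff_subset
  have hE5inc : E5 ⊆ W.inc Q := fun p hp => (hG.sub (h43 (hE54 hp))).2
  obtain ⟨c, hc⟩ : ∃ c : ℝ, c = K * (2 * r') ^ S := ⟨_, rfl⟩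
  have hr'0 : 0 ≤ r' := by linarith [hW.ln.χ0_pos]
  have hc0 : 0 ≤ c := by
    rw [hc]
    have := Real.rpow_nonneg (by linarith : 0 ≤ 2 * r') S
    positivity
  have h1 : W.prior (E4 ∩ {p | |W.v p.1 - v1| < r'}) ≤ ENNReal.ofReal c * m := by
    rw [hc, hm]
    exact (measure_mono (Set.inter_subset_inter_left _ h43)).trans (hG.axis1 r' hr1)
  have h2 : W.prior (E4 ∩ {p | |W.v p.1 - v2| < r'}) ≤ ENNReal.ofReal c * m := by
    rw [hc, hm]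
    exact (measure_mono (Set.inter_subset_inter_left _ h43)).trans (hG.axis2 r' hr1)
  have h3 : W.prior E4 ≤ W.prior E5 + (ENNReal.ofReal c * m + ENNReal.ofReal c * m) := by
    have hsub : E4 ⊆ E5 ∪ (E4 ∩ {p | |W.v p.1 - v1| < r'} ∪ E4 ∩ {p | |W.v p.1 - v2| < r'}) := by
      intro p hp
      by_cases h5 : p ∈ ({p | |W.v p.1 - v1| < r'} ∪ {p | |W.v p.1 - v2| < r'} : Set (W.L × ℝ))
      · rcases h5 with h5 | h5
        · exact Or.inr (Or.inl ⟨hp, h5⟩)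
        · exact Or.inr (Or.inr ⟨hp, h5⟩)
      · exact Or.inl (hE5 ▸ ⟨hp, h5⟩)
    refine (measure_mono hsub).trans ((measure_union_le _ _).trans (add_le_add le_rfl ?_))
    exact (measure_union_le _ _).trans (add_le_add h1 h2)
  -- `m ≤ 2 K4 prior E5`
  have h4 : m ≤ ENNReal.ofReal (2 * K4) * W.prior E5 := by
    have e1 : ENNReal.ofReal K4 * (ENNReal.ofReal c * m + ENNReal.ofReal c * m) = ENNReal.ofReal (2 * K4 * c) * m := by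
      rw [← two_mul, ← mul_assoc, ← mul_assoc, mul_comm (ENNReal.ofReal K4) 2, ENNReal.ofReal_mul (by positivity), ENNReal.ofReal_mul (by positivity)]
      simp
    have h5 : m ≤ ENNReal.ofReal K4 * W.prior E5 + ENNReal.ofReal (2 * K4 * c) * m := by
      rw [← e1, ← mul_add]
      exact (hm ▸ hmass).trans (mul_le_mul' le_rfl h3)
    have h6 : ENNReal.ofReal (2 * K4 * c) * m ≤ 2⁻¹ * m := by
      refine mul_le_mul' ?_ le_rfl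
      have : 2 * K4 * c ≤ 1 / 2 := by
        rw [hc]
        linarith
      refine (ENNReal.ofReal_le_ofReal this).trans ?_
      rw [one_div, ENNReal.ofReal_inv_of_pos (by norm_num)]
      simp
    have h7 : 2⁻¹ * m + 2⁻¹ * m ≤ ENNReal.ofReal K4 * W.prior E5 + 2⁻¹ * m := by
      rw [← add_mul, ENNReal.inv_two_add_inv_two, one_mul]
      exact h5.trans (add_le_add le_rfl h6)
    have h8 : 2⁻¹ * m ≤ ENNReal.ofReal K4 * W.prior E5 :=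
      ENNReal.le_of_add_le_add_right (ENNReal.mul_ne_top (by simp) hmT) h7
    calc m = 2 * (2⁻¹ * m) := by
          rw [← mul_assoc, ENNReal.mul_inv_cancel (by norm_num) (by norm_num), one_mul]
      _ ≤ 2 * (ENNReal.ofReal K4 * W.prior E5) := mul_le_mul' le_rfl h8
      _ = ENNReal.ofReal (2 * K4) * W.prior E5 := by
          rw [ENNReal.ofReal_mul (by norm_num), ← mul_assoc]
          simp
  -- duration
  have h5 : ENNReal.ofReal (W.q / (4 * K4)) * W.ν (W.asg Q) < (W.ν.prod volume) (E5 ∩ W.asg Q ×ˢ Set.univ) := by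
    have e1 : E5 ∩ W.asg Q ×ˢ Set.univ = E5 := Set.inter_eq_left.2 fun p hp => ⟨(hE5inc hp).1, Set.mem_univ _⟩
    rw [e1]
    have h6 : W.prior E5 ≤ (W.ν.prod volume) E5 := by
      unfold K7aLn.prior k7aTm
      have : W.ν.prod (volume.restrict (Set.Icc (0 : ℝ) 1)) ≤ W.ν.prod volume := by
        have e2 : W.ν.prod (volume.restrict (Set.Icc (0 : ℝ) 1)) = (W.ν.prod volume).restrict (Set.univ ×ˢ Set.Icc (0 : ℝ) 1) := by
          rw [← Measure.prod_restrict, Measure.restrict_univ]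
        rw [e2]
        exact Measure.restrict_le_self
      exact this E5
    refine lt_of_lt_of_le ?_ h6
    by_contra hcon
    have hcon' := not_lt.1 hcon
    have h7 : m ≤ ENNReal.ofReal (2 * K4) * (ENNReal.ofReal (W.q / (4 * K4)) * W.ν (W.asg Q)) := h4.trans (mul_le_mul' le_rfl hcon')
    have e3 : ENNReal.ofReal (2 * K4) * (ENNReal.ofReal (W.q / (4 * K4)) * W.ν (W.asg Q)) = 2⁻¹ * m := by
      rw [hm, ← mul_assoc, ← mul_assoc, ← ENNReal.ofReal_mul (by positivity)]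
      have : 2 * K4 * (W.q / (4 * K4)) = 2⁻¹ * W.q := by
        field_simp
        ring
      rw [this, ENNReal.ofReal_mul (by norm_num), ENNReal.ofReal_inv_of_pos (by norm_num)]
      simp [K7aW.νQ]
    rw [e3] at h7
    have hm0 : m ≠ 0 := hm ▸ mul_ne_zero (by simpa using hq0) hν0
    have h8 : 2⁻¹ * m < 1 * m := (ENNReal.mul_lt_mul_iff_left hm0 hmT).2 (by
      rw [ENNReal.inv_lt_one]
      norm_num)
    rw [one_mul] at h8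
    exact absurd h7 (not_le.2 h8)
  obtain ⟨l, hl, hvol⟩ := k7a_duration W.ν (W.asg Q) E5 (hW.m_asg Q) hE5m _ h5
  have hne : {t | (l, t) ∈ E5}.Nonempty := by
    by_contra hcon
    rw [Set.not_nonempty_iff_eq_empty] at hcon
    rw [hcon, measure_empty] at hvol
    exact absurd hvol (not_lt.2 zero_le)
  obtain ⟨t0, ht0⟩ := hne
  have ht0' : (l, t0) ∈ E4 \ ({p | |W.v p.1 - v1| < r'} ∪ {p | |W.v p.1 - v2| < r'}) := hE5 ▸ ht0
  refine ⟨l, {s | (l, W.tQ Q + W.q * s) ∈ E5}, hl, ?_, ?_, ?_, ?_, fun s hs => hE54 hs⟩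
  · by_contra hcon
    exact ht0'.2 (Or.inl (not_le.1 hcon))
  · by_contra hcon
    exact ht0'.2 (Or.inr (not_le.1 hcon))
  · intro s hs
    have h6 : W.tQ Q + W.q * s ∈ W.blk Q := (hE5inc hs).2
    rw [hblk] at h6
    constructor
    · have := h6.1
      nlinarith
    · have := h6.2
      nlinarith
  · have e1 : {s | (l, W.tQ Q + W.q * s) ∈ E5} = (fun s => W.q * s) ⁻¹' ((fun t => W.tQ Q + t) ⁻¹' {t | (l, t) ∈ E5}) := rfl
    rw [e1, Real.volume_preimage_mul_left hq0.ne', measure_preimage_add]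
    have e2 : ENNReal.ofReal (1 / (4 * K4)) = ENNReal.ofReal |W.q⁻¹| * ENNReal.ofReal (W.q / (4 * K4)) := by
      rw [← ENNReal.ofReal_mul (abs_nonneg _), abs_of_pos (inv_pos.2 hq0)]
      congr 1
      field_simp
    rw [e2]
    exact mul_le_mul' le_rfl hvol.le

/-- **L-252-S7wd2-AF** (~80 l.): `k7wg_F12` : `F₁ = b (e2 + e4 t + 2 e5 y)` with `y = r0 + r1 t + r2 (Z0 + v t)` -/
theorem k7wd2_aff (W : K7aW) (Q : W.Q) {F : ℝ → ℝ → ℝ} (hF : K7aQuad F) (b : ℝ) (l : W.L) :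
    ∃ α0 α1 : ℝ, ∀ s : ℝ, k7wF1 F b (W.tQ Q + W.q * s) (W.YQ Q (W.tQ Q + W.q * s) (W.Z l (W.tQ Q + W.q * s))) = α0 + α1 * s := by
  obtain ⟨e0, e1, e2, e3, e4, e5, hF⟩ := hF
  refine ⟨b * (e2 + e4 * W.tQ Q + 2 * e5 * (W.r0 Q + W.r1 Q * W.tQ Q + W.r2 Q * (W.Z0 l + W.v l * W.tQ Q))),
    b * (e4 * W.q + 2 * e5 * (W.r1 Q * W.q + W.r2 Q * (W.v l * W.q))), fun s => ?_⟩
  rw [(k7wg_F12 hF b _ _).1]
  unfold K7aW.YQ K7aLn.Z
  ring

/-- **L-252-S7wd2-MX** (~300 l.).  **The mixed coefficient.**   Take `l, T` from `k7wd2_line` (`K4 = k7wd2K4 K r`), `φ` = the label of `l` (`hlab`).  For `s ∈ T`, `p = (l, t_Q + q s) ∈ E4 ⊆ E3` : `labQ p = Q`, so `f₁ p = α0 + α1 s` (`k7wd2_aff`).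
`k7wd2_xi_line` : `s_k(p)/(2n) = p_k + w_k s`, `w₁ = (v - v2)/((v1 - v2) 2nω)`, `|w₁| ≥ r'/(2K · 2 · 4K²/r) = r r'/(16 K³) ≥ 1/Km`, the same for `w₂`;  `1/(4 K4) ≥ 1/Km`.
`k7a_mixed` with `m0 = A`, `m1 = 2nB`, `m2 = 2nC`, `m12 = 4n² D`, `K := Km`, `e := e2`. -/
theorem k7wd2_mix (W : K7aW) (P0 : K7aLayer W.toK7aLn) {N K d S a h g e b r ω r' e2 A B C D : ℝ} {Ms Ws : Finset ℝ} {E E3 E4 : Set (W.L × ℝ)} {Q : W.Q} {v1 v2 : ℝ}
    {ci ri : W.L × ℝ → ℤ} {ρ0 ρ1 ρ2 cρ κ0 κ1 κ2 cκ : ℤ → ℝ} (hW : W.Ok N K d S a h g Ms Ws) (hK : 1 ≤ K) (ha : 0 < a) (hh : 0 < h) (hg : 0 < g) (hE : E ⊆ W.Ev0)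
    (hlab : ∀ p ∈ E, P0.lab p.1 ≠ none) (hquad : ∀ φ, K7aQuad (P0.G φ).F) (hG : K7wdGrid W P0 E K e b S r ω Q v1 v2 E3 ci ri ρ0 ρ1 ρ2 cρ κ0 κ1 κ2 cκ)
    (hr : 0 < r) (hω : 0 < ω) {n : ℕ} (hn0 : 0 < n) (hn2 : n * ω ≤ 4 * K ^ 2 / r) (h43 : E4 ⊆ E3) (hm4 : MeasurableSet E4)
    (hmass : ENNReal.ofReal W.q * W.νQ Q ≤ ENNReal.ofReal (k7wd2K4 K r) * W.prior E4) (hr0 : 0 < r') (hr1 : 2 * W.χ0 ≤ r')
    (hr2 : 4 * k7wd2K4 K r * (K * (2 * r') ^ S) ≤ 1)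
    (hfit : ∀ p ∈ E4, |k7wd2f1 W P0 b p - (A + B * k7wd2S W Q v1 v2 ω n p.2 (W.Z p.1 p.2) + C * k7wd2S W Q v2 v1 ω n p.2 (W.Z p.1 p.2)
          + D * k7wd2S W Q v1 v2 ω n p.2 (W.Z p.1 p.2) * k7wd2S W Q v2 v1 ω n p.2 (W.Z p.1 p.2))| ≤ e2) :
    |D| * ((2 * n : ℝ) * (2 * n : ℝ)) ≤ 432 * k7wd2Km K r r' ^ 4 * e2 := by
  have hK0 : 0 < K := by linarith
  obtain ⟨hq0, -, -, -, -, -⟩ := k7wg_blk W hW hG.Qa
  have hv12 : |v1 - v2| ≤ 2 * K := by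
    have := abs_sub v1 v2
    linarith [hG.v1b, hG.v2b]
  have hsep := hG.sep
  have hr2K : r ≤ 2 * K := hsep.trans hv12
  have hvne : v1 ≠ v2 := by
    intro h0
    rw [h0, sub_self, abs_zero] at hsep
    linarith
  have hKI : 1 ≤ k7wd2KI K r := by
    unfold k7wd2KI
    rw [le_div_iff₀ (by positivity), one_mul]
    have h1 : r ^ 2 ≤ (2 * K) ^ 2 := pow_le_pow_left₀ hr.le hr2K 2
    have h2 : K ^ 2 ≤ K ^ 8 := pow_le_pow_right₀ hK (by norm_num)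
    nlinarith
  have hK4 : 1 ≤ k7wd2K4 K r := by
    unfold k7wd2K4
    have := one_le_pow₀ hKI (n := 9)
    linarith
  obtain ⟨l, T, hl, hw1, hw2, hT, hvol, hT4⟩ := k7wd2_line W P0 hW hK ha hh hg hG h43 hm4 hK4 hmass hr1 hr2
  have hTne : T.Nonempty := by
    by_contra hcon
    rw [Set.not_nonempty_iff_eq_empty] at hcon
    rw [hcon, measure_empty, nonpos_iff_eq_zero, ENNReal.ofReal_eq_zero] at hvol
    have : 0 < 1 / (4 * k7wd2K4 K r) := by positivity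
    linarith
  obtain ⟨s0, hs0⟩ := hTne
  obtain ⟨φ, hφ⟩ := Option.ne_none_iff_exists'.1 (hlab _ (hG.sub (h43 (hT4 s0 hs0))).1)
  have hφ' : P0.lab l = some φ := hφ
  obtain ⟨α0, α1, hα⟩ := k7wd2_aff W Q (hquad φ) b l
  have hn : (0 : ℝ) < n := by exact_mod_cast hn0
  have hKm1 : 16 * K ^ 3 / (r * r') ≤ k7wd2Km K r r' := by
    unfold k7wd2Km
    linarith
  have hKm2 : 4 * k7wd2K4 K r ≤ k7wd2Km K r r' := by
    unfold k7wd2Km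
    have : 0 ≤ 16 * K ^ 3 / (r * r') := by positivity
    linarith
  have hKm : 1 ≤ k7wd2Km K r r' := by linarith
  have hKm0 : 0 < k7wd2Km K r r' := by linarith
  -- lower bound of the direction components
  have hw : ∀ va vb : ℝ, |va - vb| ≤ 2 * K → va ≠ vb → r' ≤ |W.v l - vb| → 1 / k7wd2Km K r r' ≤ |(W.v l - vb) / ((va - vb) * ω * (2 * n))| := by
    intro va vb h1 h2 h3
    have h4 : 0 < |va - vb| := abs_pos.2 (sub_ne_zero.2 h2)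
    rw [abs_div, abs_mul, abs_mul, abs_of_pos hω, abs_of_pos (by positivity : (0 : ℝ) < 2 * n)]
    have h5 : |va - vb| * ω * (2 * n) ≤ 16 * K ^ 3 / r := by
      have e1 : |va - vb| * ω * (2 * n) = |va - vb| * (2 * (n * ω)) := by ring
      rw [e1]
      calc |va - vb| * (2 * (n * ω)) ≤ 2 * K * (2 * (4 * K ^ 2 / r)) := mul_le_mul h1 (by linarith) (by positivity) (by positivity)
        _ = 16 * K ^ 3 / r := by ring
    have h6 : 0 < |va - vb| * ω * (2 * n) := by positivity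
    calc 1 / k7wd2Km K r r' ≤ 1 / (16 * K ^ 3 / (r * r')) := one_div_le_one_div_of_le (by positivity) hKm1
      _ = r' / (16 * K ^ 3 / r) := by
          field_simp
      _ ≤ r' / (|va - vb| * ω * (2 * n)) := div_le_div_of_nonneg_left hr0.le h6 h5
      _ ≤ |W.v l - vb| / (|va - vb| * ω * (2 * n)) := div_le_div_of_nonneg_right h3 h6.le
  have hv21 : |v2 - v1| ≤ 2 * K := by rwa [abs_sub_comm]
  have hmix := k7a_mixed (m0 := A) (m1 := 2 * n * B) (m2 := 2 * n * C) (m12 := (2 * n) * (2 * n) * D)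
    (p1 := (k7wdXi W Q v1 v2 (W.tQ Q) (W.Z l (W.tQ Q)) / ω + n) / (2 * n)) (p2 := (k7wdXi W Q v2 v1 (W.tQ Q) (W.Z l (W.tQ Q)) / ω + n) / (2 * n))
    (w1 := (W.v l - v2) / ((v1 - v2) * ω * (2 * n))) (w2 := (W.v l - v1) / ((v2 - v1) * ω * (2 * n))) (α0 := α0) (α1 := α1) (K := k7wd2Km K r r') (e := e2)
    T hKm hT
    ((ENNReal.ofReal_le_ofReal (one_div_le_one_div_of_le (by positivity) hKm2)).trans hvol)
    (hw v1 v2 hv12 hvne hw2) (hw v2 v1 hv21 hvne.symm hw1)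
    (fun s hs => by
      have hp := hT4 s hs
      have h1 := hfit _ hp
      have hQ : W.labQ (l, W.tQ Q + W.q * s) = Q := hG.labQ _ (h43 hp)
      have e1 : k7wd2f1 W P0 b (l, W.tQ Q + W.q * s) = α0 + α1 * s := by
        rw [← hα s]
        simp only [k7wd2f1, hφ']
        unfold K7aW.yq
        rw [hQ]
      rw [e1] at h1
      simp only [k7wd2S] at h1
      rw [k7wd2_xi_line W Q hvne hq0.ne' l s, k7wd2_xi_line W Q hvne.symm hq0.ne' l s, abs_sub_comm] at h1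
      have h12 : v1 - v2 ≠ 0 := sub_ne_zero.2 hvne
      have h21 : v2 - v1 ≠ 0 := sub_ne_zero.2 hvne.symm
      convert h1 using 2
      field_simp
      ring)
  have e3 : |D| * ((2 * n : ℝ) * (2 * n : ℝ)) = |(2 * n) * (2 * n) * D| := by
    rw [abs_mul, abs_of_pos (by positivity : (0 : ℝ) < (2 * n) * (2 * n))]
    ring
  rw [e3]
  exact hmix

/-! ## 5. Exit -/

/-- **L-252-S7wd2-CORE** (~350 l.).  **D4-D5.**   `n := ⌈2K²/(rω)⌉₊ + 3` : `hn1` clear; `n ω ≤ R + 4ω ≤ 2R` (`R = 2K²/r ≥ K ≥ 1` as `r ≤ |v1 - v2| ≤ 2K`; `ω ≤ 1/4`); `n ≥ R/ω ≥ 1/ω` gives `hn3`, `hn4` from `hω2`, `hω3`.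
`k7wd2_bil`, `k7wd2_mix` (`e2 = E2 e`).   `C₁(t,Z) := A + B s₁(t,Z) + C s₂(t,Z)`, affine in `(t,Z)` :
`γ2 = (B - C)/(ω q (v1 - v2))`, `γ1 = (C v1 - B v2)/(ω q (v1 - v2))`, `γ0 = A + (B + C) n - γ1 t_Q - γ2 Zc`.
`fit` : `|s_k| ≤ 2n + 2` on `E4` (`k7wd2_xi_bd`), `|D s₁ s₂| ≤ |D| (2n+2)² ≤ 2 |D| (2n)²`; total `≤ (1 + 864 Km⁴) E2 e ≤ Kout e`;  `15 K ≤ Kout`.   `mass` : `K4 ≤ Kout`.
`bd1` : `|Z - Zc| ≤ h ≤ K h`, so `|ξ_k| ≤ R`, `0 ≤ s_k ≤ 2n`, `|C₁| ≤ 3 Cst ≤ Kout`.   `bd2` : `6K ≤ Kout`. -/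
theorem k7wd2_core (W : K7aW) (P0 : K7aLayer W.toK7aLn) {N K d S a h g e b r ω r' : ℝ} {Ms Ws : Finset ℝ} {E E3 : Set (W.L × ℝ)} {Q : W.Q} {v1 v2 : ℝ} {ci ri : W.L × ℝ → ℤ}
    {ρ0 ρ1 ρ2 cρ κ0 κ1 κ2 cκ : ℤ → ℝ} (hW : W.Ok N K d S a h g Ms Ws) (hK : 1 ≤ K) (ha : 0 < a) (hh : 0 < h) (hg : 0 < g) (hE : E ⊆ W.Ev0)
    (hlab : ∀ p ∈ E, P0.lab p.1 ≠ none) (hquad : ∀ φ, K7aQuad (P0.G φ).F) (hG : K7wdGrid W P0 E K e b S r ω Q v1 v2 E3 ci ri ρ0 ρ1 ρ2 cρ κ0 κ1 κ2 cκ)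
    (hr : 0 < r) (he0 : 0 < e) (he1 : e ≤ 1) (hω : 0 < ω) (hω1 : ω ≤ 1 / 4) (hω2 : 32 * k7wd2KI K r ^ 8 * ω ≤ 1) (hω3 : 5 * k7wd2Cst K r * ω ≤ e)
    (hr0 : 0 < r') (hr1 : 2 * W.χ0 ≤ r') (hr2 : 4 * k7wd2K4 K r * (K * (2 * r') ^ S) ≤ 1) :
    ∃ (γ0 γ1 γ2 C2 : ℝ) (E4 : Set (W.L × ℝ)), K7wCommon W P0 E (k7wd2Kout K r r') e b h Q γ0 γ1 γ2 C2 E4 := by
  have hK0 : 0 < K := by linarith
  have hq : 0 < W.q := by
    unfold K7aW.q
    positivity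
  have hsep := hG.sep
  have hv12 : v1 - v2 ≠ 0 := by
    intro h0
    rw [h0, abs_zero] at hsep
    linarith
  have hv21 : v2 - v1 ≠ 0 := fun h0 => hv12 (by linarith)
  have hr2K : r ≤ 2 * K := by
    calc r ≤ |v1 - v2| := hsep
      _ ≤ |v1| + |v2| := abs_sub _ _
      _ ≤ 2 * K := by linarith [hG.v1b, hG.v2b]
  obtain ⟨R, hR⟩ : ∃ R, R = 2 * K ^ 2 / r := ⟨_, rfl⟩
  have hR1 : 1 ≤ R := by
    rw [hR, le_div_iff₀ hr]
    nlinarith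
  -- the constants
  have hKI : 1 ≤ k7wd2KI K r := by
    unfold k7wd2KI
    rw [le_div_iff₀ (by positivity)]
    have h1 : r ^ 2 ≤ 4 * K ^ 2 := by nlinarith
    have h2 : K ^ 2 ≤ K ^ 8 := pow_le_pow_right₀ hK (by norm_num)
    nlinarith
  have hK4 : 1 ≤ k7wd2K4 K r := by
    unfold k7wd2K4
    have : 1 ≤ k7wd2KI K r ^ 9 := one_le_pow₀ hKI
    linarith
  have hCst : 15 * K ≤ k7wd2Cst K r := by
    unfold k7wd2Cst
    have h1 : 1 ≤ k7wd2KI K r ^ 14 := one_le_pow₀ hKI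
    nlinarith
  have hE2 : 0 ≤ k7wd2E2 K r := by
    unfold k7wd2E2
    have : 0 ≤ k7wd2KI K r := by linarith
    positivity
  have hKm : 1 ≤ k7wd2Km K r r' := by
    unfold k7wd2Km
    have : 0 ≤ 16 * K ^ 3 / (r * r') := by positivity
    linarith
  have hKm4 : 1 ≤ k7wd2Km K r r' ^ 4 := one_le_pow₀ hKm
  have hKout : k7wd2Kout K r r' = 865 * k7wd2Km K r r' ^ 4 * k7wd2E2 K r + 3 * k7wd2Cst K r + k7wd2K4 K r := rfl
  have hX : k7wd2E2 K r ≤ k7wd2Km K r r' ^ 4 * k7wd2E2 K r := le_mul_of_one_le_left hE2 hKm4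
  -- the number of cells
  obtain ⟨n, hn⟩ : ∃ n : ℕ, n = ⌈R / ω⌉₊ + 3 := ⟨_, rfl⟩
  have hRω0 : 0 ≤ R / ω := by positivity
  have hRω : 2 * K ^ 2 / (r * ω) = R / ω := by
    rw [hR]
    field_simp
  have hn_lo : R / ω + 3 ≤ n := by
    rw [hn]
    push_cast
    linarith [Nat.le_ceil (R / ω)]
  have hn_hi : (n : ℝ) ≤ R / ω + 4 := by
    rw [hn]
    push_cast
    linarith [Nat.ceil_lt_add_one hRω0]
  have hn0 : 0 < n := by omega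
  have hn1 : 2 * K ^ 2 / (r * ω) + 3 ≤ n := by
    rw [hRω]
    exact hn_lo
  have hn2 : n * ω ≤ 4 * K ^ 2 / r := by
    have h1 : (n : ℝ) * ω ≤ (R / ω + 4) * ω := by gcongr
    have e1 : (R / ω + 4) * ω = R + 4 * ω := by field_simp
    have e2 : 4 * K ^ 2 / r = 2 * R := by
      rw [hR]
      ring
    rw [e2]
    linarith
  have hinv : 1 / ω ≤ n := by
    have : 1 / ω ≤ R / ω := by gcongr
    linarith
  have hn3 : 32 * k7wd2KI K r ^ 8 ≤ n := by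
    have : 32 * k7wd2KI K r ^ 8 ≤ 1 / ω := by
      rw [le_div_iff₀ hω]
      exact hω2
    linarith
  have hn4 : 5 * k7wd2Cst K r ≤ e * n := by
    have h1 : 5 * k7wd2Cst K r ≤ e * (1 / ω) := by
      rw [mul_one_div, le_div_iff₀ hω]
      exact hω3
    have h2 : e * (1 / ω) ≤ e * n := by gcongr
    linarith
  obtain ⟨A, B, C, D, C2, E4, h43, hm4, hmass4, hfit4, bA, bB, bC, _, bC2⟩ :=
    k7wd2_bil W P0 hW hK ha hh hg hE hlab hG hr he0 he1 hω hn1 hn2 hn3 hn4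
  have hmix := k7wd2_mix W P0 hW hK ha hh hg hE hlab hquad hG hr hω hn0 hn2 h43 hm4 hmass4 hr0 hr1 hr2
    (e2 := k7wd2E2 K r * e) (fun p hp => (hfit4 p hp).1)
  -- the index coordinates in the box of `Q`
  have hS : ∀ t ∈ W.blk Q, ∀ Z : ℝ, |Z - W.Zc Q| ≤ K * h →
      (0 ≤ k7wd2S W Q v1 v2 ω n t Z ∧ k7wd2S W Q v1 v2 ω n t Z ≤ 2 * n) ∧
        (0 ≤ k7wd2S W Q v2 v1 ω n t Z ∧ k7wd2S W Q v2 v1 ω n t Z ≤ 2 * n) := by
    intro t ht Z hZ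
    have h1 := k7wd2_xi_bd W hW hK hG.Qa hr hsep hG.v2b ht hZ
    have h2 := k7wd2_xi_bd W hW hK hG.Qa hr (by rwa [abs_sub_comm]) hG.v1b ht hZ
    rw [← hR] at h1 h2
    have key : ∀ ξ : ℝ, |ξ| ≤ R → 0 ≤ ξ / ω + n ∧ ξ / ω + n ≤ 2 * n := by
      intro ξ hξ
      have a := abs_le.1 hξ
      have b1 : -(R / ω) ≤ ξ / ω := by
        rw [← neg_div]
        gcongr
        exact a.1
      have b2 : ξ / ω ≤ R / ω := by
        gcongr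
        exact a.2
      constructor <;> linarith
    exact ⟨key _ h1, key _ h2⟩
  -- the affine function
  have hid : ∀ t Z : ℝ, (A + (B + C) * n - (C * v1 - B * v2) / (ω * W.q * (v1 - v2)) * W.tQ Q - (B - C) / (ω * W.q * (v1 - v2)) * W.Zc Q)
      + (C * v1 - B * v2) / (ω * W.q * (v1 - v2)) * t + (B - C) / (ω * W.q * (v1 - v2)) * Z
      = A + B * k7wd2S W Q v1 v2 ω n t Z + C * k7wd2S W Q v2 v1 ω n t Z := by
    intro t Z
    unfold k7wd2S k7wdXi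
    have e : v2 - v1 = -(v1 - v2) := by ring
    rw [e]
    field_simp
    ring
  refine ⟨A + (B + C) * n - (C * v1 - B * v2) / (ω * W.q * (v1 - v2)) * W.tQ Q - (B - C) / (ω * W.q * (v1 - v2)) * W.Zc Q,
    (C * v1 - B * v2) / (ω * W.q * (v1 - v2)), (B - C) / (ω * W.q * (v1 - v2)), C2, E4, hG.Qa, hm4, h43.trans hG.sub, ?_, ?_, ?_, ?_⟩
  · refine hmass4.trans (mul_le_mul' (ENNReal.ofReal_le_ofReal ?_) le_rfl)
    rw [hKout]
    have : 0 ≤ k7wd2Km K r r' ^ 4 * k7wd2E2 K r := by positivity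
    linarith
  · intro p hp φ hφ
    have hinc := (hG.sub (h43 hp)).2
    have hbox := (hW.box Q hG.Qa p.1 hinc.1 p.2 hinc.2).1
    obtain ⟨⟨s1a, s1b⟩, ⟨s2a, s2b⟩⟩ := hS p.2 hinc.2 _ hbox
    obtain ⟨f1, f2⟩ := hfit4 p hp
    have e1 : k7wd2f1 W P0 b p = k7wF1 (P0.G φ).F b p.2 (W.yq p) := by simp only [k7wd2f1, hφ]
    have e2 : k7wd2f2 W P0 b p = k7wF2 (P0.G φ).F b p.2 (W.yq p) := by simp only [k7wd2f2, hφ]
    rw [e1] at f1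
    rw [e2] at f2
    rw [hid]
    constructor
    · have hD : |D * k7wd2S W Q v1 v2 ω n p.2 (W.Z p.1 p.2) * k7wd2S W Q v2 v1 ω n p.2 (W.Z p.1 p.2)|
          ≤ 432 * k7wd2Km K r r' ^ 4 * (k7wd2E2 K r * e) := by
        rw [abs_mul, abs_mul, abs_of_nonneg s1a, abs_of_nonneg s2a]
        calc |D| * k7wd2S W Q v1 v2 ω n p.2 (W.Z p.1 p.2) * k7wd2S W Q v2 v1 ω n p.2 (W.Z p.1 p.2)
            ≤ |D| * (2 * n) * (2 * n) := by gcongr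
          _ = |D| * ((2 * n : ℝ) * (2 * n : ℝ)) := by ring
          _ ≤ _ := hmix
      have a1 := abs_le.1 f1
      have a2 := abs_le.1 hD
      have hfin : k7wd2E2 K r * e + 432 * k7wd2Km K r r' ^ 4 * (k7wd2E2 K r * e) ≤ k7wd2Kout K r r' * e := by
        calc k7wd2E2 K r * e + 432 * k7wd2Km K r r' ^ 4 * (k7wd2E2 K r * e)
            = (k7wd2E2 K r + 432 * (k7wd2Km K r r' ^ 4 * k7wd2E2 K r)) * e := by ring
          _ ≤ k7wd2Kout K r r' * e := by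
              gcongr
              rw [hKout]
              linarith
      exact abs_le.2 ⟨by linarith, by linarith⟩
    · refine f2.trans ?_
      gcongr
      rw [hKout]
      have : 0 ≤ k7wd2Km K r r' ^ 4 * k7wd2E2 K r := by positivity
      linarith
  · intro t ht Z hZ
    have hZ' : |Z - W.Zc Q| ≤ K * h := hZ.trans (le_mul_of_one_le_left hh.le hK)
    obtain ⟨⟨s1a, s1b⟩, ⟨s2a, s2b⟩⟩ := hS t ht Z hZ'
    rw [hid]
    have h1 : |B * k7wd2S W Q v1 v2 ω n t Z| ≤ k7wd2Cst K r := by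
      rw [abs_mul, abs_of_nonneg s1a]
      exact (mul_le_mul_of_nonneg_left s1b (abs_nonneg _)).trans bB
    have h2 : |C * k7wd2S W Q v2 v1 ω n t Z| ≤ k7wd2Cst K r := by
      rw [abs_mul, abs_of_nonneg s2a]
      exact (mul_le_mul_of_nonneg_left s2b (abs_nonneg _)).trans bC
    have a0 := abs_le.1 bA
    have a1 := abs_le.1 h1
    have a2 := abs_le.1 h2
    have : 0 ≤ k7wd2Km K r r' ^ 4 * k7wd2E2 K r := by positivity
    rw [hKout]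
    exact abs_le.2 ⟨by linarith, by linarith⟩
  · refine bC2.trans ?_
    rw [hKout]
    have : 0 ≤ k7wd2Km K r r' ^ 4 * k7wd2E2 K r := by positivity
    linarith

end

end Claimed.Agent.R252

/-!
# ROW 252 (S0492), unit S7w, post BP-252-S7w-D (helper242; chief helper89), file 5: **STAGE D** `k7wd_stageD : K7wStageD` from `k7wd_grid_exp` (D1-D3) and `k7wd2_core` (D4-D5, helper183).
Exponents: `τ'' = min τ' 1`, `r' = N^{-θ}`, `θ = τ''/2000`, `r = N^{-τr}`, `τr = min 1 (S/200) θ`, `τ = min (min (1/12) (S/3) τr) (min (1/100) u)`, slack of the grid `N^{12τ}`.   No joint caps: `Ms = Ws = ∅`.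
-/

set_option autoImplicit false

namespace Claimed.Agent.R252

open MeasureTheory
open scoped ENNReal BigOperators

noncomputable section

theorem k7wd_big (c δ : ℝ) (hδ : 0 < δ) : ∃ N1 : ℝ, 1 ≤ N1 ∧ ∀ N : ℝ, N1 ≤ N → c ≤ N ^ δ := by
  obtain ⟨a, ha⟩ := Filter.eventually_atTop.1 ((tendsto_rpow_atTop hδ).eventually_ge_atTop c)
  exact ⟨max 1 a, le_max_left _ _, fun N hN => ha N ((le_max_right _ _).trans hN)⟩

theorem k7wd_common_mono {W : K7aW} {P0 : K7aLayer W.toK7aLn} {E : Set (W.L × ℝ)} {K K' e b h : ℝ} {Q : W.Q} {γ0 γ1 γ2 C2 : ℝ} {E4 : Set (W.L × ℝ)}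
    (H : K7wCommon W P0 E K e b h Q γ0 γ1 γ2 C2 E4) (hK : K ≤ K') (he : 0 ≤ e) : K7wCommon W P0 E K' e b h Q γ0 γ1 γ2 C2 E4 where
  Qa := H.Qa
  meas := H.meas
  sub := H.sub
  mass := H.mass.trans (mul_le_mul_left (ENNReal.ofReal_le_ofReal hK) _)
  fit := fun p hp φ hφ => ⟨(H.fit p hp φ hφ).1.trans (mul_le_mul_of_nonneg_right hK he), (H.fit p hp φ hφ).2.trans (mul_le_mul_of_nonneg_right hK he)⟩
  bd1 := fun t ht Z hZ => (H.bd1 t ht Z hZ).trans hK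
  bd2 := H.bd2.trans hK

theorem k7wd_KI_pow {N τ3 τr : ℝ} (hN : 0 < N) : k7wd2KI (N ^ τ3) (N ^ (-τr)) = 8192 * N ^ (8 * τ3 + 2 * τr) := by
  unfold k7wd2KI
  have e1 : (N ^ (-τr)) ^ 2 = (N ^ (2 * τr))⁻¹ := by
    rw [← Real.rpow_natCast, ← Real.rpow_mul hN.le, ← Real.rpow_neg hN.le]
    congr 1
    push_cast
    ring
  have e2 : (N ^ τ3) ^ 8 = N ^ (8 * τ3) := by
    rw [← Real.rpow_natCast, ← Real.rpow_mul hN.le]
    congr 1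
    push_cast
    ring
  rw [e1, e2, div_inv_eq_mul, Real.rpow_add hN]
  ring

/-- **STAGE D of P7.3** -/
theorem k7wd_stageD : K7wStageD := by
  intro x hx
  refine ⟨x.eh + x.eg + 1, fun Mχ hMχ => ⟨x.eω Mχ + x.eh + x.ee + 2 * x.B 0 + 2, 0, fun Mst rst hMst _ => ⟨Mχ + x.eg + 2, fun τ' hτ' => ?_⟩⟩⟩
  have hS := hx.S0
  set τ2 : ℝ := min τ' 1 with hτ2
  have hτ20 : 0 < τ2 := lt_min hτ' one_pos
  have hτ21 : τ2 ≤ 1 := min_le_right _ _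
  set θ : ℝ := τ2 / 2000 with hθ
  have hθ0 : 0 < θ := by positivity
  set cS : ℝ := min 1 (x.S / 200) with hcS
  have hcS0 : 0 < cS := lt_min one_pos (by positivity)
  set τr : ℝ := cS * θ with hτr
  have hτr0 : 0 < τr := by positivity
  have hτrθ : τr ≤ θ := by
    have : cS ≤ 1 := min_le_left _ _
    nlinarith
  have hτrS : τr ≤ x.S / 200 * θ := mul_le_mul_of_nonneg_right (min_le_right _ _) hθ0.le
  set τ : ℝ := min (min (1 / 12) (x.S / 3) * τr) (min (1 / 100) x.u) with hτ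
  have hτ0 : 0 < τ := lt_min (mul_pos (lt_min (by norm_num) (by positivity)) hτr0) (lt_min (by norm_num) hx.u0)
  have hτa : τ ≤ 1 / 12 * τr := (min_le_left _ _).trans (mul_le_mul_of_nonneg_right (min_le_left _ _) hτr0.le)
  have hτb : τ ≤ x.S / 3 * τr := (min_le_left _ _).trans (mul_le_mul_of_nonneg_right (min_le_right _ _) hτr0.le)
  have hτc : τ ≤ 1 / 100 := (min_le_right _ _).trans (min_le_left _ _)
  have hτd : τ ≤ x.u := (min_le_right _ _).trans (min_le_right _ _)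
  set δ0 : ℝ := min τ (x.S * θ / 4) with hδ0
  have hδ00 : 0 < δ0 := lt_min hτ0 (by positivity)
  have hδa : δ0 ≤ τ := min_le_left _ _
  have hδb : δ0 ≤ x.S * θ / 4 := min_le_right _ _
  obtain ⟨N1, hN11, hbig⟩ := k7wd_big (2 ^ 700 * 2 ^ x.S) δ0 hδ00
  refine ⟨τ, N1, ∅, ∅, hτ0, by simp, by simp, fun N hN W P β E c1 c2 hH hχ0 hF => ?_⟩
  have hN1 : 1 ≤ N := hN11.trans hN
  have hN0 : 0 < N := by linarith
  have hp : ∀ α : ℝ, 0 < N ^ α := fun α => Real.rpow_pos_of_pos hN0 α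
  have h2S : (1 : ℝ) ≤ 2 ^ x.S := Real.one_le_rpow (by norm_num) hS.le
  have hb0 := hbig N hN
  have h240 : (2 : ℝ) ^ 240 ≤ 2 ^ 700 := pow_le_pow_right₀ (by norm_num) (by norm_num)
  have hc : ∀ c δ : ℝ, c ≤ 2 ^ 240 → δ0 ≤ δ → c ≤ N ^ δ := fun c δ h1 h2 => by
    have h3 : c ≤ 2 ^ 700 * 2 ^ x.S := (h1.trans h240).trans (le_mul_of_one_le_right (by positivity) h2S)
    exact h3.trans (hb0.trans (Real.rpow_le_rpow_of_exponent_le hN1 h2))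
  have hcS' : ∀ c δ : ℝ, c ≤ 2 ^ 240 → δ0 ≤ δ → c * 2 ^ x.S ≤ N ^ δ := fun c δ h1 h2 => by
    have h3 : c * 2 ^ x.S ≤ 2 ^ 700 * 2 ^ x.S := mul_le_mul_of_nonneg_right (h1.trans h240) (by linarith)
    exact h3.trans (hb0.trans (Real.rpow_le_rpow_of_exponent_le hN1 h2))
  have hee : 0 < x.ee := by
    unfold K7wExp.ee
    have h1 : 0 < (1 - x.d) * x.u := mul_pos (by linarith [hx.d1]) hx.u0
    linarith [hx.s0]
  have hB0 : 0 < x.B 0 := lt_of_lt_of_le hx.eg0 (hx.Bg 0)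
  have heω : x.eω Mχ = Mχ + x.ee + 2 * x.B 0 + 1 := rfl
  obtain ⟨Q, v1, v2, E3, ci, ri, ρ0, ρ1, ρ2, cρ, κ0, κ1, κ2, cκ, hG⟩ := k7wd_grid_exp x hx (τr := τr) hMχ hMst le_rfl hτ0 hτc hτd (by linarith) (by nlinarith)
    hN1 (hc _ _ (by norm_num) (by linarith)) (hcS' 2 τ (by norm_num) hδa) (hc _ _ (by norm_num) hδa) W P β E c1 c2 hH hχ0 hF
  have hKK : N ^ τ ≤ N ^ (12 * τ) := Real.rpow_le_rpow_of_exponent_le hN1 (by linarith)
  have hW3 := k7w_w_mono (Ms' := ∅) (Ws' := ∅) hH.w hN0.le hKK (hp _).le (hp _).le (hp _).le (Finset.Subset.refl _) (Finset.Subset.refl _)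
  have hK3 : 1 ≤ N ^ (12 * τ) := Real.one_le_rpow hN1 (by linarith)
  have hKI := k7wd_KI_pow (τ3 := 12 * τ) (τr := τr) hN0
  set κ : ℝ := 8 * (12 * τ) + 2 * τr with hκ
  have hκle : κ ≤ 10 * θ := by rw [hκ]; linarith
  have hθs : θ ≤ 1 / 2000 := by rw [hθ]; linarith
  have hA : 0 < N ^ κ := hp κ
  have c1' : N ^ (-x.eω Mχ) ≤ 1 / 4 := by
    have h1 : 4 * N ^ (-x.eω Mχ) ≤ N ^ (0 : ℝ) := k7wd_pw hN1 (hc 4 (1 / 10) (by norm_num) (by linarith)) (by rw [heω]; linarith [hx.eh0, hx.eg0])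
    rw [Real.rpow_zero] at h1
    linarith
  have c2' : 32 * k7wd2KI (N ^ (12 * τ)) (N ^ (-τr)) ^ 8 * N ^ (-x.eω Mχ) ≤ 1 := by
    rw [hKI]
    have h1 : (32 * 8192 ^ 8) * ((N ^ κ) ^ 8 * N ^ (-x.eω Mχ)) ≤ N ^ (0 : ℝ) := by
      simp only [← Real.rpow_natCast, ← Real.rpow_mul hN0.le, ← Real.rpow_add hN0]
      refine k7wd_pw hN1 (hc _ (1 / 10) (by norm_num) (by linarith)) ?_
      push_cast
      rw [heω]
      linarith [hx.eh0, hx.eg0]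
    rw [Real.rpow_zero] at h1
    calc 32 * (8192 * N ^ κ) ^ 8 * N ^ (-x.eω Mχ) = (32 * 8192 ^ 8) * ((N ^ κ) ^ 8 * N ^ (-x.eω Mχ)) := by ring
      _ ≤ 1 := h1
  have c3' : 5 * k7wd2Cst (N ^ (12 * τ)) (N ^ (-τr)) * N ^ (-x.eω Mχ) ≤ N ^ (-x.ee) := by
    unfold k7wd2Cst
    rw [hKI]
    have h1 : (5 * 120000 * 8192 ^ 14) * ((N ^ κ) ^ 14 * N ^ (12 * τ) * N ^ (-x.eω Mχ)) ≤ N ^ (-x.ee) := by
      simp only [← Real.rpow_natCast, ← Real.rpow_mul hN0.le, ← Real.rpow_add hN0]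
      refine k7wd_pw hN1 (hc _ (1 / 10) (by norm_num) (by linarith)) ?_
      push_cast
      rw [heω]
      linarith [hx.eh0, hx.eg0]
    calc 5 * (120000 * (8192 * N ^ κ) ^ 14 * N ^ (12 * τ)) * N ^ (-x.eω Mχ) = (5 * 120000 * 8192 ^ 14) * ((N ^ κ) ^ 14 * N ^ (12 * τ) * N ^ (-x.eω Mχ)) := by ring
      _ ≤ _ := h1
  have c4' : 2 * W.χ0 ≤ N ^ (-θ) := by
    have h1 : 2 * N ^ (-(Mχ + x.eg + 2)) ≤ N ^ (-θ) := k7wd_pw hN1 (hc 2 (1 / 10) (by norm_num) (by linarith)) (by linarith [hx.eh0, hx.eg0])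
    linarith
  have c5' : 4 * k7wd2K4 (N ^ (12 * τ)) (N ^ (-τr)) * (N ^ (12 * τ) * (2 * N ^ (-θ)) ^ x.S) ≤ 1 := by
    unfold k7wd2K4
    rw [hKI]
    have e1 : (2 * N ^ (-θ)) ^ x.S = 2 ^ x.S * N ^ (-θ * x.S) := by
      rw [Real.mul_rpow (by norm_num) (hp _).le, ← Real.rpow_mul hN0.le]
    rw [e1]
    have h1 : (4 * 64 * 8192 ^ 9 * 2 ^ x.S) * ((N ^ κ) ^ 9 * N ^ (12 * τ) * N ^ (-θ * x.S)) ≤ N ^ (0 : ℝ) := by
      simp only [← Real.rpow_natCast, ← Real.rpow_mul hN0.le, ← Real.rpow_add hN0]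
      refine k7wd_pw hN1 (hcS' _ (x.S * θ / 4) (by norm_num) hδb) ?_
      push_cast
      rw [hκ]
      nlinarith
    rw [Real.rpow_zero] at h1
    calc 4 * (64 * (8192 * N ^ κ) ^ 9) * (N ^ (12 * τ) * (2 ^ x.S * N ^ (-θ * x.S)))
        = (4 * 64 * 8192 ^ 9 * 2 ^ x.S) * ((N ^ κ) ^ 9 * N ^ (12 * τ) * N ^ (-θ * x.S)) := by ring
      _ ≤ 1 := h1
  obtain ⟨γ0, γ1, γ2, C2, E4, hC⟩ := k7wd2_core W (P 0) (r' := N ^ (-θ)) hW3 hK3 (hp _) (hp _) (hp _) hH.sub (fun p hp' => hH.lab p hp' 0) (hH.lay 0).quad hG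
    (hp _) (hp _) (Real.rpow_le_one_of_one_le_of_nonpos hN1 (by linarith)) (hp _) c1' c2' c3' (hp _) c4' c5'
  refine ⟨Q, γ0, γ1, γ2, C2, E4, k7wd_common_mono hC ?_ (hp _).le⟩
  have h1 := k7wd2_Kout_le (K := N ^ (12 * τ)) (r := N ^ (-τr)) (r' := N ^ (-θ)) hK3 (hp _) (Real.rpow_le_one_of_one_le_of_nonpos hN1 (by linarith)) (hp _)
    (Real.rpow_le_one_of_one_le_of_nonpos hN1 (by linarith))
  refine h1.trans ?_
  have e1 : N ^ (12 * τ) / (N ^ (-τr) * N ^ (-θ)) = N ^ (12 * τ + τr + θ) := by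
    rw [← Real.rpow_add hN0, ← Real.rpow_sub hN0]
    congr 1
    ring
  rw [e1]
  have h610 : (2 : ℝ) ^ 610 ≤ N ^ δ0 := by
    have h2 : (2 : ℝ) ^ 610 ≤ 2 ^ 700 := pow_le_pow_right₀ (by norm_num) (by norm_num)
    exact (h2.trans (le_mul_of_one_le_right (by positivity) h2S)).trans hb0
  have h3 : 2 ^ 610 * N ^ ((12 * τ + τr + θ) * 340) ≤ N ^ τ2 := k7wd_pw hN1 h610 (by
    have : δ0 ≤ θ := by linarith
    rw [hθ] at *
    linarith)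
  calc 2 ^ 610 * (N ^ (12 * τ + τr + θ)) ^ 340 = 2 ^ 610 * N ^ ((12 * τ + τr + θ) * 340) := by
        congr 1
        rw [← Real.rpow_natCast, ← Real.rpow_mul hN0.le]
        norm_num
    _ ≤ N ^ τ2 := h3
    _ ≤ N ^ τ' := Real.rpow_le_rpow_of_exponent_le hN1 (min_le_left _ _)

end

end Claimed.Agent.R252
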