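import Claimed.Agent.R252.S7a.WideGlue
import Claimed.Agent.R252.State.KsStateC
import Claimed.Agent.R252.S7a.WideContract

/-!
# ROW 252 (S0492), unit S7w, STAGE E of P7.3 (post BP-252-S7w-E, sub-architect helper202, chief helper89), file 1: VOCABULARY.      Definitions only.   -- KEEP

ONE scale, EXPLICIT slack `K ≥ 1`.   All data of stage E are bundled in ONE record `X : K7weDat`; all hypotheses in ONE Prop `X.Ok`.   Every leaf `L-252-S7w-E*` is a statement about `(X, hX : X.Ok)`; it is PAPER-FREE.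
Scales (all in `(0, 1]`): `a` (thickness of `Q`), `a2 ≤ a` (terminal width, `a2 = N^{-r2}`), `h` (block length, `h/K ≤ q ≤ K h`, `q = X.W.q`), `g`, `b = h g`, `χ` (group mesh), `e` (error of the common coefficients), `ε` (constancy of the offsets),
`Lam` (enlargement in `K7wVar`), `β0` (interval scale of the layer `0`), `R = (a/a2)^d`, `σs = 2^{-m}` (mesh of the scalar projection, NORMALISED coordinates), `σf = N^{-Mf}` (fine base mesh, `Mf ∈ Ms`), `χ0 = X.W.χ0` (finest velocity mesh).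
Order of the scales: `χ0, σf ≪ σs ≪ χ ≪ b`;  "`≪`" = up to the factor `X.G = 1000 K^6`  (fields `sm_*`).
## Objects
* `X.tQ`                left end of the block of `Q`;   `t' = (t - tQ)/q ∈ [0,1)`,  `y = (Z - Zc)/q`.
* `X.Ub t Z Y`          `U = (Y - Y_Q(t,Z))/b`;  `X.C1 t Z = γ0 + γ1 t + γ2 Z`;  `X.Pnc t Z Y = C₁ U + C₂ U²`.
* `X.Xo l t`            the residual signal `X° = X - P_nc` along the line `l` (ORIGINAL time); quadratic in `t`.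
* `X.zc p`, `X.o p`     the `z`-cell `(⌊t'/σs⌋, ⌊y/σs⌋)` and the output state `(z-cell, ⌊X°/a2⌋)` of an incidence `p` (original coordinates).
* `X.T`                 `(l, t) ↦ (l, t')`.
* `X.D E5`              the `K7aData` on `Λ = X.W.L` fed into Thm 7.1: prior `ν_Q⁻¹ ν|asg Q`, active measure `(q ν_Q)⁻¹ T_* (law E5)`, coefficients of `y`, `X°` in `t'` (three-point formula at `t' = 0, 1/4, 1/2`; `0` off `asg Q`).
-/

set_option autoImplicit false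

namespace Claimed.Agent.R252

open MeasureTheory
open scoped ENNReal BigOperators

noncomputable section

/-- **all data of stage E at one scale** (no proofs) -/
structure K7weDat where
  W : K7aW
  P : Fin 3 → K7aLayer W.toK7aLn
  E : Set (W.L × ℝ)
  Q : W.Q
  γ0 : ℝ
  γ1 : ℝ
  γ2 : ℝ
  C2 : ℝ
  E4 : Set (W.L × ℝ)
  N : ℝ
  K : ℝ
  d : ℝ
  S : ℝ
  a : ℝ
  a2 : ℝ
  h : ℝ
  g : ℝ
  χ : ℝ
  e : ℝ
  ε : ℝ
  Lam : ℝ
  β0 : ℝ
  β2 : ℝ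
  R : ℝ
  Ms : Finset ℝ
  Ws : Finset ℝ
  Mf : ℝ
  r2 : ℝ
  m : ℕ
  u1 : ℝ

namespace K7weDat

variable (X : K7weDat)

/-- `b = h g` -/
def b : ℝ := X.h * X.g

/-- left end of the block of `Q` -/
def tQ : ℝ := (X.W.iv X.Q : ℝ) * X.W.q

/-- the mesh of the scalar projection (normalised coordinates) -/
def σs : ℝ := (1 / 2 : ℝ) ^ X.m

/-- the fine base mesh (requested width; the true width of the bins is `kbDy X.σf ∈ [σf, 2σf)`) -/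
def σf : ℝ := X.N ^ (-X.Mf)

/-- the density constant `c = a^{-d}` -/
def c : ℝ := (X.a ^ X.d)⁻¹

/-- the factor in all smallness hypotheses -/
def G : ℝ := 1000 * X.K ^ 6

/-- `U = (Y - Y_Q(t,Z)) / b` -/
def Ub (t Z Y : ℝ) : ℝ := (Y - X.W.YQ X.Q t Z) / X.b

/-- `C₁(t, Z)` -/
def C1 (t Z : ℝ) : ℝ := X.γ0 + X.γ1 * t + X.γ2 * Z

/-- `P_nc = C₁ U + C₂ U²` -/
def Pnc (t Z Y : ℝ) : ℝ := X.C1 t Z * X.Ub t Z Y + X.C2 * X.Ub t Z Y ^ 2

/-- the residual signal `X° = X - P_nc` along a line, original time -/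
def Xo (l : X.W.L) (t : ℝ) : ℝ := X.W.X l t - X.Pnc t (X.W.Z l t) (X.W.Y l t)

/-- the residual signal in the normalised time of the block -/
def fo (l : X.W.L) (s : ℝ) : ℝ := X.Xo l (X.tQ + X.W.q * s)

/-- normalisation of the time -/
def T (p : X.W.L × ℝ) : X.W.L × ℝ := (p.1, (p.2 - X.tQ) / X.W.q)

/-- the `z`-cell of an incidence -/
def zc (p : X.W.L × ℝ) : ℤ × ℤ := (⌊(p.2 - X.tQ) / X.W.q / X.σs⌋, ⌊(X.W.Z p.1 p.2 - X.W.Zc X.Q) / X.W.q / X.σs⌋)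

/-- the output state of an incidence -/
def o (p : X.W.L × ℝ) : ℤ × ℤ × ℤ := ((X.zc p).1, (X.zc p).2, ⌊X.Xo p.1 p.2 / X.a2⌋)

/-- **the data of the scalar mesh projection theorem** -/
def D (E5 : Set (X.W.L × ℝ)) : K7aData X.W.L where
  nu := (X.W.νQ X.Q)⁻¹ • X.W.ν.restrict (X.W.asg X.Q)
  mu := (ENNReal.ofReal X.W.q * X.W.νQ X.Q)⁻¹ • (X.W.law E5).map X.T
  y0 := (X.W.asg X.Q).indicator fun l => (X.W.Z l X.tQ - X.W.Zc X.Q) / X.W.q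
  y1 := (X.W.asg X.Q).indicator fun l => X.W.v l
  x0 := (X.W.asg X.Q).indicator fun l => X.fo l 0
  x1 := (X.W.asg X.Q).indicator fun l => 8 * X.fo l (1 / 4) - 6 * X.fo l 0 - 2 * X.fo l (1 / 2)
  x2 := (X.W.asg X.Q).indicator fun l => 8 * (X.fo l (1 / 2) - 2 * X.fo l (1 / 4) + X.fo l 0)

/-- **the hypotheses of stage E at one scale**, explicit slack `K` -/
structure Ok : Prop where
  N1 : 1 < X.N
  K1 : 1 ≤ X.K
  d0 : 0 ≤ X.d
  d1 : X.d ≤ 1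
  a_pos : 0 < X.a
  a2_pos : 0 < X.a2
  a2_le : X.a2 ≤ 1
  h_pos : 0 < X.h
  h_le : X.h ≤ 1
  g_pos : 0 < X.g
  g_le : X.g ≤ 1
  χ_pos : 0 < X.χ
  e_nn : 0 ≤ X.e
  β0_pos : 0 < X.β0
  β0_le : X.β0 ≤ X.K
  b_le : X.h * X.g ≤ X.K * X.β0
  R_eq : X.c * X.a2 ^ X.d * X.R = 1
  /-- the parent record, the layers `0` and `2`, the forward lists -/
  w : X.W.Ok X.N X.K X.d X.S X.a X.h X.g X.Ms X.Ws
  lay0 : (X.P 0).Ok X.K X.χ X.a X.β0 X.d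
  lay2 : (X.P 2).Ok X.K X.χ X.a2 X.β2 X.d
  sub : X.E ⊆ X.W.Ev0
  lab : ∀ p ∈ X.E, ∀ i, (X.P i).lab p.1 ≠ none
  lists : K7aLists X.W (X.P 0) X.E X.K X.χ X.W.q X.g (X.W.q * X.g)
  /-- outputs of the stages A, B, D -/
  var : K7wVar X.W X.P (X.h * X.g) X.ε X.Lam X.E
  fine : ∀ φ0 : (X.P 0).Ph, ∃ S : Finset (X.P 2).Ph, (S.card : ℝ) ≤ X.K * X.R ∧
    ∀ p ∈ X.E, X.W.labQ p = X.Q → (X.P 0).lab p.1 = some φ0 → ∀ φ, (X.P 2).lab p.1 = some φ → φ ∈ S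
  com : K7wCommon X.W (X.P 0) X.E X.K X.e (X.h * X.g) X.h X.Q X.γ0 X.γ1 X.γ2 X.C2 X.E4
  /-- required meshes and widths -/
  Mf_mem : X.Mf ∈ X.Ms
  r2_mem : X.r2 ∈ X.Ws
  a2_eq : X.a2 = X.N ^ (-X.r2)
  grid : ∀ pw : ℝ, X.a2 ≤ pw → pw ≤ 1 → ∃ r ∈ X.Ws, pw ≤ X.N ^ (-r) ∧ X.N ^ (-r) ≤ X.K * pw
  /-- smallness, `G = 1000 K^6` -/
  sm_Lam : X.G ≤ X.Lam
  sm_e : X.G * X.e ≤ X.a2
  sm_ε : X.ε ≤ X.a2
  sm_χ : X.G * X.χ ≤ X.h * X.g
  sm_σ1 : X.G * X.σs ≤ X.χ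
  sm_σ2 : X.G * X.σs ≤ X.a2 * X.β0
  sm_f : X.G * X.σf ≤ X.a2 * (X.h * X.g) * X.σs
  sm_χ0 : X.G * X.W.χ0 ≤ X.χ * X.σs
  sm_u1 : 4 * X.W.χ0 ≤ X.N ^ (-X.u1)

end K7weDat

/-- every definition of this file is cited here: the on-demand equation lemmas are generated in THIS module -/
theorem k7we_eqns_cite : True := by
  have := @K7weDat.b.eq_1
  have := @K7weDat.tQ.eq_1
  have := @K7weDat.σs.eq_1
  have := @K7weDat.σf.eq_1
  have := @K7weDat.c.eq_1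
  have := @K7weDat.G.eq_1
  have := @K7weDat.Ub.eq_1
  have := @K7weDat.C1.eq_1
  have := @K7weDat.Pnc.eq_1
  have := @K7weDat.Xo.eq_1
  have := @K7weDat.fo.eq_1
  have := @K7weDat.T.eq_1
  have := @K7weDat.zc.eq_1
  have := @K7weDat.o.eq_1
  have := @K7weDat.D.eq_1
  trivial

end

end Claimed.Agent.R252

/-!
# ROW 252 (S0492), unit S7w, STAGE E of P7.3 (helper202), BASE API of stage E, part A: dyadic bins, counting of integer labels, order of the scales.      CONTRACT: leaf L-252-S7w-E-BA (all `sorry`s of this file; elementary, 150-250 l.).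
-/

set_option autoImplicit false

namespace Claimed.Agent.R252

open MeasureTheory
open scoped ENNReal BigOperators

noncomputable section

/-! ## dyadic bins -/

/-- dyadic rounding upwards -/
theorem k7we_dy {x : ℝ} (hx : 0 < x) : x ≤ kbDy x ∧ kbDy x < 2 * x := by
  unfold kbDy
  rw [← Real.rpow_intCast]
  have hx2 : (2 : ℝ) ^ Real.logb 2 x = x := Real.rpow_logb (by norm_num) (by norm_num) hx
  constructor
  · calc x = (2 : ℝ) ^ Real.logb 2 x := hx2.symm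
      _ ≤ (2 : ℝ) ^ ((⌈Real.logb 2 x⌉ : ℤ) : ℝ) := Real.rpow_le_rpow_of_exponent_le (by norm_num) (Int.le_ceil _)
  · calc (2 : ℝ) ^ ((⌈Real.logb 2 x⌉ : ℤ) : ℝ) < (2 : ℝ) ^ (Real.logb 2 x + 1) :=
          Real.rpow_lt_rpow_of_exponent_lt (by norm_num) (Int.ceil_lt_add_one _)
      _ = 2 * x := by rw [Real.rpow_add (by norm_num), hx2, Real.rpow_one, mul_comm]

/-- two points of one bin -/
theorem k7we_bin_close {w x y : ℝ} (hw : 0 < w) (h : kbBin w x = kbBin w y) : |x - y| < 2 * w := by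
  obtain ⟨h1, h2⟩ := k7we_dy hw
  have hδ : 0 < kbDy w := hw.trans_le h1
  have h3 : |x / kbDy w - y / kbDy w| < 1 := Int.abs_sub_lt_one_of_floor_eq_floor h
  rw [← sub_div, abs_div, abs_of_pos hδ, div_lt_one hδ] at h3
  exact h3.trans h2

/-! ## counting -/

/-- values within `L w` of each other meet at most `2 L + 3` bins of width `w` -/
theorem k7we_floor_cover {ι : Type*} (A : Set ι) (f : ι → ℝ) {w L : ℝ} (hw : 0 < w) (hL : 0 ≤ L)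
    (h : ∀ x ∈ A, ∀ y ∈ A, |f x - f y| ≤ L * w) : ∃ S : Finset ℤ, (S.card : ℝ) ≤ 2 * L + 3 ∧ ∀ x ∈ A, ⌊f x / w⌋ ∈ S := by
  by_cases hA : A.Nonempty
  · obtain ⟨x0, hx0⟩ := hA
    refine ⟨Finset.Icc ⌊(f x0 - L * w) / w⌋ ⌊(f x0 + L * w) / w⌋, ?_, fun x hx => ?_⟩
    · have hLw : 0 ≤ L * w := mul_nonneg hL hw.le
      have h1 : (⌊(f x0 + L * w) / w⌋ : ℝ) ≤ (f x0 + L * w) / w := Int.floor_le _
      have h2 : (f x0 - L * w) / w < ⌊(f x0 - L * w) / w⌋ + 1 := Int.lt_floor_add_one _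
      have h3 : (f x0 + L * w) / w - (f x0 - L * w) / w = 2 * L := by
        field_simp
        ring
      have hle : ⌊(f x0 - L * w) / w⌋ ≤ ⌊(f x0 + L * w) / w⌋ := Int.floor_le_floor (div_le_div_of_nonneg_right (by linarith) hw.le)
      rw [Int.card_Icc]
      have h4 : (((⌊(f x0 + L * w) / w⌋ + 1 - ⌊(f x0 - L * w) / w⌋).toNat : ℕ) : ℝ) = (⌊(f x0 + L * w) / w⌋ : ℝ) + 1 - ⌊(f x0 - L * w) / w⌋ := by
        have h5 : (((⌊(f x0 + L * w) / w⌋ + 1 - ⌊(f x0 - L * w) / w⌋).toNat : ℕ) : ℤ) = ⌊(f x0 + L * w) / w⌋ + 1 - ⌊(f x0 - L * w) / w⌋ := Int.toNat_of_nonneg (by omega)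
        have h6 := congrArg (fun z : ℤ => (z : ℝ)) h5
        push_cast at h6
        exact h6
      rw [h4]
      linarith
    · obtain ⟨h1, h2⟩ := abs_le.1 (h x hx x0 hx0)
      exact Finset.mem_Icc.2 ⟨Int.floor_le_floor (div_le_div_of_nonneg_right (by linarith) hw.le), Int.floor_le_floor (div_le_div_of_nonneg_right (by linarith) hw.le)⟩
  · refine ⟨∅, ?_, fun x hx => absurd ⟨x, hx⟩ hA⟩
    rw [Finset.card_empty, Nat.cast_zero]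
    linarith

/-- fibred count of triples -/
theorem k7we_fib3 {ι : Type*} (A : Set ι) (f1 f2 f3 : ι → ℤ) {n1 n2 n3 : ℝ} (h0 : 0 ≤ n1) (h0' : 0 ≤ n2)
    (h1 : ∃ S : Finset ℤ, (S.card : ℝ) ≤ n1 ∧ ∀ x ∈ A, f1 x ∈ S) (h2 : ∃ S : Finset ℤ, (S.card : ℝ) ≤ n2 ∧ ∀ x ∈ A, f2 x ∈ S)
    (h3 : ∀ i j : ℤ, ∃ S : Finset ℤ, (S.card : ℝ) ≤ n3 ∧ ∀ x ∈ A, f1 x = i → f2 x = j → f3 x ∈ S) :
    ∃ S : Finset (ℤ × ℤ × ℤ), (S.card : ℝ) ≤ n1 * n2 * n3 ∧ ∀ x ∈ A, (f1 x, f2 x, f3 x) ∈ S := by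
  obtain ⟨S1, hc1, hm1⟩ := h1
  obtain ⟨S2, hc2, hm2⟩ := h2
  choose S3 hc3 hm3 using h3
  have hn3 : 0 ≤ n3 := (Nat.cast_nonneg _).trans (hc3 0 0)
  refine ⟨(S1 ×ˢ S2).biUnion fun ij => ({ij.1} : Finset ℤ) ×ˢ (({ij.2} : Finset ℤ) ×ˢ S3 ij.1 ij.2), ?_, fun x hx => ?_⟩
  · have h1 : (((S1 ×ˢ S2).biUnion fun ij => ({ij.1} : Finset ℤ) ×ˢ (({ij.2} : Finset ℤ) ×ˢ S3 ij.1 ij.2)).card : ℝ)
        ≤ ∑ ij ∈ S1 ×ˢ S2, ((({ij.1} : Finset ℤ) ×ˢ (({ij.2} : Finset ℤ) ×ˢ S3 ij.1 ij.2)).card : ℝ) := by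
      exact_mod_cast Finset.card_biUnion_le
    refine h1.trans ?_
    calc ∑ ij ∈ S1 ×ˢ S2, ((({ij.1} : Finset ℤ) ×ˢ (({ij.2} : Finset ℤ) ×ˢ S3 ij.1 ij.2)).card : ℝ) ≤ ∑ ij ∈ S1 ×ˢ S2, n3 := by
          refine Finset.sum_le_sum fun ij _ => ?_
          rw [Finset.card_product, Finset.card_product, Finset.card_singleton, Finset.card_singleton, one_mul, one_mul]
          exact hc3 _ _
      _ = (S1.card : ℝ) * (S2.card : ℝ) * n3 := by rw [Finset.sum_const, nsmul_eq_mul, Finset.card_product, Nat.cast_mul]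
      _ ≤ n1 * n2 * n3 := mul_le_mul_of_nonneg_right (mul_le_mul hc1 hc2 (Nat.cast_nonneg _) h0) hn3
  · refine Finset.mem_biUnion.2 ⟨(f1 x, f2 x), Finset.mem_product.2 ⟨hm1 x hx, hm2 x hx⟩, ?_⟩
    simp only [Finset.mem_product, Finset.mem_singleton, true_and]
    exact hm3 _ _ x hx rfl rfl

variable {X : K7weDat}

/-! ## scales -/

theorem k7we_q_pos (X : K7weDat) : 0 < X.W.q := by
  unfold K7aW.q
  positivity

theorem k7we_q_le_one (X : K7weDat) : X.W.q ≤ 1 := by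
  unfold K7aW.q
  exact pow_le_one₀ (by norm_num) (by norm_num)

theorem k7we_sig_pos (X : K7weDat) : 0 < X.σs := by
  unfold K7weDat.σs
  positivity

theorem k7we_sig_le_one (X : K7weDat) : X.σs ≤ 1 := by
  unfold K7weDat.σs
  exact pow_le_one₀ (by norm_num) (by norm_num)

/-- `G ≥ 1000 K^j` for `j ≤ 6` -/
theorem k7we_G (hX : X.Ok) : 1000 ≤ X.G ∧ 1000 * X.K ≤ X.G ∧ 1000 * X.K ^ 2 ≤ X.G ∧ 1000 * X.K ^ 3 ≤ X.G ∧ 1000 * X.K ^ 4 ≤ X.G ∧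
    1000 * X.K ^ 5 ≤ X.G ∧ 1000 * X.K ^ 6 = X.G := by
  have hK := hX.K1
  have h : ∀ j : ℕ, j ≤ 6 → 1000 * X.K ^ j ≤ X.G := fun j hj => by
    unfold K7weDat.G
    exact mul_le_mul_of_nonneg_left (pow_le_pow_right₀ hK hj) (by norm_num)
  refine ⟨by simpa using h 0 (by norm_num), by simpa using h 1 (by norm_num), h 2 (by norm_num), h 3 (by norm_num), h 4 (by norm_num), h 5 (by norm_num), rfl⟩

/-- positivity of the derived scales; `h ≤ K q`, `q ≤ K h` -/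
theorem k7we_pos (hX : X.Ok) : 0 < X.b ∧ X.b ≤ 1 ∧ X.b ≤ X.h ∧ X.b ≤ X.g ∧ 0 < X.σf ∧ 0 < X.W.χ0 ∧ 0 < X.c ∧ X.h ≤ X.K * X.W.q ∧ X.W.q ≤ X.K * X.h := by
  have hh := hX.h_pos
  have hh1 := hX.h_le
  have hg := hX.g_pos
  have hg1 := hX.g_le
  have hN : 0 < X.N := by linarith [hX.N1]
  refine ⟨mul_pos hh hg, ?_, ?_, ?_, Real.rpow_pos_of_pos hN _, hX.w.ln.χ0_pos, inv_pos.2 (Real.rpow_pos_of_pos hX.a_pos _), hX.w.q_lo, hX.w.q_hi⟩
  · unfold K7weDat.b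
    nlinarith
  · unfold K7weDat.b
    nlinarith
  · unfold K7weDat.b
    nlinarith

end

end Claimed.Agent.R252

/-!
# ROW 252 (S0492), unit S7w, STAGE E of P7.3 (helper202), BASE API of stage E, part B: the block and the box of `Q`, masses, palette sums.      CONTRACT: leaf L-252-S7w-E-BB (all `sorry`s of this file; 250-350 l.).
-/

set_option autoImplicit false

namespace Claimed.Agent.R252

open MeasureTheory
open scoped ENNReal BigOperators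

noncomputable section

variable {X : K7weDat}

/-! ## the block and the box of `Q` -/

theorem k7we_blk_iff (X : K7weDat) (t : ℝ) : t ∈ X.W.blk X.Q ↔ 0 ≤ (t - X.tQ) / X.W.q ∧ (t - X.tQ) / X.W.q < 1 := by
  have hq := k7we_q_pos X
  unfold K7aW.blk K7weDat.tQ
  rw [Set.mem_Ico, le_div_iff₀ hq, div_lt_iff₀ hq]
  constructor
  · rintro ⟨h1, h2⟩
    constructor <;> linarith
  · rintro ⟨h1, h2⟩
    constructor <;> linarith

theorem k7we_blk_of (X : K7weDat) {s : ℝ} (h0 : 0 ≤ s) (h1 : s < 1) : X.tQ + X.W.q * s ∈ X.W.blk X.Q := by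
  have hq := k7we_q_pos X
  rw [k7we_blk_iff]
  have e : (X.tQ + X.W.q * s - X.tQ) / X.W.q = s := by
    field_simp
    ring
  rw [e]
  exact ⟨h0, h1⟩

theorem k7we_tQ_mem (X : K7weDat) : X.tQ ∈ X.W.blk X.Q := by
  have := k7we_blk_of X (le_refl (0 : ℝ)) one_pos
  simpa using this

theorem k7we_blk_sub (hX : X.Ok) : X.W.blk X.Q ⊆ Set.Icc (0 : ℝ) 1 := by
  intro t ht
  have hq := k7we_q_pos X
  have hiv : X.W.iv X.Q < 2 ^ X.W.lev := hX.w.iv_lt X.Q hX.com.Qa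
  have hiv' : ((X.W.iv X.Q : ℝ) + 1) ≤ 2 ^ X.W.lev := by exact_mod_cast hiv
  have h1 : ((X.W.iv X.Q : ℝ) + 1) * X.W.q ≤ 1 := by
    calc ((X.W.iv X.Q : ℝ) + 1) * X.W.q ≤ 2 ^ X.W.lev * X.W.q := mul_le_mul_of_nonneg_right hiv' hq.le
      _ = 1 := by
          unfold K7aW.q
          rw [← mul_pow]
          norm_num
  have h0 : (0 : ℝ) ≤ (X.W.iv X.Q : ℝ) * X.W.q := by positivity
  exact ⟨h0.trans ht.1, ht.2.le.trans h1⟩

/-- `⌊t / q⌋ = iv Q'` on the block of any label -/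
theorem k7we_blk_floor_gen (W : K7aW) (Q : W.Q) {t : ℝ} (ht : t ∈ W.blk Q) : ⌊t / W.q⌋ = (W.iv Q : ℤ) := by
  have hq : 0 < W.q := by
    unfold K7aW.q
    positivity
  rw [Int.floor_eq_iff, le_div_iff₀ hq, div_lt_iff₀ hq]
  push_cast
  exact ⟨ht.1, ht.2⟩

/-- `⌊t / q⌋ = iv Q` on the block -/
theorem k7we_blk_floor (X : K7weDat) {t : ℝ} (ht : t ∈ X.W.blk X.Q) : ⌊t / X.W.q⌋ = (X.W.iv X.Q : ℤ) := by
  exact k7we_blk_floor_gen X.W X.Q ht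

/-- what an incidence of `E4` knows.   PLAN: `hX.com.sub hp : p ∈ E ∩ inc Q`, `hX.sub`, `hX.w.lab p _ : labQ p ∈ Qa ∧ p ∈ inc (labQ p)`; `p.2` lies in the blocks of `Q` and of `labQ p`, so `iv` agree (`⌊t/q⌋`, as in `k7we_blk_floor`);
if `labQ p ≠ Q` then `hX.w.disj` contradicts `p.1 ∈ asg Q ∩ asg (labQ p)`;  `hX.w.asg_Sp`. -/
theorem k7we_E4 (hX : X.Ok) {p : X.W.L × ℝ} (hp : p ∈ X.E4) :
    p ∈ X.E ∧ p ∈ X.W.Ev0 ∧ p.1 ∈ X.W.asg X.Q ∧ p.2 ∈ X.W.blk X.Q ∧ X.W.labQ p = X.Q ∧ p.1 ∈ X.W.Sp := by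
  obtain ⟨hE, hinc⟩ := hX.com.sub hp
  have hEv := hX.sub hE
  obtain ⟨hQa', hinc'⟩ := hX.w.lab p hEv
  have hasg : p.1 ∈ X.W.asg X.Q := hinc.1
  have hblk : p.2 ∈ X.W.blk X.Q := hinc.2
  have hasg' : p.1 ∈ X.W.asg (X.W.labQ p) := hinc'.1
  have hblk' : p.2 ∈ X.W.blk (X.W.labQ p) := hinc'.2
  have hiv : X.W.iv (X.W.labQ p) = X.W.iv X.Q := by
    have h1 := k7we_blk_floor_gen X.W X.Q hblk
    have h2 := k7we_blk_floor_gen X.W (X.W.labQ p) hblk'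
    rw [h1] at h2
    exact_mod_cast h2.symm
  have hlab : X.W.labQ p = X.Q := by
    by_contra hne
    exact Set.disjoint_left.1 (hX.w.disj _ hQa' _ hX.com.Qa hiv hne) hasg' hasg
  exact ⟨hE, hEv, hasg, hblk, hlab, hX.w.asg_Sp X.Q hX.com.Qa hasg⟩

/-- the rows of `Q` and the lines of `asg Q` -/
theorem k7we_row (hX : X.Ok) : |X.W.Zc X.Q| ≤ X.K ∧ |X.W.r0 X.Q| ≤ X.K ∧ |X.W.r1 X.Q| ≤ X.K ∧ |X.W.r2 X.Q| ≤ X.K :=
  hX.w.row_bd X.Q hX.com.Qa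

theorem k7we_line (hX : X.Ok) {l : X.W.L} (hl : l ∈ X.W.asg X.Q) :
    l ∈ X.W.Sp ∧ |X.W.Z0 l| ≤ X.K ∧ |X.W.v l| ≤ X.K ∧ |X.W.Y0 l| ≤ X.K ∧ |X.W.Y1 l| ≤ X.K ∧ (∀ t ∈ Set.Icc (0 : ℝ) 1, |X.W.X l t| ≤ X.K) ∧
      |X.W.Y1 l - (X.W.r1 X.Q + X.W.r2 X.Q * X.W.v l)| ≤ X.K * X.g := by
  have h1 := hX.w.asg_Sp X.Q hX.com.Qa hl
  obtain ⟨a1, a2, a3, a4, a5⟩ := hX.w.ln.bd l h1
  exact ⟨h1, a1, a2, a3, a4, a5, hX.w.slope X.Q hX.com.Qa l hl⟩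

/-- slopes of `C₁`.   PLAN: `hX.com.bd1` at `(tQ, Zc)`, `(tQ + q/2, Zc)` (`k7we_blk_of`), `(tQ, Zc + h)`; differences. -/
theorem k7we_gam (hX : X.Ok) : |X.γ1| * X.W.q ≤ 4 * X.K ∧ |X.γ2| * X.h ≤ 2 * X.K := by
  have hq := k7we_q_pos X
  have hh := hX.h_pos
  have b1 := hX.com.bd1 X.tQ (k7we_tQ_mem X) (X.W.Zc X.Q) (by simpa using hh.le)
  have b2 := hX.com.bd1 (X.tQ + X.W.q * (1 / 2)) (k7we_blk_of X (by norm_num) (by norm_num)) (X.W.Zc X.Q) (by simpa using hh.le)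
  have b3 := hX.com.bd1 X.tQ (k7we_tQ_mem X) (X.W.Zc X.Q + X.h) (by
    rw [add_sub_cancel_left, abs_of_pos hh])
  rw [abs_le] at b1 b2 b3
  constructor
  · rw [← abs_of_pos hq, ← abs_mul, abs_le]
    constructor <;> nlinarith [b1.1, b1.2, b2.1, b2.2]
  · rw [← abs_of_pos hh, ← abs_mul, abs_le]
    constructor <;> nlinarith [b1.1, b1.2, b3.1, b3.2]

/-- **bounds in the box of `Q`**.   PLAN: `hX.w.box X.Q hX.com.Qa l hl t ht` (`X.b = X.h * X.g` by `rfl`); `|U| ≤ K` (`div_le_iff₀`); `C₁(t,Z) = C₁(t,Zc) + γ2 (Z - Zc)`, `|γ2| K h ≤ 2K²` (`k7we_gam`), `bd1` at `Zc`;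
`|C2| ≤ K` (`bd2`); `|X_l(t)| ≤ K` (`k7we_line`, `k7we_blk_sub`). -/
theorem k7we_bd (hX : X.Ok) {l : X.W.L} {t : ℝ} (hl : l ∈ X.W.asg X.Q) (ht : t ∈ X.W.blk X.Q) :
    |X.W.Z l t - X.W.Zc X.Q| ≤ X.K * X.h ∧ |X.W.Y l t - X.W.YQ X.Q t (X.W.Z l t)| ≤ X.K * X.b ∧ |X.Ub t (X.W.Z l t) (X.W.Y l t)| ≤ X.K ∧
      |X.C1 t (X.W.Z l t)| ≤ 3 * X.K ^ 2 ∧ |X.Pnc t (X.W.Z l t) (X.W.Y l t)| ≤ 4 * X.K ^ 3 ∧ |X.Xo l t| ≤ 5 * X.K ^ 3 := by
  obtain ⟨c1, c2⟩ := hX.w.box X.Q hX.com.Qa l hl t ht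
  have hK := hX.K1
  have hK0 : 0 ≤ X.K := by linarith
  have hb : 0 < X.b := (k7we_pos hX).1
  have hh := hX.h_pos
  have hU : |X.Ub t (X.W.Z l t) (X.W.Y l t)| ≤ X.K := by
    unfold K7weDat.Ub
    rw [abs_div, abs_of_pos hb, div_le_iff₀ hb]
    exact c2
  have hC1 : |X.C1 t (X.W.Z l t)| ≤ 3 * X.K ^ 2 := by
    have b1 := hX.com.bd1 t ht (X.W.Zc X.Q) (by simpa using hh.le)
    have e : X.C1 t (X.W.Z l t) = (X.γ0 + X.γ1 * t + X.γ2 * X.W.Zc X.Q) + X.γ2 * (X.W.Z l t - X.W.Zc X.Q) := by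
      unfold K7weDat.C1
      ring
    have b2 : |X.γ2 * (X.W.Z l t - X.W.Zc X.Q)| ≤ 2 * X.K ^ 2 := by
      rw [abs_mul]
      calc |X.γ2| * |X.W.Z l t - X.W.Zc X.Q| ≤ |X.γ2| * (X.K * X.h) := mul_le_mul_of_nonneg_left c1 (abs_nonneg _)
        _ = X.K * (|X.γ2| * X.h) := by ring
        _ ≤ X.K * (2 * X.K) := mul_le_mul_of_nonneg_left (k7we_gam hX).2 hK0
        _ = 2 * X.K ^ 2 := by ring
    rw [e]
    calc _ ≤ |X.γ0 + X.γ1 * t + X.γ2 * X.W.Zc X.Q| + |X.γ2 * (X.W.Z l t - X.W.Zc X.Q)| := abs_add_le _ _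
      _ ≤ X.K + 2 * X.K ^ 2 := add_le_add b1 b2
      _ ≤ 3 * X.K ^ 2 := by nlinarith
  have hP : |X.Pnc t (X.W.Z l t) (X.W.Y l t)| ≤ 4 * X.K ^ 3 := by
    unfold K7weDat.Pnc
    have d1 : |X.C1 t (X.W.Z l t) * X.Ub t (X.W.Z l t) (X.W.Y l t)| ≤ 3 * X.K ^ 2 * X.K := by
      rw [abs_mul]
      exact mul_le_mul hC1 hU (abs_nonneg _) (by positivity)
    have d2 : |X.C2 * X.Ub t (X.W.Z l t) (X.W.Y l t) ^ 2| ≤ X.K * X.K ^ 2 := by
      rw [abs_mul, abs_pow]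
      exact mul_le_mul hX.com.bd2 (pow_le_pow_left₀ (abs_nonneg _) hU 2) (by positivity) hK0
    calc _ ≤ _ := abs_add_le _ _
      _ ≤ 3 * X.K ^ 2 * X.K + X.K * X.K ^ 2 := add_le_add d1 d2
      _ = 4 * X.K ^ 3 := by ring
  refine ⟨c1, c2, hU, hC1, hP, ?_⟩
  unfold K7weDat.Xo
  have hXl := (k7we_line hX hl).2.2.2.2.2.1 t (k7we_blk_sub hX ht)
  have hK3 : X.K ≤ X.K ^ 3 := by
    calc X.K = X.K ^ 1 := (pow_one _).symm
      _ ≤ X.K ^ 3 := pow_le_pow_right₀ hK (by norm_num)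
  calc _ ≤ |X.W.X l t| + |X.Pnc t (X.W.Z l t) (X.W.Y l t)| := abs_sub _ _
    _ ≤ X.K + 4 * X.K ^ 3 := add_le_add hXl hP
    _ ≤ 5 * X.K ^ 3 := by linarith

/-! ## masses -/

/-- PLAN: `hX.w.ν_lo` : `0 < ofReal (a^d h (h g)) ≤ ofReal K ν_Q`. -/
theorem k7we_nuQ_pos (hX : X.Ok) : X.W.νQ X.Q ≠ 0 := by
  intro h0
  have h := hX.w.ν_lo X.Q hX.com.Qa
  rw [h0, mul_zero, nonpos_iff_eq_zero, ENNReal.ofReal_eq_zero] at h
  have h1 : 0 < X.a ^ X.d := Real.rpow_pos_of_pos hX.a_pos _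
  have h2 : 0 < X.a ^ X.d * X.h * (X.h * X.g) := mul_pos (mul_pos h1 hX.h_pos) (mul_pos hX.h_pos hX.g_pos)
  linarith

/-- PLAN: `hX.w.ln.prob`, `measure_ne_top`. -/
theorem k7we_nuQ_top (hX : X.Ok) : X.W.νQ X.Q ≠ ⊤ := by
  have := hX.w.ln.prob
  exact measure_ne_top _ _

/-- palette weight of finitely many finest bins (general form, no hypotheses except positivity of the width) -/
theorem k7we_pi_sum_aux (W : K7aLn) (V : Finset ℤ) : ∑ bn ∈ V, W.pi bn = W.pal (⋃ bn ∈ V, k7aBinI W.χ0 bn) := by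
  have hw : 0 < kbDy W.χ0 := by
    unfold kbDy
    positivity
  rw [measure_biUnion_finset]
  · rfl
  · intro i _ j _ hij
    show Disjoint (k7aBinI W.χ0 i) (k7aBinI W.χ0 j)
    rw [Set.disjoint_left]
    intro x hi hj
    apply hij
    have e1 : ⌊x / kbDy W.χ0⌋ = i := by
      rw [Int.floor_eq_iff, le_div_iff₀ hw, div_lt_iff₀ hw]
      exact ⟨hi.1, hi.2⟩
    have e2 : ⌊x / kbDy W.χ0⌋ = j := by
      rw [Int.floor_eq_iff, le_div_iff₀ hw, div_lt_iff₀ hw]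
      exact ⟨hj.1, hj.2⟩
    rw [← e1, e2]
  · intro i _
    exact measurableSet_Ico

/-- the finest velocity bins of the lines of `Sp`; total palette `≤ 1`.   PLAN: `V = Finset.Icc ⌊-K/w⌋ ⌊K/w⌋`, `w = kbDy χ0 > 0`, `vbin l = ⌊v l / w⌋` by `rfl`, `|v l| ≤ K` (`hX.w.ln.bd`); `k7we_pi_sum`, `measure_mono`, `hX.w.ln.pal_le`. -/
theorem k7we_Vall (hX : X.Ok) : ∃ V : Finset ℤ, (∀ l ∈ X.W.Sp, X.W.vbin l ∈ V) ∧ ∑ bn ∈ V, X.W.pi bn ≤ 1 := by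
  have hw : 0 < kbDy X.W.χ0 := by
    unfold kbDy
    positivity
  refine ⟨Finset.Icc ⌊-X.K / kbDy X.W.χ0⌋ ⌊X.K / kbDy X.W.χ0⌋, fun l hl => ?_, ?_⟩
  · have hv := (hX.w.ln.bd l hl).2.1
    rw [abs_le] at hv
    rw [Finset.mem_Icc]
    exact ⟨Int.floor_le_floor (div_le_div_of_nonneg_right hv.1 hw.le), Int.floor_le_floor (div_le_div_of_nonneg_right hv.2 hw.le)⟩
  · rw [k7we_pi_sum_aux]
    exact (measure_mono (Set.subset_univ _)).trans hX.w.ln.pal_le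

/-- palette weight of finitely many finest bins.   PLAN: `X.W.pi bn = X.W.pal (k7aBinI χ0 bn)` by `rfl`; `measure_biUnion_finset` : the intervals `Ico (bn w) ((bn+1) w)` are measurable and pairwise disjoint (`w = kbDy χ0 > 0`). -/
theorem k7we_pi_sum (hX : X.Ok) (V : Finset ℤ) : ∑ bn ∈ V, X.W.pi bn = X.W.pal (⋃ bn ∈ V, k7aBinI X.W.χ0 bn) := by
  exact k7we_pi_sum_aux X.W.toK7aLn V

end

end Claimed.Agent.R252

/-!
# ROW 252 (S0492), unit S7w, STAGE E of P7.3 (helper202), BASE API of stage E, part C: the data `X.D E5` : polynomial identities, measurability, the active measure.      CONTRACT: leaf L-252-S7w-E-BC (all `sorry`s of this file; 250-350 l.).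
-/

set_option autoImplicit false

namespace Claimed.Agent.R252

open MeasureTheory
open scoped ENNReal BigOperators

noncomputable section

variable {X : K7weDat}

/-! ## the data `X.D E5` -/

/-- PLAN: unfold `K7aData.y, K7weDat.D`, `Set.indicator_of_mem hl`, unfold `K7aLn.Z`; `field_simp`, `ring` (`q ≠ 0`). -/
theorem k7we_D_y (X : K7weDat) (E5 : Set (X.W.L × ℝ)) {l : X.W.L} (hl : l ∈ X.W.asg X.Q) (s : ℝ) :
    (X.D E5).y l s = (X.W.Z l (X.tQ + X.W.q * s) - X.W.Zc X.Q) / X.W.q := by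
  have h0 : (X.D E5).y0 l = (X.W.Z l X.tQ - X.W.Zc X.Q) / X.W.q :=
    Set.indicator_of_mem hl fun l => (X.W.Z l X.tQ - X.W.Zc X.Q) / X.W.q
  have h1 : (X.D E5).y1 l = X.W.v l := Set.indicator_of_mem hl _
  show (X.D E5).y0 l + (X.D E5).y1 l * s = ((X.W.Z0 l + X.W.v l * (X.tQ + X.W.q * s)) - X.W.Zc X.Q) / X.W.q
  rw [h0, h1]
  show ((X.W.Z0 l + X.W.v l * X.tQ) - X.W.Zc X.Q) / X.W.q + X.W.v l * s = _
  have hq := (k7we_q_pos X).ne'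
  field_simp
  ring

theorem k7we_D_y1 (X : K7weDat) (E5 : Set (X.W.L × ℝ)) {l : X.W.L} (hl : l ∈ X.W.asg X.Q) : (X.D E5).y1 l = X.W.v l :=
  Set.indicator_of_mem hl _

/-- the residual signal in explicit form -/
theorem k7we_fo_eq (X : K7weDat) (l : X.W.L) (t : ℝ) : X.Xo l t =
    (X.W.x0 l + X.W.x1 l * t + X.W.x2 l * t ^ 2) - ((X.γ0 + X.γ1 * t + X.γ2 * (X.W.Z0 l + X.W.v l * t)) *
      (((X.W.Y0 l + X.W.Y1 l * t) - (X.W.r0 X.Q + X.W.r1 X.Q * t + X.W.r2 X.Q * (X.W.Z0 l + X.W.v l * t))) / X.b) +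
      X.C2 * (((X.W.Y0 l + X.W.Y1 l * t) - (X.W.r0 X.Q + X.W.r1 X.Q * t + X.W.r2 X.Q * (X.W.Z0 l + X.W.v l * t))) / X.b) ^ 2) :=
  rfl

/-- the three-point formula.   PLAN: unfold `K7aData.x, K7weDat.D`, `Set.indicator_of_mem hl`, then `K7weDat.fo, Xo, Pnc, C1, Ub, K7aLn.X, K7aLn.Z, K7aLn.Y, K7aW.YQ`; `div_eq_mul_inv`; `ring` (no hypothesis on `b` is needed: `b⁻¹` is an atom). -/
theorem k7we_D_x (X : K7weDat) (E5 : Set (X.W.L × ℝ)) {l : X.W.L} (hl : l ∈ X.W.asg X.Q) (s : ℝ) :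
    (X.D E5).x l s = X.Xo l (X.tQ + X.W.q * s) := by
  have h0 : (X.D E5).x0 l = X.Xo l (X.tQ + X.W.q * 0) := Set.indicator_of_mem hl fun l => X.fo l 0
  have h1 : (X.D E5).x1 l = 8 * X.Xo l (X.tQ + X.W.q * (1 / 4)) - 6 * X.Xo l (X.tQ + X.W.q * 0)
      - 2 * X.Xo l (X.tQ + X.W.q * (1 / 2)) :=
    Set.indicator_of_mem hl fun l => 8 * X.fo l (1 / 4) - 6 * X.fo l 0 - 2 * X.fo l (1 / 2)
  have h2 : (X.D E5).x2 l = 8 * (X.Xo l (X.tQ + X.W.q * (1 / 2)) - 2 * X.Xo l (X.tQ + X.W.q * (1 / 4))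
      + X.Xo l (X.tQ + X.W.q * 0)) :=
    Set.indicator_of_mem hl fun l => 8 * (X.fo l (1 / 2) - 2 * X.fo l (1 / 4) + X.fo l 0)
  show (X.D E5).x0 l + (X.D E5).x1 l * s + (X.D E5).x2 l * s ^ 2 = _
  rw [h0, h1, h2]
  simp only [k7we_fo_eq]
  ring

/-- in the coordinates of `X.D`, at `z = X.T p` -/
theorem k7we_D_T (X : K7weDat) (E5 : Set (X.W.L × ℝ)) {p : X.W.L × ℝ} (hl : p.1 ∈ X.W.asg X.Q) :
    (X.D E5).y (X.T p).1 (X.T p).2 = (X.W.Z p.1 p.2 - X.W.Zc X.Q) / X.W.q ∧ (X.D E5).x (X.T p).1 (X.T p).2 = X.Xo p.1 p.2 ∧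
      (⌊(X.T p).2 / X.σs⌋, ⌊(X.D E5).y (X.T p).1 (X.T p).2 / X.σs⌋) = X.zc p ∧
      (⌊(X.T p).2 / X.σs⌋, ⌊(X.D E5).y (X.T p).1 (X.T p).2 / X.σs⌋, ⌊(X.D E5).x (X.T p).1 (X.T p).2 / X.a2⌋) = X.o p := by
  have hq := (k7we_q_pos X).ne'
  have ht : X.tQ + X.W.q * ((p.2 - X.tQ) / X.W.q) = p.2 := by field_simp; ring
  have hy : (X.D E5).y (X.T p).1 (X.T p).2 = (X.W.Z p.1 p.2 - X.W.Zc X.Q) / X.W.q := by
    show (X.D E5).y p.1 ((p.2 - X.tQ) / X.W.q) = _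
    rw [k7we_D_y X E5 hl, ht]
  have hx : (X.D E5).x (X.T p).1 (X.T p).2 = X.Xo p.1 p.2 := by
    show (X.D E5).x p.1 ((p.2 - X.tQ) / X.W.q) = _
    rw [k7we_D_x X E5 hl, ht]
  refine ⟨hy, hx, ?_, ?_⟩
  · rw [hy]; rfl
  · rw [hy, hx]; rfl

theorem k7we_T_meas (X : K7weDat) : Measurable X.T :=
  measurable_fst.prodMk ((measurable_snd.sub_const _).div_const _)

/-- the signals are measurable.   PLAN: `hX.w.ln.m_co`; unfold everything; `Measurable.add/mul/sub/div_const/pow_const`, `measurable_fst/snd`, or `fun_prop` after providing the seven coefficient maps. -/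
theorem k7we_sig_meas (hX : X.Ok) : Measurable (fun p : X.W.L × ℝ => X.W.Z p.1 p.2) ∧ Measurable (fun p : X.W.L × ℝ => X.W.Y p.1 p.2) ∧
    Measurable (fun p : X.W.L × ℝ => X.W.X p.1 p.2) ∧ Measurable (fun p : X.W.L × ℝ => X.Xo p.1 p.2) ∧ (∀ s : ℝ, Measurable fun l => X.fo l s) := by
  obtain ⟨m1, m2, m3, m4, m5, m6, m7⟩ := hX.w.ln.m_co
  have t : Measurable fun p : X.W.L × ℝ => p.2 := measurable_snd
  have mZ : Measurable fun p : X.W.L × ℝ => X.W.Z0 p.1 + X.W.v p.1 * p.2 :=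
    (m1.comp measurable_fst).add ((m2.comp measurable_fst).mul t)
  have mY : Measurable fun p : X.W.L × ℝ => X.W.Y0 p.1 + X.W.Y1 p.1 * p.2 :=
    (m3.comp measurable_fst).add ((m4.comp measurable_fst).mul t)
  have mX : Measurable fun p : X.W.L × ℝ => X.W.x0 p.1 + X.W.x1 p.1 * p.2 + X.W.x2 p.1 * p.2 ^ 2 :=
    ((m5.comp measurable_fst).add ((m6.comp measurable_fst).mul t)).add ((m7.comp measurable_fst).mul (t.pow_const 2))
  have mU : Measurable fun p : X.W.L × ℝ => ((X.W.Y0 p.1 + X.W.Y1 p.1 * p.2) -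
      (X.W.r0 X.Q + X.W.r1 X.Q * p.2 + X.W.r2 X.Q * (X.W.Z0 p.1 + X.W.v p.1 * p.2))) / X.b :=
    (mY.sub (((t.const_mul _).const_add _).add (mZ.const_mul _))).div_const _
  have mC : Measurable fun p : X.W.L × ℝ => X.γ0 + X.γ1 * p.2 + X.γ2 * (X.W.Z0 p.1 + X.W.v p.1 * p.2) :=
    ((t.const_mul _).const_add _).add (mZ.const_mul _)
  have mXo : Measurable fun p : X.W.L × ℝ => X.Xo p.1 p.2 :=
    mX.sub ((mC.mul mU).add ((mU.pow_const 2).const_mul _))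
  exact ⟨mZ, mY, mX, mXo, fun s => mXo.comp (measurable_id.prodMk measurable_const)⟩

theorem k7we_o_meas (hX : X.Ok) : Measurable X.zc ∧ Measurable X.o := by
  obtain ⟨mZ, -, -, mXo, -⟩ := k7we_sig_meas hX
  have h1 : Measurable fun p : X.W.L × ℝ => ⌊(p.2 - X.tQ) / X.W.q / X.σs⌋ :=
    Int.measurable_floor.comp (((measurable_snd.sub_const _).div_const _).div_const _)
  have h2 : Measurable fun p : X.W.L × ℝ => ⌊(X.W.Z p.1 p.2 - X.W.Zc X.Q) / X.W.q / X.σs⌋ :=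
    Int.measurable_floor.comp (((mZ.sub_const _).div_const _).div_const _)
  have h3 : Measurable fun p : X.W.L × ℝ => ⌊X.Xo p.1 p.2 / X.a2⌋ := Int.measurable_floor.comp (mXo.div_const _)
  exact ⟨h1.prodMk h2, h1.prodMk (h2.prodMk h3)⟩

theorem k7we_o_lab (hX : X.Ok) : KsLab X.o := fun s0 => (k7we_o_meas hX).2 (measurableSet_singleton s0)

theorem k7we_D_co_meas (hX : X.Ok) (E5 : Set (X.W.L × ℝ)) : Measurable (X.D E5).co := by
  obtain ⟨mZ, -, -, -, mfo⟩ := k7we_sig_meas hX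
  have hA := hX.w.m_asg X.Q
  have mZ' : Measurable fun l : X.W.L => X.W.Z l X.tQ := mZ.comp (measurable_id.prodMk measurable_const)
  have h0 : Measurable (X.D E5).y0 := ((mZ'.sub_const _).div_const _).indicator hA
  have h1 : Measurable (X.D E5).y1 := hX.w.ln.m_co.2.1.indicator hA
  have h2 : Measurable (X.D E5).x0 := (mfo 0).indicator hA
  have h3 : Measurable (X.D E5).x1 :=
    ((((mfo (1 / 4)).const_mul 8).sub ((mfo 0).const_mul 6)).sub ((mfo (1 / 2)).const_mul 2)).indicator hA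
  have h4 : Measurable (X.D E5).x2 :=
    ((((mfo (1 / 2)).sub ((mfo (1 / 4)).const_mul 2)).add (mfo 0)).const_mul 8).indicator hA
  exact h0.prodMk (h1.prodMk (h2.prodMk (h3.prodMk h4)))

/-- `y`, `x`, `y1` of `X.D E5` as functions of the incidence -/
theorem k7we_D_meas (hX : X.Ok) (E5 : Set (X.W.L × ℝ)) : Measurable (fun z : X.W.L × ℝ => (X.D E5).y z.1 z.2) ∧
    Measurable (fun z : X.W.L × ℝ => (X.D E5).x z.1 z.2) ∧ Measurable (fun z : X.W.L × ℝ => (X.D E5).y1 z.1) := by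
  have h := k7we_D_co_meas hX E5
  have h0 : Measurable (X.D E5).y0 := measurable_fst.comp h
  have h1 : Measurable (X.D E5).y1 := (measurable_fst.comp measurable_snd).comp h
  have h2 : Measurable (X.D E5).x0 := (measurable_fst.comp (measurable_snd.comp measurable_snd)).comp h
  have h3 : Measurable (X.D E5).x1 :=
    (measurable_fst.comp (measurable_snd.comp (measurable_snd.comp measurable_snd))).comp h
  have h4 : Measurable (X.D E5).x2 :=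
    (measurable_snd.comp (measurable_snd.comp (measurable_snd.comp measurable_snd))).comp h
  have t : Measurable fun p : X.W.L × ℝ => p.2 := measurable_snd
  exact ⟨(h0.comp measurable_fst).add ((h1.comp measurable_fst).mul t),
    ((h2.comp measurable_fst).add ((h3.comp measurable_fst).mul t)).add ((h4.comp measurable_fst).mul (t.pow_const 2)),
    h1.comp measurable_fst⟩

/-- the active measure of `X.D E5`.   PLAN: `Measure.smul_apply`, `Measure.map_apply (k7we_T_meas X) hA`, `X.W.law E5 = X.W.prior.restrict E5` by `rfl`, `Measure.restrict_apply' hm`, `Set.inter_comm`. -/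
theorem k7we_mu_apply (X : K7weDat) {E5 : Set (X.W.L × ℝ)} (hm : MeasurableSet E5) {A : Set (X.W.L × ℝ)} (hA : MeasurableSet A) :
    (X.D E5).mu A = (ENNReal.ofReal X.W.q * X.W.νQ X.Q)⁻¹ * X.W.prior (E5 ∩ X.T ⁻¹' A) := by
  show ((ENNReal.ofReal X.W.q * X.W.νQ X.Q)⁻¹ • (X.W.prior.restrict E5).map X.T) A = _
  rw [Measure.smul_apply, Measure.map_apply (k7we_T_meas X) hA, Measure.restrict_apply' hm, Set.inter_comm, smul_eq_mul]

/-- division by `q ν_Q`.   PLAN: `k7we_mu_apply`; `ENNReal.inv_mul_le_iff`-type (`q ν_Q ≠ 0, ⊤` by `k7we_q_pos`, `k7we_nuQ_pos`, `k7we_nuQ_top`). -/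
theorem k7we_mu_le (hX : X.Ok) {E5 : Set (X.W.L × ℝ)} (hm : MeasurableSet E5) {A : Set (X.W.L × ℝ)} (hA : MeasurableSet A) {B : ℝ≥0∞}
    (h : X.W.prior (E5 ∩ X.T ⁻¹' A) ≤ B * (ENNReal.ofReal X.W.q * X.W.νQ X.Q)) : (X.D E5).mu A ≤ B := by
  have h0 : ENNReal.ofReal X.W.q * X.W.νQ X.Q ≠ 0 :=
    mul_ne_zero (ENNReal.ofReal_pos.2 (k7we_q_pos X)).ne' (k7we_nuQ_pos hX)
  have h1 : ENNReal.ofReal X.W.q * X.W.νQ X.Q ≠ ⊤ := ENNReal.mul_ne_top ENNReal.ofReal_ne_top (k7we_nuQ_top hX)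
  rw [k7we_mu_apply X hm hA, ENNReal.inv_mul_le_iff h0 h1, mul_comm]
  exact h

end

end Claimed.Agent.R252

/-!
# ROW 252 (S0492), unit S7w, STAGE E of P7.3 (helper202), file 2: BASE API of stage E (used by all leaves `L-252-S7w-E*`) = `WideEBaseA` + `WideEBaseB` + `WideEBaseC`.      -- KEEP

* A  dyadic bins: `k7we_dy`, `k7we_bin_close`;  counting: `k7we_floor_cover` (values within `L w` of each other have `≤ 2L+3` bins of width `w`), `k7we_fib3`;  scales: `k7we_q_pos`, `k7we_q_le_one`, `k7we_sig_pos`, `k7we_sig_le_one`, `k7we_G`, `k7we_pos`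
* B  geometry of `Q`: `k7we_blk_iff`, `k7we_blk_of`, `k7we_tQ_mem`, `k7we_blk_sub`, `k7we_blk_floor`, `k7we_E4`, `k7we_row`, `k7we_line`, `k7we_gam`, `k7we_bd`;  masses: `k7we_nuQ_pos`, `k7we_nuQ_top`, `k7we_Vall`, `k7we_pi_sum`
* C  the data `X.D E5`: `k7we_D_y`, `k7we_D_y1`, `k7we_D_x`, `k7we_D_T`, measurability `k7we_T_meas`, `k7we_sig_meas`, `k7we_o_meas`, `k7we_o_lab`, `k7we_D_co_meas`, `k7we_D_meas`, active measure `k7we_mu_apply`, `k7we_mu_le`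
-/

/-!
# ROW 252 (S0492), unit S7w, STAGE E of P7.3 (helper202), file 8: ADMISSIBILITY OF THE DATA (07 l.903-908, step E1) AND THE EXIT FROM THM 7.1 (07 l.909-918, step E5).      CONTRACT: leaves L-252-S7w-E-AA, -AB, -FA, -FB.
-/

set_option autoImplicit false

namespace Claimed.Agent.R252

open MeasureTheory
open scoped ENNReal BigOperators

noncomputable section

variable {X : K7weDat}

/-- **L-252-S7w-E-AA**: bounds of the five coefficients.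
PLAN: off `asg Q` all five vanish (`Set.indicator_of_notMem`).   On `asg Q` : `|y0| = |Z_l(tQ) - Zc|/q ≤ K h/q ≤ K²` (`k7we_bd` at `tQ`, `k7we_pos`), `|y1| = |v| ≤ K` (`k7we_line`), `|X.fo l s| ≤ 5K³` for `s = 0, 1/4, 1/2` (`k7we_bd`, `k7we_blk_of`), so `|x0| ≤ 5K³`, `|x1| ≤ 80K³`, `|x2| ≤ 160K³`. -/
theorem k7we_adm_bd (hX : X.Ok) (E5 : Set (X.W.L × ℝ)) (l : X.W.L) :
    |(X.D E5).y0 l| ≤ 160 * X.K ^ 3 ∧ |(X.D E5).y1 l| ≤ 160 * X.K ^ 3 ∧ |(X.D E5).x0 l| ≤ 160 * X.K ^ 3 ∧ |(X.D E5).x1 l| ≤ 160 * X.K ^ 3 ∧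
      |(X.D E5).x2 l| ≤ 160 * X.K ^ 3 := by
  have hK := hX.K1
  have hK0 : 0 ≤ X.K := by linarith
  have hK3 : 1 ≤ X.K ^ 3 := one_le_pow₀ hK
  by_cases hl : l ∈ X.W.asg X.Q
  · have e0 : (X.D E5).y0 l = (X.W.Z l X.tQ - X.W.Zc X.Q) / X.W.q := by simp only [K7weDat.D, Set.indicator_of_mem hl]
    have e1 : (X.D E5).y1 l = X.W.v l := by simp only [K7weDat.D, Set.indicator_of_mem hl]
    have e2 : (X.D E5).x0 l = X.fo l 0 := by simp only [K7weDat.D, Set.indicator_of_mem hl]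
    have e3 : (X.D E5).x1 l = 8 * X.fo l (1 / 4) - 6 * X.fo l 0 - 2 * X.fo l (1 / 2) := by simp only [K7weDat.D, Set.indicator_of_mem hl]
    have e4 : (X.D E5).x2 l = 8 * (X.fo l (1 / 2) - 2 * X.fo l (1 / 4) + X.fo l 0) := by simp only [K7weDat.D, Set.indicator_of_mem hl]
    have f : ∀ s : ℝ, 0 ≤ s → s < 1 → |X.fo l s| ≤ 5 * X.K ^ 3 := fun s h0 h1 => (k7we_bd hX hl (k7we_blk_of X h0 h1)).2.2.2.2.2
    have f0 := abs_le.1 (f 0 le_rfl one_pos)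
    have f1 := abs_le.1 (f (1 / 4) (by norm_num) (by norm_num))
    have f2 := abs_le.1 (f (1 / 2) (by norm_num) (by norm_num))
    have hq := k7we_q_pos X
    obtain ⟨-, -, -, -, -, -, -, hhq, -⟩ := k7we_pos hX
    have hz := (k7we_bd hX hl (k7we_tQ_mem X)).1
    have hv := (k7we_line hX hl).2.2.1
    rw [e0, e1, e2, e3, e4]
    refine ⟨?_, ?_, ?_, ?_, ?_⟩
    · rw [abs_div, abs_of_pos hq, div_le_iff₀ hq]
      have h23 : X.K ^ 2 ≤ X.K ^ 3 := pow_le_pow_right₀ hK (by norm_num)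
      calc |X.W.Z l X.tQ - X.W.Zc X.Q| ≤ X.K * X.h := hz
        _ ≤ X.K * (X.K * X.W.q) := mul_le_mul_of_nonneg_left hhq hK0
        _ = X.K ^ 2 * X.W.q := by ring
        _ ≤ 160 * X.K ^ 3 * X.W.q := mul_le_mul_of_nonneg_right (by linarith) hq.le
    · have h13 : X.K ≤ X.K ^ 3 := le_self_pow₀ hK (by norm_num)
      linarith
    · exact abs_le.2 ⟨by linarith [f0.1], by linarith [f0.2]⟩
    · exact abs_le.2 ⟨by linarith [f0.1, f0.2, f1.1, f1.2, f2.1, f2.2], by linarith [f0.1, f0.2, f1.1, f1.2, f2.1, f2.2]⟩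
    · exact abs_le.2 ⟨by linarith [f0.1, f0.2, f1.1, f1.2, f2.1, f2.2], by linarith [f0.1, f0.2, f1.1, f1.2, f2.1, f2.2]⟩
  · have e0 : (X.D E5).y0 l = 0 := by simp only [K7weDat.D, Set.indicator_of_notMem hl]
    have e1 : (X.D E5).y1 l = 0 := by simp only [K7weDat.D, Set.indicator_of_notMem hl]
    have e2 : (X.D E5).x0 l = 0 := by simp only [K7weDat.D, Set.indicator_of_notMem hl]
    have e3 : (X.D E5).x1 l = 0 := by simp only [K7weDat.D, Set.indicator_of_notMem hl]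
    have e4 : (X.D E5).x2 l = 0 := by simp only [K7weDat.D, Set.indicator_of_notMem hl]
    rw [e0, e1, e2, e3, e4, abs_zero]
    have : (0 : ℝ) ≤ 160 * X.K ^ 3 := by positivity
    exact ⟨this, this, this, this, this⟩

/-- the normalised time scales Lebesgue measure by `q` -/
theorem k7we_adm_time (t0 q : ℝ) (hq : 0 < q) :
    MeasurePreserving (fun t : ℝ => (t - t0) / q) volume (ENNReal.ofReal q • volume) := by
  have h1 : MeasurePreserving (fun t : ℝ => t - t0) volume volume := measurePreserving_sub_right volume t0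
  have h2 : MeasurePreserving (fun t : ℝ => q⁻¹ * t) volume (ENNReal.ofReal q • volume) := by
    refine ⟨measurable_const_mul _, ?_⟩
    rw [Real.map_volume_mul_left (inv_ne_zero hq.ne'), inv_inv, abs_of_pos hq]
  have h3 := h2.comp h1
  have h4 : (fun t : ℝ => (t - t0) / q) = (fun t : ℝ => q⁻¹ * t) ∘ fun t : ℝ => t - t0 := by
    funext t
    simp only [Function.comp_apply, div_eq_inv_mul]
  rw [h4]
  exact h3

/-- the time marginal -/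
theorem k7we_adm_marg (X : K7weDat) :
    (k7aTm.restrict (X.W.blk X.Q)).map (fun t : ℝ => (t - X.tQ) / X.W.q) ≤ ENNReal.ofReal X.W.q • k7aTm := by
  have hτ := k7we_adm_time X.tQ X.W.q (k7we_q_pos X)
  refine Measure.le_iff.2 fun B hB => ?_
  have hblk : MeasurableSet (X.W.blk X.Q) := measurableSet_Ico
  rw [Measure.map_apply hτ.measurable hB, Measure.restrict_apply (hτ.measurable hB), Measure.smul_apply, smul_eq_mul]
  show (volume.restrict (Set.Icc (0 : ℝ) 1)) _ ≤ _ * (volume.restrict (Set.Icc (0 : ℝ) 1)) B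
  rw [Measure.restrict_apply hB]
  have h1 := hτ.measure_preimage (hB.inter (measurableSet_Icc (a := (0 : ℝ)) (b := 1))).nullMeasurableSet
  rw [Measure.smul_apply, smul_eq_mul] at h1
  rw [← h1]
  refine (Measure.restrict_apply_le _ _).trans (measure_mono ?_)
  rintro t ⟨htB, htb⟩
  obtain ⟨h0, h1⟩ := (k7we_blk_iff X t).1 htb
  exact ⟨htB, h0, h1.le⟩

/-- **L-252-S7w-E-AB**: the active measure is dominated by `nu × dt`.
PLAN: `Measure.le_iff` : for measurable `A`, `k7we_mu_le` reduces to `prior (E5 ∩ T⁻¹ A) ≤ (nu.prod k7aTm) A · (q ν_Q)`.   `E5 ⊆ E4 ⊆ inc Q = asg Q ×ˢ blk Q`.   `prior = ν.prod k7aTm`; `Measure.prod_apply` (measurable sets; `ν` is a probability by `hX.w.ln.prob`, `k7aTm` is finite):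
`prior (inc Q ∩ T⁻¹ A) = ∫⁻ l, k7aTm {t | l ∈ asg Q ∧ t ∈ blk Q ∧ (l, (t - tQ)/q) ∈ A} ∂ν ≤ ∫⁻ l in asg Q, q · k7aTm {s | (l, s) ∈ A} ∂ν`, since `t ↦ (t - tQ)/q` maps `blk Q` into `[0,1)` and scales Lebesgue measure by `q`
(`Real.volume_preimage_mul_left`/`measure_preimage_add_right`, or `Real.map_linear..`);   `(nu.prod k7aTm) A = ν_Q⁻¹ ∫⁻ l in asg Q, k7aTm {s | (l,s) ∈ A} ∂ν` (`Measure.prod_apply`, `lintegral_smul_measure`);  `ν_Q⁻¹ ν_Q = 1` (`k7we_nuQ_pos`, `k7we_nuQ_top`). -/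
theorem k7we_adm_dom (hX : X.Ok) {E5 : Set (X.W.L × ℝ)} (hm : MeasurableSet E5) (hs : E5 ⊆ X.E4) : (X.D E5).mu ≤ (X.D E5).nu.prod k7aTm := by
  have hprob := hX.w.ln.prob
  have hfin : IsFiniteMeasure k7aTm := by
    show IsFiniteMeasure (volume.restrict (Set.Icc (0 : ℝ) 1))
    exact ⟨by rw [Measure.restrict_apply_univ]; exact measure_Icc_lt_top⟩
  refine Measure.le_iff.2 fun A hA => k7we_mu_le hX hm hA ?_
  have hTA : MeasurableSet (X.T ⁻¹' A) := k7we_T_meas X hA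
  have hτm : Measurable fun t : ℝ => (t - X.tQ) / X.W.q := (measurable_id.sub_const _).div_const _
  have h1 : X.W.prior (E5 ∩ X.T ⁻¹' A) ≤ (X.W.prior.restrict (X.W.inc X.Q)) (X.T ⁻¹' A) := by
    rw [Measure.restrict_apply hTA, Set.inter_comm]
    exact measure_mono (Set.inter_subset_inter_right _ fun p hp => (hX.com.sub (hs hp)).2)
  have h2 : X.W.prior.restrict (X.W.inc X.Q) = (X.W.ν.restrict (X.W.asg X.Q)).prod (k7aTm.restrict (X.W.blk X.Q)) :=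
    (Measure.prod_restrict _ _).symm
  have h3 : ((X.W.ν.restrict (X.W.asg X.Q)).prod (k7aTm.restrict (X.W.blk X.Q))) (X.T ⁻¹' A)
      = ((X.W.ν.restrict (X.W.asg X.Q)).prod ((k7aTm.restrict (X.W.blk X.Q)).map fun t : ℝ => (t - X.tQ) / X.W.q)) A := by
    have h := Measure.map_prod_map (X.W.ν.restrict (X.W.asg X.Q)) (k7aTm.restrict (X.W.blk X.Q)) measurable_id hτm
    rw [Measure.map_id] at h
    rw [h, Measure.map_apply (measurable_id.prodMap hτm) hA]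
    rfl
  have h4 : ((X.W.ν.restrict (X.W.asg X.Q)).prod ((k7aTm.restrict (X.W.blk X.Q)).map fun t : ℝ => (t - X.tQ) / X.W.q)) A
      ≤ ENNReal.ofReal X.W.q * ((X.W.ν.restrict (X.W.asg X.Q)).prod k7aTm) A := by
    refine (Measure.prod_mono le_rfl (k7we_adm_marg X) A).trans ?_
    rw [Measure.prod_smul_right, Measure.smul_apply, smul_eq_mul]
  have h5 : ((X.D E5).nu.prod k7aTm) A = (X.W.νQ X.Q)⁻¹ * ((X.W.ν.restrict (X.W.asg X.Q)).prod k7aTm) A := by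
    show (((X.W.νQ X.Q)⁻¹ • X.W.ν.restrict (X.W.asg X.Q)).prod k7aTm) A = _
    rw [Measure.prod_smul_left, Measure.smul_apply, smul_eq_mul]
  rw [h2, h3] at h1
  refine (h1.trans h4).trans (le_of_eq ?_)
  rw [h5]
  calc ENNReal.ofReal X.W.q * ((X.W.ν.restrict (X.W.asg X.Q)).prod k7aTm) A
      = ((X.W.νQ X.Q)⁻¹ * X.W.νQ X.Q) * (ENNReal.ofReal X.W.q * ((X.W.ν.restrict (X.W.asg X.Q)).prod k7aTm) A) := by
        rw [ENNReal.inv_mul_cancel (k7we_nuQ_pos hX) (k7we_nuQ_top hX), one_mul]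
    _ = _ := by ring

/-- **admissibility** -/
theorem k7we_adm (hX : X.Ok) {E5 : Set (X.W.L × ℝ)} (hm : MeasurableSet E5) (hs : E5 ⊆ X.E4) {Km K' : ℝ}
    (hmass : ENNReal.ofReal X.W.q * X.W.νQ X.Q ≤ ENNReal.ofReal Km * X.W.prior E5) (h1 : 160 * X.K ^ 3 ≤ K') (h2 : Km ≤ K') : (X.D E5).Adm K' := by
  have hK3 : 1 ≤ X.K ^ 3 := one_le_pow₀ hX.K1
  have hK'1 : 1 ≤ K' := by linarith
  have hq0 : ENNReal.ofReal X.W.q * X.W.νQ X.Q ≠ 0 := mul_ne_zero (by simpa using k7we_q_pos X) (k7we_nuQ_pos hX)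
  have hqT : ENNReal.ofReal X.W.q * X.W.νQ X.Q ≠ ⊤ := ENNReal.mul_ne_top ENNReal.ofReal_ne_top (k7we_nuQ_top hX)
  refine ⟨⟨?_⟩, k7we_D_co_meas hX E5, fun l => ?_, ?_, ?_⟩
  · show ((X.W.νQ X.Q)⁻¹ • X.W.ν.restrict (X.W.asg X.Q)) Set.univ = 1
    rw [Measure.smul_apply, Measure.restrict_apply_univ, smul_eq_mul]
    exact ENNReal.inv_mul_cancel (k7we_nuQ_pos hX) (k7we_nuQ_top hX)
  · obtain ⟨a1, a2, a3, a4, a5⟩ := k7we_adm_bd hX E5 l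
    exact ⟨a1.trans h1, a2.trans h1, a3.trans h1, a4.trans h1, a5.trans h1⟩
  · refine (k7we_adm_dom hX hm hs).trans ?_
    intro A
    rw [Measure.smul_apply, smul_eq_mul]
    calc ((X.D E5).nu.prod k7aTm) A = 1 * ((X.D E5).nu.prod k7aTm) A := (one_mul _).symm
      _ ≤ ENNReal.ofReal K' * ((X.D E5).nu.prod k7aTm) A := by
          gcongr
          rw [← ENNReal.ofReal_one]
          exact ENNReal.ofReal_le_ofReal hK'1
  · rw [k7we_mu_apply X hm MeasurableSet.univ, Set.preimage_univ, Set.inter_univ]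
    calc (1 : ℝ≥0∞) = (ENNReal.ofReal X.W.q * X.W.νQ X.Q)⁻¹ * (ENNReal.ofReal X.W.q * X.W.νQ X.Q) := (ENNReal.inv_mul_cancel hq0 hqT).symm
      _ ≤ (ENNReal.ofReal X.W.q * X.W.νQ X.Q)⁻¹ * (ENNReal.ofReal K' * X.W.prior E5) :=
          mul_le_mul' le_rfl (hmass.trans (mul_le_mul' (ENNReal.ofReal_le_ofReal h2) le_rfl))
      _ = ENNReal.ofReal K' * ((ENNReal.ofReal X.W.q * X.W.νQ X.Q)⁻¹ * X.W.prior E5) := by ring

/-! ## Exit -/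

/-- **L-252-S7w-E-FA**: the restored predictor is a quadratic polynomial in the full base.
PLAN: obtain the six coefficients of `F0`; unfold `X.Pnc, X.C1, X.Ub, K7aW.YQ`; write `ib = X.b⁻¹`, `iq = X.W.q⁻¹` (`div_eq_mul_inv`); give the ten coefficients explicitly as `![..]` (expand by hand or read them off with `ring_nf`), `simp [Fin..]`/`Matrix.cons_val..`, close with `ring`. -/
theorem k7we_quad3 (X : K7weDat) {F0 : ℝ → ℝ → ℝ} (hF : K7aQuad F0) :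
    K7aQuad3 fun t Z Y => F0 ((t - X.tQ) / X.W.q) ((Z - X.W.Zc X.Q) / X.W.q) + X.Pnc t Z Y := by
  obtain ⟨e0, e1, e2, e3, e4, e5, hF⟩ := hF
  set ib : ℝ := X.b⁻¹ with hib
  set iq : ℝ := X.W.q⁻¹ with hiq
  set tQ : ℝ := X.tQ with htQ
  set Zc : ℝ := X.W.Zc X.Q with hZc
  set r0 : ℝ := X.W.r0 X.Q with hr0
  set r1 : ℝ := X.W.r1 X.Q with hr1
  set r2 : ℝ := X.W.r2 X.Q with hr2
  refine ⟨![e0 - e1 * iq * tQ - e2 * iq * Zc + e3 * iq ^ 2 * tQ ^ 2 + e4 * iq ^ 2 * tQ * Zc + e5 * iq ^ 2 * Zc ^ 2 - ib * X.γ0 * r0 + X.C2 * ib ^ 2 * r0 ^ 2,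
    e1 * iq - 2 * e3 * iq ^ 2 * tQ - e4 * iq ^ 2 * Zc + ib * (-X.γ0 * r1 - X.γ1 * r0) + 2 * X.C2 * ib ^ 2 * r0 * r1,
    e2 * iq - e4 * iq ^ 2 * tQ - 2 * e5 * iq ^ 2 * Zc + ib * (-X.γ0 * r2 - X.γ2 * r0) + 2 * X.C2 * ib ^ 2 * r0 * r2,
    ib * X.γ0 - 2 * X.C2 * ib ^ 2 * r0,
    e3 * iq ^ 2 - ib * X.γ1 * r1 + X.C2 * ib ^ 2 * r1 ^ 2,
    e4 * iq ^ 2 + ib * (-X.γ1 * r2 - X.γ2 * r1) + 2 * X.C2 * ib ^ 2 * r1 * r2,
    ib * X.γ1 - 2 * X.C2 * ib ^ 2 * r1,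
    e5 * iq ^ 2 - ib * X.γ2 * r2 + X.C2 * ib ^ 2 * r2 ^ 2,
    ib * X.γ2 - 2 * X.C2 * ib ^ 2 * r2,
    X.C2 * ib ^ 2], fun t Z Y => ?_⟩
  simp only [Matrix.cons_val]
  rw [hF]
  unfold K7weDat.Pnc K7weDat.C1 K7weDat.Ub K7aW.YQ
  rw [div_eq_mul_inv, div_eq_mul_inv, div_eq_mul_inv]
  rw [← hib, ← hiq, ← hr0, ← hr1, ← hr2]
  ring

/-- **L-252-S7w-E-FB**: one label of the conclusion of Thm 7.1 is the candidate.
PLAN: unfold `K7aData.Out` : `n, lab, L`.   `1 ≤ KT mu {lab ≠ none}` forces some `l` with `lab l = some i` (otherwise the set is empty).   `F = fun t Z Y => (L i).F ((t - tQ)/q) ((Z - Zc)/q) + P_nc t Z Y` (`k7we_quad3`), `Cn = E5 ∩ {p | lab p.1 = some i}` (measurable: preimage of `lab ⁻¹' {some i}` under `Prod.fst`).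
Fit: `p ∈ Cn`, `t ∈ blk Q`, `s = (t - tQ)/q ∈ [0,1)` (`k7we_blk_iff`), `tQ + q s = t`; `k7we_D_x`, `k7we_D_y` (`p.1 ∈ asg Q` by `k7we_E4`); `X_l(t) - F(..) = X°_l(t) - (L i).F s (y l s)`.
Mass: `{z | lab z.1 = some i}` is measurable, its `T`-preimage is `{p | lab p.1 = some i}` : `k7we_mu_apply` : `ofReal (c a2^d βT) ≤ ofReal KT (q ν_Q)⁻¹ prior Cn`; multiply by `q ν_Q ∈ (0,∞)`; `c a2^d ≤ KT βT c a2^d`. -/
theorem k7we_fin (hX : X.Ok) {E5 : Set (X.W.L × ℝ)} (hm : MeasurableSet E5) (hs : E5 ⊆ X.E4) {KT βT : ℝ} (hKT : 1 ≤ KT) (hβ : 1 ≤ KT * βT)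
    (hOut : (X.D E5).Out KT βT X.c X.d X.a2) :
    ∃ (F : ℝ → ℝ → ℝ → ℝ) (Cn : Set (X.W.L × ℝ)), K7aQuad3 F ∧ MeasurableSet Cn ∧ Cn ⊆ X.E4 ∧
      (∀ p ∈ Cn, ∀ t ∈ X.W.blk X.Q, |X.W.X p.1 t - F t (X.W.Z p.1 t) (X.W.Y p.1 t)| ≤ KT * X.a2) ∧
      ENNReal.ofReal (X.W.q * (X.c * X.a2 ^ X.d)) * X.W.νQ X.Q ≤ ENNReal.ofReal (KT ^ 2) * X.W.prior Cn := by
  obtain ⟨n, lab, L, hmeas, hmass, hall⟩ := hOut
  have hq := k7we_q_pos X
  obtain ⟨i⟩ : Nonempty (Fin n) := by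
    by_contra hne
    have hemp : {z : X.W.L × ℝ | lab z.1 ≠ none} = ∅ := by
      ext z
      simp only [Set.mem_ofPred_eq, Set.mem_empty_iff_false, iff_false, ne_eq, not_not]
      cases hz : lab z.1 with
      | none => rfl
      | some i => exact absurd ⟨i⟩ hne
    rw [hemp, measure_empty, mul_zero] at hmass
    exact absurd hmass (by simp)
  obtain ⟨hquad, -, -, -, hfit, hfl⟩ := hall i
  have hmA : MeasurableSet {z : X.W.L × ℝ | lab z.1 = some i} := measurable_fst (hmeas (some i))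
  refine ⟨fun t Z Y => (L i).F ((t - X.tQ) / X.W.q) ((Z - X.W.Zc X.Q) / X.W.q) + X.Pnc t Z Y, E5 ∩ {p | lab p.1 = some i},
    k7we_quad3 X hquad, hm.inter hmA, fun p hp => hs hp.1, ?_, ?_⟩
  · intro p hp t ht
    have hl : p.1 ∈ X.W.asg X.Q := (k7we_E4 hX (hs hp.1)).2.2.1
    obtain ⟨h0, h1⟩ := (k7we_blk_iff X t).1 ht
    have ht' : X.tQ + X.W.q * ((t - X.tQ) / X.W.q) = t := by
      field_simp
      ring
    have h2 := (hfit p.1 hp.2 ((t - X.tQ) / X.W.q) ⟨h0, h1.le⟩).2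
    rw [k7we_D_x X E5 hl, k7we_D_y X E5 hl, ht'] at h2
    have e : X.W.X p.1 t - ((L i).F ((t - X.tQ) / X.W.q) ((X.W.Z p.1 t - X.W.Zc X.Q) / X.W.q) + X.Pnc t (X.W.Z p.1 t) (X.W.Y p.1 t))
        = X.Xo p.1 t - (L i).F ((t - X.tQ) / X.W.q) ((X.W.Z p.1 t - X.W.Zc X.Q) / X.W.q) := by
      unfold K7weDat.Xo
      ring
    show |X.W.X p.1 t - ((L i).F ((t - X.tQ) / X.W.q) ((X.W.Z p.1 t - X.W.Zc X.Q) / X.W.q) + X.Pnc t (X.W.Z p.1 t) (X.W.Y p.1 t))| ≤ KT * X.a2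
    rw [e]
    exact h2
  · have hq0 : ENNReal.ofReal X.W.q * X.W.νQ X.Q ≠ 0 := mul_ne_zero (by simpa using hq) (k7we_nuQ_pos hX)
    have hqT : ENNReal.ofReal X.W.q * X.W.νQ X.Q ≠ ⊤ := ENNReal.mul_ne_top ENNReal.ofReal_ne_top (k7we_nuQ_top hX)
    rw [k7we_mu_apply X hm hmA] at hfl
    have hpre : X.T ⁻¹' {z : X.W.L × ℝ | lab z.1 = some i} = {p | lab p.1 = some i} := rfl
    rw [hpre] at hfl
    have hc : 0 ≤ X.c * X.a2 ^ X.d := mul_nonneg (k7we_pos hX).2.2.2.2.2.2.1.le (Real.rpow_pos_of_pos hX.a2_pos _).le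
    have hKT0 : 0 ≤ KT := by linarith
    have h1 : ENNReal.ofReal (X.c * X.a2 ^ X.d) ≤ ENNReal.ofReal KT * ENNReal.ofReal (X.c * X.a2 ^ X.d * βT) := by
      rw [← ENNReal.ofReal_mul hKT0]
      refine ENNReal.ofReal_le_ofReal ?_
      calc X.c * X.a2 ^ X.d = X.c * X.a2 ^ X.d * 1 := (mul_one _).symm
        _ ≤ X.c * X.a2 ^ X.d * (KT * βT) := mul_le_mul_of_nonneg_left hβ hc
        _ = KT * (X.c * X.a2 ^ X.d * βT) := by ring
    calc ENNReal.ofReal (X.W.q * (X.c * X.a2 ^ X.d)) * X.W.νQ X.Q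
        = (ENNReal.ofReal X.W.q * X.W.νQ X.Q) * ENNReal.ofReal (X.c * X.a2 ^ X.d) := by
          rw [ENNReal.ofReal_mul hq.le]
          ring
      _ ≤ (ENNReal.ofReal X.W.q * X.W.νQ X.Q) * (ENNReal.ofReal KT * (ENNReal.ofReal KT *
            ((ENNReal.ofReal X.W.q * X.W.νQ X.Q)⁻¹ * X.W.prior (E5 ∩ {p | lab p.1 = some i})))) :=
          mul_le_mul' le_rfl (h1.trans (mul_le_mul' le_rfl hfl))
      _ = ((ENNReal.ofReal X.W.q * X.W.νQ X.Q) * (ENNReal.ofReal X.W.q * X.W.νQ X.Q)⁻¹) * ((ENNReal.ofReal KT * ENNReal.ofReal KT) *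
            X.W.prior (E5 ∩ {p | lab p.1 = some i})) := by ring
      _ = _ := by
          rw [ENNReal.mul_inv_cancel hq0 hqT, one_mul, ← ENNReal.ofReal_mul hKT0, sq]

end

end Claimed.Agent.R252

/-!
# ROW 252 (S0492), unit S7w, STAGE E of P7.3 (helper202), file 5: THE OUTPUT STATES: OPTIONS PER HISTORY, PRUNING, CONDITIONAL VELOCITY DOMINATION (07 l.873-884, step E4, first half).
CONTRACT: leaves L-252-S7w-E-PNC, -OPT, -PRA, -PRB.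
-/

set_option autoImplicit false

namespace Claimed.Agent.R252

open MeasureTheory
open scoped ENNReal BigOperators

noncomputable section

variable {X : K7weDat}

/-- **L-252-S7w-E-PNC**: `P_nc` has fixed-power gradient bounds in the box of `Q`.
PLAN: write `U, U'`, `C, C'` for the values of `X.Ub`, `X.C1` at the two base points.  `U - U' = ((Y - Y') - r1 (t - t') - r2 (Z - Z'))/b`, so `|U - U'| ≤ 3 K δ/b` (`k7we_row`).   `C - C' = γ1 (t - t') + γ2 (Z - Z')`, `|γ1| ≤ 4K/q ≤ 4K²/h`, `|γ2| ≤ 2K/h` (`k7we_gam`, `k7we_pos`): `|C - C'| ≤ 6 K² δ/h ≤ 6 K² δ/b`.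
`P - P' = (C - C') U + C' (U - U') + C2 (U - U')(U + U')`, `|U|, |U'| ≤ K`, `|C'| ≤ 3K²` (`k7we_bd`), `|C2| ≤ K` (`hX.com.bd2`): `≤ (6 + 9 + 6) K³ δ/b`. -/
theorem k7we_pnc_var (hX : X.Ok) {l l' : X.W.L} {t t' δ : ℝ} (hl : l ∈ X.W.asg X.Q) (hl' : l' ∈ X.W.asg X.Q) (ht : t ∈ X.W.blk X.Q) (ht' : t' ∈ X.W.blk X.Q)
    (h1 : |t - t'| ≤ δ) (h2 : |X.W.Z l t - X.W.Z l' t'| ≤ δ) (h3 : |X.W.Y l t - X.W.Y l' t'| ≤ δ) :
    |X.Pnc t (X.W.Z l t) (X.W.Y l t) - X.Pnc t' (X.W.Z l' t') (X.W.Y l' t')| ≤ 21 * X.K ^ 3 * δ / X.b := by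
  have hK := hX.K1
  have hK0 : 0 ≤ X.K := by linarith
  have hδ : 0 ≤ δ := (abs_nonneg _).trans h1
  obtain ⟨hb0, -, hbh, -, -, -, -, hhq, -⟩ := k7we_pos hX
  obtain ⟨-, -, hr1, hr2⟩ := k7we_row hX
  obtain ⟨hg1, hg2⟩ := k7we_gam hX
  obtain ⟨-, -, hU, -, -, -⟩ := k7we_bd hX hl ht
  obtain ⟨-, -, hU', hC', -, -⟩ := k7we_bd hX hl' ht'
  have hC2 := hX.com.bd2
  obtain ⟨Z, hZ⟩ : ∃ Z, Z = X.W.Z l t := ⟨_, rfl⟩
  obtain ⟨Z', hZ'⟩ : ∃ Z', Z' = X.W.Z l' t' := ⟨_, rfl⟩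
  obtain ⟨Y, hY⟩ : ∃ Y, Y = X.W.Y l t := ⟨_, rfl⟩
  obtain ⟨Y', hY'⟩ : ∃ Y', Y' = X.W.Y l' t' := ⟨_, rfl⟩
  rw [← hZ, ← hY] at hU
  rw [← hZ', ← hY'] at hU'
  rw [← hZ'] at hC'
  rw [← hZ, ← hZ'] at h2
  rw [← hY, ← hY'] at h3
  rw [← hZ, ← hZ', ← hY, ← hY']
  have e1 : (X.Ub t Z Y - X.Ub t' Z' Y') * X.b = (Y - Y') - X.W.r1 X.Q * (t - t') - X.W.r2 X.Q * (Z - Z') := by
    unfold K7weDat.Ub K7aW.YQ
    field_simp
    ring
  have t1 : |X.W.r1 X.Q * (t - t')| ≤ X.K * δ := by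
    rw [abs_mul]
    exact mul_le_mul hr1 h1 (abs_nonneg _) hK0
  have t2 : |X.W.r2 X.Q * (Z - Z')| ≤ X.K * δ := by
    rw [abs_mul]
    exact mul_le_mul hr2 h2 (abs_nonneg _) hK0
  have hKδ : δ ≤ X.K * δ := le_mul_of_one_le_left hδ hK
  have hdU : |X.Ub t Z Y - X.Ub t' Z' Y'| * X.b ≤ 3 * X.K * δ := by
    rw [← abs_of_pos hb0, ← abs_mul, e1]
    have a1 := abs_le.1 t1
    have a2 := abs_le.1 t2
    have a3 := abs_le.1 h3
    exact abs_le.2 ⟨by linarith [a1.1, a1.2, a2.1, a2.2, a3.1, a3.2], by linarith [a1.1, a1.2, a2.1, a2.2, a3.1, a3.2]⟩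
  have e2 : X.C1 t Z - X.C1 t' Z' = X.γ1 * (t - t') + X.γ2 * (Z - Z') := by
    unfold K7weDat.C1
    ring
  have g1 : |X.γ1| * X.b ≤ 4 * X.K ^ 2 := by
    calc |X.γ1| * X.b ≤ |X.γ1| * (X.K * X.W.q) := mul_le_mul_of_nonneg_left (hbh.trans hhq) (abs_nonneg _)
      _ = X.K * (|X.γ1| * X.W.q) := by ring
      _ ≤ X.K * (4 * X.K) := mul_le_mul_of_nonneg_left hg1 hK0
      _ = 4 * X.K ^ 2 := by ring
  have g2 : |X.γ2| * X.b ≤ 2 * X.K ^ 2 := by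
    calc |X.γ2| * X.b ≤ |X.γ2| * X.h := mul_le_mul_of_nonneg_left hbh (abs_nonneg _)
      _ ≤ 2 * X.K := hg2
      _ ≤ 2 * X.K ^ 2 := by nlinarith
  have hdC : |X.C1 t Z - X.C1 t' Z'| * X.b ≤ 6 * X.K ^ 2 * δ := by
    rw [e2]
    calc |X.γ1 * (t - t') + X.γ2 * (Z - Z')| * X.b ≤ (|X.γ1| * |t - t'| + |X.γ2| * |Z - Z'|) * X.b := by
          refine mul_le_mul_of_nonneg_right ?_ hb0.le
          refine (abs_add_le _ _).trans ?_
          rw [abs_mul, abs_mul]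
      _ = (|X.γ1| * X.b) * |t - t'| + (|X.γ2| * X.b) * |Z - Z'| := by ring
      _ ≤ (4 * X.K ^ 2) * δ + (2 * X.K ^ 2) * δ :=
          add_le_add (mul_le_mul g1 h1 (abs_nonneg _) (by positivity)) (mul_le_mul g2 h2 (abs_nonneg _) (by positivity))
      _ = 6 * X.K ^ 2 * δ := by ring
  have e3 : X.Pnc t Z Y - X.Pnc t' Z' Y' = (X.C1 t Z - X.C1 t' Z') * X.Ub t Z Y + X.C1 t' Z' * (X.Ub t Z Y - X.Ub t' Z' Y')
      + X.C2 * (X.Ub t Z Y - X.Ub t' Z' Y') * (X.Ub t Z Y + X.Ub t' Z' Y') := by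
    unfold K7weDat.Pnc
    ring
  rw [le_div_iff₀ hb0, e3]
  obtain ⟨dC, hdCd⟩ : ∃ dC, dC = X.C1 t Z - X.C1 t' Z' := ⟨_, rfl⟩
  obtain ⟨dU, hdUd⟩ : ∃ dU, dU = X.Ub t Z Y - X.Ub t' Z' Y' := ⟨_, rfl⟩
  rw [← hdCd] at hdC ⊢
  rw [← hdUd] at hdU ⊢
  have s1 : |dC * X.Ub t Z Y| ≤ |dC| * X.K := by
    rw [abs_mul]
    exact mul_le_mul_of_nonneg_left hU (abs_nonneg _)
  have s2 : |X.C1 t' Z' * dU| ≤ 3 * X.K ^ 2 * |dU| := by
    rw [abs_mul]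
    exact mul_le_mul_of_nonneg_right hC' (abs_nonneg _)
  have s3 : |X.C2 * dU * (X.Ub t Z Y + X.Ub t' Z' Y')| ≤ X.K * |dU| * (2 * X.K) := by
    rw [abs_mul, abs_mul]
    refine mul_le_mul (mul_le_mul_of_nonneg_right hC2 (abs_nonneg _)) ?_ (abs_nonneg _) (by positivity)
    exact (abs_add_le _ _).trans (by linarith)
  calc |dC * X.Ub t Z Y + X.C1 t' Z' * dU + X.C2 * dU * (X.Ub t Z Y + X.Ub t' Z' Y')| * X.b
      ≤ (|dC| * X.K + 3 * X.K ^ 2 * |dU| + X.K * |dU| * (2 * X.K)) * X.b := by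
        refine mul_le_mul_of_nonneg_right ?_ hb0.le
        exact (abs_add_three _ _ _).trans (by linarith)
    _ = X.K * (|dC| * X.b) + 5 * X.K ^ 2 * (|dU| * X.b) := by ring
    _ ≤ X.K * (6 * X.K ^ 2 * δ) + 5 * X.K ^ 2 * (3 * X.K * δ) :=
        add_le_add (mul_le_mul_of_nonneg_left hdC hK0) (mul_le_mul_of_nonneg_left hdU (by positivity))
    _ = 21 * X.K ^ 3 * δ := by ring

/-- in one fine base cell `P_nc` varies by at most `a2` -/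
theorem k7we_pnc_cell (hX : X.Ok) {p p' : X.W.L × ℝ} (hp : p ∈ X.W.inc X.Q) (hp' : p' ∈ X.W.inc X.Q) (h1 : kbBin X.σf p.2 = kbBin X.σf p'.2)
    (h2 : kbBin X.σf (X.W.Z p.1 p.2) = kbBin X.σf (X.W.Z p'.1 p'.2)) (h3 : kbBin X.σf (X.W.Y p.1 p.2) = kbBin X.σf (X.W.Y p'.1 p'.2)) :
    |X.Pnc p.2 (X.W.Z p.1 p.2) (X.W.Y p.1 p.2) - X.Pnc p'.2 (X.W.Z p'.1 p'.2) (X.W.Y p'.1 p'.2)| ≤ X.a2 := by
  obtain ⟨hb0, -, -, -, hf0, -, -, -, -⟩ := k7we_pos hX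
  have a1 := (k7we_bin_close hf0 h1).le
  have a2 := (k7we_bin_close hf0 h2).le
  have a3 := (k7we_bin_close hf0 h3).le
  refine (k7we_pnc_var hX hp.1 hp'.1 hp.2 hp'.2 a1 a2 a3).trans ?_
  rw [div_le_iff₀ hb0]
  have hG := (k7we_G hX).2.2.2.1
  have h4 : 21 * X.K ^ 3 * (2 * X.σf) ≤ X.G * X.σf := by
    have : 42 * X.K ^ 3 ≤ X.G := by nlinarith [pow_pos (lt_of_lt_of_le one_pos hX.K1) 3]
    nlinarith
  have h5 : X.a2 * (X.h * X.g) * X.σs ≤ X.a2 * X.b := by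
    have : 0 ≤ X.a2 * X.b := mul_nonneg hX.a2_pos.le hb0.le
    have h6 := k7we_sig_le_one X
    show X.a2 * X.b * X.σs ≤ X.a2 * X.b
    nlinarith
  linarith [hX.sm_f]

/-- `2 σf ≤ q σs` -/
theorem k7we_opt_sf (hX : X.Ok) : 2 * X.σf ≤ X.W.q * X.σs := by
  obtain ⟨hb0, hb1, -, -, hf0, -, -, hq, -⟩ := k7we_pos hX
  have hG := (k7we_G hX).2.1
  have hK0 : 0 < X.K := lt_of_lt_of_le one_pos hX.K1
  have hs := k7we_sig_pos X
  have hq0 := k7we_q_pos X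
  -- `G σf ≤ a2 (h g) σs ≤ h σs ≤ K q σs`
  have h1 : X.a2 * (X.h * X.g) * X.σs ≤ X.h * X.σs := by
    have h2 : X.a2 * (X.h * X.g) ≤ 1 * (X.h * 1) :=
      mul_le_mul hX.a2_le (mul_le_mul_of_nonneg_left hX.g_le hX.h_pos.le) (mul_nonneg hX.h_pos.le hX.g_pos.le) zero_le_one
    nlinarith
  have h3 : X.h * X.σs ≤ X.K * X.W.q * X.σs := mul_le_mul_of_nonneg_right hq hs.le
  have h4 : 1000 * X.K * X.σf ≤ X.K * (X.W.q * X.σs) := by
    have : 1000 * X.K * X.σf ≤ X.G * X.σf := mul_le_mul_of_nonneg_right hG hf0.le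
    nlinarith [hX.sm_f]
  have h5 : 1000 * X.σf ≤ X.W.q * X.σs := by
    have : X.K * (1000 * X.σf) ≤ X.K * (X.W.q * X.σs) := by linarith
    exact le_of_mul_le_mul_left this hK0
  linarith

/-- the output states over one fine point state -/
theorem k7we_opt_pt (hX : X.Ok) (cst : ℤ × ℤ × ℤ × ℤ) : ∃ Op : Finset (ℤ × ℤ × ℤ), Op.card ≤ 225 ∧ ∀ p ∈ X.E4, X.W.pt X.σf X.a2 p = cst → X.o p ∈ Op := by
  obtain ⟨hb0, hb1, -, -, hf0, -, -, hq, -⟩ := k7we_pos hX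
  have hs := k7we_sig_pos X
  have hq0 := k7we_q_pos X
  have hsf := k7we_opt_sf hX
  set A : Set (X.W.L × ℝ) := {p | p ∈ X.E4 ∧ X.W.pt X.σf X.a2 p = cst} with hA
  have hpair : ∀ p ∈ A, ∀ p' ∈ A, kbBin X.σf p.2 = kbBin X.σf p'.2 ∧ kbBin X.σf (X.W.Z p.1 p.2) = kbBin X.σf (X.W.Z p'.1 p'.2) ∧
      kbBin X.σf (X.W.Y p.1 p.2) = kbBin X.σf (X.W.Y p'.1 p'.2) ∧ kbBin X.a2 (X.W.X p.1 p.2) = kbBin X.a2 (X.W.X p'.1 p'.2) := by
    intro p hp p' hp'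
    have e : X.W.pt X.σf X.a2 p = X.W.pt X.σf X.a2 p' := hp.2.trans hp'.2.symm
    unfold K7aLn.pt at e
    simp only [Prod.mk.injEq] at e
    exact e
  obtain ⟨S1, c1, m1⟩ := k7we_floor_cover A (fun p => (p.2 - X.tQ) / X.W.q) (w := X.σs) (L := 1) hs zero_le_one (by
    intro p hp p' hp'
    have h1 := (k7we_bin_close hf0 (hpair p hp p' hp').1).le
    have e : (p.2 - X.tQ) / X.W.q - (p'.2 - X.tQ) / X.W.q = (p.2 - p'.2) / X.W.q := by ring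
    rw [e, abs_div, abs_of_pos hq0, div_le_iff₀ hq0]
    linarith)
  obtain ⟨S2, c2, m2⟩ := k7we_floor_cover A (fun p => (X.W.Z p.1 p.2 - X.W.Zc X.Q) / X.W.q) (w := X.σs) (L := 1) hs zero_le_one (by
    intro p hp p' hp'
    have h1 := (k7we_bin_close hf0 (hpair p hp p' hp').2.1).le
    have e : (X.W.Z p.1 p.2 - X.W.Zc X.Q) / X.W.q - (X.W.Z p'.1 p'.2 - X.W.Zc X.Q) / X.W.q = (X.W.Z p.1 p.2 - X.W.Z p'.1 p'.2) / X.W.q := by ring
    rw [e, abs_div, abs_of_pos hq0, div_le_iff₀ hq0]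
    linarith)
  obtain ⟨S3, c3, m3⟩ := k7we_floor_cover A (fun p => X.Xo p.1 p.2) (w := X.a2) (L := 3) hX.a2_pos (by norm_num) (by
    intro p hp p' hp'
    obtain ⟨b1, b2, b3, b4⟩ := hpair p hp p' hp'
    have h1 := (k7we_bin_close hX.a2_pos b4).le
    have h2 := k7we_pnc_cell hX (hX.com.sub hp.1).2 (hX.com.sub hp'.1).2 b1 b2 b3
    have e : X.Xo p.1 p.2 - X.Xo p'.1 p'.2 = (X.W.X p.1 p.2 - X.W.X p'.1 p'.2)
        - (X.Pnc p.2 (X.W.Z p.1 p.2) (X.W.Y p.1 p.2) - X.Pnc p'.2 (X.W.Z p'.1 p'.2) (X.W.Y p'.1 p'.2)) := by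
      unfold K7weDat.Xo
      ring
    rw [e]
    refine (abs_sub _ _).trans ?_
    linarith)
  have d1 : S1.card ≤ 5 := by
    have : (S1.card : ℝ) ≤ 5 := by linarith
    exact_mod_cast this
  have d2 : S2.card ≤ 5 := by
    have : (S2.card : ℝ) ≤ 5 := by linarith
    exact_mod_cast this
  have d3 : S3.card ≤ 9 := by
    have : (S3.card : ℝ) ≤ 9 := by linarith
    exact_mod_cast this
  refine ⟨S1 ×ˢ S2 ×ˢ S3, ?_, fun p hp hc => ?_⟩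
  · rw [Finset.card_product, Finset.card_product]
    calc S1.card * (S2.card * S3.card) ≤ 5 * (5 * 9) := Nat.mul_le_mul d1 (Nat.mul_le_mul d2 d3)
      _ = 225 := by norm_num
  · have hpA : p ∈ A := ⟨hp, hc⟩
    exact Finset.mem_product.2 ⟨m1 p hpA, Finset.mem_product.2 ⟨m2 p hpA, m3 p hpA⟩⟩

/-- **L-252-S7w-E-OPT**: the output state has at most `300 K` options per end history.
PLAN: `n0 ≤ K`, `hO : KsOpt lam0 hist (labQ, pt σf a2) n0` from `hX.w.opt X.Mf hX.Mf_mem X.r2 hX.r2_mem` (`X.σf = N^(-Mf)` by `rfl`, `X.a2 = N^(-r2)` by `hX.a2_eq`).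
(i) for a point state `cst`, the set `A cst = {p ∈ E4 | pt σf a2 p = cst}` : two of its points have `|t - t'|, |Z - Z'| < 2σf ≤ q σs` (`k7we_bin_close`; `sm_f`, `h ≤ K q`), `|X - X'| < 2 a2`, `|P_nc - P_nc'| ≤ a2` (`k7we_pnc_cell`; `E4 ⊆ inc Q` by `hX.com.sub`), so `|X° - X°'| ≤ 3 a2`.
    `k7we_floor_cover` (`L = 1, 1, 3` : cards `≤ 5, 5, 9`) and products: a finset `Op cst` of card `≤ 225` containing `X.o p` for all `p ∈ A cst`.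
(ii) for a history `e0` with options `L0` (card `≤ n0`) put `L = ⋃_{x ∈ L0} Op x.2`, `n = 225 n0`.   If `o0 ∉ L` then `E4 ∩ {hist = e0, o = o0} ⊆ ⋃_{x ∉ L0} {hist = e0, (labQ, pt) = x}`, a countable union (`W.Q` finite, `ℤ⁴` countable) of `lam0`-null sets; `law E4 ≤ lam0` on subsets of .. :
    `law E4 A = prior (A ∩ E4)` (`Measure.restrict_apply'` needs `hX.com.meas`), `lam0 A = prior (A ∩ Ev0)`, `E4 ⊆ Ev0`. -/
theorem k7we_opt (hX : X.Ok) : ∃ n : ℕ, (n : ℝ) ≤ 300 * X.K ∧ KsOpt (X.W.law X.E4) X.W.hist X.o n := by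
  classical
  obtain ⟨n0, hn0, hO⟩ := hX.w.opt X.Mf hX.Mf_mem X.r2 hX.r2_mem
  rw [← hX.a2_eq] at hO
  have hK0 : 0 < X.K := lt_of_lt_of_le one_pos hX.K1
  choose Op hOc hOm using k7we_opt_pt hX
  refine ⟨225 * n0, by push_cast; nlinarith, fun e0 => ?_⟩
  obtain ⟨L0, hL0, hz⟩ := hO e0
  refine ⟨L0.biUnion fun x => Op x.2, ?_, fun o0 ho0 => ?_⟩
  · calc (L0.biUnion fun x => Op x.2).card ≤ ∑ x ∈ L0, (Op x.2).card := Finset.card_biUnion_le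
      _ ≤ ∑ _x ∈ L0, 225 := Finset.sum_le_sum fun x _ => hOc x.2
      _ = L0.card * 225 := by rw [Finset.sum_const, smul_eq_mul]
      _ ≤ 225 * n0 := by nlinarith
  · have hsub : ksPair X.W.hist X.o ⁻¹' {(e0, o0)} ∩ X.E4 ⊆
        ⋃ x : {x : X.W.Q × (ℤ × ℤ × ℤ × ℤ) // x ∉ L0}, (ksPair X.W.hist (fun z => (X.W.labQ z, X.W.pt X.σf X.a2 z)) ⁻¹' {(e0, (x : X.W.Q × (ℤ × ℤ × ℤ × ℤ)))} ∩ X.W.Ev0) := by
      rintro p ⟨hp1, hp2⟩
      have h1 : X.W.hist p = e0 := congrArg Prod.fst hp1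
      have h2 : X.o p = o0 := congrArg Prod.snd hp1
      have hx : (X.W.labQ p, X.W.pt X.σf X.a2 p) ∉ L0 := by
        intro hmem
        apply ho0
        rw [← h2]
        exact Finset.mem_biUnion.2 ⟨_, hmem, hOm _ p hp2 rfl⟩
      refine Set.mem_iUnion.2 ⟨⟨_, hx⟩, ?_, (k7we_E4 hX hp2).2.1⟩
      show (X.W.hist p, (X.W.labQ p, X.W.pt X.σf X.a2 p)) = (e0, (X.W.labQ p, X.W.pt X.σf X.a2 p))
      rw [h1]
    show X.W.prior.restrict X.E4 _ = 0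
    rw [Measure.restrict_apply' hX.com.meas]
    refine measure_mono_null hsub (measure_iUnion_null fun x => ?_)
    have h3 := hz x.1 x.2
    have h4 : X.W.prior.restrict X.W.Ev0 (ksPair X.W.hist (fun z => (X.W.labQ z, X.W.pt X.σf X.a2 z)) ⁻¹' {(e0, (x : X.W.Q × (ℤ × ℤ × ℤ × ℤ)))}) = 0 := h3
    rwa [Measure.restrict_apply' hX.w.ln.m_Ev0] at h4

/-- **L-252-S7w-E-PRA** (abstract, measure theory only): append a datum with `≤ n` options per history, delete the light entries: loss and CONDITIONAL domination at the appended datum alone.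
PLAN: `A = ksPair hist o ⁻¹' ksKeep μ (ksPair hist o) (fun x => Ref x.1) K1`, measurable by `ksc_lab_preimage (ks_lab_pair hh ho)`.   Loss: `ksc_app_loss` (`tsum_fintype`).
Domination: split `A ∩ {o = o0}` over the finitely many `e` (`ks_sum_inter`-type decomposition); for a kept entry `(e, o0)` : `μ ({hist = e, o = o0} ∩ T i) ≤ μ ({hist = e} ∩ T i) ≤ K π i Ref e ≤ K π i K1 μ {hist = e, o = o0}`; a deleted entry does not meet `A`. -/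
theorem k7we_prune {Ω H O ι : Type} [MeasurableSpace Ω] [Fintype H] [Countable O] (μ : Measure Ω) (hist : Ω → H) (o : Ω → O) (hh : KsLab hist) (ho : KsLab o)
    (T : ι → Set Ω) (π : ι → ℝ≥0∞) (Ref : H → ℝ≥0∞) (K K1 : ℝ≥0∞) (n : ℕ) (hdom : KsDom μ hist T (fun _ => π) Ref K) (hopt : KsOpt μ hist o n) :
    ∃ A : Set Ω, MeasurableSet A ∧ K1 * μ Aᶜ ≤ n * ∑ e, Ref e ∧ ∀ o0 i, μ (A ∩ o ⁻¹' {o0} ∩ T i) ≤ K * K1 * π i * μ (A ∩ o ⁻¹' {o0}) := by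
  have hlab := ks_lab_pair hh ho
  have hA : MeasurableSet (ksPair hist o ⁻¹' ksKeep μ (ksPair hist o) (fun x => Ref x.1) K1) := ksc_lab_preimage hlab _
  have hdom' : KsDom μ (ksPair hist o) T (fun _ => π) (fun x => Ref x.1) K := by
    intro x b
    have hsubx : ksPair hist o ⁻¹' {x} ∩ T b ⊆ hist ⁻¹' {x.1} ∩ T b := by
      intro ω hω
      refine ⟨?_, hω.2⟩
      have h1 : ksPair hist o ω = x := hω.1
      show hist ω = x.1
      rw [← h1]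
      rfl
    exact (measure_mono hsubx).trans (hdom x.1 b)
  have hcond := ksc_prune_cond hlab hdom' K1
  have hloss := ksc_app_loss μ hh ho Ref K1 n hopt
  rw [tsum_fintype] at hloss
  refine ⟨ksPair hist o ⁻¹' ksKeep μ (ksPair hist o) (fun x => Ref x.1) K1, hA, hloss, fun o0 i => ?_⟩
  have h1 := ksc_coarsen hcond (Prod.snd : H × O → O) (fun _ => π) (fun _ _ => le_rfl) o0 i
  simp only [] at h1
  rw [ksc_push_mass _ hlab Prod.snd o0] at h1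
  have e1 : ksPrune μ (ksPair hist o) (fun x => Ref x.1) K1 (o ⁻¹' {o0} ∩ T i)
      = μ (ksPair hist o ⁻¹' ksKeep μ (ksPair hist o) (fun x => Ref x.1) K1 ∩ o ⁻¹' {o0} ∩ T i) := by
    unfold ksPrune
    rw [Measure.restrict_apply' hA, Set.inter_comm, Set.inter_assoc]
  have e2 : ksPrune μ (ksPair hist o) (fun x => Ref x.1) K1 (o ⁻¹' {o0})
      = μ (ksPair hist o ⁻¹' ksKeep μ (ksPair hist o) (fun x => Ref x.1) K1 ∩ o ⁻¹' {o0}) := by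
    unfold ksPrune
    rw [Measure.restrict_apply' hA, Set.inter_comm]
  rw [← e1, ← e2]
  exact h1

/-- scalar part of PRB (all in `ℝ≥0∞`) -/
theorem k7we_prune_mass {m x y A B : ℝ≥0∞} (hm : m ≠ ⊤) (hA0 : A ≠ 0) (hAt : A ≠ ⊤) (h1 : A * B * y ≤ A * m) (h2 : 2 * m ≤ B * (x + y)) : m ≤ B * x := by
  have h3 : B * y ≤ m := by
    rw [mul_assoc] at h1
    exact (ENNReal.mul_le_mul_iff_right hA0 hAt).1 h1
  have h4 : m + m ≤ B * x + m := by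
    calc m + m = 2 * m := (two_mul m).symm
      _ ≤ B * (x + y) := h2
      _ = B * x + B * y := mul_add _ _ _
      _ ≤ B * x + m := by gcongr
  exact ENNReal.le_of_add_le_add_right hm h4

/-- **L-252-S7w-E-PRB**: the pruned selection `E5`.
PLAN: `μ = X.W.law X.E4` (finite).   `Ref e = if lam0 (hist ⁻¹' {e} ∩ labQ ⁻¹' {Q}) ≠ 0 then ref e else 0` (classical), `∑ Ref = X.W.refIn X.Q ≤ ofReal (K h) ν_Q` (`hX.w.ref_in`, `Finset.sum_filter`).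
`KsDom μ hist vT (fun _ => pi) Ref (ofReal K)` : from `hX.w.ln.dom` and `μ ≤ lam0`; if `lam0 (hist = e, labQ = Q) = 0` then `μ (hist = e ∩ ..) = 0` because `labQ = Q` on `E4` (`k7we_E4`).
`k7we_prune` with `n ≤ 300 K` (`k7we_opt`), `K1 = ofReal (600 K⁴)`, labels `hX.w.ln.m_hist`, `k7we_o_lab hX`.   `E5 = E4 ∩ A`.   `law E5 B = μ (A ∩ B)`.
Mass: `600 K⁴ μ Aᶜ ≤ 300 K · K h ν_Q ≤ 300 K³ q ν_Q`, so `2K μ Aᶜ ≤ q ν_Q`; `q ν_Q ≤ K μ univ = K (μ A + μ Aᶜ)` (`hX.com.mass`), hence `q ν_Q ≤ 2K μ A` (all finite). -/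
theorem k7we_prune_app (hX : X.Ok) : ∃ E5 : Set (X.W.L × ℝ), MeasurableSet E5 ∧ E5 ⊆ X.E4 ∧
    ENNReal.ofReal X.W.q * X.W.νQ X.Q ≤ ENNReal.ofReal (2 * X.K) * X.W.prior E5 ∧
    ∀ (o0 : ℤ × ℤ × ℤ) (bn : ℤ), X.W.law E5 (X.o ⁻¹' {o0} ∩ X.W.vT bn) ≤ ENNReal.ofReal (600 * X.K ^ 5) * X.W.pi bn * X.W.law E5 (X.o ⁻¹' {o0}) := by
  classical
  have hK0 : 0 < X.K := lt_of_lt_of_le one_pos hX.K1
  have hq0 := k7we_q_pos X
  obtain ⟨-, -, -, -, -, -, -, hq, -⟩ := k7we_pos hX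
  have hE4 : X.E4 ⊆ X.W.Ev0 := fun p hp => (k7we_E4 hX hp).2.1
  obtain ⟨n, hn, hopt⟩ := k7we_opt hX
  set Ref : X.W.H → ℝ≥0∞ := fun e => if X.W.lam0 (X.W.hist ⁻¹' {e} ∩ X.W.labQ ⁻¹' {X.Q}) ≠ 0 then X.W.ref e else 0 with hRef
  have hsum : ∑ e, Ref e = X.W.refIn X.Q := by
    unfold K7aW.refIn
    rw [Finset.sum_filter]
  have happ : ∀ B : Set (X.W.L × ℝ), X.W.law X.E4 B = X.W.prior (B ∩ X.E4) := fun B => Measure.restrict_apply' hX.com.meas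
  have happ0 : ∀ B : Set (X.W.L × ℝ), X.W.lam0 B = X.W.prior (B ∩ X.W.Ev0) := fun B => Measure.restrict_apply' hX.w.ln.m_Ev0
  have hdom : KsDom (X.W.law X.E4) X.W.hist X.W.vT (fun _ => X.W.pi) Ref (ENNReal.ofReal X.K) := by
    intro e b
    by_cases h0 : X.W.lam0 (X.W.hist ⁻¹' {e} ∩ X.W.labQ ⁻¹' {X.Q}) = 0
    · have : X.W.law X.E4 (X.W.hist ⁻¹' {e} ∩ X.W.vT b) = 0 := by
        rw [happ]
        rw [happ0] at h0
        refine measure_mono_null ?_ h0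
        rintro p ⟨⟨h1, -⟩, h2⟩
        exact ⟨⟨h1, (k7we_E4 hX h2).2.2.2.2.1⟩, hE4 h2⟩
      rw [this]
      exact zero_le
    · have h1 : Ref e = X.W.ref e := by simp [hRef, h0]
      rw [h1]
      refine le_trans ?_ (hX.w.ln.dom e b)
      rw [happ, happ0]
      exact measure_mono (Set.inter_subset_inter_right _ hE4)
  obtain ⟨A, hAm, hloss, hcond⟩ := k7we_prune (X.W.law X.E4) X.W.hist X.o hX.w.ln.m_hist (k7we_o_lab hX) X.W.vT X.W.pi Ref (ENNReal.ofReal X.K)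
    (ENNReal.ofReal (600 * X.K ^ 4)) n hdom hopt
  have hE5m : MeasurableSet (X.E4 ∩ A) := hX.com.meas.inter hAm
  have hl5 : ∀ B : Set (X.W.L × ℝ), X.W.law (X.E4 ∩ A) B = X.W.law X.E4 (A ∩ B) := by
    intro B
    rw [happ]
    have : X.W.law (X.E4 ∩ A) B = X.W.prior (B ∩ (X.E4 ∩ A)) := Measure.restrict_apply' hE5m
    rw [this]
    congr 1
    ext p
    simp only [Set.mem_inter_iff]
    tauto
  refine ⟨X.E4 ∩ A, hE5m, Set.inter_subset_left, ?_, fun o0 bn => ?_⟩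
  · have e5 : X.W.prior (X.E4 ∩ A) = X.W.law X.E4 A := by rw [happ, Set.inter_comm]
    rw [e5]
    have hmt : ENNReal.ofReal X.W.q * X.W.νQ X.Q ≠ ⊤ := ENNReal.mul_ne_top ENNReal.ofReal_ne_top (k7we_nuQ_top hX)
    refine k7we_prune_mass (y := X.W.law X.E4 Aᶜ) (A := ENNReal.ofReal (300 * X.K ^ 3)) hmt ?_ ENNReal.ofReal_ne_top ?_ ?_
    · rw [Ne, ENNReal.ofReal_eq_zero, not_le]
      positivity
    · have e1 : ENNReal.ofReal (300 * X.K ^ 3) * ENNReal.ofReal (2 * X.K) = ENNReal.ofReal (600 * X.K ^ 4) := by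
        rw [← ENNReal.ofReal_mul (by positivity)]
        congr 1
        ring
      rw [e1]
      refine hloss.trans ?_
      rw [hsum]
      calc (n : ℝ≥0∞) * X.W.refIn X.Q ≤ ENNReal.ofReal (300 * X.K) * (ENNReal.ofReal (X.K * X.h) * X.W.νQ X.Q) := by
            gcongr
            · rw [← ENNReal.ofReal_natCast]
              exact ENNReal.ofReal_le_ofReal hn
            · exact hX.w.ref_in X.Q hX.com.Qa
        _ ≤ ENNReal.ofReal (300 * X.K) * (ENNReal.ofReal (X.K * (X.K * X.W.q)) * X.W.νQ X.Q) := by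
            gcongr
        _ = ENNReal.ofReal (300 * X.K ^ 3) * (ENNReal.ofReal X.W.q * X.W.νQ X.Q) := by
            rw [← mul_assoc (ENNReal.ofReal (300 * X.K)), ← mul_assoc (ENNReal.ofReal (300 * X.K ^ 3)), ← ENNReal.ofReal_mul (by positivity),
              ← ENNReal.ofReal_mul (by positivity)]
            congr 2
            ring
    · have e2 : X.W.law X.E4 A + X.W.law X.E4 Aᶜ = X.W.prior X.E4 := by
        rw [measure_add_measure_compl hAm, happ, Set.univ_inter]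
      rw [e2]
      have e3 : ENNReal.ofReal (2 * X.K) = 2 * ENNReal.ofReal X.K := by
        rw [ENNReal.ofReal_mul (by norm_num)]
        norm_num
      rw [e3, mul_assoc]
      exact mul_le_mul_right hX.com.mass 2
  · rw [hl5, hl5, ← Set.inter_assoc]
    refine (hcond o0 bn).trans (le_of_eq ?_)
    congr 2
    rw [← ENNReal.ofReal_mul (by positivity)]
    congr 1
    ring

end

end Claimed.Agent.R252

/-!
# ROW 252 (S0492), unit S7w, STAGE E of P7.3 (helper202), file 3: THE VALUES OF THE RESIDUAL SIGNAL (07 l.860-871, step E2).      CONTRACT: leaves L-252-S7w-E-VA, -VB, -VC.  Glue `k7we_val` proved.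

For `p = (l,t) ∈ E4` with labels `φ0` (layer 0), `φ2` (layer 2), `F_i = ((X.P i).G φ_i).F`, `Z = Z_l(t)`, `Y = Y_l(t)`, `U = X.Ub t Z Y`, `yq = Y_Q(t,Z)` :
    `X°(p) = [X - F₂(t,Y)] + (F₂ - F₀)(t,Y) + F₀(t,yq) + (f₁ - C₁) U + (f₂ - C₂) U²`.
Two incidences of `E4` with the same `z`-cell and the same pair of labels have residual values within `5 K a2`.
-/

set_option autoImplicit false

namespace Claimed.Agent.R252

open MeasureTheory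
open scoped ENNReal BigOperators

noncomputable section

variable {X : K7weDat}

/-- exact expansion of a quadratic in `y` -/
theorem k7we_expand {F : ℝ → ℝ → ℝ} (hF : K7aQuad F) (b t y U : ℝ) : F t (y + b * U) = F t y + k7wF1 F b t y * U + k7wF2 F b t y * U ^ 2 := by
  obtain ⟨e0, e1, e2, e3, e4, e5, h⟩ := hF
  unfold k7wF1 k7wF2
  simp only [h]
  ring

/-- **L-252-S7w-E-VA**.   PLAN: `k7we_E4 hX hp` (so `W.yq p = YQ Q t Z` by `labQ p = Q`, `t ∈ [0,1]` by `k7we_blk_sub`), `Y = yq + b U` (`b > 0`), `k7we_expand` with `hX.lay0.quad φ0`,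
`hX.lay2.fit` (`|X - F₂(t,Y)| ≤ K a2`), `hX.com.fit p hp φ0 h0` (`|f₁ - C₁| ≤ K e`, `|f₂ - C₂| ≤ K e`; note `X.b = X.h * X.g` by `rfl`), `|U| ≤ K` (`k7we_bd`). -/
theorem k7we_val_exp (hX : X.Ok) {p : X.W.L × ℝ} (hp : p ∈ X.E4) {φ0 : (X.P 0).Ph} {φ2 : (X.P 2).Ph}
    (h0 : (X.P 0).lab p.1 = some φ0) (h2 : (X.P 2).lab p.1 = some φ2) :
    |X.Xo p.1 p.2 - ((((X.P 2).G φ2).F p.2 (X.W.Y p.1 p.2) - ((X.P 0).G φ0).F p.2 (X.W.Y p.1 p.2))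
        + ((X.P 0).G φ0).F p.2 (X.W.YQ X.Q p.2 (X.W.Z p.1 p.2)))| ≤ X.K * X.a2 + 2 * X.K ^ 3 * X.e := by
  obtain ⟨-, -, hl, ht, hlab, -⟩ := k7we_E4 hX hp
  have t01 := k7we_blk_sub hX ht
  have hb0 : 0 < X.b := (k7we_pos hX).1
  obtain ⟨-, -, hU, -, -, -⟩ := k7we_bd hX hl ht
  have hfit2 := (hX.lay2.fit p.1 φ2 h2 p.2 t01).2
  obtain ⟨hf1, hf2⟩ := hX.com.fit p hp φ0 h0
  have hyq : X.W.yq p = X.W.YQ X.Q p.2 (X.W.Z p.1 p.2) := by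
    unfold K7aW.yq
    rw [hlab]
  have hbe : X.h * X.g = X.b := rfl
  rw [hyq, hbe] at hf1 hf2
  have hY : X.W.Y p.1 p.2 = X.W.YQ X.Q p.2 (X.W.Z p.1 p.2) + X.b * X.Ub p.2 (X.W.Z p.1 p.2) (X.W.Y p.1 p.2) := by
    unfold K7weDat.Ub
    field_simp
    ring
  have hexp := k7we_expand (hX.lay0.quad φ0) X.b p.2 (X.W.YQ X.Q p.2 (X.W.Z p.1 p.2)) (X.Ub p.2 (X.W.Z p.1 p.2) (X.W.Y p.1 p.2))
  rw [← hY] at hexp
  have hK := hX.K1
  have hK0 : 0 ≤ X.K := by linarith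
  have he := hX.e_nn
  have key : X.Xo p.1 p.2 - ((((X.P 2).G φ2).F p.2 (X.W.Y p.1 p.2) - ((X.P 0).G φ0).F p.2 (X.W.Y p.1 p.2))
        + ((X.P 0).G φ0).F p.2 (X.W.YQ X.Q p.2 (X.W.Z p.1 p.2)))
      = (X.W.X p.1 p.2 - ((X.P 2).G φ2).F p.2 (X.W.Y p.1 p.2))
        + (k7wF1 ((X.P 0).G φ0).F X.b p.2 (X.W.YQ X.Q p.2 (X.W.Z p.1 p.2)) - (X.γ0 + X.γ1 * p.2 + X.γ2 * X.W.Z p.1 p.2)) * X.Ub p.2 (X.W.Z p.1 p.2) (X.W.Y p.1 p.2)
        + (k7wF2 ((X.P 0).G φ0).F X.b p.2 (X.W.YQ X.Q p.2 (X.W.Z p.1 p.2)) - X.C2) * X.Ub p.2 (X.W.Z p.1 p.2) (X.W.Y p.1 p.2) ^ 2 := by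
    rw [hexp]
    unfold K7weDat.Xo K7weDat.Pnc K7weDat.C1
    ring
  rw [key]
  have b1 : |(k7wF1 ((X.P 0).G φ0).F X.b p.2 (X.W.YQ X.Q p.2 (X.W.Z p.1 p.2)) - (X.γ0 + X.γ1 * p.2 + X.γ2 * X.W.Z p.1 p.2)) * X.Ub p.2 (X.W.Z p.1 p.2) (X.W.Y p.1 p.2)|
      ≤ X.K * X.e * X.K := by
    rw [abs_mul]
    exact mul_le_mul hf1 hU (abs_nonneg _) (by positivity)
  have b2 : |(k7wF2 ((X.P 0).G φ0).F X.b p.2 (X.W.YQ X.Q p.2 (X.W.Z p.1 p.2)) - X.C2) * X.Ub p.2 (X.W.Z p.1 p.2) (X.W.Y p.1 p.2) ^ 2|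
      ≤ X.K * X.e * X.K ^ 2 := by
    rw [abs_mul, abs_pow]
    exact mul_le_mul hf2 (pow_le_pow_left₀ (abs_nonneg _) hU 2) (by positivity) (by positivity)
  have h23 : X.K ^ 2 * X.e ≤ X.K ^ 3 * X.e := mul_le_mul_of_nonneg_right (pow_le_pow_right₀ hK (by norm_num)) he
  refine (abs_add_three _ _ _).trans ?_
  have e1 : X.K * X.e * X.K = X.K ^ 2 * X.e := by ring
  have e2 : X.K * X.e * X.K ^ 2 = X.K ^ 3 * X.e := by ring
  linarith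

/-- two reals with the same floor of `x / w` differ by less than `w` -/
theorem k7we_floor_close {w x y : ℝ} (hw : 0 < w) (h : ⌊x / w⌋ = ⌊y / w⌋) : |x - y| < w := by
  have h1 := Int.floor_le (x / w)
  have h2 := Int.lt_floor_add_one (x / w)
  have h3 := Int.floor_le (y / w)
  have h4 := Int.lt_floor_add_one (y / w)
  rw [h] at h1 h2
  have h5 : |x / w - y / w| < 1 := by
    rw [abs_lt]
    constructor <;> linarith
  rw [← sub_div, abs_div, abs_of_pos hw, div_lt_one hw] at h5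
  exact h5

/-- same `z`-cell: the times and the positions `Z` are within `q σs` -/
theorem k7we_zc_close (X : K7weDat) {p p' : X.W.L × ℝ} (hz : X.zc p = X.zc p') :
    |p.2 - p'.2| ≤ X.W.q * X.σs ∧ |X.W.Z p.1 p.2 - X.W.Z p'.1 p'.2| ≤ X.W.q * X.σs := by
  have hq := k7we_q_pos X
  have hs := k7we_sig_pos X
  have h1 : ⌊(p.2 - X.tQ) / X.W.q / X.σs⌋ = ⌊(p'.2 - X.tQ) / X.W.q / X.σs⌋ := congrArg Prod.fst hz
  have h2 : ⌊(X.W.Z p.1 p.2 - X.W.Zc X.Q) / X.W.q / X.σs⌋ = ⌊(X.W.Z p'.1 p'.2 - X.W.Zc X.Q) / X.W.q / X.σs⌋ :=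
    congrArg Prod.snd hz
  have key : ∀ x y c : ℝ, ⌊(x - c) / X.W.q / X.σs⌋ = ⌊(y - c) / X.W.q / X.σs⌋ → |x - y| ≤ X.W.q * X.σs := by
    intro x y c h
    have h3 := k7we_floor_close hs h
    rw [← sub_div, abs_div, abs_of_pos hq, div_lt_iff₀ hq] at h3
    have : x - c - (y - c) = x - y := by ring
    rw [this] at h3
    linarith
  exact ⟨key _ _ _ h1, key _ _ _ h2⟩

/-- the chain of the small scales -/
theorem k7we_small (hX : X.Ok) : X.G * X.σs ≤ X.χ ∧ X.χ ≤ X.b ∧ X.G * X.σs ≤ X.b ∧ X.G * X.W.χ0 ≤ X.χ ∧ X.G * X.W.χ0 ≤ X.b := by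
  have hG := (k7we_G hX).1
  have hχ := hX.χ_pos
  have h1 : X.χ ≤ X.b := by
    have := hX.sm_χ
    show X.χ ≤ X.h * X.g
    nlinarith
  have h2 : X.G * X.W.χ0 ≤ X.χ := by
    have h3 := hX.sm_χ0
    have h4 : X.χ * X.σs ≤ X.χ * 1 := mul_le_mul_of_nonneg_left (k7we_sig_le_one X) hχ.le
    linarith
  exact ⟨hX.sm_σ1, h1, hX.sm_σ1.trans h1, h2, h2.trans h1⟩

/-- a quadratic in adapted coordinates is a quadratic -/
theorem k7we_quad_adapt {F : ℝ → ℝ → ℝ} (hF : K7aQuad F) (c0 c1 β : ℝ) : K7aQuad fun t u => F t (c0 + c1 * t + β * u) := by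
  obtain ⟨e0, e1, e2, e3, e4, e5, h⟩ := hF
  refine ⟨e0 + e2 * c0 + e5 * c0 ^ 2, e1 + e2 * c1 + e4 * c0 + 2 * e5 * c0 * c1, e2 * β + 2 * e5 * c0 * β,
    e3 + e4 * c1 + e5 * c1 ^ 2, e4 * β + 2 * e5 * c1 * β, e5 * β ^ 2, fun t u => ?_⟩
  simp only [h]
  ring

/-- the point of the plane of `Q` under an incidence of `E4`, in the adapted coordinates of its coarse label -/
theorem k7we_adapt_bd (hX : X.Ok) {p : X.W.L × ℝ} (hp : p ∈ X.E4) {φ0 : (X.P 0).Ph} (h0 : (X.P 0).lab p.1 = some φ0) :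
    |X.W.YQ X.Q p.2 (X.W.Z p.1 p.2) - ((X.P 0).G φ0).cen p.2| ≤ 2 * X.K ^ 2 * X.β0 ∧ |((X.P 0).G φ0).c1| ≤ 3 * X.K ^ 2 := by
  obtain ⟨-, -, hl, ht, -, -⟩ := k7we_E4 hX hp
  have hK := hX.K1
  have hK0 : 0 < X.K := by linarith
  have hβ := hX.β0_pos
  have htI := k7we_blk_sub hX ht
  have f1 := abs_le.1 (hX.lay0.fit p.1 φ0 h0 p.2 htI).1
  have b1 := abs_le.1 (k7we_bd hX hl ht).2.1
  have hb : X.b ≤ X.K * X.β0 := hX.b_le
  have hKb : X.K * X.b ≤ X.K ^ 2 * X.β0 := by nlinarith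
  have hKβ : X.K * X.β0 ≤ X.K ^ 2 * X.β0 := by nlinarith
  constructor
  · rw [abs_le]
    constructor <;> linarith [f1.1, f1.2, b1.1, b1.2]
  · have g0 := abs_le.1 (hX.lay0.fit p.1 φ0 h0 0 ⟨le_rfl, zero_le_one⟩).1
    have g1 := abs_le.1 (hX.lay0.fit p.1 φ0 h0 1 ⟨zero_le_one, le_rfl⟩).1
    have hY1 := abs_le.1 (k7we_line hX hl).2.2.2.2.1
    simp only [K7aLn.Y, K7aLab.cen, mul_zero, mul_one, add_zero] at g0 g1
    have hβK : X.K * X.β0 ≤ X.K ^ 2 := by nlinarith [hX.β0_le]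
    have hKK : X.K ≤ X.K ^ 2 := by nlinarith
    rw [abs_le]
    constructor <;> linarith [g0.1, g0.2, g1.1, g1.2, hY1.1, hY1.2]

/-- **L-252-S7w-E-VB**: the coarse predictor on the plane of `Q` is frozen by the `z`-cell.
PLAN: `Ft (t,u) = F₀ t (cen t + β0 u)` is `K7aQuad` (substitute, explicit coefficients, `ring`), `|Ft| ≤ K` on `[0,1] × [-1,1]` (`hX.lay0.norm`).   `u = (yq - cen t)/β0`; `|Y_l(t) - cen t| ≤ K β0` (`lay0.fit`), `|yq - Y_l(t)| ≤ K b ≤ K² β0` (`k7we_bd`, `hX.b_le`), so `|u| ≤ 2K²`.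
Same `z`-cell: `|t - t'| ≤ q σs`, `|Z - Z'| ≤ q σs` (two reals with the same floor of `x/σs` differ by `< σs`).   `|yq - yq'| ≤ 2 K q σs` (`k7we_row`).   Slope of the centre: `lay0.fit` at `t = 0, 1` gives `|c1 - Y1_l| ≤ 2 K β0`, so `|c1| ≤ 3K²` (`hX.β0_le`).
`|u - u'| ≤ 5 K² q σs/β0`.   `k7a_quad_lip` (`A = K`, `lam = 2K²`): difference `≤ 96 K³ (q σs + 5K² q σs/β0) ≤ 576 K⁶ σs/β0 ≤ a2` by `hX.sm_σ2` (`q ≤ 1`, `β0 ≤ K`). -/
theorem k7we_val_lip (hX : X.Ok) {p p' : X.W.L × ℝ} (hp : p ∈ X.E4) (hp' : p' ∈ X.E4) (hz : X.zc p = X.zc p') {φ0 : (X.P 0).Ph}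
    (h0 : (X.P 0).lab p.1 = some φ0) (h0' : (X.P 0).lab p'.1 = some φ0) :
    |((X.P 0).G φ0).F p.2 (X.W.YQ X.Q p.2 (X.W.Z p.1 p.2)) - ((X.P 0).G φ0).F p'.2 (X.W.YQ X.Q p'.2 (X.W.Z p'.1 p'.2))| ≤ X.a2 := by
  obtain ⟨-, -, hl, ht, -, -⟩ := k7we_E4 hX hp
  obtain ⟨-, -, hl', ht', -, -⟩ := k7we_E4 hX hp'
  obtain ⟨hzt, hzZ⟩ := k7we_zc_close X hz
  have hK := hX.K1
  have hK0 : 0 < X.K := by linarith
  have hβ := hX.β0_pos
  have hq := k7we_q_pos X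
  have hq1 := k7we_q_le_one X
  have hs := k7we_sig_pos X
  obtain ⟨-, -, -, -, -, hG5, -⟩ := k7we_G hX
  obtain ⟨-, -, hr1, hr2⟩ := k7we_row hX
  obtain ⟨hu0, hc1⟩ := k7we_adapt_bd hX hp h0
  obtain ⟨hu0', -⟩ := k7we_adapt_bd hX hp' h0'
  have htI := k7we_blk_sub hX ht
  have htI' := k7we_blk_sub hX ht'
  generalize hyq : X.W.YQ X.Q p.2 (X.W.Z p.1 p.2) = yq at *
  generalize hyq' : X.W.YQ X.Q p'.2 (X.W.Z p'.1 p'.2) = yq' at *
  set L := (X.P 0).G φ0 with hL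
  have hFq : K7aQuad fun t u => L.F t (L.c0 + L.c1 * t + X.β0 * u) := k7we_quad_adapt (hX.lay0.quad φ0) _ _ _
  have hFb : ∀ t ∈ Set.Icc (0 : ℝ) 1, ∀ u ∈ Set.Icc (-1 : ℝ) 1, |(fun t u => L.F t (L.c0 + L.c1 * t + X.β0 * u)) t u| ≤ X.K :=
    hX.lay0.norm φ0
  have hlam : (1 : ℝ) ≤ 2 * X.K ^ 2 := by nlinarith
  have hu : |(yq - L.cen p.2) / X.β0| ≤ 2 * X.K ^ 2 := by
    rw [abs_div, abs_of_pos hβ, div_le_iff₀ hβ]
    exact hu0
  have hu' : |(yq' - L.cen p'.2) / X.β0| ≤ 2 * X.K ^ 2 := by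
    rw [abs_div, abs_of_pos hβ, div_le_iff₀ hβ]
    exact hu0'
  have hta : |p.2| ≤ 2 * X.K ^ 2 := by
    rw [abs_of_nonneg htI.1]
    linarith [htI.2]
  have hta' : |p'.2| ≤ 2 * X.K ^ 2 := by
    rw [abs_of_nonneg htI'.1]
    linarith [htI'.2]
  have lip := (k7a_quad_lip hFq hFb hlam hta hta' hu hu').2
  have e1 : L.c0 + L.c1 * p.2 + X.β0 * ((yq - L.cen p.2) / X.β0) = yq := by
    unfold K7aLab.cen
    field_simp
    ring
  have e2 : L.c0 + L.c1 * p'.2 + X.β0 * ((yq' - L.cen p'.2) / X.β0) = yq' := by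
    unfold K7aLab.cen
    field_simp
    ring
  simp only [e1, e2] at lip
  refine lip.trans ?_
  -- the difference of the adapted coordinates
  have hdu : |(yq - L.cen p.2) / X.β0 - (yq' - L.cen p'.2) / X.β0| * X.β0 ≤ 5 * X.K ^ 2 * (X.W.q * X.σs) := by
    rw [← sub_div, abs_div, abs_of_pos hβ, div_mul_cancel₀ _ hβ.ne']
    have e : yq - L.cen p.2 - (yq' - L.cen p'.2)
        = (X.W.r1 X.Q - L.c1) * (p.2 - p'.2) + X.W.r2 X.Q * (X.W.Z p.1 p.2 - X.W.Z p'.1 p'.2) := by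
      rw [← hyq, ← hyq']
      simp only [K7aW.YQ, K7aLab.cen]
      ring
    rw [e]
    have h1 : |X.W.r1 X.Q - L.c1| ≤ X.K + 3 * X.K ^ 2 := (abs_sub _ _).trans (add_le_add hr1 hc1)
    calc |(X.W.r1 X.Q - L.c1) * (p.2 - p'.2) + X.W.r2 X.Q * (X.W.Z p.1 p.2 - X.W.Z p'.1 p'.2)|
        ≤ |X.W.r1 X.Q - L.c1| * |p.2 - p'.2| + |X.W.r2 X.Q| * |X.W.Z p.1 p.2 - X.W.Z p'.1 p'.2| := by
          rw [← abs_mul, ← abs_mul]
          exact abs_add_le _ _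
      _ ≤ (X.K + 3 * X.K ^ 2) * (X.W.q * X.σs) + X.K * (X.W.q * X.σs) :=
          add_le_add (mul_le_mul h1 hzt (abs_nonneg _) (by positivity)) (mul_le_mul hr2 hzZ (abs_nonneg _) hK0.le)
      _ = (2 * X.K + 3 * X.K ^ 2) * (X.W.q * X.σs) := by ring
      _ ≤ 5 * X.K ^ 2 * (X.W.q * X.σs) := by
          refine mul_le_mul_of_nonneg_right ?_ (by positivity)
          nlinarith
  have hδ : X.W.q * X.σs ≤ X.σs := by nlinarith
  have hδ0 : 0 ≤ X.W.q * X.σs := by positivity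
  rw [← mul_le_mul_iff_left₀ hβ]
  calc 48 * X.K * (2 * X.K ^ 2) * (|p.2 - p'.2| + |(yq - L.cen p.2) / X.β0 - (yq' - L.cen p'.2) / X.β0|) * X.β0
      = 96 * X.K ^ 3 * (|p.2 - p'.2| * X.β0 + |(yq - L.cen p.2) / X.β0 - (yq' - L.cen p'.2) / X.β0| * X.β0) := by ring
    _ ≤ 96 * X.K ^ 3 * ((X.W.q * X.σs) * X.K + 5 * X.K ^ 2 * (X.W.q * X.σs)) := by
        gcongr
        exact hX.β0_le
    _ = 96 * X.K ^ 3 * ((X.K + 5 * X.K ^ 2) * (X.W.q * X.σs)) := by ring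
    _ ≤ 96 * X.K ^ 3 * (6 * X.K ^ 2 * (X.W.q * X.σs)) := by
        gcongr
        nlinarith
    _ ≤ 96 * X.K ^ 3 * (6 * X.K ^ 2 * X.σs) := by gcongr
    _ = 576 * X.K ^ 5 * X.σs := by ring
    _ ≤ X.G * X.σs := by
        refine mul_le_mul_of_nonneg_right ?_ hs.le
        have : 0 ≤ X.K ^ 5 := by positivity
        linarith
    _ ≤ X.a2 * X.β0 := hX.sm_σ2

/-- **L-252-S7w-E-VC**: the offset `F₂ - F₀` is frozen by the `z`-cell.
PLAN: `hX.var p (k7we_E4 ..) 2 φ0 φ2 h0 h2` at `(t1, y1) = (t, Y_l(t))`, `(t2, y2) = (t', Y_{l'}(t'))` (`labQ p = Q`).   Needed: `|Y_{l'}(t') - Y_l(t')| ≤ Lam b`.   Both lines lie in `asg Q`, `t' ∈ blk Q`: `k7we_bd` gives `Y = Y_Q(t', Z) + O(K b)` for both;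
`|Z_{l'}(t') - Z_l(t')| ≤ |Z' - Z| + |v_l| |t - t'| ≤ (1 + K) q σs`; `|r2| ≤ K`; `2 K² q σs ≤ b` (`q ≤ K h`, `sm_σ1`, `sm_χ` : `G σs ≤ χ`, `G χ ≤ h g ≤ g`).   So `≤ (2K+1) b ≤ Lam b` (`sm_Lam`). -/
theorem k7we_val_var (hX : X.Ok) {p p' : X.W.L × ℝ} (hp : p ∈ X.E4) (hp' : p' ∈ X.E4) (hz : X.zc p = X.zc p') {φ0 : (X.P 0).Ph} {φ2 : (X.P 2).Ph}
    (h0 : (X.P 0).lab p.1 = some φ0) (h2 : (X.P 2).lab p.1 = some φ2) :
    |(((X.P 2).G φ2).F p.2 (X.W.Y p.1 p.2) - ((X.P 0).G φ0).F p.2 (X.W.Y p.1 p.2))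
      - (((X.P 2).G φ2).F p'.2 (X.W.Y p'.1 p'.2) - ((X.P 0).G φ0).F p'.2 (X.W.Y p'.1 p'.2))| ≤ X.ε := by
  obtain ⟨hE, -, hl, ht, hQ, -⟩ := k7we_E4 hX hp
  obtain ⟨-, -, hl', ht', -, -⟩ := k7we_E4 hX hp'
  obtain ⟨hzt, hzZ⟩ := k7we_zc_close X hz
  have hK := hX.K1
  have hK0 : 0 < X.K := by linarith
  obtain ⟨hb0, -, -, -, -, -, -, -, hqK⟩ := k7we_pos hX
  obtain ⟨-, -, hGσb, -, -⟩ := k7we_small hX
  obtain ⟨hG0, hG1, hG2, hG3, -⟩ := k7we_G hX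
  have hq := k7we_q_pos X
  have hq1 := k7we_q_le_one X
  have hs := k7we_sig_pos X
  have hr2 := (k7we_row hX).2.2.2
  have hv := (k7we_line hX hl).2.2.1
  have b1 := (k7we_bd hX hl ht').2.1
  have b2 := (k7we_bd hX hl' ht').2.1
  -- the two positions at the time `t'`
  have hZ : |X.W.Z p'.1 p'.2 - X.W.Z p.1 p'.2| ≤ (1 + X.K) * (X.W.q * X.σs) := by
    have e : X.W.Z p'.1 p'.2 - X.W.Z p.1 p'.2 = -(X.W.Z p.1 p.2 - X.W.Z p'.1 p'.2) + X.W.v p.1 * (p.2 - p'.2) := by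
      simp only [K7aLn.Z]
      ring
    rw [e]
    calc |-(X.W.Z p.1 p.2 - X.W.Z p'.1 p'.2) + X.W.v p.1 * (p.2 - p'.2)|
        ≤ |X.W.Z p.1 p.2 - X.W.Z p'.1 p'.2| + |X.W.v p.1| * |p.2 - p'.2| := by
          rw [← abs_mul, ← abs_neg (X.W.Z p.1 p.2 - X.W.Z p'.1 p'.2)]
          exact abs_add_le _ _
      _ ≤ X.W.q * X.σs + X.K * (X.W.q * X.σs) := add_le_add hzZ (mul_le_mul hv hzt (abs_nonneg _) hK0.le)
      _ = (1 + X.K) * (X.W.q * X.σs) := by ring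
  have hYQ : |X.W.YQ X.Q p'.2 (X.W.Z p'.1 p'.2) - X.W.YQ X.Q p'.2 (X.W.Z p.1 p'.2)| ≤ X.b := by
    have e : X.W.YQ X.Q p'.2 (X.W.Z p'.1 p'.2) - X.W.YQ X.Q p'.2 (X.W.Z p.1 p'.2)
        = X.W.r2 X.Q * (X.W.Z p'.1 p'.2 - X.W.Z p.1 p'.2) := by
      simp only [K7aW.YQ]
      ring
    rw [e, abs_mul]
    calc |X.W.r2 X.Q| * |X.W.Z p'.1 p'.2 - X.W.Z p.1 p'.2| ≤ X.K * ((1 + X.K) * (X.W.q * X.σs)) :=
          mul_le_mul hr2 hZ (abs_nonneg _) hK0.le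
      _ ≤ X.K * ((1 + X.K) * (1 * X.σs)) := by gcongr
      _ ≤ X.G * X.σs := by
          have : X.K * (1 + X.K) ≤ X.G := by nlinarith
          calc X.K * ((1 + X.K) * (1 * X.σs)) = X.K * (1 + X.K) * X.σs := by ring
            _ ≤ X.G * X.σs := mul_le_mul_of_nonneg_right this hs.le
      _ ≤ X.b := hGσb
  have hY : |X.W.Y p'.1 p'.2 - X.W.Y p.1 p'.2| ≤ X.Lam * (X.h * X.g) := by
    have e : X.W.Y p'.1 p'.2 - X.W.Y p.1 p'.2 = (X.W.Y p'.1 p'.2 - X.W.YQ X.Q p'.2 (X.W.Z p'.1 p'.2))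
        + (X.W.YQ X.Q p'.2 (X.W.Z p'.1 p'.2) - X.W.YQ X.Q p'.2 (X.W.Z p.1 p'.2))
        - (X.W.Y p.1 p'.2 - X.W.YQ X.Q p'.2 (X.W.Z p.1 p'.2)) := by ring
    have h3 : |X.W.Y p'.1 p'.2 - X.W.Y p.1 p'.2| ≤ (2 * X.K + 1) * X.b := by
      rw [e]
      have a1 := abs_le.1 b1
      have a2 := abs_le.1 b2
      have a3 := abs_le.1 hYQ
      rw [abs_le]
      constructor <;> nlinarith [a1.1, a1.2, a2.1, a2.2, a3.1, a3.2]
    refine h3.trans ?_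
    show (2 * X.K + 1) * X.b ≤ X.Lam * X.b
    refine mul_le_mul_of_nonneg_right ?_ hb0.le
    have := hX.sm_Lam
    linarith
  have hLb : 0 ≤ X.Lam * (X.h * X.g) := (abs_nonneg _).trans hY
  have := hX.var p hE 2 φ0 φ2 h0 h2 p.2 (by rw [hQ]; exact ht) p'.2 (by rw [hQ]; exact ht') (X.W.Y p.1 p.2) (X.W.Y p'.1 p'.2)
    (by rw [sub_self, abs_zero]; exact hLb) hY
  exact this

/-- **the values of the residual signal** : same `z`-cell, same labels `(φ0, φ2)` -/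
theorem k7we_val (hX : X.Ok) {p p' : X.W.L × ℝ} (hp : p ∈ X.E4) (hp' : p' ∈ X.E4) (hz : X.zc p = X.zc p') {φ0 : (X.P 0).Ph} {φ2 : (X.P 2).Ph}
    (h0 : (X.P 0).lab p.1 = some φ0) (h0' : (X.P 0).lab p'.1 = some φ0) (h2 : (X.P 2).lab p.1 = some φ2) (h2' : (X.P 2).lab p'.1 = some φ2) :
    |X.Xo p.1 p.2 - X.Xo p'.1 p'.2| ≤ 5 * X.K * X.a2 := by
  have a1 := abs_le.1 (k7we_val_exp hX hp h0 h2)
  have a2 := abs_le.1 (k7we_val_exp hX hp' h0' h2')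
  have a3 := abs_le.1 (k7we_val_lip hX hp hp' hz h0 h0')
  have a4 := abs_le.1 (k7we_val_var hX hp hp' hz h0 h2)
  have hK := hX.K1
  have ha := hX.a2_pos
  have hG := (k7we_G hX).2.2.2.1
  have he : 4 * X.K ^ 3 * X.e ≤ X.a2 := by
    have := hX.sm_e
    have h3 : 4 * X.K ^ 3 * X.e ≤ X.G * X.e := mul_le_mul_of_nonneg_right (by nlinarith [pow_pos (lt_of_lt_of_le one_pos hK) 3]) hX.e_nn
    linarith
  have hε := hX.sm_ε
  have hKa : X.a2 ≤ X.K * X.a2 := by nlinarith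
  refine abs_le.2 ⟨?_, ?_⟩ <;> linarith [a1.1, a1.2, a2.1, a2.2, a3.1, a3.2, a4.1, a4.2]

end

end Claimed.Agent.R252
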