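import Claimed.Agent.R252.S7a.WideEBase
import Claimed.Agent.R252.S7b.CoreB
import Claimed.Agent.R252.S7a.WideContract

/-!
# ROW 252 (S0492), unit S7w, STAGE E of P7.3 (helper202), file 4: RESIDUAL BINS AT A FIXED FINEST VELOCITY BIN (07 l.866-871, step E4, second half).      CONTRACT: leaves L-252-S7w-E-GA, -GB, -BIN.
-/

set_option autoImplicit false

namespace Claimed.Agent.R252

open MeasureTheory
open scoped ENNReal BigOperators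

noncomputable section

variable {X : K7weDat}

/-- numerical consequences of the order of the scales -/
theorem k7we_grp_num (hX : X.Ok) : 1000 * X.K * X.σs ≤ X.χ ∧ 1000 * X.W.χ0 ≤ X.χ ∧ 1000 * X.K ^ 2 * X.σs ≤ X.g ∧ 1000 * X.K * X.W.χ0 ≤ X.g ∧
    1000 * X.K * X.W.χ0 ≤ X.W.q * X.g ∧ X.b ≤ X.K * (X.W.q * X.g) ∧ 1000 * X.K ^ 2 * X.σs ≤ X.W.q * X.g := by
  obtain ⟨hG0, hG1, hG2, hG3, -⟩ := k7we_G hX
  obtain ⟨s1, s2, s3, s4, s5⟩ := k7we_small hX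
  obtain ⟨hb0, -, -, hbg, -, hχ0, -, hhq, -⟩ := k7we_pos hX
  have hs := k7we_sig_pos X
  have hK := hX.K1
  have hK0 : 0 < X.K := by linarith
  have hb : X.b ≤ X.K * (X.W.q * X.g) := by
    show X.h * X.g ≤ X.K * (X.W.q * X.g)
    calc X.h * X.g ≤ (X.K * X.W.q) * X.g := mul_le_mul_of_nonneg_right hhq hX.g_pos.le
      _ = X.K * (X.W.q * X.g) := by ring
  refine ⟨(mul_le_mul_of_nonneg_right hG1 hs.le).trans s1, (mul_le_mul_of_nonneg_right hG0 hχ0.le).trans s4,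
    ((mul_le_mul_of_nonneg_right hG2 hs.le).trans s3).trans hbg, ((mul_le_mul_of_nonneg_right hG1 hχ0.le).trans s5).trans hbg, ?_, hb, ?_⟩
  · have h1 : 1000 * X.K ^ 2 * X.W.χ0 ≤ X.K * (X.W.q * X.g) := ((mul_le_mul_of_nonneg_right hG2 hχ0.le).trans s5).trans hb
    have h2 : X.K * (1000 * X.K * X.W.χ0) ≤ X.K * (X.W.q * X.g) := by
      calc X.K * (1000 * X.K * X.W.χ0) = 1000 * X.K ^ 2 * X.W.χ0 := by ring
        _ ≤ _ := h1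
    exact le_of_mul_le_mul_left h2 hK0
  · have h1 : 1000 * X.K ^ 3 * X.σs ≤ X.K * (X.W.q * X.g) := ((mul_le_mul_of_nonneg_right hG3 hs.le).trans s3).trans hb
    have h2 : X.K * (1000 * X.K ^ 2 * X.σs) ≤ X.K * (X.W.q * X.g) := by
      calc X.K * (1000 * X.K ^ 2 * X.σs) = 1000 * X.K ^ 3 * X.σs := by ring
        _ ≤ _ := h1
    exact le_of_mul_le_mul_left h2 hK0

/-- two lines through one `z`-cell with the same finest velocity bin stay close for unit time -/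
theorem k7we_grp_Z (hX : X.Ok) {p p' : X.W.L × ℝ} (hp : p ∈ X.E4) (hz : X.zc p = X.zc p') (hv : X.W.vbin p.1 = X.W.vbin p'.1)
    {τ : ℝ} (hτ : |p'.2 - τ| ≤ 1) : |X.W.Z p.1 τ - X.W.Z p'.1 τ| ≤ 2 * X.K * X.σs + 2 * X.W.χ0 := by
  obtain ⟨-, -, hl, -, -, -⟩ := k7we_E4 hX hp
  obtain ⟨hzt, hzZ⟩ := k7we_zc_close X hz
  have hK := hX.K1
  have hK0 : 0 < X.K := by linarith
  have hχ0 := (k7we_pos hX).2.2.2.2.2.1
  have hvv : |X.W.v p.1 - X.W.v p'.1| < 2 * X.W.χ0 := k7we_bin_close hχ0 hv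
  have hvK := (k7we_line hX hl).2.2.1
  have hs := k7we_sig_pos X
  have hδ : X.W.q * X.σs ≤ X.σs := by nlinarith [k7we_q_le_one X]
  have e : X.W.Z p.1 τ - X.W.Z p'.1 τ = (X.W.Z p.1 p.2 - X.W.Z p'.1 p'.2) - X.W.v p.1 * (p.2 - p'.2)
      - (X.W.v p.1 - X.W.v p'.1) * (p'.2 - τ) := by
    simp only [K7aLn.Z]
    ring
  have h1 : |X.W.v p.1 * (p.2 - p'.2)| ≤ X.K * X.σs := by
    rw [abs_mul]
    exact mul_le_mul hvK (hzt.trans hδ) (abs_nonneg _) hK0.le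
  have h2 : |(X.W.v p.1 - X.W.v p'.1) * (p'.2 - τ)| ≤ 2 * X.W.χ0 * 1 := by
    rw [abs_mul]
    exact mul_le_mul hvv.le hτ (abs_nonneg _) (by positivity)
  have h3 : |X.W.Z p.1 p.2 - X.W.Z p'.1 p'.2| ≤ X.K * X.σs := (hzZ.trans hδ).trans (by nlinarith)
  rw [e]
  have a1 := abs_le.1 h1
  have a2 := abs_le.1 h2
  have a3 := abs_le.1 h3
  rw [abs_le]
  constructor <;> linarith [a1.1, a1.2, a2.1, a2.2, a3.1, a3.2]

/-- **L-252-S7w-E-GA**: geometry.  Two incidences of `E4` in the same `z`-cell with the same finest velocity bin.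
PLAN: `k7we_E4`, `k7we_line`, `k7we_row`, `k7we_bd` (at the time `X.tQ`, `k7we_tQ_mem`).   Same `z`-cell: `|t - t'| ≤ q σs`, `|Z - Z'| ≤ q σs`.   Same finest bin: `|v - v'| < 2 χ0` (`k7we_bin_close`, `X.W.vbin l = kbBin χ0 (v l)`).
(1) is that.  (2) `Z0 = Z - v t`, `|t'| ≤ 1` : `≤ q σs + K q σs + 2 χ0 ≤ χ` (`sm_σ1`, `sm_χ0`, `σs, q ≤ 1`).   (3) `k7we_line` (slope) : `≤ 2 K g + K · 2χ0 ≤ (2K+1) g` (`G χ0 ≤ χ`, `G χ ≤ h g ≤ g`).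
(4) `Z_l(tQ) = Z - v (t - tQ)`, `|t - tQ| ≤ q ≤ 1` : `|Z_l(tQ) - Z_{l'}(tQ)| ≤ χ` as in (2); `k7we_bd` at `tQ` : `|Y_l(tQ) - Y_Q(tQ, Z_l(tQ))| ≤ K b = K h g ≤ K² q g`; `|r2| χ ≤ K χ ≤ q g` (`h ≤ K q`, `sm_χ`). -/
theorem k7we_grp_geo (hX : X.Ok) {p p' : X.W.L × ℝ} (hp : p ∈ X.E4) (hp' : p' ∈ X.E4) (hz : X.zc p = X.zc p') (hv : X.W.vbin p.1 = X.W.vbin p'.1) :
    |X.W.v p.1 - X.W.v p'.1| ≤ 1 * kbDy X.χ ∧ |X.W.Z0 p.1 - X.W.Z0 p'.1| ≤ 1 * kbDy X.χ ∧ |X.W.Y1 p.1 - X.W.Y1 p'.1| ≤ (2 * X.K + 1) * X.g ∧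
      |X.W.Y p.1 X.tQ - X.W.Y p'.1 X.tQ| ≤ (2 * X.K ^ 2 + 1) * (X.W.q * X.g) := by
  obtain ⟨-, -, hl, ht, -, -⟩ := k7we_E4 hX hp
  obtain ⟨-, -, hl', ht', -, -⟩ := k7we_E4 hX hp'
  obtain ⟨n1, n2, n3, n4, n5, n6, n7⟩ := k7we_grp_num hX
  have hK := hX.K1
  have hK0 : 0 < X.K := by linarith
  have hχ0 := (k7we_pos hX).2.2.2.2.2.1
  have hs := k7we_sig_pos X
  have hq := k7we_q_pos X
  have hg := hX.g_pos
  have hdy := (k7we_dy hX.χ_pos).1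
  have hvv : |X.W.v p.1 - X.W.v p'.1| < 2 * X.W.χ0 := k7we_bin_close hχ0 hv
  have hr2 := (k7we_row hX).2.2.2
  have htI' := k7we_blk_sub hX ht'
  refine ⟨?_, ?_, ?_, ?_⟩
  · rw [one_mul]
    linarith
  · rw [one_mul]
    have h0 : |p'.2 - 0| ≤ 1 := by
      rw [sub_zero, abs_of_nonneg htI'.1]
      exact htI'.2
    have h1 := k7we_grp_Z hX hp hz hv h0
    simp only [K7aLn.Z, mul_zero, add_zero] at h1
    linarith
  · have s1 := abs_le.1 (k7we_line hX hl).2.2.2.2.2.2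
    have s2 := abs_le.1 (k7we_line hX hl').2.2.2.2.2.2
    have h3 : |X.W.r2 X.Q * (X.W.v p.1 - X.W.v p'.1)| ≤ X.K * (2 * X.W.χ0) := by
      rw [abs_mul]
      exact mul_le_mul hr2 hvv.le (abs_nonneg _) hK0.le
    have a3 := abs_le.1 h3
    rw [abs_le]
    constructor <;> nlinarith [s1.1, s1.2, s2.1, s2.2, a3.1, a3.2]
  · have hτ : |p'.2 - X.tQ| ≤ 1 := by
      obtain ⟨c1, c2⟩ := (k7we_blk_iff X p'.2).1 ht'
      rw [le_div_iff₀ hq] at c1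
      rw [div_lt_iff₀ hq] at c2
      rw [abs_le]
      constructor <;> nlinarith [k7we_q_le_one X]
    have h1 := k7we_grp_Z hX hp hz hv hτ
    have b1 := abs_le.1 (k7we_bd hX hl (k7we_tQ_mem X)).2.1
    have b2 := abs_le.1 (k7we_bd hX hl' (k7we_tQ_mem X)).2.1
    have h3 : |X.W.r2 X.Q * (X.W.Z p.1 X.tQ - X.W.Z p'.1 X.tQ)| ≤ X.W.q * X.g := by
      rw [abs_mul]
      calc |X.W.r2 X.Q| * |X.W.Z p.1 X.tQ - X.W.Z p'.1 X.tQ| ≤ X.K * (2 * X.K * X.σs + 2 * X.W.χ0) :=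
            mul_le_mul hr2 h1 (abs_nonneg _) hK0.le
        _ = 2 * X.K ^ 2 * X.σs + 2 * X.K * X.W.χ0 := by ring
        _ ≤ X.W.q * X.g := by
            have : 0 ≤ X.K ^ 2 * X.σs := by positivity
            have : 0 ≤ X.K * X.W.χ0 := by positivity
            linarith
    have a3 := abs_le.1 h3
    have e : X.W.Y p.1 X.tQ - X.W.Y p'.1 X.tQ = (X.W.Y p.1 X.tQ - X.W.YQ X.Q X.tQ (X.W.Z p.1 X.tQ))
        + X.W.r2 X.Q * (X.W.Z p.1 X.tQ - X.W.Z p'.1 X.tQ) - (X.W.Y p'.1 X.tQ - X.W.YQ X.Q X.tQ (X.W.Z p'.1 X.tQ)) := by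
      simp only [K7aW.YQ]
      ring
    have hKb : X.K * X.b ≤ X.K ^ 2 * (X.W.q * X.g) := by
      calc X.K * X.b ≤ X.K * (X.K * (X.W.q * X.g)) := mul_le_mul_of_nonneg_left n6 hK0.le
        _ = X.K ^ 2 * (X.W.q * X.g) := by ring
    rw [e, abs_le]
    constructor <;> nlinarith [b1.1, b1.2, b2.1, b2.2, a3.1, a3.2]

/-- cardinality of a union with a real bound for the pieces -/
theorem k7we_card_biUnion {α β : Type*} [DecidableEq β] (s : Finset α) (f : α → Finset β) {n : ℝ}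
    (h : ∀ a ∈ s, ((f a).card : ℝ) ≤ n) : ((s.biUnion f).card : ℝ) ≤ s.card * n := by
  calc ((s.biUnion f).card : ℝ) ≤ ((∑ a ∈ s, (f a).card : ℕ) : ℝ) := by exact_mod_cast Finset.card_biUnion_le
    _ = ∑ a ∈ s, ((f a).card : ℝ) := by push_cast; rfl
    _ ≤ ∑ _a ∈ s, n := Finset.sum_le_sum h
    _ = s.card * n := by rw [Finset.sum_const, nsmul_eq_mul]

/-- **L-252-S7w-E-GB**: at most `3000 K⁴` coarse labels per (`z`-cell, finest velocity bin).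
PLAN: `A = {p ∈ E4 | zc p = ij ∧ vbin p.1 = bn}`.   `k7we_floor_cover` four times with `k7we_grp_geo` (`kbBin χ x = ⌊x / kbDy χ⌋` by `rfl`): finsets `S1, S2` (card `≤ 5`) for `kbBin χ (v l)`, `kbBin χ (Z0 l)`, `S3` (card `≤ 4K+5 ≤ 9K`) for `⌊Y1/g⌋`, `S4` (card `≤ 4K²+5 ≤ 9K²`) for `⌊Y_l(tQ)/(q g)⌋`.
On `A` : `X.W.sdom q g (q g) p = (iv Q, ⌊Y1/g⌋, ⌊Y_l(tQ)/(q g)⌋)` (`k7we_blk_floor`; `(iv Q : ℤ) * q = X.tQ` after the cast).   `S0 = ` union over `(mv, z, d2, d3) ∈ S1 × S2 × S3 × S4` of the finset of `hX.lists.fwd X.Q mv z (iv Q, d2, d3)` (card `≤ K`); `Finset.card_biUnion_le`;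
`p ∈ E`, `labQ p = Q` from `k7we_E4`.   Total `≤ 25 · 81 K³ · K`. -/
theorem k7we_grp (hX : X.Ok) (ij : ℤ × ℤ) (bn : ℤ) : ∃ S0 : Finset (X.P 0).Ph, (S0.card : ℝ) ≤ 3000 * X.K ^ 4 ∧
    ∀ p ∈ X.E4, X.zc p = ij → X.W.vbin p.1 = bn → ∀ φ, (X.P 0).lab p.1 = some φ → φ ∈ S0 := by
  classical
  have hK := hX.K1
  have hK0 : 0 < X.K := by linarith
  have hq := k7we_q_pos X
  have hg := hX.g_pos
  have hdy : 0 < kbDy X.χ := lt_of_lt_of_le hX.χ_pos (k7we_dy hX.χ_pos).1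
  set A : Set (X.W.L × ℝ) := {p | p ∈ X.E4 ∧ X.zc p = ij ∧ X.W.vbin p.1 = bn} with hA
  have geo : ∀ x ∈ A, ∀ y ∈ A, _ := fun x hx y hy =>
    k7we_grp_geo hX hx.1 hy.1 (hx.2.1.trans hy.2.1.symm) (hx.2.2.trans hy.2.2.symm)
  obtain ⟨S1, c1, m1⟩ := k7we_floor_cover A (fun p => X.W.v p.1) hdy zero_le_one fun x hx y hy => (geo x hx y hy).1
  obtain ⟨S2, c2, m2⟩ := k7we_floor_cover A (fun p => X.W.Z0 p.1) hdy zero_le_one fun x hx y hy => (geo x hx y hy).2.1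
  obtain ⟨S3, c3, m3⟩ := k7we_floor_cover A (fun p => X.W.Y1 p.1) hg (by positivity : (0 : ℝ) ≤ 2 * X.K + 1)
    fun x hx y hy => (geo x hx y hy).2.2.1
  obtain ⟨S4, c4, m4⟩ := k7we_floor_cover A (fun p => X.W.Y p.1 X.tQ) (mul_pos hq hg) (by positivity : (0 : ℝ) ≤ 2 * X.K ^ 2 + 1)
    fun x hx y hy => (geo x hx y hy).2.2.2
  choose Sf hSf1 hSf2 using fun x : ℤ × ℤ × ℤ × ℤ => hX.lists.fwd X.Q x.1 x.2.1 ((X.W.iv X.Q : ℤ), x.2.2.1, x.2.2.2)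
  refine ⟨(S1 ×ˢ S2 ×ˢ S3 ×ˢ S4).biUnion Sf, ?_, fun p hp hz hv φ hφ => ?_⟩
  · refine (k7we_card_biUnion _ Sf fun a _ => hSf1 a).trans ?_
    rw [Finset.card_product, Finset.card_product, Finset.card_product]
    push_cast
    have d1 : (S1.card : ℝ) ≤ 5 := by linarith
    have d2 : (S2.card : ℝ) ≤ 5 := by linarith
    have d3 : (S3.card : ℝ) ≤ 9 * X.K := by linarith
    have d4 : (S4.card : ℝ) ≤ 9 * X.K ^ 2 := by nlinarith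
    calc (S1.card : ℝ) * ((S2.card : ℝ) * ((S3.card : ℝ) * (S4.card : ℝ))) * X.K
        ≤ 5 * (5 * (9 * X.K * (9 * X.K ^ 2))) * X.K := by gcongr
      _ = 2025 * X.K ^ 4 := by ring
      _ ≤ 3000 * X.K ^ 4 := by
          have : 0 ≤ X.K ^ 4 := by positivity
          linarith
  · have hpA : p ∈ A := ⟨hp, hz, hv⟩
    obtain ⟨hE, -, -, ht, hQ, -⟩ := k7we_E4 hX hp
    have hfl := k7we_blk_floor X ht
    rw [Finset.mem_biUnion]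
    refine ⟨(⌊X.W.v p.1 / kbDy X.χ⌋, ⌊X.W.Z0 p.1 / kbDy X.χ⌋, ⌊X.W.Y1 p.1 / X.g⌋, ⌊X.W.Y p.1 X.tQ / (X.W.q * X.g)⌋), ?_, ?_⟩
    · rw [Finset.mem_product, Finset.mem_product, Finset.mem_product]
      exact ⟨m1 p hpA, m2 p hpA, m3 p hpA, m4 p hpA⟩
    · refine hSf2 _ p hE hQ rfl rfl ?_ φ hφ
      unfold K7aLn.sdom
      rw [hfl]
      have : (((X.W.iv X.Q : ℕ) : ℤ) : ℝ) * X.W.q = X.tQ := by
        rw [Int.cast_natCast]
        rfl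
      rw [this]

/-- **L-252-S7w-E-BIN**: at most `40000 K⁶ R` residual bins per (`z`-cell, finest velocity bin).
PLAN: `S0` from `k7we_grp`; for `φ0 ∈ S0` the finset `S2 φ0` of `hX.fine φ0` (card `≤ K R`); for a pair `(φ0, φ2)` the finset `B φ0 φ2` of `k7we_floor_cover` applied to `A φ0 φ2 = {p ∈ E4 | zc p = ij ∧ lab₀ = φ0 ∧ lab₂ = φ2}`, `f p = X° p`, `w = a2`, `L = 5K` (`k7we_val`): card `≤ 10K+3 ≤ 13K`.
`S = ⋃_{φ0 ∈ S0} ⋃_{φ2 ∈ S2 φ0} B φ0 φ2`; every `p ∈ E4` has both labels (`hX.lab`, `Option.ne_none_iff_exists`).   `3000 K⁴ · K R · 13 K`.  (`0 ≤ R` follows from `hX.R_eq` or from `card ≤ K R`; if `S0 = ∅` nothing to do.) -/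
theorem k7we_bin (hX : X.Ok) (ij : ℤ × ℤ) (bn : ℤ) : ∃ S : Finset ℤ, (S.card : ℝ) ≤ 40000 * X.K ^ 6 * X.R ∧
    ∀ p ∈ X.E4, X.zc p = ij → X.W.vbin p.1 = bn → ⌊X.Xo p.1 p.2 / X.a2⌋ ∈ S := by
  classical
  have hK := hX.K1
  have hK0 : 0 < X.K := by linarith
  have hR : 0 < X.R := by
    have hc := (k7we_pos hX).2.2.2.2.2.2.1
    have h1 : 0 < X.c * X.a2 ^ X.d := mul_pos hc (Real.rpow_pos_of_pos hX.a2_pos _)
    have h2 := hX.R_eq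
    by_contra hn
    have : X.c * X.a2 ^ X.d * X.R ≤ 0 := mul_nonpos_of_nonneg_of_nonpos h1.le (not_lt.1 hn)
    linarith
  obtain ⟨S0, c0, m0⟩ := k7we_grp hX ij bn
  choose S2 c2 m2 using hX.fine
  have hB : ∀ (φ0 : (X.P 0).Ph) (φ2 : (X.P 2).Ph), ∃ S : Finset ℤ, (S.card : ℝ) ≤ 2 * (5 * X.K) + 3 ∧
      ∀ x ∈ {p : X.W.L × ℝ | p ∈ X.E4 ∧ X.zc p = ij ∧ (X.P 0).lab p.1 = some φ0 ∧ (X.P 2).lab p.1 = some φ2},
        ⌊X.Xo x.1 x.2 / X.a2⌋ ∈ S := by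
    intro φ0 φ2
    refine k7we_floor_cover {p : X.W.L × ℝ | p ∈ X.E4 ∧ X.zc p = ij ∧ (X.P 0).lab p.1 = some φ0 ∧ (X.P 2).lab p.1 = some φ2}
      (fun p => X.Xo p.1 p.2) (w := X.a2) (L := 5 * X.K) hX.a2_pos (by positivity) ?_
    intro x hx y hy
    exact k7we_val hX hx.1 hy.1 (hx.2.1.trans hy.2.1.symm) hx.2.2.1 hy.2.2.1 hx.2.2.2 hy.2.2.2
  choose B cB mB using hB
  refine ⟨S0.biUnion fun φ0 => (S2 φ0).biUnion fun φ2 => B φ0 φ2, ?_, fun p hp hz hv => ?_⟩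
  · have h1 : ∀ φ0 ∈ S0, ((((S2 φ0).biUnion fun φ2 => B φ0 φ2).card : ℕ) : ℝ) ≤ X.K * X.R * (13 * X.K) := by
      intro φ0 _
      refine (k7we_card_biUnion (S2 φ0) (fun φ2 => B φ0 φ2) (n := 13 * X.K) fun φ2 _ => (cB φ0 φ2).trans (by linarith)).trans ?_
      exact mul_le_mul_of_nonneg_right (c2 φ0) (by positivity)
    refine (k7we_card_biUnion S0 _ h1).trans ?_
    calc (S0.card : ℝ) * (X.K * X.R * (13 * X.K)) ≤ 3000 * X.K ^ 4 * (X.K * X.R * (13 * X.K)) := by gcongr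
      _ = 39000 * X.K ^ 6 * X.R := by ring
      _ ≤ 40000 * X.K ^ 6 * X.R := by
          have : 0 ≤ X.K ^ 6 * X.R := by positivity
          nlinarith
  · obtain ⟨hE, -, -, -, hQ, -⟩ := k7we_E4 hX hp
    obtain ⟨φ0, h0⟩ := Option.ne_none_iff_exists'.1 (hX.lab p hE 0)
    obtain ⟨φ2, h2⟩ := Option.ne_none_iff_exists'.1 (hX.lab p hE 2)
    rw [Finset.mem_biUnion]
    refine ⟨φ0, m0 p hp hz hv φ0 h0, ?_⟩
    rw [Finset.mem_biUnion]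
    exact ⟨φ2, m2 φ0 p hE hQ h0 φ2 h2, mB φ0 φ2 p ⟨hp, hz, h0, h2⟩⟩

end

end Claimed.Agent.R252

/-!
# ROW 252 (S0492), unit S7w, STAGE E of P7.3 (helper202), file 6: THE SUPPORT HYPOTHESIS OF THM 7.1 (07 l.873-887, step E4, end).      CONTRACT: leaves L-252-S7w-E-SA, -SB.
-/

set_option autoImplicit false

namespace Claimed.Agent.R252

open MeasureTheory
open scoped ENNReal BigOperators

noncomputable section

variable {X : K7weDat}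

theorem k7we_R_pos (hX : X.Ok) : 0 < X.R := by
  obtain ⟨-, -, -, -, -, -, hc, -, -⟩ := k7we_pos hX
  have h1 : 0 < X.c * X.a2 ^ X.d := mul_pos hc (Real.rpow_pos_of_pos hX.a2_pos _)
  by_contra h
  have h2 : X.c * X.a2 ^ X.d * X.R ≤ 0 := mul_nonpos_of_nonneg_of_nonpos h1.le (not_lt.1 h)
  linarith [hX.R_eq]

/-- **L-252-S7w-E-SA**: residual bins of positive mass in one `z`-cell (integration of the count `k7we_bin` against the palette).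
PLAN: `μ = law E5` (finite; `law E5 B = prior (B ∩ E5)`, `Measure.restrict_apply'`).   `V` from `k7we_Vall hX` (all finest bins of `Sp`, `∑_V pi ≤ 1`, so each `pi bn ≠ ⊤`).   Relation `Rl k bn := μ (o ⁻¹' {(ij.1, ij.2, k)} ∩ vT bn) ≠ 0`.
(a) for `k ∈ O` : `μ (o = ..) = ∑_{bn ∈ V} μ (o = .. ∩ vT bn)` (`≤` suffices: `E5 ⊆ E4`, `p.1 ∈ Sp` by `k7we_E4`, so `E5 ∩ {o = ..} ⊆ ⋃_{bn ∈ V} vT bn`; `measure_biUnion_finset_le`) `≤ Kd μ(o = ..) ∑_{bn ∈ V, Rl k bn} pi bn`; divide by `μ (o = ..) ∈ (0, ∞)` : `1/Kd ≤ ∑_{bn ∈ V, Rl k bn} (pi bn).toReal`.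
(b) `Rl k bn` gives a point `p ∈ E5` with `o p = (ij.1, ij.2, k)`, `vbin p.1 = bn` (a set of positive measure meets `E5`), so `k` lies in the finset of `k7we_bin hX ij bn` : `#{k ∈ O | Rl k bn} ≤ M`, `M = ⌊40000 K⁶ R⌋₊`.
(c) `k7b_options_count O V (fun bn => (pi bn).toReal) .. Rl (W := 1) (m := 1/Kd)`. -/
theorem k7we_supp_cell (hX : X.Ok) {E5 : Set (X.W.L × ℝ)} (hm : MeasurableSet E5) (hs : E5 ⊆ X.E4) {Kd : ℝ} (hKd : 1 ≤ Kd)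
    (hdom : ∀ (o0 : ℤ × ℤ × ℤ) (bn : ℤ), X.W.law E5 (X.o ⁻¹' {o0} ∩ X.W.vT bn) ≤ ENNReal.ofReal Kd * X.W.pi bn * X.W.law E5 (X.o ⁻¹' {o0}))
    (ij : ℤ × ℤ) (O : Finset ℤ) (hO : ∀ k ∈ O, X.W.law E5 (X.o ⁻¹' {(ij.1, ij.2, k)}) ≠ 0) :
    (O.card : ℝ) ≤ 40000 * X.K ^ 6 * X.R * Kd := by
  classical
  have hK0 : 0 < X.K := lt_of_lt_of_le one_pos hX.K1
  have hKd0 : 0 < Kd := lt_of_lt_of_le one_pos hKd
  have hR := k7we_R_pos hX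
  have := hX.w.ln.prob
  have happ : ∀ B : Set (X.W.L × ℝ), X.W.law E5 B = X.W.prior (B ∩ E5) := fun B => Measure.restrict_apply' hm
  obtain ⟨V, hV, hVs⟩ := k7we_Vall hX
  have hpit : ∀ bn ∈ V, X.W.pi bn ≠ ⊤ := by
    intro bn hbn
    have : X.W.pi bn ≤ 1 := (Finset.single_le_sum (f := fun bn => X.W.pi bn) (fun _ _ => zero_le) hbn).trans hVs
    exact ne_top_of_le_ne_top ENNReal.one_ne_top this
  set Rl : ℤ → ℤ → Prop := fun k bn => X.W.law E5 (X.o ⁻¹' {(ij.1, ij.2, k)} ∩ X.W.vT bn) ≠ 0 with hRl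
  have hfin : ∀ B : Set (X.W.L × ℝ), X.W.law E5 B ≠ ⊤ := by
    intro B
    rw [happ]
    have h1 : X.W.prior (B ∩ E5) ≤ X.W.prior Set.univ := measure_mono (Set.subset_univ _)
    have h2 : X.W.prior Set.univ ≤ 1 := by
      show (X.W.ν.prod (volume.restrict (Set.Icc (0 : ℝ) 1))) Set.univ ≤ 1
      rw [← Set.univ_prod_univ, Measure.prod_prod, measure_univ, one_mul, Measure.restrict_apply MeasurableSet.univ, Set.univ_inter, Real.volume_Icc]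
      norm_num
    exact ne_top_of_le_ne_top ENNReal.one_ne_top (h1.trans h2)
  have htot : ∑ bn ∈ V, (X.W.pi bn).toReal ≤ 1 := by
    rw [← ENNReal.toReal_sum hpit]
    exact ENNReal.toReal_le_of_le_ofReal zero_le_one (by simpa using hVs)
  have hwit : ∀ k ∈ O, 1 / Kd ≤ ∑ bn ∈ V with Rl k bn, (X.W.pi bn).toReal := by
    intro k hk
    have h0 := hO k hk
    have h1 : X.W.law E5 (X.o ⁻¹' {(ij.1, ij.2, k)}) ≤ ∑ bn ∈ V, X.W.law E5 (X.o ⁻¹' {(ij.1, ij.2, k)} ∩ X.W.vT bn) := by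
      have hsub : X.o ⁻¹' {(ij.1, ij.2, k)} ∩ E5 ⊆ ⋃ bn ∈ V, (X.o ⁻¹' {(ij.1, ij.2, k)} ∩ X.W.vT bn ∩ E5) := by
        rintro p ⟨hp1, hp2⟩
        exact Set.mem_biUnion (hV p.1 (k7we_E4 hX (hs hp2)).2.2.2.2.2) ⟨⟨hp1, rfl⟩, hp2⟩
      rw [happ]
      refine (measure_mono hsub).trans ((measure_biUnion_finset_le _ _).trans (le_of_eq ?_))
      exact Finset.sum_congr rfl fun bn _ => (happ _).symm
    have h2 : ∑ bn ∈ V, X.W.law E5 (X.o ⁻¹' {(ij.1, ij.2, k)} ∩ X.W.vT bn)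
        ≤ (ENNReal.ofReal Kd * ∑ bn ∈ V with Rl k bn, X.W.pi bn) * X.W.law E5 (X.o ⁻¹' {(ij.1, ij.2, k)}) := by
      rw [Finset.mul_sum, Finset.sum_mul, Finset.sum_filter]
      refine Finset.sum_le_sum fun bn _ => ?_
      by_cases hr : Rl k bn
      · rw [if_pos hr]
        exact hdom _ bn
      · rw [if_neg hr]
        exact le_of_eq (not_not.1 hr)
    have h3 : 1 * X.W.law E5 (X.o ⁻¹' {(ij.1, ij.2, k)}) ≤ (ENNReal.ofReal Kd * ∑ bn ∈ V with Rl k bn, X.W.pi bn) * X.W.law E5 (X.o ⁻¹' {(ij.1, ij.2, k)}) := by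
      rw [one_mul]
      exact h1.trans h2
    have h4 := (ENNReal.mul_le_mul_iff_left h0 (hfin _)).1 h3
    have hpit' : ∀ bn ∈ V.filter (fun bn => Rl k bn), X.W.pi bn ≠ ⊤ := fun bn hbn => hpit bn (Finset.mem_filter.1 hbn).1
    have h5 : (1 : ℝ) ≤ Kd * ∑ bn ∈ V with Rl k bn, (X.W.pi bn).toReal := by
      rw [← ENNReal.toReal_sum hpit']
      have h6 := ENNReal.toReal_mono (ENNReal.mul_ne_top ENNReal.ofReal_ne_top (ENNReal.sum_ne_top.2 hpit')) h4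
      rwa [ENNReal.toReal_one, ENNReal.toReal_mul, ENNReal.toReal_ofReal hKd0.le] at h6
    rw [div_le_iff₀ hKd0]
    linarith
  have hmult : ∀ bn ∈ V, (O.filter (fun k => Rl k bn)).card ≤ ⌊40000 * X.K ^ 6 * X.R⌋₊ := by
    intro bn _
    obtain ⟨S, hSc, hSm⟩ := k7we_bin hX ij bn
    refine Nat.le_floor (le_trans ?_ hSc)
    have hsub : O.filter (fun k => Rl k bn) ⊆ S := by
      intro k hk
      have hr : Rl k bn := (Finset.mem_filter.1 hk).2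
      have hne : (X.o ⁻¹' {(ij.1, ij.2, k)} ∩ X.W.vT bn ∩ E5).Nonempty := by
        by_contra hemp
        rw [Set.not_nonempty_iff_eq_empty] at hemp
        apply hr
        rw [happ, hemp, measure_empty]
      obtain ⟨p, ⟨hp1, hp2⟩, hp3⟩ := hne
      have e1 : X.o p = (ij.1, ij.2, k) := hp1
      unfold K7weDat.o at e1
      simp only [Prod.mk.injEq] at e1
      have e2 := hSm p (hs hp3) (Prod.ext e1.1 e1.2.1) hp2
      rwa [e1.2.2] at e2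
    exact_mod_cast Finset.card_le_card hsub
  have hmain : (O.card : ℝ) * (1 / Kd) ≤ (⌊40000 * X.K ^ 6 * X.R⌋₊ : ℕ) * 1 := by
    refine k7b_options_count O V (fun bn => (X.W.pi bn).toReal) (fun _ _ => ENNReal.toReal_nonneg) Rl htot (fun k hk => ?_) (fun bn hbn => ?_)
    · convert hwit k hk
    · convert hmult bn hbn
  have hfl : ((⌊40000 * X.K ^ 6 * X.R⌋₊ : ℕ) : ℝ) ≤ 40000 * X.K ^ 6 * X.R := Nat.floor_le (by positivity)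
  have h7 : (O.card : ℝ) * (1 / Kd) ≤ 40000 * X.K ^ 6 * X.R := by linarith
  rw [mul_one_div, div_le_iff₀ hKd0] at h7
  exact h7

theorem k7we_floor_box {R w : ℝ} (hw : 0 < w) (hR : 0 ≤ R) :
    ∃ I : Finset ℤ, (I.card : ℝ) ≤ 2 * R / w + 2 ∧ ∀ x : ℝ, |x| ≤ R → ⌊x / w⌋ ∈ I := by
  refine ⟨Finset.Icc ⌊-R / w⌋ ⌊R / w⌋, ?_, fun x hx => ?_⟩
  · rw [Int.card_Icc]
    have hle : ⌊-R / w⌋ ≤ ⌊R / w⌋ := Int.floor_le_floor (by gcongr; linarith)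
    have h0 : 0 ≤ ⌊R / w⌋ + 1 - ⌊-R / w⌋ := by linarith
    have e : (((⌊R / w⌋ + 1 - ⌊-R / w⌋).toNat : ℕ) : ℝ) = ((⌊R / w⌋ + 1 - ⌊-R / w⌋ : ℤ) : ℝ) := by
      exact_mod_cast congrArg (fun z : ℤ => (z : ℝ)) (Int.toNat_of_nonneg h0)
    rw [e]
    push_cast
    have h1 := Int.floor_le (R / w)
    have h2 := Int.lt_floor_add_one (-R / w)
    have e2 : 2 * R / w = R / w - -R / w := by ring
    rw [e2]
    linarith
  · rw [abs_le] at hx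
    exact Finset.mem_Icc.2 ⟨Int.floor_le_floor (by gcongr; exact hx.1), Int.floor_le_floor (by gcongr; exact hx.2)⟩

/-- **L-252-S7w-E-SB**: the support hypothesis.
PLAN: `μ = law E5`.   Boxes: for `p ∈ E4` : `0 ≤ (zc p).1 < 2^m` (`k7we_blk_iff`, `σs = 2^{-m}`), `|(zc p).2| ≤ K²/σs + 1` (`k7we_bd`, `h ≤ K q`), `|⌊X°/a2⌋| ≤ 5K³/a2 + 1`.   So `X.o '' E4 ⊆ B := I1 ×ˢ I2 ×ˢ I3` (finite boxes, `#I1 = 2^m = 1/σs`, `#I2 ≤ 2K²/σs + 3 ≤ 5K²/σs`).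
`S := B.filter (fun o0 => μ (o ⁻¹' {o0}) ≠ 0)` (classical).   Count: fibre of `S` over `(i,j)` has card `≤ 40000 K⁶ R Kd` (`k7we_supp_cell`), so `#S ≤ 5K² σs⁻² · 40000 K⁶ R Kd`; with `hX.R_eq` : `#S σs² (c a2^d) ≤ 200000 K⁸ Kd`.
A.e.: `(X.D E5).mu = const • map T μ`; `{z | (..) ∉ S}` is measurable (`k7we_D_meas`, `Int.measurable_floor`-type, countable discrete target) : `k7we_mu_apply`; its `T`-preimage meets `E5` in `{p ∈ E5 | o p ∉ S}` (`k7we_D_T`), which is `⊆ ⋃_{o0 ∈ B \ S} o ⁻¹' {o0}` : `μ`-null. -/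
theorem k7we_supp (hX : X.Ok) {E5 : Set (X.W.L × ℝ)} (hm : MeasurableSet E5) (hs : E5 ⊆ X.E4) {Kd K' : ℝ} (hKd : 1 ≤ Kd)
    (hdom : ∀ (o0 : ℤ × ℤ × ℤ) (bn : ℤ), X.W.law E5 (X.o ⁻¹' {o0} ∩ X.W.vT bn) ≤ ENNReal.ofReal Kd * X.W.pi bn * X.W.law E5 (X.o ⁻¹' {o0}))
    (hK' : 200000 * X.K ^ 8 * Kd ≤ K') : (X.D E5).Supp K' X.σs X.c X.d X.a2 := by
  classical
  have hK0 : 0 < X.K := lt_of_lt_of_le one_pos hX.K1
  have hKd0 : 0 < Kd := lt_of_lt_of_le one_pos hKd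
  have hσ := k7we_sig_pos X
  have hσ1 := k7we_sig_le_one X
  have hq0 := k7we_q_pos X
  obtain ⟨-, -, -, -, -, -, hc, hq, -⟩ := k7we_pos hX
  have happ : ∀ B : Set (X.W.L × ℝ), X.W.law E5 B = X.W.prior (B ∩ E5) := fun B => Measure.restrict_apply' hm
  set A : Set (X.W.L × ℝ) := {p | p ∈ E5 ∧ X.W.law E5 (X.o ⁻¹' {X.o p}) ≠ 0} with hA
  obtain ⟨I2, c2, m2⟩ := k7we_floor_box (R := X.K ^ 2) hσ (by positivity)
  obtain ⟨I3, -, m3⟩ := k7we_floor_box (R := 5 * X.K ^ 3) hX.a2_pos (by positivity)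
  have h1 : ∃ S : Finset ℤ, (S.card : ℝ) ≤ 1 / X.σs ∧ ∀ p ∈ A, (X.zc p).1 ∈ S := by
    refine ⟨Finset.Ico 0 (2 ^ X.m), ?_, fun p hp => ?_⟩
    · rw [Int.card_Ico]
      have e : ((((2 : ℤ) ^ X.m - 0).toNat : ℕ) : ℝ) = (2 : ℝ) ^ X.m := by
        have h0 : ((2 : ℤ) ^ X.m - 0).toNat = 2 ^ X.m := by
          rw [sub_zero]
          have : (2 : ℤ) ^ X.m = ((2 ^ X.m : ℕ) : ℤ) := by push_cast; rfl
          rw [this, Int.toNat_natCast]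
        rw [h0]
        push_cast
        rfl
      rw [e]
      unfold K7weDat.σs
      rw [one_div, one_div, inv_pow, inv_inv]
    · obtain ⟨b0, b1⟩ := (k7we_blk_iff X p.2).1 (k7we_E4 hX (hs hp.1)).2.2.2.1
      refine Finset.mem_Ico.2 ⟨Int.floor_nonneg.2 (by positivity), Int.floor_lt.2 ?_⟩
      rw [div_lt_iff₀ hσ]
      have e : (((2 : ℤ) ^ X.m : ℤ) : ℝ) * X.σs = 1 := by
        unfold K7weDat.σs
        push_cast
        rw [← mul_pow]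
        norm_num
      rw [e]
      exact b1
  have h2 : ∃ S : Finset ℤ, (S.card : ℝ) ≤ 4 * X.K ^ 2 / X.σs ∧ ∀ p ∈ A, (X.zc p).2 ∈ S := by
    refine ⟨I2, c2.trans ?_, fun p hp => m2 _ ?_⟩
    · have : 1 ≤ X.K ^ 2 / X.σs := by
        rw [le_div_iff₀ hσ]
        nlinarith [hX.K1]
      have e1 : 4 * X.K ^ 2 / X.σs = 4 * (X.K ^ 2 / X.σs) := by ring
      have e2 : 2 * X.K ^ 2 / X.σs = 2 * (X.K ^ 2 / X.σs) := by ring
      rw [e1, e2]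
      linarith
    · obtain ⟨-, -, ha, hb, -, -⟩ := k7we_E4 hX (hs hp.1)
      have := (k7we_bd hX ha hb).1
      rw [abs_div, abs_of_pos hq0, div_le_iff₀ hq0]
      nlinarith
  have h3 : ∀ i j : ℤ, ∃ S : Finset ℤ, (S.card : ℝ) ≤ 40000 * X.K ^ 6 * X.R * Kd ∧
      ∀ p ∈ A, (X.zc p).1 = i → (X.zc p).2 = j → ⌊X.Xo p.1 p.2 / X.a2⌋ ∈ S := by
    intro i j
    refine ⟨I3.filter fun k => X.W.law E5 (X.o ⁻¹' {(i, j, k)}) ≠ 0, ?_, fun p hp hi hj => ?_⟩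
    · exact k7we_supp_cell hX hm hs hKd hdom (i, j) _ fun k hk => (Finset.mem_filter.1 hk).2
    · obtain ⟨-, -, ha, hb, -, -⟩ := k7we_E4 hX (hs hp.1)
      refine Finset.mem_filter.2 ⟨m3 _ (k7we_bd hX ha hb).2.2.2.2.2, ?_⟩
      have e : X.o p = (i, j, ⌊X.Xo p.1 p.2 / X.a2⌋) := by
        unfold K7weDat.o
        rw [hi, hj]
      rw [← e]
      exact hp.2
  obtain ⟨S, hSc, hSm⟩ := k7we_fib3 A (fun p => (X.zc p).1) (fun p => (X.zc p).2) (fun p => ⌊X.Xo p.1 p.2 / X.a2⌋) (by positivity) (by positivity) h1 h2 h3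
  refine ⟨S, ?_, ?_⟩
  · rw [ae_iff]
    have hmeas : MeasurableSet {z : X.W.L × ℝ | ¬ (⌊z.2 / X.σs⌋, ⌊(X.D E5).y z.1 z.2 / X.σs⌋, ⌊(X.D E5).x z.1 z.2 / X.a2⌋) ∈ S} := by
      have hf : Measurable (fun z : X.W.L × ℝ => (⌊z.2 / X.σs⌋, ⌊(X.D E5).y z.1 z.2 / X.σs⌋, ⌊(X.D E5).x z.1 z.2 / X.a2⌋)) := by
        obtain ⟨my, mx, -⟩ := k7we_D_meas hX E5
        exact ((measurable_snd.div_const _).floor).prodMk (((my.div_const _).floor).prodMk ((mx.div_const _).floor))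
      exact hf (MeasurableSet.of_discrete (s := ((S : Set (ℤ × ℤ × ℤ)))ᶜ))
    rw [k7we_mu_apply X hm hmeas]
    have hnull : X.W.prior (E5 ∩ X.T ⁻¹' {z : X.W.L × ℝ | ¬ (⌊z.2 / X.σs⌋, ⌊(X.D E5).y z.1 z.2 / X.σs⌋, ⌊(X.D E5).x z.1 z.2 / X.a2⌋) ∈ S}) = 0 := by
      refine measure_mono_null (t := ⋃ o0 : {o0 : ℤ × ℤ × ℤ // X.W.law E5 (X.o ⁻¹' {o0}) = 0}, (X.o ⁻¹' {(o0 : ℤ × ℤ × ℤ)} ∩ E5)) ?_
        (measure_iUnion_null fun o0 => ?_)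
      · rintro p ⟨hp1, hp2⟩
        have e := (k7we_D_T X E5 (k7we_E4 hX (hs hp1)).2.2.1).2.2.2
        have hp3 : ¬ (⌊(X.T p).2 / X.σs⌋, ⌊(X.D E5).y (X.T p).1 (X.T p).2 / X.σs⌋, ⌊(X.D E5).x (X.T p).1 (X.T p).2 / X.a2⌋) ∈ S := hp2
        rw [e] at hp3
        have hz : X.W.law E5 (X.o ⁻¹' {X.o p}) = 0 := by
          by_contra hne
          exact hp3 (hSm p ⟨hp1, hne⟩)
        exact Set.mem_iUnion.2 ⟨⟨X.o p, hz⟩, rfl, hp1⟩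
      · rw [← happ]
        exact o0.2
    rw [hnull, mul_zero]
  · have hca : 0 < X.c * X.a2 ^ X.d := mul_pos hc (Real.rpow_pos_of_pos hX.a2_pos _)
    calc (S.card : ℝ) * X.σs ^ 2 * (X.c * X.a2 ^ X.d)
        ≤ (1 / X.σs * (4 * X.K ^ 2 / X.σs) * (40000 * X.K ^ 6 * X.R * Kd)) * X.σs ^ 2 * (X.c * X.a2 ^ X.d) := by gcongr
      _ = 160000 * X.K ^ 8 * Kd * (X.c * X.a2 ^ X.d * X.R) := by
          field_simp
          ring
      _ = 160000 * X.K ^ 8 * Kd := by rw [hX.R_eq, mul_one]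
      _ ≤ K' := by
          have : 0 ≤ X.K ^ 8 * Kd := by positivity
          nlinarith

end

end Claimed.Agent.R252

/-!
# ROW 252 (S0492), unit S7w, STAGE E of P7.3 (helper202), file 7: THE CAP AND THE ANGULAR HYPOTHESES OF THM 7.1 (07 l.889-901, step E3).      CONTRACT: leaves L-252-S7w-E-CA, -CB, -CC, -CD.
-/

set_option autoImplicit false

namespace Claimed.Agent.R252

open MeasureTheory
open scoped ENNReal BigOperators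

noncomputable section

variable {X : K7weDat}

/-- two points with the same floor at mesh `w` -/
theorem k7we_capfl_close {x y w : ℝ} (hw : 0 < w) (h : ⌊x / w⌋ = ⌊y / w⌋) : |x - y| < w := by
  have h1 := Int.abs_sub_lt_one_of_floor_eq_floor h
  rw [← sub_div, abs_div, abs_of_pos hw, div_lt_one hw] at h1
  exact h1

/-- **L-252-S7w-E-CA**: the fine base cells over one `z`-cell: old base volume `≤ 45 K (q σs)² b`.
PLAN: `A = {p ∈ inc Q | zc p = ij}`, `w = kbDy σf ∈ [σf, 2σf)` (`k7we_dy`), `kbBin σf x = ⌊x / w⌋` by `rfl`.   On `A` : `|t - t'| ≤ q σs`, `|Z - Z'| ≤ q σs` : `k7we_floor_cover` with `L = q σs/w` : `≤ 2 q σs/w + 3 ≤ 3 q σs/w` bins (`3 w ≤ q σs` from `sm_f`, `h ≤ K q`).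
Given the bins of `t` and `Z` : `|t - t'|, |Z - Z'| < w`, so `|Y_Q - Y_Q'| ≤ 2 K w` (`k7we_row`), `|Y - Y'| ≤ 2 K b + 2 K w` (`k7we_bd`) : `≤ (4 K b + 4 K w)/w + 3 ≤ 5 K b/w` bins (`(4K+3) w ≤ K b`).   `k7we_fib3`.   `#Cs σf³ ≤ #Cs w³ ≤ 45 K (q σs)² b`. -/
theorem k7we_cells (hX : X.Ok) (ij : ℤ × ℤ) : ∃ Cs : Finset (ℤ × ℤ × ℤ), (Cs.card : ℝ) * X.σf ^ 3 ≤ 45 * X.K * (X.W.q * X.σs) ^ 2 * X.b ∧
    ∀ p ∈ X.W.inc X.Q, X.zc p = ij → (kbBin X.σf p.2, kbBin X.σf (X.W.Z p.1 p.2), kbBin X.σf (X.W.Y p.1 p.2)) ∈ Cs := by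
  obtain ⟨hb0, hb1, hbh, hbg, hf0, hχ0, hc0, hhq, hqh⟩ := k7we_pos hX
  obtain ⟨hw1, hw2⟩ := k7we_dy hf0
  obtain ⟨w, hw⟩ : ∃ w, w = kbDy X.σf := ⟨_, rfl⟩
  rw [← hw] at hw1 hw2
  have hw0 : 0 < w := hf0.trans_le hw1
  have hq0 := k7we_q_pos X
  have hs0 := k7we_sig_pos X
  have hs1 := k7we_sig_le_one X
  have hK1 := hX.K1
  have hK0 : 0 < X.K := by linarith
  obtain ⟨hG0, hG1, -⟩ := k7we_G hX
  obtain ⟨D, hD⟩ : ∃ D, D = X.W.q * X.σs := ⟨_, rfl⟩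
  have hD0 : 0 < D := by rw [hD]; positivity
  have hbin : ∀ x, kbBin X.σf x = ⌊x / w⌋ := by
    intro x
    rw [hw]
    rfl
  have hsm : X.G * X.σf ≤ X.a2 * X.b * X.σs := hX.sm_f
  have hsm1 : X.a2 * X.b * X.σs ≤ X.b * X.σs := by
    have : 0 ≤ X.b * X.σs := by positivity
    nlinarith [hX.a2_le]
  have h3w : 3 * w ≤ D := by
    have e1 : X.b * X.σs ≤ X.K * D := by
      rw [hD]
      have : X.b * X.σs ≤ (X.K * X.W.q) * X.σs := mul_le_mul_of_nonneg_right (hbh.trans hhq) hs0.le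
      linarith
    have e2 : 1000 * X.K * X.σf ≤ X.G * X.σf := mul_le_mul_of_nonneg_right hG1 hf0.le
    have e3 : X.K * (1000 * X.σf) ≤ X.K * D := by linarith
    have e4 : 1000 * X.σf ≤ D := le_of_mul_le_mul_left e3 hK0
    linarith
  have h7w : (4 * X.K + 3) * w ≤ X.K * X.b := by
    have e1 : X.b * X.σs ≤ X.b := by nlinarith
    have e2 : 1000 * X.σf ≤ X.G * X.σf := mul_le_mul_of_nonneg_right hG0 hf0.le
    have e3 : 1000 * X.σf ≤ X.b := by linarith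
    have e4 : (4 * X.K + 3) * w ≤ (7 * X.K) * (2 * X.σf) := mul_le_mul (by linarith) hw2.le hw0.le (by positivity)
    nlinarith
  obtain ⟨A, hA⟩ : ∃ A : Set (X.W.L × ℝ), A = {p | p ∈ X.W.inc X.Q ∧ X.zc p = ij} := ⟨_, rfl⟩
  have hAt : ∀ x ∈ A, ∀ y ∈ A, |x.2 - y.2| ≤ D / w * w := by
    intro x hx y hy
    rw [hA] at hx hy
    rw [div_mul_cancel₀ _ hw0.ne']
    have e : X.zc x = X.zc y := hx.2.trans hy.2.symm
    have e1 : ⌊(x.2 - X.tQ) / X.W.q / X.σs⌋ = ⌊(y.2 - X.tQ) / X.W.q / X.σs⌋ := congrArg Prod.fst e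
    rw [div_div, div_div, ← hD] at e1
    have := k7we_capfl_close hD0 e1
    have e2 : x.2 - X.tQ - (y.2 - X.tQ) = x.2 - y.2 := by ring
    rw [e2] at this
    exact this.le
  have hAZ : ∀ x ∈ A, ∀ y ∈ A, |X.W.Z x.1 x.2 - X.W.Z y.1 y.2| ≤ D / w * w := by
    intro x hx y hy
    rw [hA] at hx hy
    rw [div_mul_cancel₀ _ hw0.ne']
    have e : X.zc x = X.zc y := hx.2.trans hy.2.symm
    have e1 : ⌊(X.W.Z x.1 x.2 - X.W.Zc X.Q) / X.W.q / X.σs⌋ = ⌊(X.W.Z y.1 y.2 - X.W.Zc X.Q) / X.W.q / X.σs⌋ := congrArg Prod.snd e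
    rw [div_div, div_div, ← hD] at e1
    have := k7we_capfl_close hD0 e1
    have e2 : X.W.Z x.1 x.2 - X.W.Zc X.Q - (X.W.Z y.1 y.2 - X.W.Zc X.Q) = X.W.Z x.1 x.2 - X.W.Z y.1 y.2 := by ring
    rw [e2] at this
    exact this.le
  have hL0 : 0 ≤ D / w := by positivity
  have hn : 2 * (D / w) + 3 ≤ 3 * (D / w) := by
    have : 3 ≤ D / w := by rw [le_div_iff₀ hw0]; exact h3w
    linarith
  obtain ⟨S1, hS1c, hS1⟩ := k7we_floor_cover A (fun p => p.2) hw0 hL0 hAt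
  obtain ⟨S2, hS2c, hS2⟩ := k7we_floor_cover A (fun p => X.W.Z p.1 p.2) hw0 hL0 hAZ
  obtain ⟨-, -, hr1, hr2⟩ := k7we_row hX
  have h3 : ∀ i j : ℤ, ∃ S : Finset ℤ, (S.card : ℝ) ≤ 5 * X.K * X.b / w ∧
      ∀ x ∈ A, ⌊x.2 / w⌋ = i → ⌊X.W.Z x.1 x.2 / w⌋ = j → ⌊X.W.Y x.1 x.2 / w⌋ ∈ S := by
    intro i j
    have hL : 0 ≤ (2 * X.K * X.b + 2 * X.K * w) / w := by positivity
    obtain ⟨S, hSc, hS⟩ := k7we_floor_cover {x | x ∈ A ∧ ⌊x.2 / w⌋ = i ∧ ⌊X.W.Z x.1 x.2 / w⌋ = j} (fun p => X.W.Y p.1 p.2) hw0 hL (by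
      intro x hx y hy
      rw [div_mul_cancel₀ _ hw0.ne']
      obtain ⟨hxA, hx1, hx2⟩ := hx
      obtain ⟨hyA, hy1, hy2⟩ := hy
      rw [hA] at hxA hyA
      have c1 := (k7we_capfl_close hw0 (hx1.trans hy1.symm)).le
      have c2 := (k7we_capfl_close hw0 (hx2.trans hy2.symm)).le
      have b1 := (k7we_bd hX hxA.1.1 hxA.1.2).2.1
      have b2 := (k7we_bd hX hyA.1.1 hyA.1.2).2.1
      have e : X.W.Y x.1 x.2 - X.W.Y y.1 y.2 = (X.W.Y x.1 x.2 - X.W.YQ X.Q x.2 (X.W.Z x.1 x.2)) + -(X.W.Y y.1 y.2 - X.W.YQ X.Q y.2 (X.W.Z y.1 y.2))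
          + (X.W.r1 X.Q * (x.2 - y.2) + X.W.r2 X.Q * (X.W.Z x.1 x.2 - X.W.Z y.1 y.2)) := by
        unfold K7aW.YQ
        ring
      show |X.W.Y x.1 x.2 - X.W.Y y.1 y.2| ≤ _
      rw [e]
      have m1 : |X.W.r1 X.Q * (x.2 - y.2)| ≤ X.K * w := by
        rw [abs_mul]
        exact mul_le_mul hr1 c1 (abs_nonneg _) hK0.le
      have m2 : |X.W.r2 X.Q * (X.W.Z x.1 x.2 - X.W.Z y.1 y.2)| ≤ X.K * w := by
        rw [abs_mul]
        exact mul_le_mul hr2 c2 (abs_nonneg _) hK0.le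
      refine (abs_add_le _ _).trans ?_
      have t1 := abs_add_le (X.W.Y x.1 x.2 - X.W.YQ X.Q x.2 (X.W.Z x.1 x.2)) (-(X.W.Y y.1 y.2 - X.W.YQ X.Q y.2 (X.W.Z y.1 y.2)))
      have t2 := abs_add_le (X.W.r1 X.Q * (x.2 - y.2)) (X.W.r2 X.Q * (X.W.Z x.1 x.2 - X.W.Z y.1 y.2))
      rw [abs_neg] at t1
      linarith)
    refine ⟨S, hSc.trans ?_, fun x hx h1 h2 => hS x ⟨hx, h1, h2⟩⟩
    rw [le_div_iff₀ hw0]
    have : (2 * ((2 * X.K * X.b + 2 * X.K * w) / w) + 3) * w = 4 * X.K * X.b + (4 * X.K + 3) * w := by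
      field_simp
      ring
    rw [this]
    linarith
  obtain ⟨Cs, hCc, hCs⟩ := k7we_fib3 A (fun p => ⌊p.2 / w⌋) (fun p => ⌊X.W.Z p.1 p.2 / w⌋) (fun p => ⌊X.W.Y p.1 p.2 / w⌋)
    (n1 := 3 * (D / w)) (n2 := 3 * (D / w)) (n3 := 5 * X.K * X.b / w) (by positivity) (by positivity)
    ⟨S1, hS1c.trans hn, hS1⟩ ⟨S2, hS2c.trans hn, hS2⟩ h3
  refine ⟨Cs, ?_, ?_⟩
  · rw [← hD]
    calc (Cs.card : ℝ) * X.σf ^ 3 ≤ (Cs.card : ℝ) * w ^ 3 :=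
          mul_le_mul_of_nonneg_left (pow_le_pow_left₀ hf0.le hw1 3) (Nat.cast_nonneg _)
      _ ≤ (3 * (D / w) * (3 * (D / w)) * (5 * X.K * X.b / w)) * w ^ 3 := mul_le_mul_of_nonneg_right hCc (by positivity)
      _ = 45 * X.K * D ^ 2 * X.b := by
          field_simp
          ring
  · intro p hp hz
    rw [hbin, hbin, hbin]
    exact hCs p (by rw [hA]; exact ⟨hp, hz⟩)

/-- **L-252-S7w-E-CB**: the joint cap of a `z`-cell with the offset `P_nc`.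
PLAN: `Cs` from `k7we_cells`.   `A` = the set on the left.   For a cell `cl` choose (classical) a point `rep cl ∈ A` in that cell if there is one; `f cl = xs + P_nc (base (rep cl))` (else `0`).   For `p ∈ A` in the cell `cl` : `X p = X° p + P_nc(base p)`, `|P_nc(base p) - P_nc(base (rep cl))| ≤ a2 ≤ pw ≤ N^(-r)` (`k7we_pnc_cell`),
so `|X p - f cl| ≤ 2 N^(-r)`.   `A ⊆` the set of `k7a_joint_cells X.W.toK7aLn hX.w.ln hX.N1 hX.K1 hX.Mf_mem hr (κ := 2) .. Cs f V` (`X.W.pt σ p z = (kbBin σ z.2, kbBin σ Z, kbBin σ Y, kbBin p X)` by `rfl`, `X.σf = N^(-Mf)` by `rfl`).   `7 K (N^(-r))^d σf³ #Cs ≤ 315 K² (N^(-r))^d (q σs)² b`. -/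
theorem k7we_cap_core (hX : X.Ok) (ij : ℤ × ℤ) (xs pw r : ℝ) (hr : r ∈ X.Ws) (h1 : X.a2 ≤ pw) (h2 : pw ≤ X.N ^ (-r)) (V : Finset ℤ) :
    X.W.lam0 {p | p ∈ X.W.inc X.Q ∧ X.zc p = ij ∧ X.Xo p.1 p.2 ∈ Set.Ico xs (xs + pw) ∧ X.W.vbin p.1 ∈ V}
      ≤ ENNReal.ofReal (400 * X.K ^ 2 * (X.N ^ (-r)) ^ X.d * (X.W.q * X.σs) ^ 2 * X.b) * ∑ bn ∈ V, X.W.pi bn := by
  classical
  obtain ⟨Cs, hCs, hmem⟩ := k7we_cells hX ij
  obtain ⟨hb0, -, -, -, hf0, -, -, -, -⟩ := k7we_pos hX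
  have hK0 : 0 < X.K := by linarith [hX.K1]
  have hN0 : 0 < X.N := by linarith [hX.N1]
  obtain ⟨A, hA⟩ : ∃ A : Set (X.W.L × ℝ), A = {p | p ∈ X.W.inc X.Q ∧ X.zc p = ij ∧ X.Xo p.1 p.2 ∈ Set.Ico xs (xs + pw) ∧ X.W.vbin p.1 ∈ V} := ⟨_, rfl⟩
  rw [← hA]
  obtain ⟨cellOf, hcell⟩ : ∃ cellOf : X.W.L × ℝ → ℤ × ℤ × ℤ, cellOf = fun p => (kbBin X.σf p.2, kbBin X.σf (X.W.Z p.1 p.2), kbBin X.σf (X.W.Y p.1 p.2)) := ⟨_, rfl⟩
  obtain ⟨f, hf⟩ : ∃ f : ℤ × ℤ × ℤ → ℝ, ∀ p ∈ A, ∃ p' ∈ A, cellOf p' = cellOf p ∧ f (cellOf p) = xs + X.Pnc p'.2 (X.W.Z p'.1 p'.2) (X.W.Y p'.1 p'.2) := by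
    refine ⟨fun cl => if h : ∃ p ∈ A, cellOf p = cl then xs + X.Pnc h.choose.2 (X.W.Z h.choose.1 h.choose.2) (X.W.Y h.choose.1 h.choose.2) else 0, ?_⟩
    intro p hp
    have hex : ∃ p' ∈ A, cellOf p' = cellOf p := ⟨p, hp, rfl⟩
    refine ⟨hex.choose, hex.choose_spec.1, hex.choose_spec.2, ?_⟩
    simp only [dif_pos hex]
  have hsub : A ⊆ {z | ((X.W.pt (X.N ^ (-X.Mf)) (X.N ^ (-r)) z).1, (X.W.pt (X.N ^ (-X.Mf)) (X.N ^ (-r)) z).2.1, (X.W.pt (X.N ^ (-X.Mf)) (X.N ^ (-r)) z).2.2.1) ∈ Cs ∧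
        |X.W.X z.1 z.2 - f ((X.W.pt (X.N ^ (-X.Mf)) (X.N ^ (-r)) z).1, (X.W.pt (X.N ^ (-X.Mf)) (X.N ^ (-r)) z).2.1, (X.W.pt (X.N ^ (-X.Mf)) (X.N ^ (-r)) z).2.2.1)| ≤ 2 * X.N ^ (-r) ∧
        X.W.vbin z.1 ∈ V} := by
    intro p hp
    obtain ⟨p', hp', hc, hfp⟩ := hf p hp
    have hpA := hp
    have hpA' := hp'
    rw [hA] at hpA hpA'
    have hce : ((X.W.pt (X.N ^ (-X.Mf)) (X.N ^ (-r)) p).1, (X.W.pt (X.N ^ (-X.Mf)) (X.N ^ (-r)) p).2.1, (X.W.pt (X.N ^ (-X.Mf)) (X.N ^ (-r)) p).2.2.1) = cellOf p := by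
      rw [hcell]
      rfl
    refine ⟨?_, ?_, hpA.2.2.2⟩
    · rw [hce, hcell]
      exact hmem p hpA.1 hpA.2.1
    · rw [hce, hfp]
      rw [hcell] at hc
      have c1 : kbBin X.σf p.2 = kbBin X.σf p'.2 := (congrArg Prod.fst hc).symm
      have c2 : kbBin X.σf (X.W.Z p.1 p.2) = kbBin X.σf (X.W.Z p'.1 p'.2) := (congrArg (fun x => x.2.1) hc).symm
      have c3 : kbBin X.σf (X.W.Y p.1 p.2) = kbBin X.σf (X.W.Y p'.1 p'.2) := (congrArg (fun x => x.2.2) hc).symm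
      have hv := k7we_pnc_cell hX hpA.1 hpA'.1 c1 c2 c3
      have hxo := hpA.2.2.1
      unfold K7weDat.Xo at hxo
      rw [abs_le] at hv ⊢
      constructor <;> linarith [hxo.1, hxo.2, hv.1, hv.2]
  refine (measure_mono hsub).trans ?_
  refine (k7a_joint_cells X.W.toK7aLn hX.w.ln hX.N1 hX.K1 hX.Mf_mem hr (κ := 2) (by norm_num) Cs f V).trans ?_
  refine mul_le_mul' ?_ le_rfl
  obtain ⟨ρ, hρ⟩ : ∃ ρ, ρ = (X.N ^ (-r)) ^ X.d := ⟨_, rfl⟩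
  have hρ0 : 0 < ρ := by
    rw [hρ]
    exact Real.rpow_pos_of_pos (Real.rpow_pos_of_pos hN0 _) _
  rw [← hρ, ← ENNReal.ofReal_natCast, ← ENNReal.ofReal_mul (by positivity)]
  refine ENNReal.ofReal_le_ofReal ?_
  have hσ : X.N ^ (-X.Mf) = X.σf := rfl
  rw [hσ]
  have hnn : 0 ≤ 45 * X.K * (X.W.q * X.σs) ^ 2 * X.b := by positivity
  calc X.K * (2 * 2 + 3) * ρ * X.σf ^ 3 * (Cs.card : ℝ) = (7 * X.K * ρ) * ((Cs.card : ℝ) * X.σf ^ 3) := by ring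
    _ ≤ (7 * X.K * ρ) * (45 * X.K * (X.W.q * X.σs) ^ 2 * X.b) := mul_le_mul_of_nonneg_left hCs (by positivity)
    _ = 315 * (X.K ^ 2 * ρ * (X.W.q * X.σs) ^ 2 * X.b) := by ring
    _ ≤ 400 * (X.K ^ 2 * ρ * (X.W.q * X.σs) ^ 2 * X.b) := by
        have : 0 ≤ X.K ^ 2 * ρ * (X.W.q * X.σs) ^ 2 * X.b := by positivity
        linarith
    _ = 400 * X.K ^ 2 * ρ * (X.W.q * X.σs) ^ 2 * X.b := by ring

/-- normalisation: `(q σs)² b ≤ K² σs² c⁻¹.. ` : a `lam0`-bound `B (q σs)² b` becomes `K² B σs² c` in units of `q ν_Q`.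
**L-252-S7w-E-CC**.   PLAN: `hX.w.ν_lo X.Q hX.com.Qa : ofReal (a^d h (h g)) ≤ ofReal K ν_Q`; `q ≤ K h`; `c = (a^d)⁻¹`: `B (q σs)² b = (B σs² c (q/h)) · q · (a^d h b) ≤ (K B σs² c) · q · (a^d h b)`; `ENNReal.ofReal_mul`. -/
theorem k7we_norm (hX : X.Ok) {B : ℝ} (hB : 0 ≤ B) :
    ENNReal.ofReal (B * (X.W.q * X.σs) ^ 2 * X.b) ≤ ENNReal.ofReal (X.K ^ 2 * B * X.σs ^ 2 * X.c) * (ENNReal.ofReal X.W.q * X.W.νQ X.Q) := by
  obtain ⟨hb0, -, -, -, -, -, hc0, -, hqK⟩ := k7we_pos hX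
  have hq0 := k7we_q_pos X
  have hs0 := k7we_sig_pos X
  have hK0 : 0 < X.K := lt_of_lt_of_le one_pos hX.K1
  have had : 0 < X.a ^ X.d := Real.rpow_pos_of_pos hX.a_pos _
  have hca : X.c * X.a ^ X.d = 1 := by
    unfold K7weDat.c
    exact inv_mul_cancel₀ had.ne'
  have hν := hX.w.ν_lo X.Q hX.com.Qa
  have hnn : 0 ≤ X.K * B * X.σs ^ 2 * X.c * X.W.q := by positivity
  have hreal : B * (X.W.q * X.σs) ^ 2 * X.b ≤ X.K * B * X.σs ^ 2 * X.c * X.W.q * (X.a ^ X.d * X.h * (X.h * X.g)) := by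
    have e1 : X.K * B * X.σs ^ 2 * X.c * X.W.q * (X.a ^ X.d * X.h * (X.h * X.g)) = (X.c * X.a ^ X.d) * (B * X.σs ^ 2 * X.W.q * X.b * (X.K * X.h)) := by
      unfold K7weDat.b
      ring
    have e2 : B * (X.W.q * X.σs) ^ 2 * X.b = B * X.σs ^ 2 * X.W.q * X.b * X.W.q := by ring
    rw [e1, e2, hca, one_mul]
    exact mul_le_mul_of_nonneg_left hqK (by positivity)
  calc ENNReal.ofReal (B * (X.W.q * X.σs) ^ 2 * X.b)
      ≤ ENNReal.ofReal (X.K * B * X.σs ^ 2 * X.c * X.W.q * (X.a ^ X.d * X.h * (X.h * X.g))) := ENNReal.ofReal_le_ofReal hreal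
    _ = ENNReal.ofReal (X.K * B * X.σs ^ 2 * X.c * X.W.q) * ENNReal.ofReal (X.a ^ X.d * X.h * (X.h * X.g)) := ENNReal.ofReal_mul hnn
    _ ≤ ENNReal.ofReal (X.K * B * X.σs ^ 2 * X.c * X.W.q) * (ENNReal.ofReal X.K * X.W.νQ X.Q) := mul_le_mul' le_rfl hν
    _ = ENNReal.ofReal (X.K ^ 2 * B * X.σs ^ 2 * X.c) * (ENNReal.ofReal X.W.q * X.W.νQ X.Q) := by
        rw [← mul_assoc, ← mul_assoc, ← ENNReal.ofReal_mul hnn, ← ENNReal.ofReal_mul (by positivity)]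
        congr 2
        ring

/-- common part of `k7we_cap` and `k7we_ang` -/
theorem k7we_cap_aux (hX : X.Ok) {E5 : Set (X.W.L × ℝ)} (hm : MeasurableSet E5) (hs : E5 ⊆ X.E4) (ij : ℤ × ℤ) (xs pw r : ℝ) (hr : r ∈ X.Ws)
    (h1 : X.a2 ≤ pw) (h2 : pw ≤ X.N ^ (-r)) (V : Finset ℤ) {A : Set (X.W.L × ℝ)} (hA : MeasurableSet A)
    (hAs : ∀ p ∈ E5, X.T p ∈ A → X.zc p = ij ∧ X.Xo p.1 p.2 ∈ Set.Ico xs (xs + pw) ∧ X.W.vbin p.1 ∈ V)
    {Pw B0 : ℝ} (hPw0 : 0 ≤ Pw) (hPw : ∑ bn ∈ V, X.W.pi bn ≤ ENNReal.ofReal Pw) (hB : 400 * X.K ^ 2 * (X.N ^ (-r)) ^ X.d * Pw ≤ B0) :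
    (X.D E5).mu A ≤ ENNReal.ofReal (X.K ^ 2 * B0 * X.σs ^ 2 * X.c) := by
  obtain ⟨hb0, -, -, -, hf0, -, -, -, -⟩ := k7we_pos hX
  have hK0 : 0 < X.K := by linarith [hX.K1]
  have hN0 : 0 < X.N := by linarith [hX.N1]
  obtain ⟨ρ, hρ⟩ : ∃ ρ, ρ = (X.N ^ (-r)) ^ X.d := ⟨_, rfl⟩
  have hρ0 : 0 < ρ := by
    rw [hρ]
    exact Real.rpow_pos_of_pos (Real.rpow_pos_of_pos hN0 _) _
  refine k7we_mu_le hX hm hA ?_
  have hB0 : 0 ≤ B0 := le_trans (by rw [← hρ]; positivity) hB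
  refine le_trans ?_ (k7we_norm hX hB0)
  calc X.W.prior (E5 ∩ X.T ⁻¹' A)
      ≤ X.W.lam0 {p | p ∈ X.W.inc X.Q ∧ X.zc p = ij ∧ X.Xo p.1 p.2 ∈ Set.Ico xs (xs + pw) ∧ X.W.vbin p.1 ∈ V} := by
        unfold K7aLn.lam0 K7aLn.law
        rw [Measure.restrict_apply' hX.w.ln.m_Ev0]
        refine measure_mono ?_
        intro p hp
        obtain ⟨-, hEv, hasg, hblk, -, -⟩ := k7we_E4 hX (hs hp.1)
        exact ⟨⟨⟨hasg, hblk⟩, hAs p hp.1 hp.2⟩, hEv⟩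
    _ ≤ ENNReal.ofReal (400 * X.K ^ 2 * (X.N ^ (-r)) ^ X.d * (X.W.q * X.σs) ^ 2 * X.b) * ∑ bn ∈ V, X.W.pi bn :=
        k7we_cap_core hX ij xs pw r hr h1 h2 V
    _ ≤ ENNReal.ofReal (400 * X.K ^ 2 * (X.N ^ (-r)) ^ X.d * (X.W.q * X.σs) ^ 2 * X.b) * ENNReal.ofReal Pw := mul_le_mul' le_rfl hPw
    _ = ENNReal.ofReal (400 * X.K ^ 2 * (X.N ^ (-r)) ^ X.d * (X.W.q * X.σs) ^ 2 * X.b * Pw) := by
        rw [← hρ]
        exact (ENNReal.ofReal_mul (by positivity)).symm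
    _ ≤ ENNReal.ofReal (B0 * (X.W.q * X.σs) ^ 2 * X.b) := by
        refine ENNReal.ofReal_le_ofReal ?_
        have : 0 ≤ (X.W.q * X.σs) ^ 2 * X.b := by positivity
        calc 400 * X.K ^ 2 * (X.N ^ (-r)) ^ X.d * (X.W.q * X.σs) ^ 2 * X.b * Pw
            = (400 * X.K ^ 2 * (X.N ^ (-r)) ^ X.d * Pw) * ((X.W.q * X.σs) ^ 2 * X.b) := by ring
          _ ≤ B0 * ((X.W.q * X.σs) ^ 2 * X.b) := mul_le_mul_of_nonneg_right hB this
          _ = B0 * (X.W.q * X.σs) ^ 2 * X.b := by ring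

/-- the mesh cells of `X.D E5` are measurable -/
theorem k7we_cell_meas (hX : X.Ok) (E5 : Set (X.W.L × ℝ)) (i j : ℤ) : MeasurableSet ((X.D E5).cell X.σs i j) := by
  have m1 : Measurable (fun z : X.W.L × ℝ => ⌊z.2 / X.σs⌋) := (measurable_snd.div_const _).floor
  have m2 : Measurable (fun z : X.W.L × ℝ => ⌊(X.D E5).y z.1 z.2 / X.σs⌋) := ((k7we_D_meas hX E5).1.div_const _).floor
  exact (m1 (measurableSet_singleton i)).inter (m2 (measurableSet_singleton j))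

/-- **L-252-S7w-E-CD** (first half): the first hypothesis of Thm 7.1.
PLAN: fix `i j p xs`.   The set `A = cell σs i j ∩ {x ∈ Ico xs (xs+p)}` is measurable (`k7we_D_meas`, floors).   `k7we_mu_le` reduces to `prior (E5 ∩ T ⁻¹' A) ≤ ofReal (K' σs² c p^d) (q ν_Q)`.
`E5 ⊆ E4 ⊆ Ev0 ∩ inc Q`, so `prior (E5 ∩ T⁻¹ A) ≤ lam0 {p ∈ inc Q | zc p = (i,j), X° p ∈ Ico .., vbin ∈ V}` (`k7we_D_T`; `V` from `k7we_Vall`; `lam0 B = prior (B ∩ Ev0)`).   `r` from `hX.grid p` : `p ≤ N^(-r) ≤ K p`, `(N^(-r))^d ≤ K p^d` (`0 ≤ d ≤ 1`, `K ≥ 1`).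
`k7we_cap_core`, `∑_V pi ≤ 1`, `k7we_norm` with `B = 400 K³ p^d`. -/
theorem k7we_cap (hX : X.Ok) {E5 : Set (X.W.L × ℝ)} (hm : MeasurableSet E5) (hs : E5 ⊆ X.E4) {K' : ℝ} (hK' : 400 * X.K ^ 5 ≤ K') :
    (X.D E5).Cap K' X.σs X.c X.d X.a2 := by
  intro i j p xs hp1 hp2
  obtain ⟨V, hV, hVs⟩ := k7we_Vall hX
  obtain ⟨r, hr, hr1, hr2⟩ := hX.grid p hp1 hp2
  obtain ⟨-, -, -, -, -, -, hc0, -, -⟩ := k7we_pos hX
  have hK1 := hX.K1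
  have hK0 : 0 < X.K := by linarith
  have hN0 : 0 < X.N := by linarith [hX.N1]
  have hp0 : 0 < p := hX.a2_pos.trans_le hp1
  have hs0 := k7we_sig_pos X
  have hA : MeasurableSet ((X.D E5).cell X.σs i j ∩ {z | (X.D E5).x z.1 z.2 ∈ Set.Ico xs (xs + p)}) :=
    (k7we_cell_meas hX E5 i j).inter ((k7we_D_meas hX E5).2.1 measurableSet_Ico)
  have hpd : 0 < p ^ X.d := Real.rpow_pos_of_pos hp0 _
  have hρ : (X.N ^ (-r)) ^ X.d ≤ X.K * p ^ X.d := by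
    calc (X.N ^ (-r)) ^ X.d ≤ (X.K * p) ^ X.d := Real.rpow_le_rpow (Real.rpow_pos_of_pos hN0 _).le hr2 hX.d0
      _ = X.K ^ X.d * p ^ X.d := Real.mul_rpow hK0.le hp0.le
      _ ≤ X.K * p ^ X.d := by
          refine mul_le_mul_of_nonneg_right ?_ hpd.le
          calc X.K ^ X.d ≤ X.K ^ (1 : ℝ) := Real.rpow_le_rpow_of_exponent_le hK1 hX.d1
            _ = X.K := Real.rpow_one _
  refine (k7we_cap_aux hX hm hs (i, j) xs p r hr hp1 hr1 V hA ?_ (Pw := 1) (B0 := 400 * X.K ^ 3 * p ^ X.d) zero_le_one (by simpa using hVs) ?_).trans ?_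
  · intro z hz hT
    obtain ⟨-, -, hasg, -, -, hSp⟩ := k7we_E4 hX (hs hz)
    obtain ⟨-, e2, e3, -⟩ := k7we_D_T X E5 hasg
    refine ⟨?_, ?_, hV _ hSp⟩
    · rw [← e3]
      exact Prod.ext hT.1.1 hT.1.2
    · rw [← e2]
      exact hT.2
  · have : 400 * X.K ^ 2 * (X.N ^ (-r)) ^ X.d ≤ 400 * X.K ^ 2 * (X.K * p ^ X.d) := mul_le_mul_of_nonneg_left hρ (by positivity)
    calc 400 * X.K ^ 2 * (X.N ^ (-r)) ^ X.d * 1 ≤ 400 * X.K ^ 2 * (X.K * p ^ X.d) := by linarith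
      _ = 400 * X.K ^ 3 * p ^ X.d := by ring
  · refine ENNReal.ofReal_le_ofReal ?_
    calc X.K ^ 2 * (400 * X.K ^ 3 * p ^ X.d) * X.σs ^ 2 * X.c = (400 * X.K ^ 5) * (X.σs ^ 2 * X.c * p ^ X.d) := by ring
      _ ≤ K' * (X.σs ^ 2 * X.c * p ^ X.d) := mul_le_mul_of_nonneg_right hK' (by positivity)
      _ = K' * X.σs ^ 2 * X.c * p ^ X.d := by ring

/-- **L-252-S7w-E-CD** (second half): the angular hypothesis, `S1 = S`.
PLAN: as `k7we_cap` with `p = a2`, `r = r2` (`hX.a2_eq`), and `V` = the finest bins `bn` whose interval `k7aBinI χ0 bn` meets `Ico vs (vs + ρ)`, `ρ = N^(-u)` (a finite `Finset.Icc`); `(X.D E5).y1 l = v l` on `asg Q` (`k7we_D_y1`).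
`∑_V pi = pal (⋃ bins)` (`k7we_pi_sum`) `≤ pal (Icc (x - ρ) (x + ρ))`, `x = vs + ρ/2`, because `kbDy χ0 < 2 χ0 ≤ ρ/2` (`hX.sm_u1`, `N^(-u1) ≤ N^(-u)`); `hX.w.ln.pal_ball x ρ` : `≤ ofReal (K ρ^S)`, `ρ^S = N^(-(S u))` (`Real.rpow_mul`).   `k7we_norm` with `B = 400 K³ a2^d N^(-(S u))`. -/
theorem k7we_ang (hX : X.Ok) {E5 : Set (X.W.L × ℝ)} (hm : MeasurableSet E5) (hs : E5 ⊆ X.E4) {K' : ℝ} (hK' : 400 * X.K ^ 5 ≤ K') :
    (X.D E5).Ang K' X.σs X.c X.d X.a2 X.N X.S X.u1 := by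
  intro i j xs vs u hu0 hu1
  obtain ⟨-, -, -, -, -, hχ0, hc0, -, -⟩ := k7we_pos hX
  have hK1 := hX.K1
  have hK0 : 0 < X.K := by linarith
  have hN0 : 0 < X.N := by linarith [hX.N1]
  have hs0 := k7we_sig_pos X
  obtain ⟨hw1, hw2⟩ := k7we_dy hχ0
  obtain ⟨w, hw⟩ : ∃ w, w = kbDy X.W.χ0 := ⟨_, rfl⟩
  rw [← hw] at hw1 hw2
  have hw0 : 0 < w := hχ0.trans_le hw1
  obtain ⟨ρ, hρ⟩ : ∃ ρ, ρ = X.N ^ (-u) := ⟨_, rfl⟩
  have hρ0 : 0 < ρ := by rw [hρ]; exact Real.rpow_pos_of_pos hN0 _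
  have hρ1 : 4 * X.W.χ0 ≤ ρ := by
    rw [hρ]
    exact hX.sm_u1.trans (Real.rpow_le_rpow_of_exponent_le hX.N1.le (by linarith))
  have hwρ : w ≤ ρ / 2 := by linarith
  have hA : MeasurableSet ((X.D E5).cell X.σs i j ∩ {z | (X.D E5).x z.1 z.2 ∈ Set.Ico xs (xs + X.a2) ∧ (X.D E5).y1 z.1 ∈ Set.Ico vs (vs + X.N ^ (-u))}) :=
    (k7we_cell_meas hX E5 i j).inter (((k7we_D_meas hX E5).2.1 measurableSet_Ico).inter ((k7we_D_meas hX E5).2.2 measurableSet_Ico))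
  have had : 0 < X.a2 ^ X.d := Real.rpow_pos_of_pos hX.a2_pos _
  have hNS : 0 < X.N ^ (-(X.S * u)) := Real.rpow_pos_of_pos hN0 _
  have hsum : ∑ bn ∈ Finset.Icc ⌊vs / w⌋ ⌊(vs + ρ) / w⌋, X.W.pi bn ≤ ENNReal.ofReal (X.K * X.N ^ (-(X.S * u))) := by
    rw [k7we_pi_sum hX]
    have hsub : (⋃ bn ∈ Finset.Icc ⌊vs / w⌋ ⌊(vs + ρ) / w⌋, k7aBinI X.W.χ0 bn) ⊆ Set.Icc (vs + ρ / 2 - ρ) (vs + ρ / 2 + ρ) := by
      intro y hy
      simp only [Set.mem_iUnion] at hy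
      obtain ⟨bn, hbn, hy⟩ := hy
      rw [Finset.mem_Icc] at hbn
      unfold k7aBinI at hy
      rw [← hw] at hy
      have l1 : vs / w < (bn : ℝ) + 1 := by
        have := Int.lt_floor_add_one (vs / w)
        have h' : ((⌊vs / w⌋ : ℤ) : ℝ) ≤ (bn : ℝ) := by exact_mod_cast hbn.1
        linarith
      have l2 : (bn : ℝ) ≤ (vs + ρ) / w := by
        have := Int.floor_le ((vs + ρ) / w)
        have h' : (bn : ℝ) ≤ ((⌊(vs + ρ) / w⌋ : ℤ) : ℝ) := by exact_mod_cast hbn.2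
        linarith
      rw [div_lt_iff₀ hw0] at l1
      rw [le_div_iff₀ hw0] at l2
      constructor
      · nlinarith [hy.1]
      · nlinarith [hy.2]
    refine (measure_mono hsub).trans ?_
    refine (hX.w.ln.pal_ball _ ρ (by linarith)).trans (le_of_eq ?_)
    congr 2
    rw [hρ, ← Real.rpow_mul hN0.le]
    congr 1
    ring
  refine (k7we_cap_aux hX hm hs (i, j) xs X.a2 X.r2 hX.r2_mem le_rfl hX.a2_eq.le (Finset.Icc ⌊vs / w⌋ ⌊(vs + ρ) / w⌋) hA ?_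
    (Pw := X.K * X.N ^ (-(X.S * u))) (B0 := 400 * X.K ^ 3 * X.a2 ^ X.d * X.N ^ (-(X.S * u))) (by positivity) hsum ?_).trans ?_
  · intro z hz hT
    obtain ⟨-, -, hasg, -, -, hSp⟩ := k7we_E4 hX (hs hz)
    obtain ⟨-, e2, e3, -⟩ := k7we_D_T X E5 hasg
    refine ⟨?_, ?_, ?_⟩
    · rw [← e3]
      exact Prod.ext hT.1.1 hT.1.2
    · rw [← e2]
      exact hT.2.1
    · have hv : X.W.v z.1 ∈ Set.Ico vs (vs + ρ) := by
        have := hT.2.2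
        have e : (X.D E5).y1 (X.T z).1 = X.W.v z.1 := k7we_D_y1 X E5 hasg
        rw [e, ← hρ] at this
        exact this
      have hb : X.W.vbin z.1 = ⌊X.W.v z.1 / w⌋ := by
        rw [hw]
        rfl
      rw [hb, Finset.mem_Icc]
      exact ⟨Int.floor_le_floor (div_le_div_of_nonneg_right hv.1 hw0.le), Int.floor_le_floor (div_le_div_of_nonneg_right hv.2.le hw0.le)⟩
  · rw [← hX.a2_eq]
    exact le_of_eq (by ring)
  · refine ENNReal.ofReal_le_ofReal ?_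
    calc X.K ^ 2 * (400 * X.K ^ 3 * X.a2 ^ X.d * X.N ^ (-(X.S * u))) * X.σs ^ 2 * X.c
        = (400 * X.K ^ 5) * (X.σs ^ 2 * X.c * X.a2 ^ X.d * X.N ^ (-(X.S * u))) := by ring
      _ ≤ K' * (X.σs ^ 2 * X.c * X.a2 ^ X.d * X.N ^ (-(X.S * u))) := mul_le_mul_of_nonneg_right hK' (by positivity)
      _ = K' * X.σs ^ 2 * X.c * X.a2 ^ X.d * X.N ^ (-(X.S * u)) := by ring

end

end Claimed.Agent.R252

/-!
# ROW 252 (S0492), unit S7w, STAGE E of P7.3 (helper202), file 9: ASSEMBLY.      `k7we_stageE : k7a_T71a → K7wStageE`.      CONTRACT: leaves L-252-S7w-E-XA (grid), -XB (record), the rest is glue (helper202).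
-/

set_option autoImplicit false

namespace Claimed.Agent.R252

open MeasureTheory
open scoped ENNReal BigOperators

noncomputable section

/-- **all hypotheses of Thm 7.1 (angular form) for the data of stage E**, explicit slack -/
theorem k7we_build {X : K7weDat} (hX : X.Ok) {K' : ℝ} (hK' : 2 * 10 ^ 8 * X.K ^ 13 ≤ K') :
    ∃ E5 : Set (X.W.L × ℝ), MeasurableSet E5 ∧ E5 ⊆ X.E4 ∧ (X.D E5).Adm K' ∧ (X.D E5).Cap K' X.σs X.c X.d X.a2 ∧ (X.D E5).Supp K' X.σs X.c X.d X.a2 ∧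
      (X.D E5).Ang K' X.σs X.c X.d X.a2 X.N X.S X.u1 := by
  obtain ⟨E5, hm, hs, hmass, hdom⟩ := k7we_prune_app hX
  have hK := hX.K1
  have hp : ∀ j : ℕ, j ≤ 13 → X.K ^ j ≤ X.K ^ 13 := fun j hj => pow_le_pow_right₀ hK hj
  have h13 : 1 ≤ X.K ^ 13 := one_le_pow₀ hK
  refine ⟨E5, hm, hs, k7we_adm hX hm hs hmass ?_ ?_, k7we_cap hX hm hs ?_, k7we_supp hX hm hs (Kd := 600 * X.K ^ 5) ?_ hdom ?_, k7we_ang hX hm hs ?_⟩
  · linarith [hp 3 (by norm_num)]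
  · have := hp 1 (by norm_num)
    rw [pow_one] at this
    linarith
  · linarith [hp 5 (by norm_num)]
  · linarith [one_le_pow₀ hK (n := 5)]
  · have e : 200000 * X.K ^ 8 * (600 * X.K ^ 5) = 120000000 * X.K ^ 13 := by ring
    rw [e]
    linarith
  · linarith [hp 5 (by norm_num)]

/-! ## The exponents -/

/-- the `τ`-grid of width exponents in `[0, r2]` -/
def k7weGrid (τ r2 : ℝ) : Finset ℝ :=
  insert r2 (((Finset.range (⌈r2 / τ⌉₊ + 1)).image fun k : ℕ => (k : ℝ) * τ).filter fun r => r ≤ r2)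

/-- **L-252-S7w-E-XA**: the grid.
PLAN: membership: `Finset.mem_insert, mem_filter, mem_image`.   Grid property: `ρ = -Real.logb N pw ∈ [0, r2]` (`pw = N^(-ρ)` by `Real.rpow_logb`), `k = ⌊ρ/τ⌋₊`, `r = k τ ≤ ρ < r + τ`; `k ≤ ⌈r2/τ⌉₊`; `N^(-r) ≥ N^(-ρ) = pw`, `N^(-r) ≤ N^(τ - ρ) = N^τ pw` (`Real.rpow_add`, `Real.rpow_le_rpow_of_exponent_le`). -/
theorem k7we_grid {N τ r2 : ℝ} (hN : 1 < N) (hτ : 0 < τ) (hr : 0 ≤ r2) :
    r2 ∈ k7weGrid τ r2 ∧ (∀ r ∈ k7weGrid τ r2, 0 ≤ r ∧ r ≤ r2) ∧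
      ∀ pw : ℝ, N ^ (-r2) ≤ pw → pw ≤ 1 → ∃ r ∈ k7weGrid τ r2, pw ≤ N ^ (-r) ∧ N ^ (-r) ≤ N ^ τ * pw := by
  have hN0 : 0 < N := by linarith
  refine ⟨Finset.mem_insert_self _ _, fun r hr' => ?_, fun pw h1 h2 => ?_⟩
  · rcases Finset.mem_insert.1 hr' with h | h
    · rw [h]
      exact ⟨hr, le_rfl⟩
    · obtain ⟨h3, h4⟩ := Finset.mem_filter.1 h
      obtain ⟨k, -, hk⟩ := Finset.mem_image.1 h3
      refine ⟨?_, h4⟩
      rw [← hk]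
      positivity
  · have hpw : 0 < pw := (Real.rpow_pos_of_pos hN0 _).trans_le h1
    set ρ : ℝ := -Real.logb N pw with hρ
    have hpwρ : N ^ (-ρ) = pw := by
      rw [hρ, neg_neg]
      exact Real.rpow_logb hN0 hN.ne' hpw
    have hρ0 : 0 ≤ ρ := by
      rw [hρ]
      exact neg_nonneg.2 (Real.logb_nonpos hN hpw.le h2)
    have hρ2 : ρ ≤ r2 := by
      rw [← hpwρ, Real.rpow_le_rpow_left_iff hN] at h1
      linarith
    have hk1 : ((⌊ρ / τ⌋₊ : ℕ) : ℝ) ≤ ρ / τ := Nat.floor_le (div_nonneg hρ0 hτ.le)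
    have hk2 : ρ / τ < (⌊ρ / τ⌋₊ : ℕ) + 1 := Nat.lt_floor_add_one _
    rw [le_div_iff₀ hτ] at hk1
    rw [div_lt_iff₀ hτ] at hk2
    refine ⟨(⌊ρ / τ⌋₊ : ℕ) * τ, ?_, ?_, ?_⟩
    · refine Finset.mem_insert_of_mem (Finset.mem_filter.2 ⟨Finset.mem_image.2 ⟨⌊ρ / τ⌋₊, ?_, rfl⟩, hk1.trans hρ2⟩)
      rw [Finset.mem_range]
      have h3 : ⌊ρ / τ⌋₊ ≤ ⌈r2 / τ⌉₊ :=
        (Nat.floor_le_floor (div_le_div_of_nonneg_right hρ2 hτ.le)).trans (Nat.floor_le_ceil _)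
      omega
    · rw [← hpwρ]
      exact Real.rpow_le_rpow_of_exponent_le hN.le (by linarith)
    · rw [← hpwρ, ← Real.rpow_add hN0]
      exact Real.rpow_le_rpow_of_exponent_le hN.le (by linarith)

/-- the gap exponent -/
def K7wExp.kap (x : K7wExp) : ℝ := min 1 (min (x.u / 2) ((1 - x.d) * x.u / 4))

/-- the exponent of the mesh of the scalar projection -/
def K7wExp.Mst (x : K7wExp) (Mχ : ℝ) : ℝ := Mχ + x.s + x.c2 + x.B 0 + 1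

/-- the exponent of the fine base mesh -/
def K7wExp.Mfi (x : K7wExp) (Mχ : ℝ) : ℝ := x.Mst Mχ + x.s + x.c2 + x.eh + x.eg + 1

/-- the bound of all required exponents, and the exponent of the finest velocity mesh -/
def K7wExp.M0e (x : K7wExp) (Mχ : ℝ) : ℝ := x.Mfi Mχ + Mχ + 2

/-- the record of stage E -/
def k7weMk (x : K7wExp) (Mχ N τ : ℝ) (m : ℕ) (W : K7aW) (P : Fin 3 → K7aLayer W.toK7aLn) (β : Fin 3 → ℝ) (E : Set (W.L × ℝ)) (Q : W.Q)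
    (γ0 γ1 γ2 C2 : ℝ) (E4 : Set (W.L × ℝ)) : K7weDat where
  W := W
  P := P
  E := E
  Q := Q
  γ0 := γ0
  γ1 := γ1
  γ2 := γ2
  C2 := C2
  E4 := E4
  N := N
  K := N ^ τ
  d := x.d
  S := x.S
  a := N ^ (-x.s)
  a2 := N ^ (-(x.s + x.c2))
  h := N ^ (-x.eh)
  g := N ^ (-x.eg)
  χ := N ^ (-Mχ)
  e := N ^ (-x.ee)
  ε := N ^ (-x.s - x.u)
  Lam := N ^ (x.u / 2)
  β0 := β 0
  β2 := β 2
  R := N ^ (x.d * (x.st 2 - x.s))
  Ms := {x.Mfi Mχ}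
  Ws := k7weGrid τ (x.s + x.c2)
  Mf := x.Mfi Mχ
  r2 := x.s + x.c2
  m := m
  u1 := 1

/-- the definitions of this file are cited here: the on-demand equation lemmas are generated in THIS module -/
theorem k7we_main_eqns_cite : True := by
  have := @k7weGrid.eq_1
  have := @K7wExp.kap.eq_1
  have := @K7wExp.Mst.eq_1
  have := @K7wExp.Mfi.eq_1
  have := @K7wExp.M0e.eq_1
  have := @k7weMk.eq_1
  trivial

/-- **L-252-S7w-E-XB**: the record is `Ok`.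
PLAN: every field is either a hypothesis (after `x.st 0 = x.s`, `x.st 2 = x.s + x.c2` [`simp [K7wExp.st]`], `N^(-eh-eg) = N^(-eh) * N^(-eg)` [`Real.rpow_add`, `sub_eq_add_neg`]) or an inequality between powers of `N`:  write `G = 1000 (N^τ)^6`, so `2 G N^τ ≤ N^κ` by `hG`, `κ = x.kap ≤ 1, u/2, (1-d)u/4`;
reduce each `sm_*` to `N^κ N^A ≤ N^B` with `κ + A ≤ B` (`← Real.rpow_add`, `Real.rpow_le_rpow_of_exponent_le`):
`sm_Lam` `κ ≤ u/2`;  `sm_e` `κ - ee ≤ -s - c2` (`c1`);  `sm_ε` `c2 ≤ u`;  `sm_χ` `κ - Mχ ≤ -eh - eg` (`hMχ`);  `sm_σ1` `σs ≤ N^(-Mst)`, `Mst ≥ Mχ + 1`;  `sm_σ2` `N^(-B 0) ≤ N^τ β 0` (`βlo`), `Mst ≥ s + c2 + B 0 + 1`;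
`sm_f` `N^(-Mst) ≤ 2 σs`;  `sm_χ0` `χ0 ≤ N^(-M0e)`;  `sm_u1` `4 ≤ N^κ`.   `β0_le` : `βhi`, `B 0 ≥ eg > 0`.   `b_le` : `Bb 0` gives `B 0 ≤ eh + eg`, then `βlo`.   `R_eq` : `← Real.rpow_mul`, `← Real.rpow_neg`, `← Real.rpow_add`, exponent `0`.   `grid`, `r2_mem` : `k7we_grid`. -/
theorem k7we_mk_ok {x : K7wExp} (hx : x.Adm) {Mχ N τ : ℝ} {m : ℕ} (hMχ : x.eh + x.eg + 1 ≤ Mχ) (hN : 1 < N) (hτ : 0 < τ)
    (hG : 2000 * (N ^ τ) ^ 7 ≤ N ^ x.kap) (hm1 : (1 / 2 : ℝ) ^ m ≤ N ^ (-x.Mst Mχ)) (hm2 : N ^ (-x.Mst Mχ) ≤ 2 * (1 / 2 : ℝ) ^ m)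
    {W : K7aW} {P : Fin 3 → K7aLayer W.toK7aLn} {β : Fin 3 → ℝ} {E : Set (W.L × ℝ)} {Q : W.Q} {γ0 γ1 γ2 C2 : ℝ} {E4 : Set (W.L × ℝ)}
    (h1 : K7wHyp x Mχ N (N ^ τ) {x.Mfi Mχ} (k7weGrid τ (x.s + x.c2)) W P β E) (h2 : W.χ0 ≤ N ^ (-x.M0e Mχ))
    (h3 : K7wVar W P (N ^ (-x.eh - x.eg)) (N ^ (-x.s - x.u)) (N ^ (x.u / 2)) E)
    (h4 : K7wCnt W P E (N ^ τ) (N ^ (-x.eg)) (fun i => N ^ (x.d * (x.st i - x.s))))
    (h5 : K7wCommon W (P 0) E (N ^ τ) (N ^ (-x.ee)) (N ^ (-x.eh - x.eg)) (N ^ (-x.eh)) Q γ0 γ1 γ2 C2 E4) :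
    (k7weMk x Mχ N τ m W P β E Q γ0 γ1 γ2 C2 E4).Ok := by
  have hN0 : 0 < N := by linarith
  have hK1 : 1 ≤ N ^ τ := Real.one_le_rpow hN.le hτ.le
  have hK0 : 0 < N ^ τ := by linarith
  have hκ1 : x.kap ≤ 1 := min_le_left _ _
  have hκ2 : x.kap ≤ x.u / 2 := (min_le_right _ _).trans (min_le_left _ _)
  have hκ3 : x.kap ≤ (1 - x.d) * x.u / 4 := (min_le_right _ _).trans (min_le_right _ _)
  have hpos : ∀ A : ℝ, 0 < N ^ A := fun A => Real.rpow_pos_of_pos hN0 A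
  have hmono : ∀ {A B : ℝ}, A ≤ B → N ^ A ≤ N ^ B := fun h => Real.rpow_le_rpow_of_exponent_le hN.le h
  have hle1 : ∀ {A : ℝ}, A ≤ 0 → N ^ A ≤ 1 := fun h => by
    have := hmono h
    rwa [Real.rpow_zero] at this
  have hp : ∀ {A B : ℝ}, x.kap + A ≤ B → N ^ x.kap * N ^ A ≤ N ^ B := fun h => by
    rw [← Real.rpow_add hN0]
    exact hmono h
  have hK6 : 1 ≤ (N ^ τ) ^ 6 := one_le_pow₀ hK1
  have e7 : (N ^ τ) ^ 7 = (N ^ τ) ^ 6 * N ^ τ := pow_succ _ _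
  have h67 : (N ^ τ) ^ 6 ≤ (N ^ τ) ^ 7 := by
    rw [e7]
    nlinarith
  have g1 : 1000 * (N ^ τ) ^ 6 ≤ N ^ x.kap := by linarith
  have g2 : 2 * (1000 * (N ^ τ) ^ 6) ≤ N ^ x.kap := by linarith
  have g3 : 1000 * (N ^ τ) ^ 6 * N ^ τ ≤ N ^ x.kap := by
    rw [mul_assoc, ← e7]
    linarith [pow_pos hK0 7]
  have g4 : 4 ≤ N ^ x.kap := by linarith
  have hb : N ^ (-x.eh - x.eg) = N ^ (-x.eh) * N ^ (-x.eg) := by rw [sub_eq_add_neg, Real.rpow_add hN0]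
  have st0 : x.st 0 = x.s := by simp [K7wExp.st]
  have st2 : x.st 2 = x.s + x.c2 := by simp [K7wExp.st]
  have hs := hx.s0
  have hc := hx.c0
  have heh := hx.eh0
  have heg := hx.eg0
  have hu := hx.u0
  have hd1 : 0 < 1 - x.d := by linarith [hx.d1]
  have hB0 : 0 < x.B 0 := lt_of_lt_of_le heg (hx.Bg 0)
  have hBb : x.B 0 ≤ x.eh + x.eg := by
    have h6 := hx.Bb 0
    have h7 : 0 ≤ (10 / (1 - x.d) + 3) * x.u := by positivity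
    linarith
  have hdu : 0 < (1 - x.d) * x.u := mul_pos hd1 hu
  have hcu : x.c2 ≤ x.u := by
    have h6 := hx.c1
    have h7 : (1 - x.d) * x.u ≤ x.u := by nlinarith [hx.d0]
    linarith
  have hσ0 : 0 < (1 / 2 : ℝ) ^ m := by positivity
  have hβlo := h1.βlo 0
  have hβhi := h1.βhi 0
  have hβ0 : 0 < β 0 := by
    by_contra hcon
    have : N ^ τ * β 0 ≤ 0 := mul_nonpos_of_nonneg_of_nonpos hK0.le (not_lt.1 hcon)
    linarith [hpos (-x.B 0)]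
  have hgrid := k7we_grid hN hτ (by linarith : 0 ≤ x.s + x.c2)
  have hχ0 : 0 < W.χ0 := h1.w.ln.χ0_pos
  exact
  { N1 := hN
    K1 := hK1
    d0 := hx.d0
    d1 := hx.d1.le
    a_pos := hpos _
    a2_pos := hpos _
    a2_le := hle1 (by linarith)
    h_pos := hpos _
    h_le := hle1 (by linarith)
    g_pos := hpos _
    g_le := hle1 (by linarith)
    χ_pos := hpos _
    e_nn := (hpos _).le
    β0_pos := hβ0
    β0_le := by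
      show β 0 ≤ N ^ τ
      have := hle1 (A := -x.B 0) (by linarith)
      nlinarith
    b_le := by
      show N ^ (-x.eh) * N ^ (-x.eg) ≤ N ^ τ * β 0
      rw [← hb]
      exact (hmono (by linarith)).trans hβlo
    R_eq := by
      show ((N ^ (-x.s)) ^ x.d)⁻¹ * (N ^ (-(x.s + x.c2))) ^ x.d * N ^ (x.d * (x.st 2 - x.s)) = 1
      rw [st2, ← Real.rpow_mul hN0.le, ← Real.rpow_mul hN0.le, ← Real.rpow_neg hN0.le, ← Real.rpow_add hN0, ← Real.rpow_add hN0]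
      have : -(-x.s * x.d) + -(x.s + x.c2) * x.d + x.d * (x.s + x.c2 - x.s) = 0 := by ring
      rw [this, Real.rpow_zero]
    w := h1.w
    lay0 := by
      have := h1.lay 0
      rw [st0] at this
      exact this
    lay2 := by
      have := h1.lay 2
      rw [st2] at this
      exact this
    sub := h1.sub
    lab := h1.lab
    lists := h1.lists
    var := by
      have := h3
      rw [hb] at this
      exact this
    fine := fun φ0 => h4.fine 2 Q φ0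
    com := by
      have := h5
      rw [hb] at this
      exact this
    Mf_mem := Finset.mem_singleton_self _
    r2_mem := hgrid.1
    a2_eq := rfl
    grid := hgrid.2.2
    sm_Lam := by
      show 1000 * (N ^ τ) ^ 6 ≤ N ^ (x.u / 2)
      exact g1.trans (hmono hκ2)
    sm_e := by
      show 1000 * (N ^ τ) ^ 6 * N ^ (-x.ee) ≤ N ^ (-(x.s + x.c2))
      refine (mul_le_mul_of_nonneg_right g1 (hpos _).le).trans (hp ?_)
      unfold K7wExp.ee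
      linarith [hx.c1]
    sm_ε := by
      show N ^ (-x.s - x.u) ≤ N ^ (-(x.s + x.c2))
      exact hmono (by linarith)
    sm_χ := by
      show 1000 * (N ^ τ) ^ 6 * N ^ (-Mχ) ≤ N ^ (-x.eh) * N ^ (-x.eg)
      rw [← hb]
      exact (mul_le_mul_of_nonneg_right g1 (hpos _).le).trans (hp (by linarith))
    sm_σ1 := by
      show 1000 * (N ^ τ) ^ 6 * (1 / 2 : ℝ) ^ m ≤ N ^ (-Mχ)
      refine (mul_le_mul g1 hm1 hσ0.le (hpos _).le).trans (hp ?_)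
      unfold K7wExp.Mst
      linarith
    sm_σ2 := by
      show 1000 * (N ^ τ) ^ 6 * (1 / 2 : ℝ) ^ m ≤ N ^ (-(x.s + x.c2)) * β 0
      have h6 : 1000 * (N ^ τ) ^ 6 * N ^ τ * (1 / 2 : ℝ) ^ m ≤ N ^ (-(x.s + x.c2)) * N ^ (-x.B 0) := by
        rw [← Real.rpow_add hN0]
        refine (mul_le_mul g3 hm1 hσ0.le (hpos _).le).trans (hp ?_)
        unfold K7wExp.Mst
        linarith
      have h7 : N ^ (-(x.s + x.c2)) * N ^ (-x.B 0) ≤ N ^ (-(x.s + x.c2)) * (N ^ τ * β 0) := mul_le_mul_of_nonneg_left hβlo (hpos _).le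
      have h8 : (1000 * (N ^ τ) ^ 6 * (1 / 2 : ℝ) ^ m) * N ^ τ ≤ (N ^ (-(x.s + x.c2)) * β 0) * N ^ τ := by
        calc (1000 * (N ^ τ) ^ 6 * (1 / 2 : ℝ) ^ m) * N ^ τ = 1000 * (N ^ τ) ^ 6 * N ^ τ * (1 / 2 : ℝ) ^ m := by ring
          _ ≤ N ^ (-(x.s + x.c2)) * (N ^ τ * β 0) := h6.trans h7
          _ = (N ^ (-(x.s + x.c2)) * β 0) * N ^ τ := by ring
      exact le_of_mul_le_mul_right h8 hK0
    sm_f := by
      show 1000 * (N ^ τ) ^ 6 * N ^ (-x.Mfi Mχ) ≤ N ^ (-(x.s + x.c2)) * (N ^ (-x.eh) * N ^ (-x.eg)) * (1 / 2 : ℝ) ^ m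
      have h6 : 2 * (1000 * (N ^ τ) ^ 6) * N ^ (-x.Mfi Mχ) ≤ N ^ (-(x.s + x.c2)) * (N ^ (-x.eh) * N ^ (-x.eg)) * N ^ (-x.Mst Mχ) := by
        rw [← Real.rpow_add hN0, ← Real.rpow_add hN0, ← Real.rpow_add hN0]
        refine (mul_le_mul_of_nonneg_right g2 (hpos _).le).trans (hp ?_)
        unfold K7wExp.Mfi
        linarith
      have h7 : N ^ (-(x.s + x.c2)) * (N ^ (-x.eh) * N ^ (-x.eg)) * N ^ (-x.Mst Mχ)
          ≤ N ^ (-(x.s + x.c2)) * (N ^ (-x.eh) * N ^ (-x.eg)) * (2 * (1 / 2 : ℝ) ^ m) :=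
        mul_le_mul_of_nonneg_left hm2 (mul_pos (hpos _) (mul_pos (hpos _) (hpos _))).le
      nlinarith
    sm_χ0 := by
      show 1000 * (N ^ τ) ^ 6 * W.χ0 ≤ N ^ (-Mχ) * (1 / 2 : ℝ) ^ m
      have h6 : 2 * (1000 * (N ^ τ) ^ 6) * W.χ0 ≤ N ^ (-Mχ) * N ^ (-x.Mst Mχ) := by
        rw [← Real.rpow_add hN0]
        refine (mul_le_mul g2 h2 hχ0.le (hpos _).le).trans (hp ?_)
        unfold K7wExp.M0e K7wExp.Mfi
        linarith
      have h7 : N ^ (-Mχ) * N ^ (-x.Mst Mχ) ≤ N ^ (-Mχ) * (2 * (1 / 2 : ℝ) ^ m) := mul_le_mul_of_nonneg_left hm2 (hpos _).le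
      nlinarith
    sm_u1 := by
      show 4 * W.χ0 ≤ N ^ (-(1 : ℝ))
      refine (mul_le_mul g4 h2 hχ0.le (hpos _).le).trans (hp ?_)
      unfold K7wExp.M0e K7wExp.Mfi K7wExp.Mst
      linarith }

/-- a power of `1/2` next to `y ∈ (0, 1)` -/
theorem k7we_half_pow {y : ℝ} (h0 : 0 < y) (h1 : y < 1) : ∃ m : ℕ, (1 / 2 : ℝ) ^ m ≤ y ∧ y ≤ 2 * (1 / 2 : ℝ) ^ m := by
  obtain ⟨n, hn1, hn2⟩ := exists_nat_pow_near_of_lt_one h0 h1.le (y := (1 / 2 : ℝ)) (by norm_num) (by norm_num)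
  refine ⟨n + 1, hn1.le, ?_⟩
  rw [pow_succ]
  linarith

/-- large `N` beats a constant -/
theorem k7we_large {C κ N : ℝ} (hC : 1 ≤ C) (hκ : 0 < κ) (hN : C ^ (1 / κ) ≤ N) : C ≤ N ^ κ := by
  have h0 : 0 < C := by linarith
  calc C = (C ^ (1 / κ)) ^ κ := by
        rw [← Real.rpow_mul h0.le, one_div, inv_mul_cancel₀ hκ.ne', Real.rpow_one]
    _ ≤ N ^ κ := Real.rpow_le_rpow (Real.rpow_nonneg h0.le _) hN hκ.le

/-- **STAGE E of P7.3** -/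
theorem k7we_stageE (hT : k7a_T71a) : K7wStageE := by
  intro x hx
  refine ⟨x.eh + x.eg + 1, fun Mχ hMχ => ⟨x.M0e Mχ, fun τ' hτ' => ?_⟩⟩
  have hs := hx.s0
  have hc := hx.c0
  have heh := hx.eh0
  have heg := hx.eg0
  have hMχ0 : 0 < Mχ := by linarith
  have hB0 : 0 < x.B 0 := lt_of_lt_of_le heg (hx.Bg 0)
  have hd1 : 0 < 1 - x.d := by linarith [hx.d1]
  have hκ : 0 < x.kap := by
    unfold K7wExp.kap
    refine lt_min one_pos (lt_min (by linarith [hx.u0]) ?_)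
    have := mul_pos hd1 hx.u0
    linarith
  have hMst : x.s + x.c2 < x.Mst Mχ := by
    unfold K7wExp.Mst
    linarith
  have hMst0 : 0 < x.Mst Mχ := by linarith
  have hMfi : 0 ≤ x.Mfi Mχ ∧ x.s + x.c2 ≤ x.Mfi Mχ := by
    unfold K7wExp.Mfi
    constructor <;> linarith
  have hM0e : x.Mfi Mχ ≤ x.M0e Mχ := by
    unfold K7wExp.M0e
    linarith
  obtain ⟨τT, hτT, N1T, hTT⟩ := hT (x.s + x.c2) (x.Mst Mχ) x.d (x.s * x.d + 1) x.S 1 (τ' / 2) (by linarith) hMst hx.d1 hx.S0 one_pos (by linarith)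
  obtain ⟨τ, hτdef⟩ : ∃ τ : ℝ, τ = min (x.kap / 14) (τT / 26) := ⟨_, rfl⟩
  have hτ : 0 < τ := by
    rw [hτdef]
    exact lt_min (by linarith) (by linarith)
  have hτ1 : 7 * τ ≤ x.kap / 2 := by
    have : τ ≤ x.kap / 14 := hτdef ▸ min_le_left _ _
    linarith
  have hτ2 : 13 * τ ≤ τT / 2 := by
    have : τ ≤ τT / 26 := hτdef ▸ min_le_right _ _
    linarith
  refine ⟨τ, max (max 2 N1T) (max ((2000 : ℝ) ^ (1 / (x.kap / 2))) ((2 * 10 ^ 8 : ℝ) ^ (1 / (τT / 2)))), {x.Mfi Mχ}, k7weGrid τ (x.s + x.c2), hτ, ?_, ?_, ?_⟩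
  · intro M hM
    rw [Finset.mem_singleton] at hM
    rw [hM]
    exact ⟨hMfi.1, hM0e⟩
  · intro r hr
    obtain ⟨h1, h2⟩ := (k7we_grid (N := 2) (by norm_num) hτ (by linarith : 0 ≤ x.s + x.c2)).2.1 r hr
    exact ⟨h1, by linarith [hMfi.2]⟩
  intro N hN W P β E Q γ0 γ1 γ2 C2 E4 h1 h2 h3 h4 h5
  have hN2 : 2 ≤ N := (le_max_left _ _).trans ((le_max_left _ _).trans hN)
  have hNT : N1T ≤ N := (le_max_right _ _).trans ((le_max_left _ _).trans hN)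
  have hNa : (2000 : ℝ) ≤ N ^ (x.kap / 2) := k7we_large (by norm_num) (by linarith) ((le_max_left _ _).trans ((le_max_right _ _).trans hN))
  have hNb : (2 * 10 ^ 8 : ℝ) ≤ N ^ (τT / 2) := k7we_large (by norm_num) (by linarith) ((le_max_right _ _).trans ((le_max_right _ _).trans hN))
  have hN1 : 1 < N := by linarith
  have hN0 : 0 < N := by linarith
  have hpw : ∀ (j : ℕ), (N ^ τ) ^ j = N ^ ((j : ℝ) * τ) := fun j => by
    rw [← Real.rpow_natCast, ← Real.rpow_mul hN0.le, mul_comm]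
  have hG : 2000 * (N ^ τ) ^ 7 ≤ N ^ x.kap := by
    have e : N ^ x.kap = N ^ (x.kap / 2) * N ^ (x.kap / 2) := by
      rw [← Real.rpow_add hN0]
      congr 1
      ring
    rw [e, hpw]
    refine mul_le_mul hNa (Real.rpow_le_rpow_of_exponent_le hN1.le (by push_cast; linarith)) (Real.rpow_nonneg hN0.le _) (Real.rpow_nonneg hN0.le _)
  have hK' : 2 * 10 ^ 8 * (N ^ τ) ^ 13 ≤ N ^ τT := by
    have e : N ^ τT = N ^ (τT / 2) * N ^ (τT / 2) := by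
      rw [← Real.rpow_add hN0]
      congr 1
      ring
    rw [e, hpw]
    refine mul_le_mul hNb (Real.rpow_le_rpow_of_exponent_le hN1.le (by push_cast; linarith)) (Real.rpow_nonneg hN0.le _) (Real.rpow_nonneg hN0.le _)
  obtain ⟨m, hm1, hm2⟩ := k7we_half_pow (y := N ^ (-x.Mst Mχ)) (Real.rpow_pos_of_pos hN0 _) (Real.rpow_lt_one_of_one_lt_of_neg hN1 (by linarith))
  have hX := k7we_mk_ok hx hMχ hN1 hτ hG hm1 hm2 h1 h2 h3 h4 h5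
  obtain ⟨X, hXdef⟩ : ∃ X : K7weDat, X = k7weMk x Mχ N τ m W P β E Q γ0 γ1 γ2 C2 E4 := ⟨_, rfl⟩
  obtain ⟨E5, hmE, hsE, hA, hC, hS, hAn⟩ := k7we_build hX (K' := N ^ τT) hK'
  have ea : N ^ (-x.s - x.c2) = N ^ (-(x.s + x.c2)) := by rw [neg_add']
  have ec : (k7weMk x Mχ N τ m W P β E Q γ0 γ1 γ2 C2 E4).c = N ^ (x.s * x.d) := by
    show ((N ^ (-x.s)) ^ x.d)⁻¹ = _
    rw [← Real.rpow_mul hN0.le, ← Real.rpow_neg hN0.le]
    congr 1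
    ring
  have hsd : 0 ≤ x.s * x.d := mul_nonneg hs.le hx.d0
  have h2T : (2 : ℝ) ≤ N ^ τT := by
    have : (2 : ℝ) ≤ N ^ (τT / 2) := by linarith
    exact this.trans (Real.rpow_le_rpow_of_exponent_le hN1.le (by linarith))
  obtain ⟨βT, hβ1, hβ2, hOut⟩ := hTT N hNT W.L ((k7weMk x Mχ N τ m W P β E Q γ0 γ1 γ2 C2 E4).D E5) ((1 / 2 : ℝ) ^ m)
    (k7weMk x Mχ N τ m W P β E Q γ0 γ1 γ2 C2 E4).c m rfl
    (by
      have hpos : 0 < N ^ τT := Real.rpow_pos_of_pos hN0 _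
      rw [Real.rpow_sub hN0, div_le_iff₀ hpos]
      have h0 : 0 ≤ (1 / 2 : ℝ) ^ m := by positivity
      nlinarith)
    (hm1.trans (Real.rpow_le_rpow_of_exponent_le hN1.le (by linarith)))
    (by
      rw [ec]
      exact Real.rpow_le_rpow_of_exponent_le hN1.le (by linarith))
    (by
      rw [ec]
      exact Real.rpow_le_rpow_of_exponent_le hN1.le (by linarith))
    hA hC hS hAn
  have hKT : 1 ≤ N ^ (τ' / 2) := Real.one_le_rpow hN1.le (by linarith)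
  obtain ⟨F, Cn, hF, hCm, hCs, hfit, hmass⟩ := k7we_fin hX hmE hsE (KT := N ^ (τ' / 2)) (βT := βT) hKT hβ1 hOut
  refine ⟨F, Cn, hF, hCm, hCs, fun p hp t ht => (hfit p hp t ht).trans ?_, ?_⟩
  · rw [ea]
    refine mul_le_mul_of_nonneg_right (Real.rpow_le_rpow_of_exponent_le hN1.le (by linarith)) (Real.rpow_nonneg hN0.le _)
  · have e1 : (k7weMk x Mχ N τ m W P β E Q γ0 γ1 γ2 C2 E4).c * (N ^ (-(x.s + x.c2))) ^ x.d = N ^ (-(x.d * x.c2)) := by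
      rw [ec, ← Real.rpow_mul hN0.le, ← Real.rpow_add hN0]
      congr 1
      ring
    have e2 : (N ^ (τ' / 2)) ^ 2 = N ^ τ' := by
      rw [← Real.rpow_natCast, ← Real.rpow_mul hN0.le]
      congr 1
      push_cast
      ring
    have h6 : ENNReal.ofReal (W.q * ((k7weMk x Mχ N τ m W P β E Q γ0 γ1 γ2 C2 E4).c * (N ^ (-(x.s + x.c2))) ^ x.d)) * W.νQ Q
        ≤ ENNReal.ofReal ((N ^ (τ' / 2)) ^ 2) * W.prior Cn := hmass
    rwa [e1, e2] at h6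

end

end Claimed.Agent.R252
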